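-- KEEP
import Mathlib

/-!
# Row 252 (Kakeya in R^4), Sec. 7 second half (07 l.927-1553), ONE-SCALE CORES, file A: interpolation and Heisenberg boxes      (architect helper95; prefix `k7b_`)

PAPER-FREE.  Convention of the row: one scale, explicit `K ≥ 1` in the hypotheses, `C K^C` in the conclusions.
Coordinates: `z = (t, Z)`, `J z = (-Z, t)`, `V₁ = (1, v)`, so `J z · V₁ = -Z + t v`.
* `k7b_row_interp`     a row `T = (T₁, T₂)` is determined by its evaluations `T · (1, v)` at two separated velocities          (07 l.981-985, l.1020-1024)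
* `k7b_quad_interp`    a quadratic in `v` is determined by three separated values                                         (07 l.1173-1179)
* `k7bBox`             the centred horizontal box `H × H × H²`  (a06:centered-horizontal-box)
* `k7b_box_tilt`       change of the row of a tilted box;  `k7b_box_engulf` : engulfing;  `k7b_ref_motion` : the reference motion stays on the centred plane   (07 l.1050-1062, l.1478-1490)
* `k7b_affine_slopes`  slopes of an affine function bounded on a centred box;  `k7b_affine_slopes_at` : at another location of the enlarged box   (07 l.1385-1395)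
* `k7b_telescope_term` `a_{s'} / h_{s''}^p ≤ N^gap (1 + a_s / h_s^p)`                                                    (07 l.1397-1406)
* `k7b_absorb`         `M ≤ A + θ M`, `θ ≤ 1/2` ⟹ `M ≤ 2 A`                                                              (07 l.1222-1227)
-/

set_option autoImplicit false

namespace Claimed.Agent.R252

/-- two-velocity interpolation of a row -/
theorem k7b_row_interp {K E d1 d2 v1 v2 : ℝ} (hK : 1 ≤ K) (hv1 : |v1| ≤ K) (hsep : 1 / K ≤ |v1 - v2|)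
    (h1 : |d1 + d2 * v1| ≤ E) (h2 : |d1 + d2 * v2| ≤ E) :
    |d2| ≤ 2 * K * E ∧ |d1| ≤ (1 + 2 * K ^ 2) * E := by
  have hK0 : 0 < K := by linarith
  have hE : 0 ≤ E := (abs_nonneg _).trans h1
  have e1 : d2 * (v1 - v2) = (d1 + d2 * v1) - (d1 + d2 * v2) := by ring
  have e2 : |d2| * |v1 - v2| ≤ 2 * E := by
    rw [← abs_mul, e1]
    exact (abs_sub _ _).trans (by linarith)
  have e3 : |d2| * (1 / K) ≤ 2 * E := (mul_le_mul_of_nonneg_left hsep (abs_nonneg _)).trans e2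
  have e4 : |d2| ≤ 2 * K * E := by
    rw [mul_one_div, div_le_iff₀ hK0] at e3
    linarith
  refine ⟨e4, ?_⟩
  have e5 : d1 = (d1 + d2 * v1) - d2 * v1 := by ring
  have e6 : |d1| ≤ |d1 + d2 * v1| + |d2| * |v1| := by
    conv_lhs => rw [e5]
    rw [← abs_mul]
    exact abs_sub _ _
  have e7 : |d2| * |v1| ≤ 2 * K * E * K := mul_le_mul e4 hv1 (abs_nonneg _) (by positivity)
  nlinarith

/-- three-velocity interpolation of a quadratic -/
theorem k7b_quad_interp {K A a b c v1 v2 v3 : ℝ} (hK : 1 ≤ K) (hv1 : |v1| ≤ K) (hv2 : |v2| ≤ K)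
    (h12 : 1 / K ≤ |v1 - v2|) (h13 : 1 / K ≤ |v1 - v3|) (h23 : 1 / K ≤ |v2 - v3|)
    (q1 : |a + b * v1 + c * v1 ^ 2| ≤ A) (q2 : |a + b * v2 + c * v2 ^ 2| ≤ A)
    (q3 : |a + b * v3 + c * v3 ^ 2| ≤ A) :
    |c| ≤ 4 * K ^ 2 * A ∧ |b| ≤ 10 * K ^ 3 * A ∧ |a| ≤ 15 * K ^ 4 * A := by
  have hK0 : 0 < K := by linarith
  have hA : 0 ≤ A := (abs_nonneg _).trans q1
  -- first divided differences
  have key : ∀ x y u w : ℝ, 1 / K ≤ |x - y| → |u| ≤ w → 0 ≤ w → ∀ D : ℝ, D * (x - y) = u → |D| ≤ K * w := by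
    intro x y u w hs hu hw D hD
    have e2 : |D| * |x - y| ≤ w := by rw [← abs_mul, hD]; exact hu
    have e3 : |D| * (1 / K) ≤ w := (mul_le_mul_of_nonneg_left hs (abs_nonneg _)).trans e2
    rw [mul_one_div, div_le_iff₀ hK0] at e3
    linarith
  have d12 : |b + c * (v1 + v2)| ≤ K * (2 * A) :=
    key v1 v2 ((a + b * v1 + c * v1 ^ 2) - (a + b * v2 + c * v2 ^ 2)) (2 * A) h12
      ((abs_sub _ _).trans (by linarith)) (by linarith) _ (by ring)
  have d13 : |b + c * (v1 + v3)| ≤ K * (2 * A) :=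
    key v1 v3 ((a + b * v1 + c * v1 ^ 2) - (a + b * v3 + c * v3 ^ 2)) (2 * A) h13
      ((abs_sub _ _).trans (by linarith)) (by linarith) _ (by ring)
  have dc : |c| ≤ K * (4 * K * A) :=
    key v2 v3 ((b + c * (v1 + v2)) - (b + c * (v1 + v3))) (4 * K * A) h23
      ((abs_sub _ _).trans (by linarith)) (by positivity) _ (by ring)
  have hc : |c| ≤ 4 * K ^ 2 * A := by nlinarith
  have hv12 : |v1 + v2| ≤ 2 * K := (abs_add_le _ _).trans (by linarith)
  have hb : |b| ≤ 10 * K ^ 3 * A := by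
    have e5 : b = (b + c * (v1 + v2)) - c * (v1 + v2) := by ring
    have e6 : |b| ≤ |b + c * (v1 + v2)| + |c| * |v1 + v2| := by
      conv_lhs => rw [e5]
      rw [← abs_mul]
      exact abs_sub _ _
    have e7 : |c| * |v1 + v2| ≤ 4 * K ^ 2 * A * (2 * K) := mul_le_mul hc hv12 (abs_nonneg _) (by positivity)
    have e8 : K * (2 * A) ≤ 2 * K ^ 3 * A := by
      have : K ≤ K ^ 3 := by nlinarith [sq_nonneg K, mul_pos hK0 hK0]
      nlinarith
    nlinarith
  refine ⟨hc, hb, ?_⟩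
  have e5 : a = (a + b * v1 + c * v1 ^ 2) - b * v1 - c * v1 ^ 2 := by ring
  have e6 : |a| ≤ |a + b * v1 + c * v1 ^ 2| + |b| * |v1| + |c| * |v1| ^ 2 := by
    conv_lhs => rw [e5]
    have := abs_sub (a + b * v1 + c * v1 ^ 2 - b * v1) (c * v1 ^ 2)
    have h2 := abs_sub (a + b * v1 + c * v1 ^ 2) (b * v1)
    rw [abs_mul, abs_pow] at this
    rw [abs_mul] at h2
    linarith
  have e7 : |b| * |v1| ≤ 10 * K ^ 3 * A * K := mul_le_mul hb hv1 (abs_nonneg _) (by positivity)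
  have e8 : |v1| ^ 2 ≤ K ^ 2 := pow_le_pow_left₀ (abs_nonneg _) hv1 2
  have e9 : |c| * |v1| ^ 2 ≤ 4 * K ^ 2 * A * K ^ 2 := mul_le_mul hc e8 (by positivity) (by positivity)
  have e10 : A ≤ K ^ 4 * A := by
    have : 1 ≤ K ^ 4 := one_le_pow₀ hK
    nlinarith
  nlinarith

/-- the centred horizontal box of scale `H` and enlargement `ρ` about `(tc, Zc, Yc)` : `|z - z_c| ≤ ρ H`, `|Y - Y_c - J z_c · (z - z_c)| ≤ ρ H²` -/
def k7bBox (tc Zc Yc H ρ : ℝ) : Set (ℝ × ℝ × ℝ) :=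
  {u | |u.1 - tc| ≤ ρ * H ∧ |u.2.1 - Zc| ≤ ρ * H ∧
    |u.2.2 - Yc - (-Zc * (u.1 - tc) + tc * (u.2.1 - Zc))| ≤ ρ * H ^ 2}

/-- a tilted box with an arbitrary row `(A₁, A₂)` -/
def k7bTilt (tc Zc Yc A1 A2 Hh Wd : ℝ) : Set (ℝ × ℝ × ℝ) :=
  {u | |u.1 - tc| ≤ Hh ∧ |u.2.1 - Zc| ≤ Hh ∧ |u.2.2 - Yc - (A1 * (u.1 - tc) + A2 * (u.2.1 - Zc))| ≤ Wd}

theorem k7b_core_eqns_cite : True := by
  have := @k7bBox.eq_1
  have := @k7bTilt.eq_1
  trivial

/-- change of the row of a tilted box -/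
theorem k7b_box_tilt {tc Zc Yc A1 A2 A1' A2' Hh Wd δ : ℝ} (h1 : |A1 - A1'| ≤ δ) (h2 : |A2 - A2'| ≤ δ) :
    k7bTilt tc Zc Yc A1 A2 Hh Wd ⊆ k7bTilt tc Zc Yc A1' A2' Hh (Wd + 2 * δ * Hh) := by
  rintro ⟨t, Z, Y⟩ ⟨a, b, c⟩
  refine ⟨a, b, ?_⟩
  simp only at a b c ⊢
  have hδ : 0 ≤ δ := (abs_nonneg _).trans h1
  have e : Y - Yc - (A1' * (t - tc) + A2' * (Z - Zc))
      = (Y - Yc - (A1 * (t - tc) + A2 * (Z - Zc))) + ((A1 - A1') * (t - tc) + (A2 - A2') * (Z - Zc)) := by ring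
  rw [e]
  have m1 : |(A1 - A1') * (t - tc)| ≤ δ * Hh := by
    rw [abs_mul]; exact mul_le_mul h1 a (abs_nonneg _) hδ
  have m2 : |(A2 - A2') * (Z - Zc)| ≤ δ * Hh := by
    rw [abs_mul]; exact mul_le_mul h2 b (abs_nonneg _) hδ
  calc _ ≤ |Y - Yc - (A1 * (t - tc) + A2 * (Z - Zc))| + |(A1 - A1') * (t - tc) + (A2 - A2') * (Z - Zc)| :=
        abs_add_le _ _
    _ ≤ Wd + (|(A1 - A1') * (t - tc)| + |(A2 - A2') * (Z - Zc)|) := add_le_add c (abs_add_le _ _)
    _ ≤ Wd + 2 * δ * Hh := by linarith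

/-- the centred box is the tilted box with row `J z_c` -/
theorem k7b_box_eq_tilt (tc Zc Yc H ρ : ℝ) : k7bBox tc Zc Yc H ρ = k7bTilt tc Zc Yc (-Zc) tc (ρ * H) (ρ * H ^ 2) := rfl

/-- engulfing of centred horizontal boxes -/
theorem k7b_box_engulf {tc Zc Yc t' Z' Y' H ρ ρ' : ℝ} (hH : 0 ≤ H) (hρ : 0 ≤ ρ) (hρ' : 0 ≤ ρ')
    (hc : (t', Z', Y') ∈ k7bBox tc Zc Yc H ρ) :
    k7bBox t' Z' Y' H ρ' ⊆ k7bBox tc Zc Yc H (ρ + ρ' + 2 * ρ * ρ') := by
  obtain ⟨c1, c2, c3⟩ := hc
  rintro ⟨t, Z, Y⟩ ⟨a, b, c⟩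
  simp only at c1 c2 c3 a b c
  have hp : 0 ≤ 2 * ρ * ρ' * H := by positivity
  refine ⟨?_, ?_, ?_⟩
  · show |t - tc| ≤ _
    have e : t - tc = (t - t') + (t' - tc) := by ring
    rw [e]
    refine (abs_add_le _ _).trans ?_
    nlinarith
  · show |Z - Zc| ≤ _
    have e : Z - Zc = (Z - Z') + (Z' - Zc) := by ring
    rw [e]
    refine (abs_add_le _ _).trans ?_
    nlinarith
  · show |Y - Yc - (-Zc * (t - tc) + tc * (Z - Zc))| ≤ _
    have e : Y - Yc - (-Zc * (t - tc) + tc * (Z - Zc))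
        = (Y - Y' - (-Z' * (t - t') + t' * (Z - Z'))) + (Y' - Yc - (-Zc * (t' - tc) + tc * (Z' - Zc)))
          + (-(Z' - Zc) * (t - t') + (t' - tc) * (Z - Z')) := by ring
    rw [e]
    have m1 : |-(Z' - Zc) * (t - t')| ≤ ρ * H * (ρ' * H) := by
      rw [abs_mul, abs_neg]; exact mul_le_mul c2 a (abs_nonneg _) (by positivity)
    have m2 : |(t' - tc) * (Z - Z')| ≤ ρ * H * (ρ' * H) := by
      rw [abs_mul]; exact mul_le_mul c1 b (abs_nonneg _) (by positivity)
    have := abs_add_le ((Y - Y' - (-Z' * (t - t') + t' * (Z - Z'))) + (Y' - Yc - (-Zc * (t' - tc) + tc * (Z' - Zc))))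
      (-(Z' - Zc) * (t - t') + (t' - tc) * (Z - Z'))
    have h2 := abs_add_le (Y - Y' - (-Z' * (t - t') + t' * (Z - Z'))) (Y' - Yc - (-Zc * (t' - tc) + tc * (Z' - Zc)))
    have h3 := abs_add_le (-(Z' - Zc) * (t - t')) ((t' - tc) * (Z - Z'))
    nlinarith

/-- the reference motion `z_c(t) = (t, p + t v)`, `Y_c(t) = q - t p` stays on the centred plane of each of its points -/
theorem k7b_ref_motion (p q v t ts : ℝ) :
    (q - t * p) - (q - ts * p) - (-(p + ts * v) * (t - ts) + ts * ((p + t * v) - (p + ts * v))) = 0 := by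
  ring

/-- the reference motion stays in the centred box of its midpoint -/
theorem k7b_ref_in_box {p q v t ts H ρ : ℝ} (hρ : 0 ≤ ρ) (ht : |t - ts| ≤ ρ * H) (hv : |v| ≤ 1) :
    (t, p + t * v, q - t * p) ∈ k7bBox ts (p + ts * v) (q - ts * p) H ρ := by
  refine ⟨ht, ?_, ?_⟩
  · show |p + t * v - (p + ts * v)| ≤ _
    have e : p + t * v - (p + ts * v) = (t - ts) * v := by ring
    rw [e, abs_mul]
    calc |t - ts| * |v| ≤ |t - ts| * 1 := mul_le_mul_of_nonneg_left hv (abs_nonneg _)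
      _ ≤ ρ * H := by linarith
  · show |(q - t * p) - (q - ts * p) - (-(p + ts * v) * (t - ts) + ts * ((p + t * v) - (p + ts * v)))| ≤ _
    rw [k7b_ref_motion, abs_zero]
    positivity

/-- slopes of an affine function `L = c + α₁ t + α₂ Z + γ Y` bounded by `A` on a centred box -/
theorem k7b_affine_slopes {tc Zc Yc H A c α1 α2 γ : ℝ} (hH : 0 < H)
    (hL : ∀ u ∈ k7bBox tc Zc Yc H 1, |c + α1 * u.1 + α2 * u.2.1 + γ * u.2.2| ≤ A) :
    |α1 + γ * (-Zc)| ≤ A / H ∧ |α2 + γ * tc| ≤ A / H ∧ |γ| ≤ A / H ^ 2 := by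
  have hH2 : 0 < H ^ 2 := by positivity
  have mem : ∀ a b e : ℝ, |a| ≤ 1 → |b| ≤ 1 → |e| ≤ 1 →
      (tc + a * H, Zc + b * H, Yc + (-Zc * (a * H) + tc * (b * H)) + e * H ^ 2) ∈ k7bBox tc Zc Yc H 1 := by
    intro a b e ha hb he
    refine ⟨?_, ?_, ?_⟩
    · show |tc + a * H - tc| ≤ 1 * H
      rw [add_sub_cancel_left, abs_mul, abs_of_pos hH]
      exact mul_le_mul_of_nonneg_right ha hH.le
    · show |Zc + b * H - Zc| ≤ 1 * H
      rw [add_sub_cancel_left, abs_mul, abs_of_pos hH]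
      exact mul_le_mul_of_nonneg_right hb hH.le
    · show |Yc + (-Zc * (a * H) + tc * (b * H)) + e * H ^ 2 - Yc
        - (-Zc * (tc + a * H - tc) + tc * (Zc + b * H - Zc))| ≤ 1 * H ^ 2
      have e1 : Yc + (-Zc * (a * H) + tc * (b * H)) + e * H ^ 2 - Yc
        - (-Zc * (tc + a * H - tc) + tc * (Zc + b * H - Zc)) = e * H ^ 2 := by ring
      rw [e1, abs_mul, abs_of_pos hH2]
      exact mul_le_mul_of_nonneg_right he hH2.le
  have o1 : |(1 : ℝ)| ≤ 1 := by simp
  have o2 : |(-1 : ℝ)| ≤ 1 := by simp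
  have o0 : |(0 : ℝ)| ≤ 1 := by simp
  have diff : ∀ x y D : ℝ, |x| ≤ A → |y| ≤ A → x - y = 2 * D → |D| ≤ A := by
    intro x y D hx hy hD
    have : |2 * D| ≤ 2 * A := by rw [← hD]; exact (abs_sub _ _).trans (by linarith)
    rw [abs_mul] at this
    norm_num at this
    linarith
  refine ⟨?_, ?_, ?_⟩
  · rw [le_div_iff₀ hH, ← abs_of_pos hH, ← abs_mul]
    exact diff _ _ _ (hL _ (mem 1 0 0 o1 o0 o0)) (hL _ (mem (-1) 0 0 o2 o0 o0)) (by simp only; ring)
  · rw [le_div_iff₀ hH, ← abs_of_pos hH, ← abs_mul]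
    exact diff _ _ _ (hL _ (mem 0 1 0 o0 o1 o0)) (hL _ (mem 0 (-1) 0 o0 o2 o0)) (by simp only; ring)
  · rw [le_div_iff₀ hH2, ← abs_of_pos hH2, ← abs_mul]
    exact diff _ _ _ (hL _ (mem 0 0 1 o0 o0 o1)) (hL _ (mem 0 0 (-1) o0 o0 o2)) (by simp only; ring)

/-- the horizontal slope at another location within `ρ H` of the centre -/
theorem k7b_affine_slopes_at {tc Zc H A α1 α2 γ t Z ρ : ℝ} (hH : 0 < H)
    (h1 : |α1 + γ * (-Zc)| ≤ A / H) (h2 : |α2 + γ * tc| ≤ A / H) (h3 : |γ| ≤ A / H ^ 2)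
    (ht : |t - tc| ≤ ρ * H) (hZ : |Z - Zc| ≤ ρ * H) :
    |α1 + γ * (-Z)| ≤ (1 + ρ) * (A / H) ∧ |α2 + γ * t| ≤ (1 + ρ) * (A / H) := by
  have hA : 0 ≤ A / H ^ 2 := (abs_nonneg _).trans h3
  have key : A / H ^ 2 * (ρ * H) = ρ * (A / H) := by
    field_simp
  constructor
  · have e : α1 + γ * (-Z) = (α1 + γ * (-Zc)) + γ * (-(Z - Zc)) := by ring
    rw [e]
    have m : |γ * (-(Z - Zc))| ≤ A / H ^ 2 * (ρ * H) := by
      rw [abs_mul, abs_neg]; exact mul_le_mul h3 hZ (abs_nonneg _) hA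
    have := abs_add_le (α1 + γ * (-Zc)) (γ * (-(Z - Zc)))
    rw [key] at m
    linarith
  · have e : α2 + γ * t = (α2 + γ * tc) + γ * (t - tc) := by ring
    rw [e]
    have m : |γ * (t - tc)| ≤ A / H ^ 2 * (ρ * H) := by
      rw [abs_mul]; exact mul_le_mul h3 ht (abs_nonneg _) hA
    have := abs_add_le (α2 + γ * tc) (γ * (t - tc))
    rw [key] at m
    linarith

/-- one term of the telescoping sum: `a_σ = N^(-σ)`, `h_σ = N^(-kσ)` -/
theorem k7b_telescope_term {N k s si sj gap p : ℝ} (hN : 1 ≤ N) (h0 : 0 ≤ si) (h1 : si ≤ s) (hg : si - sj ≤ gap) :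
    N ^ (-sj) / (N ^ (-(k * si))) ^ p ≤ N ^ gap * (1 + N ^ (-s) / (N ^ (-(k * s))) ^ p) := by
  have hN0 : 0 < N := by linarith
  have e1 : ∀ a b : ℝ, N ^ (-a) / (N ^ (-(k * b))) ^ p = N ^ (-a + p * k * b) := by
    intro a b
    rw [← Real.rpow_mul hN0.le, ← Real.rpow_sub hN0]
    congr 1
    ring
  rw [e1, e1]
  have e2 : -sj + p * k * si = (si - sj) + (p * k - 1) * si := by ring
  rw [e2, Real.rpow_add hN0]
  have e3 : N ^ (si - sj) ≤ N ^ gap := Real.rpow_le_rpow_of_exponent_le hN hg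
  have e4 : N ^ ((p * k - 1) * si) ≤ 1 + N ^ (-s + p * k * s) := by
    rcases le_total (p * k - 1) 0 with hneg | hpos
    · have : N ^ ((p * k - 1) * si) ≤ N ^ (0 : ℝ) :=
        Real.rpow_le_rpow_of_exponent_le hN (mul_nonpos_of_nonpos_of_nonneg hneg h0)
      rw [Real.rpow_zero] at this
      have h2 : 0 < N ^ (-s + p * k * s) := Real.rpow_pos_of_pos hN0 _
      linarith
    · have : N ^ ((p * k - 1) * si) ≤ N ^ (-s + p * k * s) := by
        refine Real.rpow_le_rpow_of_exponent_le hN ?_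
        nlinarith
      linarith
  exact mul_le_mul e3 e4 (Real.rpow_pos_of_pos hN0 _).le (Real.rpow_pos_of_pos hN0 _).le

/-- absorption -/
theorem k7b_absorb {M A θ : ℝ} (h : M ≤ A + θ * M) (hθ : θ ≤ 1 / 2) (hM : 0 ≤ M) : M ≤ 2 * A := by
  nlinarith

end Claimed.Agent.R252

/-!
# Row 252 (Kakeya in R^4), Sec. 7 second half (07 l.927-1553), ONE-SCALE CORES, file B: palettes, witnesses, packing      (architect helper95; prefix `k7b_`)

PAPER-FREE finite sums / outer measures.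
* `k7b_support_mass`   a probability dominated by `K π` has a support of palette mass `≥ 1/K`                                     (07 l.974-976)
* `k7b_sep_pairs`      separated pairs of palette product weight `≥ m (m - κ)`     (`κ` = palette mass of a `ρ`-interval)             (07 l.976-978)
* `k7b_exists_sep3`    three pairwise separated witnesses                                                                          (07 l.1149-1152)
* `k7b_options_count`  options with witness weight `≥ m`, each witness compatible with `≤ M` options : `#options · m ≤ M · W`         (07 l.981-988, l.1497-1500, l.1546-1551)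
* `k7b_packing`        the same for disjoint measurable witnesses under a measure
* `k7b_heavy_bins`     exhaustion: if every residual of mass `≥ θ` made of whole bins contains a bin of mass `≥ m₀`, the bins of mass `≥ m₀` carry all but `θ`; their number is `≤ M / m₀`      (07 l.1519-1530)
* `k7b_light_loss`     summable deletion: entries below `ε R_e / n` with `≤ n` entries per `e` lose `≤ ε Σ R_e`                          (07 l.1366-1376, a06:summable-pruning)
* `k7b_affine_extrap`  an affine function bounded on a time set of relative measure `≥ 1/K` is bounded on the whole interval            (07 l.1231-1234, l.1274-1277)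
* `k7b_time_extent`    a time set within `δ` of a point has measure `≤ 2δ`                                                          (07 l.1031-1036)
-/

set_option autoImplicit false

namespace Claimed.Agent.R252

open scoped BigOperators ENNReal
open Classical
open MeasureTheory

/-- a probability dominated by `K π` has a support of palette mass `≥ 1/K` -/
theorem k7b_support_mass {ι : Type*} (A : Finset ι) (P π : ι → ℝ) {K : ℝ} (hK : 0 < K) (hP : ∑ i ∈ A, P i = 1)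
    (hdom : ∀ i ∈ A, P i ≤ K * π i) : 1 / K ≤ ∑ i ∈ A, π i := by
  rw [div_le_iff₀ hK, ← hP, Finset.sum_mul]
  exact Finset.sum_le_sum fun i hi => by linarith [hdom i hi]

/-- separated pairs carry palette product weight `≥ m (m - κ)` -/
theorem k7b_sep_pairs {ι : Type*} (A : Finset ι) (π c : ι → ℝ) (hπ : ∀ i ∈ A, 0 ≤ π i) {m κ ρ : ℝ}
    (hm : m ≤ ∑ i ∈ A, π i) (hκ0 : 0 ≤ κ) (hκm : κ ≤ m)
    (hcap : ∀ x : ℝ, ∑ i ∈ A.filter (fun i => |c i - x| < ρ), π i ≤ κ) :
    m * (m - κ) ≤ ∑ p ∈ (A ×ˢ A).filter (fun p => ρ ≤ |c p.2 - c p.1|), π p.1 * π p.2 := by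
  classical
  set S := ∑ i ∈ A, π i with hS
  have inner : ∀ i ∈ A, S - κ ≤ ∑ j ∈ A.filter (fun j => ρ ≤ |c j - c i|), π j := by
    intro i _
    have h1 := Finset.sum_filter_add_sum_filter_not A (fun j => ρ ≤ |c j - c i|) π
    have h2 : ∑ j ∈ A.filter (fun j => ¬ ρ ≤ |c j - c i|), π j ≤ κ := by
      refine le_trans (le_of_eq ?_) (hcap (c i))
      refine Finset.sum_congr ?_ fun _ _ => rfl
      ext j
      simp only [Finset.mem_filter, not_le]
    linarith
  have e : ∑ p ∈ (A ×ˢ A).filter (fun p => ρ ≤ |c p.2 - c p.1|), π p.1 * π p.2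
      = ∑ i ∈ A, π i * ∑ j ∈ A.filter (fun j => ρ ≤ |c j - c i|), π j := by
    rw [Finset.sum_filter, Finset.sum_product]
    refine Finset.sum_congr rfl fun i _ => ?_
    rw [Finset.mul_sum, Finset.sum_filter]
  rw [e]
  have h3 : S * (S - κ) ≤ ∑ i ∈ A, π i * ∑ j ∈ A.filter (fun j => ρ ≤ |c j - c i|), π j := by
    rw [hS, Finset.sum_mul]
    exact Finset.sum_le_sum fun i hi => mul_le_mul_of_nonneg_left (inner i hi) (hπ i hi)
  refine le_trans ?_ h3
  nlinarith

/-- three pairwise separated witnesses -/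
theorem k7b_exists_sep3 {ι : Type*} (A : Finset ι) (π c : ι → ℝ) (hπ : ∀ i ∈ A, 0 ≤ π i) {κ ρ : ℝ}
    (hm : 2 * κ < ∑ i ∈ A, π i) (hκ0 : 0 ≤ κ)
    (hcap : ∀ x : ℝ, ∑ i ∈ A.filter (fun i => |c i - x| < ρ), π i ≤ κ) :
    ∃ i ∈ A, ∃ j ∈ A, ∃ l ∈ A, ρ ≤ |c j - c i| ∧ ρ ≤ |c l - c i| ∧ ρ ≤ |c l - c j| := by
  classical
  have hne : A.Nonempty := by
    by_contra h
    rw [Finset.not_nonempty_iff_eq_empty] at h
    rw [h] at hm
    simp at hm
    linarith
  obtain ⟨i, hi⟩ := hne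
  -- a second point
  have h2 : ∃ j ∈ A, ρ ≤ |c j - c i| := by
    by_contra h
    push Not at h
    have : A.filter (fun j => |c j - c i| < ρ) = A := Finset.filter_true_of_mem h
    have h3 := hcap (c i)
    rw [this] at h3
    linarith
  obtain ⟨j, hj, hij⟩ := h2
  have h3 : ∃ l ∈ A, ρ ≤ |c l - c i| ∧ ρ ≤ |c l - c j| := by
    by_contra h
    push Not at h
    have hsub : A ⊆ A.filter (fun l => |c l - c i| < ρ) ∪ A.filter (fun l => |c l - c j| < ρ) := by
      intro l hl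
      rw [Finset.mem_union, Finset.mem_filter, Finset.mem_filter]
      by_cases h4 : ρ ≤ |c l - c i|
      · exact Or.inr ⟨hl, h l hl h4⟩
      · exact Or.inl ⟨hl, not_le.1 h4⟩
    have hnn : ∀ l ∈ A.filter (fun l => |c l - c i| < ρ) ∪ A.filter (fun l => |c l - c j| < ρ), 0 ≤ π l := by
      intro l hl
      rw [Finset.mem_union, Finset.mem_filter, Finset.mem_filter] at hl
      rcases hl with hl | hl <;> exact hπ l hl.1
    have h5 : ∑ l ∈ A, π l ≤ ∑ l ∈ A.filter (fun l => |c l - c i| < ρ) ∪ A.filter (fun l => |c l - c j| < ρ), π l :=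
      Finset.sum_le_sum_of_subset_of_nonneg hsub fun l hl _ => hnn l hl
    have h6 : ∑ l ∈ A.filter (fun l => |c l - c i| < ρ) ∪ A.filter (fun l => |c l - c j| < ρ), π l
        ≤ ∑ l ∈ A.filter (fun l => |c l - c i| < ρ), π l + ∑ l ∈ A.filter (fun l => |c l - c j| < ρ), π l := by
      rw [← Finset.sum_union_inter]
      have : 0 ≤ ∑ l ∈ A.filter (fun l => |c l - c i| < ρ) ∩ A.filter (fun l => |c l - c j| < ρ), π l :=
        Finset.sum_nonneg fun l hl => hπ l (Finset.mem_filter.1 (Finset.mem_inter.1 hl).1).1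
      linarith
    linarith [hcap (c i), hcap (c j)]
  obtain ⟨l, hl, h4, h5⟩ := h3
  exact ⟨i, hi, j, hj, l, hl, hij, h4, h5⟩

/-- **double counting of options** : every option has witnesses of weight `≥ m`; a witness is compatible with `≤ M` options -/
theorem k7b_options_count {O P : Type*} (S : Finset O) (U : Finset P) (w : P → ℝ) (hw : ∀ p ∈ U, 0 ≤ w p)
    (R : O → P → Prop) {W m : ℝ} {M : ℕ} (htot : ∑ p ∈ U, w p ≤ W)
    (hwit : ∀ o ∈ S, m ≤ ∑ p ∈ U with R o p, w p)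
    (hmult : ∀ p ∈ U, (S.filter (fun o => R o p)).card ≤ M) :
    (S.card : ℝ) * m ≤ M * W := by
  classical
  have h1 : (S.card : ℝ) * m ≤ ∑ o ∈ S, ∑ p ∈ U with R o p, w p := by
    rw [← nsmul_eq_mul]
    exact Finset.card_nsmul_le_sum S _ m hwit
  have h2 : ∑ o ∈ S, ∑ p ∈ U with R o p, w p = ∑ p ∈ U, ((S.filter (fun o => R o p)).card : ℝ) * w p := by
    simp_rw [Finset.sum_filter]
    rw [Finset.sum_comm]
    refine Finset.sum_congr rfl fun p _ => ?_
    rw [← Finset.sum_filter, Finset.sum_const, nsmul_eq_mul]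
  have h3 : ∑ p ∈ U, ((S.filter (fun o => R o p)).card : ℝ) * w p ≤ ∑ p ∈ U, (M : ℝ) * w p :=
    Finset.sum_le_sum fun p hp => mul_le_mul_of_nonneg_right (by exact_mod_cast hmult p hp) (hw p hp)
  rw [← Finset.mul_sum] at h3
  have h4 : (M : ℝ) * ∑ p ∈ U, w p ≤ M * W := mul_le_mul_of_nonneg_left htot (Nat.cast_nonneg _)
  linarith

/-- packing of disjoint measurable witnesses -/
theorem k7b_packing {α ι : Type*} [MeasurableSpace α] (μ : Measure α) (S : Finset ι) (Wt : ι → Set α) (B : Set α)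
    (hmeas : ∀ i ∈ S, MeasurableSet (Wt i)) (hdisj : (S : Set ι).PairwiseDisjoint Wt) (hsub : ∀ i ∈ S, Wt i ⊆ B)
    {m : ℝ≥0∞} (hm : ∀ i ∈ S, m ≤ μ (Wt i)) : (S.card : ℝ≥0∞) * m ≤ μ B := by
  have h1 : μ (⋃ i ∈ S, Wt i) = ∑ i ∈ S, μ (Wt i) := measure_biUnion_finset hdisj hmeas
  have h2 : μ (⋃ i ∈ S, Wt i) ≤ μ B := measure_mono (Set.iUnion₂_subset hsub)
  have h3 : (S.card : ℝ≥0∞) * m ≤ ∑ i ∈ S, μ (Wt i) := by
    rw [← nsmul_eq_mul]
    exact Finset.card_nsmul_le_sum S _ m hm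
  exact h3.trans (h1 ▸ h2)

/-- **exhaustion to heavy bins** -/
theorem k7b_heavy_bins {ι : Type*} (𝔅 : Finset ι) (μ : ι → ℝ) (hμ : ∀ b ∈ 𝔅, 0 ≤ μ b) {θ m₀ M : ℝ} (hm₀ : 0 < m₀)
    (hM : ∑ b ∈ 𝔅, μ b ≤ M)
    (hres : ∀ 𝔅' ⊆ 𝔅, θ ≤ ∑ b ∈ 𝔅', μ b → ∃ b ∈ 𝔅', m₀ ≤ μ b) :
    ∑ b ∈ 𝔅 with μ b < m₀, μ b < θ ∧ ((𝔅.filter (fun b => m₀ ≤ μ b)).card : ℝ) ≤ M / m₀ := by
  classical
  constructor
  · by_contra h
    obtain ⟨b, hb, hb2⟩ := hres _ (Finset.filter_subset _ _) (not_lt.1 h)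
    exact absurd (Finset.mem_filter.1 hb).2 (not_lt.2 hb2)
  · rw [le_div_iff₀ hm₀]
    have h1 : ((𝔅.filter (fun b => m₀ ≤ μ b)).card : ℝ) * m₀ ≤ ∑ b ∈ 𝔅 with m₀ ≤ μ b, μ b := by
      rw [← nsmul_eq_mul]
      exact Finset.card_nsmul_le_sum _ _ m₀ fun b hb => (Finset.mem_filter.1 hb).2
    have h2 : ∑ b ∈ 𝔅 with m₀ ≤ μ b, μ b ≤ ∑ b ∈ 𝔅, μ b :=
      Finset.sum_le_sum_of_subset_of_nonneg (Finset.filter_subset _ _) fun b hb _ => hμ b hb
    linarith

/-- **summable deletion** : entries `x` over reference states `e x`; at most `n` entries per state; deleting the entries of mass `< ε R_e / n` loses `≤ ε Σ R_e` -/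
theorem k7b_light_loss {X Eh : Type*} (S : Finset X) (T : Finset Eh) (e : X → Eh) (μ : X → ℝ) (R : Eh → ℝ)
    (hR : ∀ y ∈ T, 0 ≤ R y) (he : ∀ x ∈ S, e x ∈ T) {ε : ℝ} (hε : 0 ≤ ε) {n : ℕ} (hn : 0 < n)
    (hcount : ∀ y ∈ T, (S.filter (fun x => e x = y)).card ≤ n) :
    ∑ x ∈ S with μ x < ε * R (e x) / n, μ x ≤ ε * ∑ y ∈ T, R y := by
  classical
  have hn' : (0 : ℝ) < n := by exact_mod_cast hn
  have h1 : ∑ x ∈ S with μ x < ε * R (e x) / n, μ x ≤ ∑ x ∈ S, ε * R (e x) / n := by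
    refine le_trans (Finset.sum_le_sum fun x hx => (Finset.mem_filter.1 hx).2.le) ?_
    refine Finset.sum_le_sum_of_subset_of_nonneg (Finset.filter_subset _ _) fun x hx _ => ?_
    have := hR _ (he x hx)
    positivity
  have h2 : ∑ x ∈ S, ε * R (e x) / n = ∑ y ∈ T, ∑ x ∈ S with e x = y, ε * R (e x) / n :=
    (Finset.sum_fiberwise_of_maps_to he _).symm
  have h3 : ∀ y ∈ T, ∑ x ∈ S with e x = y, ε * R (e x) / n ≤ ε * R y := by
    intro y hy
    have : ∑ x ∈ S with e x = y, ε * R (e x) / n = ∑ x ∈ S with e x = y, ε * R y / n :=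
      Finset.sum_congr rfl fun x hx => by rw [(Finset.mem_filter.1 hx).2]
    rw [this, Finset.sum_const, nsmul_eq_mul]
    have hc : ((S.filter (fun x => e x = y)).card : ℝ) ≤ n := by exact_mod_cast hcount y hy
    have hRy := hR y hy
    calc ((S.filter (fun x => e x = y)).card : ℝ) * (ε * R y / n) ≤ n * (ε * R y / n) :=
          mul_le_mul_of_nonneg_right hc (by positivity)
      _ = ε * R y := by field_simp
  rw [Finset.mul_sum]
  exact h1.trans (h2 ▸ Finset.sum_le_sum h3)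

/-- a time set within `δ` of a point has measure `≤ 2δ` -/
theorem k7b_time_extent (A : Set ℝ) (c δ : ℝ) (h : ∀ t ∈ A, |t - c| ≤ δ) : volume A ≤ ENNReal.ofReal (2 * δ) := by
  have hsub : A ⊆ Set.Icc (c - δ) (c + δ) := by
    intro t ht
    have := abs_le.1 (h t ht)
    exact ⟨by linarith [this.1], by linarith [this.2]⟩
  refine (measure_mono hsub).trans ?_
  rw [Real.volume_Icc]
  exact le_of_eq (by congr 1; ring)

/-- an affine function bounded on a time set of relative (outer) measure `≥ 1/K` is bounded on the whole interval -/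
theorem k7b_affine_extrap {a b α β A K : ℝ} (hab : a < b) (hK : 1 ≤ K) (S : Set ℝ) (hS : S ⊆ Set.Icc a b)
    (hvol : ENNReal.ofReal ((b - a) / K) ≤ volume S) (hA : ∀ t ∈ S, |α + β * t| ≤ A) :
    ∀ t ∈ Set.Icc a b, |α + β * t| ≤ (1 + 8 * K) * A := by
  have hK0 : 0 < K := by linarith
  have hl : 0 < (b - a) / K := div_pos (by linarith) hK0
  have hne : S.Nonempty := by
    by_contra h
    rw [Set.not_nonempty_iff_eq_empty] at h
    rw [h, measure_empty, nonpos_iff_eq_zero, ENNReal.ofReal_eq_zero] at hvol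
    linarith
  obtain ⟨t1, h1⟩ := hne
  have h2 : ∃ t2 ∈ S, (b - a) / (4 * K) < |t2 - t1| := by
    by_contra h
    push Not at h
    have := k7b_time_extent S t1 _ h
    have h3 := hvol.trans this
    rw [ENNReal.ofReal_le_ofReal_iff (by positivity)] at h3
    have e : 2 * ((b - a) / (4 * K)) = (b - a) / K / 2 := by field_simp; ring
    linarith
  obtain ⟨t2, ht2, hsep⟩ := h2
  have hA0 : 0 ≤ A := (abs_nonneg _).trans (hA t1 h1)
  have hβ : |β| * |t2 - t1| ≤ 2 * A := by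
    rw [← abs_mul]
    have e : β * (t2 - t1) = (α + β * t2) - (α + β * t1) := by ring
    rw [e]
    exact (abs_sub _ _).trans (by linarith [hA t1 h1, hA t2 ht2])
  have hβ2 : |β| * (b - a) ≤ 8 * K * A := by
    have h4 : |β| * ((b - a) / (4 * K)) ≤ 2 * A := (mul_le_mul_of_nonneg_left hsep.le (abs_nonneg _)).trans hβ
    rw [← mul_div_assoc, div_le_iff₀ (by positivity)] at h4
    linarith
  intro t ht
  have e : α + β * t = (α + β * t1) + β * (t - t1) := by ring
  rw [e]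
  have h5 : |t - t1| ≤ b - a := by
    have := hS h1
    rw [abs_le]
    exact ⟨by linarith [ht.1, this.2], by linarith [ht.2, this.1]⟩
  have h6 : |β * (t - t1)| ≤ 8 * K * A := by
    rw [abs_mul]
    exact (mul_le_mul_of_nonneg_left h5 (abs_nonneg _)).trans hβ2
  have := abs_add_le (α + β * t1) (β * (t - t1))
  linarith [hA t1 h1]

end Claimed.Agent.R252
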