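-- KEEP
import Claimed.Agent.R252.State.KsState
import Claimed.Agent.R252.S7b.CoreB

/-!
# Row 252 (Kakeya in R^4), Secs. 7.4-7.6 + 8: THE HORIZONTAL MODEL AS A ONE-SCALE RECORD      (architect helper95; prefix `k7b` / `K7bHor`)

DEFINITIONS ONLY.   Consumers: S7b (S4 `a06:nested-affine-slopes`, S5 `a06:horizontal-coefficient-count`), S8 (all of Sec. 8).   Producer: S7b (S1-S3).
DESIGN (same as `State/KsState.lean`): the "mutable prepared state" of the paper = a FIXED reference record `H : K7bHor` (data, no proofs) + a predicate `H.Ok c K` with ONE explicit slack `K ≥ 1`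
+ the CURRENT selection = ANY measurable set `E ⊆ H.Sp` of incidences ("residual"; its law is `H.lam.restrict E`).
All fields of `Ok` are UPPER bounds / pointwise facts on `Sp` / facts on reference objects: they persist under every restriction.   Floors are never fields: they are obtained by the pruning rules `ks_*`.
"Stored / frozen witnesses" = earlier selections `E₀ ⊇ E`, kept as sets.

Coordinates = normalised coordinates of the true parent `Q_r` (07 (a06:horizontal-equation)); time `[0,1]`; masses divided by `q_r ν(Q_r)`.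
A trajectory `l` : `Z = p + t v`, `Y = q0 + t y1`, residual `x = x0 + t x1`  (`x = (w - L)/a_r`, 07 lem:horizontal-affine).
Depths `s` are relative to `Q_r` : `a_s = N^(-s)`, `h_s = N^(-k s)`.
-/

set_option autoImplicit false

namespace Claimed.Agent.R252

open MeasureTheory
open scoped ENNReal BigOperators

noncomputable section

/-- the bin of mesh `m` -/
def k7bBin (m x : ℝ) : ℤ := ⌊x / m⌋

/-- the cell of mesh `m` of a base point -/
def k7bCell (m : ℝ) (u : ℝ × ℝ × ℝ) : ℤ × ℤ × ℤ := (k7bBin m u.1, k7bBin m u.2.1, k7bBin m u.2.2)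

/-- the interval of a bin -/
def k7bIv (m : ℝ) (b : ℤ) : Set ℝ := Set.Ico (b * m) ((b + 1) * m)

/-- unit time -/
def k7bTime : Measure ℝ := volume.restrict (Set.Icc 0 1)

/-- an affine function of the base `(t, Z, Y)` : `(c, α₁, α₂, γ) ↦ c + α₁ t + α₂ Z + γ Y` -/
def k7bAff (L : ℝ × ℝ × ℝ × ℝ) (u : ℝ × ℝ × ℝ) : ℝ := L.1 + L.2.1 * u.1 + L.2.2.1 * u.2.1 + L.2.2.2 * u.2.2

/-- the fixed exponents and meshes of a horizontal problem -/
structure K7bPar where
  /-- the scale -/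
  N : ℝ
  /-- the rate `k = ℓ`, the dimension `d < 1`, the palette exponent `S`, the accuracy `e₀` of the horizontal equation -/
  k : ℝ
  d : ℝ
  S : ℝ
  e0 : ℝ
  /-- the prepared relative depths -/
  G : Finset ℝ
  /-- the finest base, velocity and scalar meshes -/
  ξ : ℝ
  χ : ℝ
  ϱ : ℝ

namespace K7bPar
variable (c : K7bPar)
/-- `a_s` -/
def a (s : ℝ) : ℝ := c.N ^ (-s)
/-- `h_s` -/
def h (s : ℝ) : ℝ := c.N ^ (-(c.k * s))
end K7bPar

/-- **the data of a horizontal problem** -/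
structure K7bHor where
  /-- trajectories -/
  Lam : Type
  [mL : MeasurableSpace Lam]
  /-- the full prior `ν^♭` conditioned on the true assignment of `Q_r` -/
  ν : Measure Lam
  /-- the reference incidence law -/
  lam : Measure (Lam × ℝ)
  /-- the incidences on which the pointwise facts hold -/
  Sp : Set (Lam × ℝ)
  /-- the parent palette -/
  pal : Measure ℝ
  p : Lam → ℝ
  v : Lam → ℝ
  q0 : Lam → ℝ
  y1 : Lam → ℝ
  x0 : Lam → ℝ
  x1 : Lam → ℝ
  /-- end histories and their reference weights -/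
  Eh : Type
  [fE : Fintype Eh]
  eh : Lam × ℝ → Eh
  Ref : Eh → ℝ≥0∞
  /-- true children (all depths in one type) -/
  Q : Type
  [fQ : Fintype Q]
  /-- the USED labels of depth `s` (those which occur on `Sp`; the reference list is not changed by later restrictions) -/
  Qat : ℝ → Finset Q
  /-- the true label of depth `s` of an incidence -/
  lab : ℝ → Lam × ℝ → Q
  /-- time block `[bt, bt + bl)`, full trajectory assignment, occupied centre -/
  bt : Q → ℝ
  bl : Q → ℝ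
  asg : Q → Set Lam
  ct : Q → ℝ
  cZ : Q → ℝ
  cY : Q → ℝ
  /-- the affine entries of a label and the entry used at an incidence -/
  ent : Q → Finset (ℝ × ℝ × ℝ × ℝ)
  entOf : ℝ → Lam × ℝ → ℝ × ℝ × ℝ × ℝ

attribute [instance] K7bHor.mL K7bHor.fE K7bHor.fQ

namespace K7bHor

variable (H : K7bHor)

/-- position of a trajectory at time `t` -/
def Zt (l : H.Lam) (t : ℝ) : ℝ := H.p l + t * H.v l
def Yt (l : H.Lam) (t : ℝ) : ℝ := H.q0 l + t * H.y1 l
def Xt (l : H.Lam) (t : ℝ) : ℝ := H.x0 l + t * H.x1 l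
/-- the base point of a trajectory at time `t` -/
def bs (l : H.Lam) (t : ℝ) : ℝ × ℝ × ℝ := (t, H.Zt l t, H.Yt l t)
/-- the base point and the residual of an incidence -/
def base (z : H.Lam × ℝ) : ℝ × ℝ × ℝ := H.bs z.1 z.2
def X (z : H.Lam × ℝ) : ℝ := H.Xt z.1 z.2
/-- the block of a label -/
def blk (q : H.Q) : Set ℝ := Set.Ico (H.bt q) (H.bt q + H.bl q)
/-- the reference budget `m_Q = H_s ν^♭(Q)`   (a06:horizontal-budgets) -/
def mQ (q : H.Q) : ℝ≥0∞ := ENNReal.ofReal (H.bl q) * H.ν (H.asg q)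
/-- the velocity tests at mesh `χ` -/
def vT (χ : ℝ) (b : ℤ) : Set (H.Lam × ℝ) := {z | k7bBin χ (H.v z.1) = b}
/-- the fine point state: base cell and residual bin -/
def pt (ξ ϱ : ℝ) (z : H.Lam × ℝ) : (ℤ × ℤ × ℤ) × ℤ := (k7bCell ξ (H.base z), k7bBin ϱ (H.X z))

/-- **the standing hypotheses of a horizontal problem** with slack `K` -/
structure Ok (c : K7bPar) (K : ℝ) : Prop where
  -- measurability
  mp : Measurable H.p
  mv : Measurable H.v
  mq0 : Measurable H.q0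
  my1 : Measurable H.y1
  mx0 : Measurable H.x0
  mx1 : Measurable H.x1
  mSp : MeasurableSet H.Sp
  meh : KsLab H.eh
  mlab : ∀ s ∈ c.G, KsLab (H.lab s)
  ment : ∀ s ∈ c.G, KsLab (H.entOf s)
  masg : ∀ q, MeasurableSet (H.asg q)
  -- laws
  νle : H.ν Set.univ ≤ 1
  νprob : H.ν Set.univ = 1
  palle : H.pal Set.univ ≤ 1
  /-- prior-times-time domination -/
  dom : H.lam ≤ ENNReal.ofReal K • H.ν.prod k7bTime
  /-- the reference law is a restriction of prior times time -/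
  lamres : ∃ Ev0 : Set (H.Lam × ℝ), MeasurableSet Ev0 ∧ H.lam = (H.ν.prod k7bTime).restrict Ev0
  -- trajectories
  time : ∀ z ∈ H.Sp, z.2 ∈ Set.Icc (0 : ℝ) 1
  bdd : ∀ z ∈ H.Sp, |H.p z.1| ≤ K ∧ |H.v z.1| ≤ K ∧ |H.q0 z.1| ≤ K ∧ |H.y1 z.1| ≤ K
  /-- the bounded residual   (lem:horizontal-affine) -/
  bddx : ∀ z ∈ H.Sp, |H.x0 z.1| ≤ K ∧ |H.x1 z.1| ≤ K
  /-- the horizontal equation `|Y' - J z · V₁| ≤ N^(-e₀)`; the left side is the constant `y1 + p`   (a06:horizontal-equation) -/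
  heq : ∀ z ∈ H.Sp, |H.y1 z.1 + H.p z.1| ≤ c.N ^ (-c.e0)
  -- palette
  palcap : ∀ x r : ℝ, c.χ ≤ r → r ≤ 1 → H.pal (Set.Icc (x - r) (x + r)) ≤ ENNReal.ofReal (K * r ^ c.S)
  /-- end-history numerator ceiling   (a03:palette-joint) -/
  ehdom : KsDom (H.lam.restrict H.Sp) H.eh (H.vT c.χ) (fun _ b => H.pal (k7bIv c.χ b)) H.Ref (ENNReal.ofReal K)
  refsum : ∑ e, H.Ref e ≤ ENNReal.ofReal K
  /-- the reference weights of the histories inside a true label sum to `≤ K m_Q`   (08 l.225, l.1030) -/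
  refQ : ∀ s ∈ c.G, ∀ q ∈ H.Qat s, ∀ F : Finset H.Eh, (∀ e ∈ F, ∃ z ∈ H.Sp, H.eh z = e ∧ H.lab s z = q) →
    ∑ e ∈ F, H.Ref e ≤ ENNReal.ofReal K * H.mQ q
  /-- the joint cap   (a06:residual-caps) : base cell of mesh `ξ`, residual interval of radius `r ∈ [ϱ, 1]`, velocity bin of mesh `χ` -/
  capJ : ∀ (C : ℤ × ℤ × ℤ) (x r : ℝ) (b : ℤ), c.ϱ ≤ r → r ≤ 1 →
    H.lam (H.Sp ∩ {z | k7bCell c.ξ (H.base z) = C ∧ |H.X z - x| ≤ r ∧ k7bBin c.χ (H.v z.1) = b})
      ≤ ENNReal.ofReal (K * c.ξ ^ 3 * r ^ c.d) * H.pal (k7bIv c.χ b)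
  /-- the pure cap in DENSITY form: any measurable base set, any measurable centre `f (base)`   (a06:residual-caps, first line) -/
  capP : ∀ (C : Set (ℝ × ℝ × ℝ)) (f : ℝ × ℝ × ℝ → ℝ) (r : ℝ), MeasurableSet C → Measurable f → c.ϱ ≤ r → r ≤ 1 →
    H.lam (H.Sp ∩ {z | H.base z ∈ C ∧ |H.X z - f (H.base z)| ≤ r}) ≤ ENNReal.ofReal (K * r ^ c.d) * volume C
  /-- the base cap of a true label, DENSITY form   (a03:packet-base-cap) -/
  capQ : ∀ s ∈ c.G, ∀ q ∈ H.Qat s, ∀ C : Set (ℝ × ℝ × ℝ), MeasurableSet C →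
    H.lam (H.Sp ∩ {z | H.base z ∈ C ∧ H.lab s z = q}) ≤ ENNReal.ofReal (K * c.a s ^ c.d) * volume C
  -- deep histories
  /-- an end history knows the true labels -/
  ehlab : ∀ s ∈ c.G, ∀ z ∈ H.Sp, ∀ z' ∈ H.Sp, H.eh z = H.eh z' → H.lab s z = H.lab s z'
  /-- `≤ K` options for the fine point state -/
  ehpt : ∀ e, ∃ L : Finset ((ℤ × ℤ × ℤ) × ℤ), (L.card : ℝ) ≤ K ∧ ∀ z ∈ H.Sp, H.eh z = e → H.pt c.ξ c.ϱ z ∈ L
  -- true children
  labmem : ∀ s ∈ c.G, ∀ z ∈ H.Sp, H.lab s z ∈ H.Qat s ∧ z.2 ∈ H.blk (H.lab s z) ∧ z.1 ∈ H.asg (H.lab s z)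
  bllen : ∀ s ∈ c.G, ∀ q ∈ H.Qat s, c.h s / K ≤ H.bl q ∧ H.bl q ≤ K * c.h s
  blkdisj : ∀ s ∈ c.G, ∀ q ∈ H.Qat s, ∀ q' ∈ H.Qat s, H.blk q = H.blk q' ∨ Disjoint (H.blk q) (H.blk q')
  /-- the blocks of one depth belong to ONE dyadic partition -/
  dyad : ∀ s ∈ c.G, ∃ lev : ℕ, ∀ q ∈ H.Qat s, H.bl q = (1 / 2 : ℝ) ^ lev ∧ ∃ i : ℕ, H.bt q = (i : ℝ) * (1 / 2 : ℝ) ^ lev
  asgdisj : ∀ s ∈ c.G, ∀ q ∈ H.Qat s, ∀ q' ∈ H.Qat s, q ≠ q' → H.blk q = H.blk q' → Disjoint (H.asg q) (H.asg q')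
  /-- `ν^♭(Q_s) ∼ a_s^d h_s^3`, `Σ m_Q ≤ 1`   (a06:horizontal-budgets) -/
  νQ : ∀ s ∈ c.G, ∀ q ∈ H.Qat s, ENNReal.ofReal (c.a s ^ c.d * c.h s ^ 3 / K) ≤ H.ν (H.asg q) ∧
    H.ν (H.asg q) ≤ ENNReal.ofReal (K * c.a s ^ c.d * c.h s ^ 3)
  budget : ∀ s ∈ c.G, ∑ q ∈ H.Qat s, H.mQ q ≤ 1
  /-- the whole true box is the centred horizontal box   (a06:centered-horizontal-box) -/
  box : ∀ s ∈ c.G, ∀ q ∈ H.Qat s, ∀ l ∈ H.asg q, ∀ t ∈ H.blk q, H.bs l t ∈ k7bBox (H.ct q) (H.cZ q) (H.cY q) (c.h s) K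
  /-- nesting -/
  nest : ∀ s ∈ c.G, ∀ s' ∈ c.G, s ≤ s' → ∀ z ∈ H.Sp, ∀ z' ∈ H.Sp, H.lab s' z = H.lab s' z' → H.lab s z = H.lab s z'
  /-- nested full assignments and blocks   (08 l.196-204) -/
  anc : ∀ s ∈ c.G, ∀ s' ∈ c.G, s ≤ s' → ∀ z ∈ H.Sp, H.asg (H.lab s' z) ⊆ H.asg (H.lab s z) ∧ H.blk (H.lab s' z) ⊆ H.blk (H.lab s z)
  -- affine entries   (a06:horizontal-affine-approximation, a06:nested-affine-slopes)
  entcard : ∀ q, ((H.ent q).card : ℝ) ≤ K
  entmem : ∀ s ∈ c.G, ∀ z ∈ H.Sp, H.entOf s z ∈ H.ent (H.lab s z)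
  /-- the prediction holds throughout the block -/
  entfit : ∀ s ∈ c.G, ∀ z ∈ H.Sp, ∀ t ∈ H.blk (H.lab s z),
    |H.Xt z.1 t - k7bAff (H.entOf s z) (H.bs z.1 t)| ≤ K * c.a s

/-- the slope bounds (a06:affine-slope-bounds) on a selection `E` -/
def Slopes (c : K7bPar) (K : ℝ) (E : Set (H.Lam × ℝ)) : Prop :=
  ∀ s ∈ c.G, ∀ z ∈ E,
    |(H.entOf s z).2.1 + (H.entOf s z).2.2.2 * (-(H.Zt z.1 z.2))| ≤ K * (1 + c.a s / c.h s) ∧
    |(H.entOf s z).2.2.1 + (H.entOf s z).2.2.2 * z.2| ≤ K * (1 + c.a s / c.h s) ∧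
    |(H.entOf s z).2.2.2| ≤ K * (1 + c.a s / c.h s ^ 2)

/-- the same reference record with a smaller set of admitted incidences -/
def shrink (E : Set (H.Lam × ℝ)) : K7bHor := { H with Sp := E }

/-- a residual: a measurable selection of mass `≥ m` -/
structure Res (E : Set (H.Lam × ℝ)) (m : ℝ) : Prop where
  sub : E ⊆ H.Sp
  meas : MeasurableSet E
  mass : ENNReal.ofReal m ≤ H.lam E

/-- **every field persists under restriction** -/
theorem Ok.shrink {H : K7bHor} {c : K7bPar} {K : ℝ} (h : H.Ok c K) {E : Set (H.Lam × ℝ)} (hE : E ⊆ H.Sp)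
    (hm : MeasurableSet E) : (H.shrink E).Ok c K where
  mp := h.mp
  mv := h.mv
  mq0 := h.mq0
  my1 := h.my1
  mx0 := h.mx0
  mx1 := h.mx1
  mSp := hm
  meh := h.meh
  mlab := h.mlab
  ment := h.ment
  masg := h.masg
  νle := h.νle
  νprob := h.νprob
  palle := h.palle
  dom := h.dom
  lamres := h.lamres
  time := fun z hz => h.time z (hE hz)
  bdd := fun z hz => h.bdd z (hE hz)
  bddx := fun z hz => h.bddx z (hE hz)
  heq := fun z hz => h.heq z (hE hz)
  palcap := h.palcap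
  ehdom := by
    have h1 : H.lam.restrict E ≤ H.lam.restrict H.Sp := Measure.restrict_mono hE (le_refl H.lam)
    exact ks_dom_mono h.ehdom h1 (fun _ _ => le_rfl) (fun _ => le_rfl) le_rfl
  refsum := h.refsum
  refQ := fun s hs q hq F hF => h.refQ s hs q hq F fun e he => by
    obtain ⟨z, hz, h1, h2⟩ := hF e he
    exact ⟨z, hE hz, h1, h2⟩
  capJ := fun C x r b h1 h2 => (measure_mono (Set.inter_subset_inter_left _ hE)).trans (h.capJ C x r b h1 h2)
  capP := fun C f r h1 h2 h3 h4 => (measure_mono (Set.inter_subset_inter_left _ hE)).trans (h.capP C f r h1 h2 h3 h4)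
  capQ := fun s hs q hq C hC => (measure_mono (Set.inter_subset_inter_left _ hE)).trans (h.capQ s hs q hq C hC)
  ehlab := fun s hs z hz z' hz' => h.ehlab s hs z (hE hz) z' (hE hz')
  ehpt := fun e => by
    obtain ⟨L, h1, h2⟩ := h.ehpt e
    exact ⟨L, h1, fun z hz => h2 z (hE hz)⟩
  labmem := fun s hs z hz => h.labmem s hs z (hE hz)
  bllen := h.bllen
  blkdisj := h.blkdisj
  dyad := h.dyad
  asgdisj := h.asgdisj
  νQ := h.νQ
  budget := h.budget
  box := h.box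
  nest := fun s hs s' hs' hss z hz z' hz' => h.nest s hs s' hs' hss z (hE hz) z' (hE hz')
  anc := fun s hs s' hs' hss z hz => h.anc s hs s' hs' hss z (hE hz)
  entcard := h.entcard
  entmem := fun s hs z hz => h.entmem s hs z (hE hz)
  entfit := fun s hs z hz => h.entfit s hs z (hE hz)

end K7bHor

theorem k7b_hor_eqns_cite : True := by
  have := @k7bBin.eq_1
  have := @k7bCell.eq_1
  have := @k7bIv.eq_1
  have := @k7bTime.eq_1
  have := @k7bAff.eq_1
  have := @K7bPar.a.eq_1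
  have := @K7bPar.h.eq_1
  have := @K7bHor.Zt.eq_1
  have := @K7bHor.Yt.eq_1
  have := @K7bHor.Xt.eq_1
  have := @K7bHor.bs.eq_1
  have := @K7bHor.base.eq_1
  have := @K7bHor.X.eq_1
  have := @K7bHor.blk.eq_1
  have := @K7bHor.mQ.eq_1
  have := @K7bHor.vT.eq_1
  have := @K7bHor.pt.eq_1
  have := @K7bHor.Slopes.eq_1
  have := @K7bHor.shrink.eq_1
  trivial

end

end Claimed.Agent.R252

/-!
# Row 252 (Kakeya in R^4), Secs. 7.5-7.6: VOCABULARY of the slope lemma (S4) and of the coefficient count (S5)      (architect helper95; prefix `k7b` / `K7bHor`)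

DEFINITIONS ONLY, no sorry.   Everything is over the one-scale record `H : K7bHor` of `HorDefs.lean`.
* `K7bPar.WF`            the trivial facts on the exponents and meshes
* `H.qBox c s q R`       the centred horizontal box of the true label `q` of depth `s`, enlargement `R`
* `H.pairEv s' s z`      the event "same true label of depth `s`, same affine entries at the depths `s` and `s'` as `z`"
* `H.Pairs c K E₀ E`     STORED full-domain witnesses: every pair event of a point of `E` has mass `≥ m_Q / K` in the EARLIER selection `E₀`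
* `H.PairFit c K E`      `‖L_s - L_{s'}‖ ≤ K R a_{s'}` on the `R`-enlarged child box;      `H.ZeroFit c K E` : `‖L_s‖ ≤ K R` there
* `H.grp χ D`, `H.gI`, `H.gN`, `H.gW`    the groups `G = (d₀, P_D)` (trajectory data), their incidences, prior mass and weight `W_G = π(d₀) D²`;   `k7bRef` the reference motion
* `H.cf a`               the full-time coefficient bin of width `a`
-/

set_option autoImplicit false

namespace Claimed.Agent.R252

open MeasureTheory
open scoped ENNReal BigOperators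

noncomputable section

/-- the trivial facts on the exponents and meshes -/
structure K7bPar.WF (c : K7bPar) : Prop where
  N1 : 1 ≤ c.N
  k0 : 0 < c.k
  k1 : c.k ≤ 1
  d0 : 0 ≤ c.d
  d1 : c.d < 1
  S0 : 0 < c.S
  e0 : 0 < c.e0
  ξ0 : 0 < c.ξ
  ξ1 : c.ξ ≤ 1
  χ0 : 0 < c.χ
  χ1 : c.χ ≤ 1
  ϱ0 : 0 < c.ϱ
  ϱ1 : c.ϱ ≤ 1
  G0 : ∀ s ∈ c.G, 0 ≤ s

/-- the reference motion of the group `g = (velocity bin, p-bin, q₀-bin)` : `z_c(t) = (t, p_c + t v_c)`, `Y_c(t) = q_c - t p_c` -/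
def k7bRef (χ D : ℝ) (g : ℤ × ℤ × ℤ) (t : ℝ) : ℝ × ℝ × ℝ :=
  (t, g.2.1 * D + t * (g.1 * χ), g.2.2 * D - t * (g.2.1 * D))

namespace K7bHor

variable (H : K7bHor)

/-- the centred horizontal box of a true label of depth `s`, enlargement `R` -/
def qBox (c : K7bPar) (s : ℝ) (q : H.Q) (R : ℝ) : Set (ℝ × ℝ × ℝ) := k7bBox (H.ct q) (H.cZ q) (H.cY q) (c.h s) R

/-- same true label of depth `s`, same affine entries at the depths `s` and `s'` -/
def pairEv (s' s : ℝ) (z : H.Lam × ℝ) : Set (H.Lam × ℝ) :=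
  {z' | H.lab s z' = H.lab s z ∧ H.entOf s z' = H.entOf s z ∧ H.entOf s' z' = H.entOf s' z}

/-- stored full-domain witnesses of the paired entries (in the earlier selection `E₀`) -/
def Pairs (c : K7bPar) (K : ℝ) (E₀ E : Set (H.Lam × ℝ)) : Prop :=
  ∀ s' ∈ c.G, ∀ s ∈ c.G, s' ≤ s → ∀ z ∈ E, H.mQ (H.lab s z) ≤ ENNReal.ofReal K * H.lam (E₀ ∩ H.pairEv s' s z)

/-- the paired entries agree to `K R a_{s'}` on the whole `R`-enlarged child box -/
def PairFit (c : K7bPar) (K : ℝ) (E : Set (H.Lam × ℝ)) : Prop :=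
  ∀ s' ∈ c.G, ∀ s ∈ c.G, s' ≤ s → ∀ z ∈ E, ∀ R : ℝ, 1 ≤ R → ∀ u ∈ H.qBox c s (H.lab s z) R,
    |k7bAff (H.entOf s z) u - k7bAff (H.entOf s' z) u| ≤ K * R * c.a s'

/-- the entries are bounded by `K R` on the whole `R`-enlarged box of their label -/
def ZeroFit (c : K7bPar) (K : ℝ) (E : Set (H.Lam × ℝ)) : Prop :=
  ∀ s ∈ c.G, ∀ z ∈ E, ∀ R : ℝ, 1 ≤ R → ∀ u ∈ H.qBox c s (H.lab s z) R, |k7bAff (H.entOf s z) u| ≤ K * R

/-- the group of a trajectory: velocity bin of mesh `χ`, bins of mesh `D` of `P = (Z(0), Y(0))` -/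
def grp (χ D : ℝ) (l : H.Lam) : ℤ × ℤ × ℤ := (k7bBin χ (H.v l), k7bBin D (H.p l), k7bBin D (H.q0 l))

/-- the incidences of a group -/
def gI (χ D : ℝ) (g : ℤ × ℤ × ℤ) : Set (H.Lam × ℝ) := {z | H.grp χ D z.1 = g}

/-- the prior mass of a group -/
def gN (χ D : ℝ) (g : ℤ × ℤ × ℤ) : ℝ≥0∞ := H.ν {l | H.grp χ D l = g}

/-- the weight `W_G = π(d₀) D²` -/
def gW (χ D : ℝ) (g : ℤ × ℤ × ℤ) : ℝ≥0∞ := H.pal (k7bIv χ g.1) * ENNReal.ofReal (D ^ 2)

/-- the full-time coefficient bin of width `a` -/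
def cf (a : ℝ) (l : H.Lam) : ℤ × ℤ := (k7bBin a (H.x0 l), k7bBin a (H.x1 l))

/-- the incidences of a coefficient bin -/
def cI (a : ℝ) (b : ℤ × ℤ) : Set (H.Lam × ℝ) := {z | H.cf a z.1 = b}

/-- the incidences of a time bin of mesh `η` -/
def tI (η : ℝ) (σ : ℤ) : Set (H.Lam × ℝ) := {z | k7bBin η z.2 = σ}

end K7bHor

theorem k7b_grp_eqns_cite : True := by
  have := @k7bRef.eq_1
  have := @K7bHor.qBox.eq_1
  have := @K7bHor.pairEv.eq_1
  have := @K7bHor.Pairs.eq_1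
  have := @K7bHor.PairFit.eq_1
  have := @K7bHor.ZeroFit.eq_1
  have := @K7bHor.grp.eq_1
  have := @K7bHor.gI.eq_1
  have := @K7bHor.gN.eq_1
  have := @K7bHor.gW.eq_1
  have := @K7bHor.cf.eq_1
  have := @K7bHor.cI.eq_1
  have := @K7bHor.tI.eq_1
  trivial

end

end Claimed.Agent.R252

/-!
# Row 252 (Kakeya in R^4), Sec. 7.6: VOCABULARY of the horizontal coefficient count (S5 = `a06:horizontal-coefficient-count`, 07 l.1431-1553)      (architect helper95)

DEFINITIONS ONLY, no sorry.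
* `K7bS5 c K s D η`     the relations between the slack `K`, the depth `s` (`a = a_s`), the parameter width `D ≤ a_s`, the time mesh `η` and the prepared meshes `ξ, χ, ϱ` of `c`
                        (in the sequence language: all of them hold eventually, because `K` is subpower and the meshes are fixed powers)
* `H.Supp c s D K E`    the `(t, x)`-support of every group needs `≤ K a^(-1-d)` squares of side `a`
* `H.Bins c s D K E`    every group has `≤ K a^(-d)` full-time coefficient bins of width `a`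
* `H.Cnt c s D η K E`   ALL conclusions of the lemma for the selection `E` (floors are CURRENT floors: measured in `E` itself)
Finite counts are written without `ncard` : "every finite set of occurring values has at most .. elements".
-/

set_option autoImplicit false

namespace Claimed.Agent.R252

open MeasureTheory
open scoped ENNReal BigOperators

noncomputable section

/-- the mesh relations of the coefficient count -/
structure K7bS5 (c : K7bPar) (K s D η : ℝ) : Prop where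
  wf : c.WF
  K1 : 1 ≤ K
  sG : s ∈ c.G
  khalf : c.k ≤ 1 / 2
  D0 : 0 < D
  Da : D ≤ c.a s
  χD : c.χ ≤ D
  eD : c.N ^ (-c.e0) ≤ D
  ξD : 4 * K * c.ξ ≤ D
  ϱa : c.ϱ ≤ c.a s
  η0 : 0 < η
  ηa : K * η ≤ c.a s
  ξη : c.ξ ≤ η

namespace K7bHor

variable (H : K7bHor)

/-- the `(t, x)`-support of every group needs at most `K a^(-1-d)` squares of side `a = a_s` -/
def Supp (c : K7bPar) (s D K : ℝ) (E : Set (H.Lam × ℝ)) : Prop :=
  ∀ (g : ℤ × ℤ × ℤ) (S : Finset (ℤ × ℤ)), (∀ x ∈ S, ∃ z ∈ E ∩ H.gI c.χ D g, (k7bBin (c.a s) z.2, k7bBin (c.a s) (H.X z)) = x) →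
    (S.card : ℝ) ≤ K * c.a s ^ (-1 - c.d)

/-- every group has at most `K a^(-d)` coefficient bins of width `a = a_s` -/
def Bins (c : K7bPar) (s D K : ℝ) (E : Set (H.Lam × ℝ)) : Prop :=
  ∀ (g : ℤ × ℤ × ℤ) (S : Finset (ℤ × ℤ)), (∀ b ∈ S, (E ∩ H.gI c.χ D g ∩ H.cI (c.a s) b).Nonempty) →
    (S.card : ℝ) ≤ K * c.a s ^ (-c.d)

/-- the prior mass of a coefficient bin of a group -/
def cN (χ D a : ℝ) (g : ℤ × ℤ × ℤ) (b : ℤ × ℤ) : ℝ≥0∞ := H.ν {l | H.grp χ D l = g ∧ H.cf a l = b}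

/-- **all conclusions of the horizontal coefficient count** for the selection `E`, slack `K` -/
structure Cnt (c : K7bPar) (s D η K : ℝ) (E : Set (H.Lam × ℝ)) : Prop where
  /-- no null groups -/
  gpos : ∀ z ∈ E, H.gW c.χ D (H.grp c.χ D z.1) ≠ 0
  /-- active mass `≥ W_G / K`, prior mass `≤ K` active mass -/
  gfl : ∀ z ∈ E, H.gW c.χ D (H.grp c.χ D z.1) + H.gN c.χ D (H.grp c.χ D z.1)
    ≤ ENNReal.ofReal K * H.lam (E ∩ H.gI c.χ D (H.grp c.χ D z.1))
  supp : H.Supp c s D K E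
  bins : H.Bins c s D K E
  /-- every coefficient bin has active mass `≥ W_G a^d / K`, and prior mass `≤ K` active mass -/
  bfl : ∀ z ∈ E, ENNReal.ofReal (c.a s ^ c.d) * H.gW c.χ D (H.grp c.χ D z.1) + H.cN c.χ D (c.a s) (H.grp c.χ D z.1) (H.cf (c.a s) z.1)
    ≤ ENNReal.ofReal K * H.lam (E ∩ H.gI c.χ D (H.grp c.χ D z.1) ∩ H.cI (c.a s) (H.cf (c.a s) z.1))
  /-- every coefficient bin has active mass `≥ η W_G a^d / K` in each of its time subbins -/
  tfl : ∀ z ∈ E, ENNReal.ofReal (η * c.a s ^ c.d) * H.gW c.χ D (H.grp c.χ D z.1)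
    ≤ ENNReal.ofReal K * H.lam (E ∩ H.gI c.χ D (H.grp c.χ D z.1) ∩ H.cI (c.a s) (H.cf (c.a s) z.1) ∩ H.tI η (k7bBin η z.2))
  /-- group, time subbin and `x_a` determine a list of `≤ K` coefficient bins -/
  list : ∀ (g : ℤ × ℤ × ℤ) (σ x : ℤ) (S : Finset (ℤ × ℤ)),
    (∀ b ∈ S, ∃ z ∈ E ∩ H.gI c.χ D g ∩ H.cI (c.a s) b ∩ H.tI η σ, k7bBin (c.a s) (H.X z) = x) → (S.card : ℝ) ≤ K

end K7bHor

theorem k7b_cnt_eqns_cite : True := by
  have := @K7bHor.Supp.eq_1
  have := @K7bHor.Bins.eq_1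
  have := @K7bHor.cN.eq_1
  trivial

end

end Claimed.Agent.R252
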