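-- KEEP
import Claimed.Agent.R252.State.KsLoc
import Claimed.Agent.R252.S7b.HorGrp

/-!
# Row 252 (Kakeya in R^4), Secs. 7.4-7.5: THE LINK  `KsRef KbVer.two` (tangent record, `State/KsCore`)  ⟶  `K7bHor` (horizontal record, `S7b/HorDefs`)      (architect helper95)

DEFINITIONS ONLY, no sorry.
* `K7bDat R`     the FREE data chosen by S1-S3 inside a prepared tangent problem `R` : the true parent `Q_r`, the affine chart of the base, the parent affine fit `L`, the admitted incidences `Sp` (TANGENT coordinates),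
                 palette measure, appended end histories + reference weights (already divided by `q_r ν(Q_r)`), occupied centres and affine entries of the true children.
* `X.hor : K7bHor`   the horizontal record; everything else is DETERMINED by `R` and `X` :  SAME trajectory space `R.L`; time `t = t₀ + q_r τ`;
                 `Ẑ = (Z - Z₀)/q_r` (velocity stays `v = Z'`),  `Ŷ = κ (Y - (y0 + y1 t + y2 Z))`,  `x = (w - L(τ, Ẑ, Ŷ))/a_r`;
                 prior `ν^♭ = ν( · | asg Q_r)`; law `= (ν^♭ × dτ)` restricted to the admitted incidences  (= tangent mass divided by `q_r ν(Q_r)`: `k7b_link_mass` in `HorLinkContract`);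
                 children of relative depth `s` = the true labels of `R` of depth `r + s` below `Q_r` WHICH OCCUR ON `X.Sp` ("used children", 07 l.1048), with their FULL assignments and blocks.
* `H.Ok0 c K`    the part of `H.Ok c K` which does not mention the residual `x` and the entries   = EXIT OF S1 (`prop:horizontal-model`)
* `H.OkE c K`    `Ok0` + affine entries fitting `x` throughout the blocks.   With `X.L = 0` (`x = w / a_r`) this is the EXIT OF S2 (`a06:horizontal-affine-approximation`)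
* `H.Ok c K`     = `OkE` + bounded residual + caps + fine point states = EXIT OF S3 (`lem:horizontal-affine`);  `K7bHor.Ok.ofE`.
* `K7bRowList`   ENTRY OF S1 (07 l.941-955; producer S7a/S7p): `Q_r`, fine bins of `(t, Z, v)` leave `≤ K` bins of width `β` for `Y'`.
-/

set_option autoImplicit false

namespace Claimed.Agent.R252

open MeasureTheory
open scoped ENNReal BigOperators

noncomputable section

/-- **the free data of a horizontal model inside a tangent problem** -/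
structure K7bDat (R : KsRef KbVer.two) where
  /-- the true parent `Q_r` -/
  Qr : R.Lab
  /-- constant major centre -/
  Z0 : ℝ
  /-- `Ŷ = κ (Y - (y0 + y1 t + y2 Z))` (tangent `t, Z, Y`) -/
  κ : ℝ
  y0 : ℝ
  y1 : ℝ
  y2 : ℝ
  /-- the parent affine fit of the hidden coordinate, an affine function of the NORMALISED base `(τ, Ẑ, Ŷ)`, in tangent hidden units -/
  L : ℝ × ℝ × ℝ × ℝ
  /-- the admitted incidences, TANGENT coordinates -/
  Sp : Set (R.L × ℝ)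
  pal : Measure ℝ
  /-- (appended) end histories of TANGENT incidences, reference weights divided by `q_r ν(Q_r)` -/
  Eh : Type
  fE : Fintype Eh
  eh : R.L × ℝ → Eh
  Ref : Eh → ℝ≥0∞
  /-- occupied centres of the true children, NORMALISED coordinates -/
  ct : R.Lab → ℝ
  cZ : R.Lab → ℝ
  cY : R.Lab → ℝ
  /-- affine entries (functions of the NORMALISED base, predicting `x`); the entry of a TANGENT incidence at the RELATIVE depth `s` -/
  ent : R.Lab → Finset (ℝ × ℝ × ℝ × ℝ)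
  entOf : ℝ → R.L × ℝ → ℝ × ℝ × ℝ × ℝ

namespace K7bDat

variable {R : KsRef KbVer.two} (X : K7bDat R)

/-- depth, time length, left end point of the parent -/
def r : ℝ := R.dep X.Qr
def q : ℝ := R.q X.Qr
def t0 : ℝ := R.t0 X.Qr
/-- tangent time of the normalised time `τ` -/
def tOf (τ : ℝ) : ℝ := X.t0 + X.q * τ
/-- the tangent incidence of a normalised incidence -/
def inc (z : R.L × ℝ) : R.L × ℝ := (z.1, X.tOf z.2)
/-- the normalised base point of a tangent base point -/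
def nb (u : ℝ × KbB KbVer.two) : ℝ × ℝ × ℝ :=
  ((u.1 - X.t0) / X.q, (ksZ u.2 - X.Z0) / X.q, X.κ * (ksY u.2 - (X.y0 + X.y1 * u.1 + X.y2 * ksZ u.2)))
/-- the normalised base point of a trajectory at the normalised time `τ` -/
def nbs (l : R.L) (τ : ℝ) : ℝ × ℝ × ℝ := X.nb (X.tOf τ, R.y l (X.tOf τ))
/-- the residual at the normalised time `τ` -/
def xh (l : R.L) (τ : ℝ) : ℝ := (R.w l (X.tOf τ) - k7bAff X.L (X.nbs l τ)) / R.a X.r
/-- the conditioned prior `ν^♭` -/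
def νf : Measure R.L := (R.νQ X.Qr)⁻¹ • R.ν.restrict (R.asg X.Qr)
/-- the admitted incidences, normalised coordinates -/
def SpN : Set (R.L × ℝ) := X.inc ⁻¹' X.Sp

open Classical in
/-- **the horizontal record** -/
def hor : K7bHor where
  Lam := R.L
  mL := R.mL
  ν := X.νf
  lam := (X.νf.prod k7bTime).restrict X.SpN
  Sp := X.SpN
  pal := X.pal
  p := fun l => (X.nbs l 0).2.1
  v := fun l => ksZ (R.V l)
  q0 := fun l => (X.nbs l 0).2.2
  y1 := fun l => (X.nbs l 1).2.2 - (X.nbs l 0).2.2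
  x0 := fun l => X.xh l 0
  x1 := fun l => X.xh l 1 - X.xh l 0
  Eh := X.Eh
  fE := X.fE
  eh := fun z => X.eh (X.inc z)
  Ref := X.Ref
  Q := R.Lab
  fQ := R.fLab
  Qat := fun s => Finset.univ.filter fun Q => R.dep Q = X.r + s ∧ R.Desc Q X.Qr ∧ ∃ p ∈ X.Sp, R.labAt (X.r + s) p = Q
  lab := fun s z => R.labAt (X.r + s) (X.inc z)
  bt := fun Q => (R.t0 Q - X.t0) / X.q
  bl := fun Q => R.q Q / X.q
  asg := fun Q => R.asg Q
  ct := X.ct
  cZ := X.cZ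
  cY := X.cY
  ent := X.ent
  entOf := fun s z => X.entOf s (X.inc z)

/-- the parameters of the horizontal record: exponents of `R`, accuracy `e₀`, relative depths `G`, mesh EXPONENTS `Mξ, Mχ, Mϱ`; the meshes are the DYADIC roundings `kbDy (N^(-M))`,
so that `k7bBin c.χ = kbBin (N^(-Mχ))` by `rfl` and all grids are nested -/
def par (R : KsRef KbVer.two) (e0 : ℝ) (G : Finset ℝ) (Mξ Mχ Mϱ : ℝ) : K7bPar where
  N := R.N
  k := R.k
  d := R.d
  S := R.S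
  e0 := e0
  G := G
  ξ := kbDy (R.N ^ (-Mξ))
  χ := kbDy (R.N ^ (-Mχ))
  ϱ := kbDy (R.N ^ (-Mϱ))

end K7bDat

namespace K7bHor

variable (H : K7bHor)

/-- **exit of S1**: the part of `Ok` which does not mention the residual and the entries -/
structure Ok0 (c : K7bPar) (K : ℝ) : Prop where
  mp : Measurable H.p
  mv : Measurable H.v
  mq0 : Measurable H.q0
  my1 : Measurable H.y1
  mSp : MeasurableSet H.Sp
  meh : KsLab H.eh
  mlab : ∀ s ∈ c.G, KsLab (H.lab s)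
  masg : ∀ q, MeasurableSet (H.asg q)
  νle : H.ν Set.univ ≤ 1
  νprob : H.ν Set.univ = 1
  palle : H.pal Set.univ ≤ 1
  dom : H.lam ≤ ENNReal.ofReal K • H.ν.prod k7bTime
  lamres : ∃ Ev0 : Set (H.Lam × ℝ), MeasurableSet Ev0 ∧ H.lam = (H.ν.prod k7bTime).restrict Ev0
  time : ∀ z ∈ H.Sp, z.2 ∈ Set.Icc (0 : ℝ) 1
  bdd : ∀ z ∈ H.Sp, |H.p z.1| ≤ K ∧ |H.v z.1| ≤ K ∧ |H.q0 z.1| ≤ K ∧ |H.y1 z.1| ≤ K
  heq : ∀ z ∈ H.Sp, |H.y1 z.1 + H.p z.1| ≤ c.N ^ (-c.e0)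
  palcap : ∀ x r : ℝ, c.χ ≤ r → r ≤ 1 → H.pal (Set.Icc (x - r) (x + r)) ≤ ENNReal.ofReal (K * r ^ c.S)
  ehdom : KsDom (H.lam.restrict H.Sp) H.eh (H.vT c.χ) (fun _ b => H.pal (k7bIv c.χ b)) H.Ref (ENNReal.ofReal K)
  refsum : ∑ e, H.Ref e ≤ ENNReal.ofReal K
  refQ : ∀ s ∈ c.G, ∀ q ∈ H.Qat s, ∀ F : Finset H.Eh, (∀ e ∈ F, ∃ z ∈ H.Sp, H.eh z = e ∧ H.lab s z = q) →
    ∑ e ∈ F, H.Ref e ≤ ENNReal.ofReal K * H.mQ q
  capQ : ∀ s ∈ c.G, ∀ q ∈ H.Qat s, ∀ C : Set (ℝ × ℝ × ℝ), MeasurableSet C →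
    H.lam (H.Sp ∩ {z | H.base z ∈ C ∧ H.lab s z = q}) ≤ ENNReal.ofReal (K * c.a s ^ c.d) * volume C
  ehlab : ∀ s ∈ c.G, ∀ z ∈ H.Sp, ∀ z' ∈ H.Sp, H.eh z = H.eh z' → H.lab s z = H.lab s z'
  labmem : ∀ s ∈ c.G, ∀ z ∈ H.Sp, H.lab s z ∈ H.Qat s ∧ z.2 ∈ H.blk (H.lab s z) ∧ z.1 ∈ H.asg (H.lab s z)
  bllen : ∀ s ∈ c.G, ∀ q ∈ H.Qat s, c.h s / K ≤ H.bl q ∧ H.bl q ≤ K * c.h s
  blkdisj : ∀ s ∈ c.G, ∀ q ∈ H.Qat s, ∀ q' ∈ H.Qat s, H.blk q = H.blk q' ∨ Disjoint (H.blk q) (H.blk q')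
  dyad : ∀ s ∈ c.G, ∃ lev : ℕ, ∀ q ∈ H.Qat s, H.bl q = (1 / 2 : ℝ) ^ lev ∧ ∃ i : ℕ, H.bt q = (i : ℝ) * (1 / 2 : ℝ) ^ lev
  asgdisj : ∀ s ∈ c.G, ∀ q ∈ H.Qat s, ∀ q' ∈ H.Qat s, q ≠ q' → H.blk q = H.blk q' → Disjoint (H.asg q) (H.asg q')
  νQ : ∀ s ∈ c.G, ∀ q ∈ H.Qat s, ENNReal.ofReal (c.a s ^ c.d * c.h s ^ 3 / K) ≤ H.ν (H.asg q) ∧
    H.ν (H.asg q) ≤ ENNReal.ofReal (K * c.a s ^ c.d * c.h s ^ 3)
  budget : ∀ s ∈ c.G, ∑ q ∈ H.Qat s, H.mQ q ≤ 1
  box : ∀ s ∈ c.G, ∀ q ∈ H.Qat s, ∀ l ∈ H.asg q, ∀ t ∈ H.blk q, H.bs l t ∈ k7bBox (H.ct q) (H.cZ q) (H.cY q) (c.h s) K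
  nest : ∀ s ∈ c.G, ∀ s' ∈ c.G, s ≤ s' → ∀ z ∈ H.Sp, ∀ z' ∈ H.Sp, H.lab s' z = H.lab s' z' → H.lab s z = H.lab s z'
  anc : ∀ s ∈ c.G, ∀ s' ∈ c.G, s ≤ s' → ∀ z ∈ H.Sp, H.asg (H.lab s' z) ⊆ H.asg (H.lab s z) ∧ H.blk (H.lab s' z) ⊆ H.blk (H.lab s z)

/-- **exit of S2** (for `L = 0`): `Ok0` + affine entries -/
structure OkE (c : K7bPar) (K : ℝ) : Prop extends H.Ok0 c K where
  mx0 : Measurable H.x0
  mx1 : Measurable H.x1
  ment : ∀ s ∈ c.G, KsLab (H.entOf s)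
  entcard : ∀ q, ((H.ent q).card : ℝ) ≤ K
  entmem : ∀ s ∈ c.G, ∀ z ∈ H.Sp, H.entOf s z ∈ H.ent (H.lab s z)
  entfit : ∀ s ∈ c.G, ∀ z ∈ H.Sp, ∀ t ∈ H.blk (H.lab s z), |H.Xt z.1 t - k7bAff (H.entOf s z) (H.bs z.1 t)| ≤ K * c.a s

/-- `Ok` = `OkE` + bounded residual + caps + fine point states -/
theorem Ok.ofE {H : K7bHor} {c : K7bPar} {K : ℝ} (h : H.OkE c K)
    (bddx : ∀ z ∈ H.Sp, |H.x0 z.1| ≤ K ∧ |H.x1 z.1| ≤ K)
    (capJ : ∀ (C : ℤ × ℤ × ℤ) (x r : ℝ) (b : ℤ), c.ϱ ≤ r → r ≤ 1 →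
      H.lam (H.Sp ∩ {z | k7bCell c.ξ (H.base z) = C ∧ |H.X z - x| ≤ r ∧ k7bBin c.χ (H.v z.1) = b})
        ≤ ENNReal.ofReal (K * c.ξ ^ 3 * r ^ c.d) * H.pal (k7bIv c.χ b))
    (capP : ∀ (C : Set (ℝ × ℝ × ℝ)) (f : ℝ × ℝ × ℝ → ℝ) (r : ℝ), MeasurableSet C → Measurable f → c.ϱ ≤ r → r ≤ 1 →
      H.lam (H.Sp ∩ {z | H.base z ∈ C ∧ |H.X z - f (H.base z)| ≤ r}) ≤ ENNReal.ofReal (K * r ^ c.d) * volume C)
    (ehpt : ∀ e, ∃ L : Finset ((ℤ × ℤ × ℤ) × ℤ), (L.card : ℝ) ≤ K ∧ ∀ z ∈ H.Sp, H.eh z = e → H.pt c.ξ c.ϱ z ∈ L) :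
    H.Ok c K :=
  { mp := h.mp, mv := h.mv, mq0 := h.mq0, my1 := h.my1, mx0 := h.mx0, mx1 := h.mx1, mSp := h.mSp, meh := h.meh, mlab := h.mlab,
    ment := h.ment, masg := h.masg, νle := h.νle, νprob := h.νprob, palle := h.palle, dom := h.dom, lamres := h.lamres, time := h.time, bdd := h.bdd, bddx := bddx,
    heq := h.heq, palcap := h.palcap, ehdom := h.ehdom, refsum := h.refsum, refQ := h.refQ, capJ := capJ, capP := capP, capQ := h.capQ,
    ehlab := h.ehlab, ehpt := ehpt, labmem := h.labmem, bllen := h.bllen, blkdisj := h.blkdisj, dyad := h.dyad, asgdisj := h.asgdisj, νQ := h.νQ,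
    budget := h.budget, box := h.box, nest := h.nest, anc := h.anc, entcard := h.entcard, entmem := h.entmem, entfit := h.entfit }

end K7bHor

/-- **entry of S1** (07 l.941-955): the true label of depth `r` and the bins of mesh `ξ` of `(t, Z, v)` leave at most `K` bins of width `β` for `Y'`, on the selection `E` -/
def K7bRowList (R : KsRef KbVer.two) (E : Set (R.L × ℝ)) (K β r ξ : ℝ) : Prop :=
  ∃ Lst : R.Lab → ℤ × ℤ × ℤ → Finset ℤ, (∀ Q C, ((Lst Q C).card : ℝ) ≤ K) ∧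
    ∀ p ∈ E, k7bBin β (ksY (R.V p.1)) ∈ Lst (R.labAt r p) (k7bBin ξ p.2, k7bBin ξ (ksZ (R.y p.1 p.2)), k7bBin ξ (ksZ (R.V p.1)))

theorem k7b_link_eqns_cite : True := by
  have := @K7bDat.r.eq_1
  have := @K7bDat.q.eq_1
  have := @K7bDat.t0.eq_1
  have := @K7bDat.tOf.eq_1
  have := @K7bDat.inc.eq_1
  have := @K7bDat.nb.eq_1
  have := @K7bDat.nbs.eq_1
  have := @K7bDat.xh.eq_1
  have := @K7bDat.νf.eq_1
  have := @K7bDat.SpN.eq_1
  have := @K7bDat.hor.eq_1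
  have := @K7bDat.par.eq_1
  have := @K7bRowList.eq_1
  trivial

end

end Claimed.Agent.R252
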