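-- KEEP
import Claimed.Agent.R252.S7b.HorLink
import Claimed.Agent.R252.S8.Defs

/-!
# Row 252, S7b, leaves L-252-S7b-LK1, LK2, LK3  (CONTRACT: sorries)      07 l.1408-1428 + 08 l.15-17: the dictionary `X.hor` ⟷ `R`; candidates of the horizontal problem are time candidates of the tangent problem
PAPER-FREE.  Read `S7b/HorLink.lean` (`K7bDat`, `X.hor`), `State/KsCore.lean` (`KsRef`, `KsTimeCand`), `S8/Defs.lean` (`K8Cand`), `Base/Pb.lean` (`kbY`, `kbW`, `kbX`, `kbDw`, `kbDww`, `KbAdm`, `KbQuad`).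
**LK1** `k7b_link_bs`, `k7b_link_X` : trajectories are affine (`kbY l t = y₀ + t V`; version two: `kbW l t = w₀ + w₁ t`, `Fin.sum_univ_two`), `nb` and `k7bAff` are affine, `tOf` is affine: an affine function of `τ` is determined by its values at `0, 1`.
      `R.q Q = kbQ _ > 0`.
**LK2** `k7b_link_blk`, `k7b_link_mass`, `k7b_link_mQ` : `τ ∈ [bt, bt + bl) ↔ t₀ + q τ ∈ kbI lev iv`;   change of variables `t = t₀ + q τ` in the time integral:
      `R.prior = ν.prod (volume.restrict [0,1])`; for `C ⊆ asg Q_r ×ˢ [0,1]` measurable, `prior {p | (p.1, (p.2 - t₀)/q) ∈ C} = q * (ν.prod volume) C` (`Measure.prod_apply` + `Real.volume_preimage_mul_left`/`measure_preimage_add`; the block of `Q_r` lies in `[0,1]` : `iv_lt`).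
**LK3** `k7b_lift_time` : `P' (t, y, w) := w - k7bAff X.L (X.nb (t, y)) - a_r * k8Ev P (X.nb (t, y))` : quadratic (`KbIsQuad`: give the `KbQuad` coefficients through `ks_poly_quad` of `State/KsLoc.lean`, or expand), `kbDw P' = 1`, `kbDww P' = 0`;
      `Cn' := {p | (p.1, (p.2 - t₀)/q) ∈ Cn}`;  `val` : `R.ev P' l (tOf τ) = a_r (x(τ) - P(bs l τ))`, `a_r a_{s+g} = a_{r+s+g}` (`Real.rpow_add`), `dep q = r + s` (`q ∈ Qat s`);  `mass` : LK2;  `pos` : lower bound `νQ` of `Ok`.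
-/

set_option autoImplicit false

namespace Claimed.Agent.R252

open MeasureTheory
open scoped ENNReal BigOperators

variable {R : KsRef KbVer.two}

theorem k7blk1_q_pos (X : K7bDat R) : 0 < X.q := by
  unfold K7bDat.q KsRef.q kbQ
  positivity

theorem k7blk1_Z (l : R.L) (t : ℝ) : ksZ (R.y l t) = ksZ (R.y l 0) + t * ksZ (R.V l) := by
  simp only [ksZ, KsRef.y, KsRef.V, kbY, kbV, zero_smul, add_zero]
  rfl

theorem k7blk1_Y (l : R.L) (t : ℝ) : ksY (R.y l t) = ksY (R.y l 0) + t * ksY (R.V l) := by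
  simp only [ksY, KsRef.y, KsRef.V, kbY, kbV, zero_smul, add_zero]
  rfl

theorem k7blk1_w (l : R.L) (t : ℝ) : R.w l t = R.w l 0 + t * (R.w l 1 - R.w l 0) := by
  have h : ∀ s : ℝ, R.w l s = (R.co l).2.2 (0 : Fin 2) + (R.co l).2.2 (1 : Fin 2) * s := by
    intro s
    show ∑ i : Fin 2, (R.co l).2.2 i * s ^ (i : ℕ) = _
    rw [Fin.sum_univ_two]
    simp
  rw [h t, h 0, h 1]
  ring

/-- the three components of `nbs` -/
theorem k7blk1_nbs (X : K7bDat R) (l : R.L) (τ : ℝ) : X.nbs l τ =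
    (τ, (X.nbs l 0).2.1 + τ * ksZ (R.V l), (X.nbs l 0).2.2 + τ * ((X.nbs l 1).2.2 - (X.nbs l 0).2.2)) := by
  have hq := (k7blk1_q_pos X).ne'
  unfold K7bDat.nbs K7bDat.nb K7bDat.tOf
  simp only
  rw [k7blk1_Z l (X.t0 + X.q * τ), k7blk1_Z l (X.t0 + X.q * 0), k7blk1_Z l (X.t0 + X.q * 1),
    k7blk1_Y l (X.t0 + X.q * τ), k7blk1_Y l (X.t0 + X.q * 0), k7blk1_Y l (X.t0 + X.q * 1)]
  refine Prod.ext ?_ (Prod.ext ?_ ?_)
  · simp only
    field_simp
    ring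
  · simp only
    field_simp
    ring
  · simp only
    ring

/-- **LK1** -/
theorem k7b_link_bs (X : K7bDat R) (l : R.L) (τ : ℝ) : X.hor.bs l τ = X.nbs l τ := by
  rw [k7blk1_nbs X l τ]
  rfl

theorem k7blk1_aff (L : ℝ × ℝ × ℝ × ℝ) (u0 u1 : ℝ × ℝ × ℝ) (τ : ℝ) :
    k7bAff L (u0.1 + τ * (u1.1 - u0.1), u0.2.1 + τ * (u1.2.1 - u0.2.1), u0.2.2 + τ * (u1.2.2 - u0.2.2))
      = k7bAff L u0 + τ * (k7bAff L u1 - k7bAff L u0) := by
  unfold k7bAff
  ring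

theorem k7blk1_nbs' (X : K7bDat R) (l : R.L) (τ : ℝ) : X.nbs l τ =
    ((X.nbs l 0).1 + τ * ((X.nbs l 1).1 - (X.nbs l 0).1), (X.nbs l 0).2.1 + τ * ((X.nbs l 1).2.1 - (X.nbs l 0).2.1),
      (X.nbs l 0).2.2 + τ * ((X.nbs l 1).2.2 - (X.nbs l 0).2.2)) := by
  have h0 := k7blk1_nbs X l 0
  have h1 := k7blk1_nbs X l 1
  have e0 : (X.nbs l 0).1 = 0 := by rw [h0]
  have e1 : (X.nbs l 1).1 = 1 := by rw [h1]
  have e2 : (X.nbs l 1).2.1 = (X.nbs l 0).2.1 + 1 * ksZ (R.V l) := by rw [h1]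
  rw [e0, e1, e2]
  conv_lhs => rw [k7blk1_nbs X l τ]
  refine Prod.ext ?_ (Prod.ext ?_ rfl)
  · simp
  · simp

/-- **LK1** -/
theorem k7b_link_X (X : K7bDat R) (l : R.L) (τ : ℝ) : X.hor.Xt l τ = X.xh l τ := by
  show X.xh l 0 + τ * (X.xh l 1 - X.xh l 0) = X.xh l τ
  unfold K7bDat.xh
  have hw : R.w l (X.tOf τ) = R.w l (X.tOf 0) + τ * (R.w l (X.tOf 1) - R.w l (X.tOf 0)) := by
    rw [k7blk1_w l (X.tOf τ), k7blk1_w l (X.tOf 0), k7blk1_w l (X.tOf 1)]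
    unfold K7bDat.tOf
    ring
  have ha : k7bAff X.L (X.nbs l τ) = k7bAff X.L (X.nbs l 0) + τ * (k7bAff X.L (X.nbs l 1) - k7bAff X.L (X.nbs l 0)) := by
    conv_lhs => rw [k7blk1_nbs' X l τ]
    exact k7blk1_aff X.L _ _ τ
  rw [hw, ha]
  ring

/-- **LK2** blocks -/
theorem k7b_link_blk (X : K7bDat R) (Q : R.Lab) (τ : ℝ) : τ ∈ X.hor.blk Q ↔ X.tOf τ ∈ R.blk Q := by
  have hq := k7blk1_q_pos X
  show τ ∈ Set.Ico ((R.t0 Q - X.t0) / X.q) ((R.t0 Q - X.t0) / X.q + R.q Q / X.q) ↔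
    X.t0 + X.q * τ ∈ Set.Ico ((R.iv Q : ℝ) * kbQ (R.lev Q)) (((R.iv Q : ℝ) + 1) * kbQ (R.lev Q))
  have e1 : R.t0 Q = (R.iv Q : ℝ) * kbQ (R.lev Q) := rfl
  have e2 : R.q Q = kbQ (R.lev Q) := rfl
  rw [Set.mem_Ico, Set.mem_Ico, ← add_div, div_le_iff₀ hq, lt_div_iff₀ hq, e1, e2]
  constructor
  · rintro ⟨h1, h2⟩
    constructor <;> nlinarith
  · rintro ⟨h1, h2⟩
    constructor <;> nlinarith

/-- the tangent incidences of a set of normalised incidences -/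
def K7bDat.up (X : K7bDat R) (C : Set (R.L × ℝ)) : Set (R.L × ℝ) := {p | (p.1, (p.2 - X.t0) / X.q) ∈ C}

theorem k7b_lift_eqns_cite : True := by
  have := @K7bDat.up.eq_1
  trivial

theorem k7blk2_q_pos (X : K7bDat R) : 0 < X.q := by
  rw [K7bDat.q, KsRef.q, kbQ]; positivity

theorem k7blk2_blk (Q : R.Lab) : R.blk Q = Set.Ico (R.t0 Q) (R.t0 Q + R.q Q) := by
  rw [KsRef.blk, kbI, KsRef.t0, KsRef.q]
  congr 1
  ring
/-- scaling of Lebesgue measure under `t ↦ (t - t₀)/q` -/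
theorem k7blk2_vol (t0 q : ℝ) (hq : 0 < q) (A : Set ℝ) : volume {t : ℝ | (t - t0) / q ∈ A} = ENNReal.ofReal q * volume A := by
  have e : {t : ℝ | (t - t0) / q ∈ A} = (fun t : ℝ => t + (-t0)) ⁻¹' ((fun t : ℝ => q⁻¹ * t) ⁻¹' A) := by
    ext t
    simp only [Set.mem_ofPred_eq, Set.mem_preimage]
    rw [div_eq_inv_mul, sub_eq_add_neg]
  rw [e, measure_preimage_add_right, Real.volume_preimage_mul_left (inv_ne_zero hq.ne'), inv_inv, abs_of_pos hq]
/-- **LK2** masses: tangent mass = `q_r ν(Q_r)` times normalised mass -/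
theorem k7b_link_mass {K : ℝ} (hR : R.Ok K) (X : K7bDat R) (hpos : R.νQ X.Qr ≠ 0) (hsub : X.Sp ⊆ R.inc X.Qr)
    (C : Set (R.L × ℝ)) (hC : MeasurableSet C) (hCs : C ⊆ X.SpN) :
    R.prior (X.up C) = ENNReal.ofReal X.q * R.νQ X.Qr * X.hor.lam C := by
  have := hR.prob
  have hq := k7blk2_q_pos X
  have hfin : R.νQ X.Qr ≠ ⊤ := measure_ne_top _ _
  -- geometry of `C`
  have hmem : ∀ l τ, (l, τ) ∈ C → l ∈ R.asg X.Qr ∧ τ ∈ Set.Ico (0 : ℝ) 1 := by
    intro l τ h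
    have h1 : (l, X.tOf τ) ∈ R.inc X.Qr := hsub (hCs h)
    rw [KsRef.inc, Set.mem_prod, k7blk2_blk] at h1
    refine ⟨h1.1, ?_⟩
    have h2 := h1.2
    simp only [K7bDat.tOf, K7bDat.t0, K7bDat.q, Set.mem_Ico] at h2
    have hq' : 0 < R.q X.Qr := hq
    constructor
    · nlinarith [h2.1]
    · nlinarith [h2.2]
  have ht0 : 0 ≤ X.t0 := by
    rw [K7bDat.t0, KsRef.t0, kbQ]; positivity
  have ht1 : X.t0 + X.q ≤ 1 := by
    rw [K7bDat.t0, K7bDat.q, KsRef.t0, KsRef.q, kbQ]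
    have h1 : ((R.iv X.Qr : ℝ) + 1) ≤ 2 ^ R.lev X.Qr := by exact_mod_cast hR.iv_lt X.Qr
    have h2 : (0 : ℝ) < (1 / 2 : ℝ) ^ R.lev X.Qr := by positivity
    have h3 : (2 : ℝ) ^ R.lev X.Qr * (1 / 2 : ℝ) ^ R.lev X.Qr = 1 := by
      rw [← mul_pow]; norm_num
    nlinarith
  have hupm : MeasurableSet (X.up C) := by
    have : Measurable fun p : R.L × ℝ => (p.1, (p.2 - X.t0) / X.q) :=
      measurable_fst.prodMk ((measurable_snd.sub_const _).div_const _)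
    exact this hC
  -- the left side
  have hL : R.prior (X.up C) = ENNReal.ofReal X.q * ∫⁻ l, volume (Prod.mk l ⁻¹' C) ∂(R.ν) := by
    rw [KsRef.prior, KbPb.tm, Measure.prod_apply hupm, ← lintegral_const_mul' _ _ ENNReal.ofReal_ne_top]
    refine lintegral_congr fun l => ?_
    rw [← k7blk2_vol X.t0 X.q hq, Measure.restrict_apply (measurable_prodMk_left hupm)]
    congr 1
    ext t
    simp only [Set.mem_inter_iff, Set.mem_preimage, K7bDat.up, Set.mem_ofPred_eq, and_iff_left_iff_imp]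
    intro h
    have h1 := (hmem l _ h).2
    rw [Set.mem_Ico, le_div_iff₀ hq, div_lt_iff₀ hq] at h1
    constructor <;> nlinarith [h1.1, h1.2]
  -- the right side
  have hRr : X.hor.lam C = (R.νQ X.Qr)⁻¹ * ∫⁻ l, volume (Prod.mk l ⁻¹' C) ∂(R.ν) := by
    show ((X.νf.prod k7bTime).restrict X.SpN) C = _
    rw [Measure.restrict_apply hC, Set.inter_eq_left.2 hCs, K7bDat.νf, k7bTime, Measure.prod_apply hC, lintegral_smul_measure, smul_eq_mul]
    congr 1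
    rw [← lintegral_indicator (hR.m_asg X.Qr)]
    refine lintegral_congr fun l => ?_
    by_cases hl : l ∈ R.asg X.Qr
    · rw [Set.indicator_of_mem hl, Measure.restrict_apply (measurable_prodMk_left hC)]
      congr 1
      ext τ
      simp only [Set.mem_inter_iff, Set.mem_preimage, and_iff_left_iff_imp]
      intro h
      exact Set.Ico_subset_Icc_self (hmem l τ h).2
    · rw [Set.indicator_of_notMem hl]
      have : Prod.mk l ⁻¹' C = ∅ := by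
        ext τ
        simp only [Set.mem_preimage, Set.mem_empty_iff_false, iff_false]
        exact fun h => hl (hmem l τ h).1
      rw [this, measure_empty]
  rw [hL, hRr, mul_assoc, ← mul_assoc (R.νQ X.Qr), ENNReal.mul_inv_cancel hpos hfin, one_mul]

/-- **LK2** budgets -/
theorem k7b_link_mQ {K : ℝ} (hR : R.Ok K) (X : K7bDat R) (hpos : R.νQ X.Qr ≠ 0) (Q : R.Lab) (hQ : R.Desc Q X.Qr) :
    ENNReal.ofReal X.q * R.νQ X.Qr * X.hor.mQ Q = ENNReal.ofReal (R.q Q) * R.νQ Q := by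
  have := hR.prob
  have hq := k7blk2_q_pos X
  have hfin : R.νQ X.Qr ≠ ⊤ := measure_ne_top _ _
  have e : X.hor.mQ Q = ENNReal.ofReal (R.q Q / X.q) * ((R.νQ X.Qr)⁻¹ * R.νQ Q) := by
    show ENNReal.ofReal (R.q Q / X.q) * X.νf (R.asg Q) = _
    rw [K7bDat.νf, Measure.smul_apply, Measure.restrict_apply (hR.m_asg Q), Set.inter_eq_left.2 hQ.2.1, smul_eq_mul]
    rfl
  rw [e]
  have e2 : ENNReal.ofReal X.q * ENNReal.ofReal (R.q Q / X.q) = ENNReal.ofReal (R.q Q) := by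
    rw [← ENNReal.ofReal_mul hq.le, mul_div_cancel₀ _ hq.ne']
  calc ENNReal.ofReal X.q * R.νQ X.Qr * (ENNReal.ofReal (R.q Q / X.q) * ((R.νQ X.Qr)⁻¹ * R.νQ Q))
      = (ENNReal.ofReal X.q * ENNReal.ofReal (R.q Q / X.q)) * (R.νQ X.Qr * (R.νQ X.Qr)⁻¹) * R.νQ Q := by ring
    _ = _ := by rw [e2, ENNReal.mul_inv_cancel hpos hfin, mul_one]

/-- substitution of polynomials of degree `≤ 1` does not raise the total degree -/
theorem k7blk3_deg_bind {σ τ : Type} (f : σ → MvPolynomial τ ℝ) (hf : ∀ i, (f i).totalDegree ≤ 1) (P : MvPolynomial σ ℝ) :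
    (MvPolynomial.bind₁ f P).totalDegree ≤ P.totalDegree := by
  rw [MvPolynomial.bind₁, MvPolynomial.aeval_def, MvPolynomial.eval₂_eq]
  refine MvPolynomial.totalDegree_finsetSum_le fun d hd => ?_
  refine (MvPolynomial.totalDegree_mul _ _).trans ?_
  have h1 : (algebraMap ℝ (MvPolynomial τ ℝ) (MvPolynomial.coeff d P)).totalDegree = 0 := MvPolynomial.totalDegree_C _
  rw [h1, zero_add]
  refine (MvPolynomial.totalDegree_finsetProd _ _).trans ?_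
  calc ∑ i ∈ d.support, (f i ^ d i).totalDegree ≤ ∑ i ∈ d.support, d i :=
        Finset.sum_le_sum fun i _ => (MvPolynomial.totalDegree_pow _ _).trans (by nlinarith [hf i])
    _ ≤ P.totalDegree := MvPolynomial.le_totalDegree hd

/-- the three normalised base coordinates as polynomials in `(t, Z, Y, w)` -/
noncomputable def k7blk3F0 (X : K7bDat R) : MvPolynomial (Fin (2 + 2)) ℝ :=
  MvPolynomial.C (1 / X.q) * MvPolynomial.X 0 + MvPolynomial.C (-X.t0 / X.q)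
noncomputable def k7blk3F1 (X : K7bDat R) : MvPolynomial (Fin (2 + 2)) ℝ :=
  MvPolynomial.C (1 / X.q) * MvPolynomial.X (Fin.succ (Fin.castSucc (0 : Fin 2))) + MvPolynomial.C (-X.Z0 / X.q)
noncomputable def k7blk3F2 (X : K7bDat R) : MvPolynomial (Fin (2 + 2)) ℝ :=
  MvPolynomial.C X.κ * MvPolynomial.X (Fin.succ (Fin.castSucc (1 : Fin 2))) + (MvPolynomial.C (-X.κ * X.y1) * MvPolynomial.X 0
      + (MvPolynomial.C (-X.κ * X.y2) * MvPolynomial.X (Fin.succ (Fin.castSucc (0 : Fin 2))) + MvPolynomial.C (-X.κ * X.y0)))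
noncomputable def k7blk3F (X : K7bDat R) : Fin 3 → MvPolynomial (Fin (2 + 2)) ℝ := ![k7blk3F0 X, k7blk3F1 X, k7blk3F2 X]

theorem k7blk3_eqns_cite : True := by
  have := @k7blk3F0.eq_1
  have := @k7blk3F1.eq_1
  have := @k7blk3F2.eq_1
  have := @k7blk3F.eq_1
  trivial

theorem k7blk3_F_deg (X : K7bDat R) (i : Fin 3) : (k7blk3F X i).totalDegree ≤ 1 := by
  have hCX : ∀ (a : ℝ) (j : Fin (2 + 2)), (MvPolynomial.C a * MvPolynomial.X j : MvPolynomial (Fin (2 + 2)) ℝ).totalDegree ≤ 1 :=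
    fun a j => ksl18_deg_mul 0 1 (ksl18_deg_C a) (ksl18_deg_X j) le_rfl
  have hC : ∀ a : ℝ, (MvPolynomial.C a : MvPolynomial (Fin (2 + 2)) ℝ).totalDegree ≤ 1 :=
    fun a => (ksl18_deg_C a).trans (by norm_num)
  match i with
  | 0 => exact ksl18_deg_add (hCX _ _) (hC _)
  | 1 => exact ksl18_deg_add (hCX _ _) (hC _)
  | 2 => exact ksl18_deg_add (hCX _ _) (ksl18_deg_add (hCX _ _) (ksl18_deg_add (hCX _ _) (hC _)))

theorem k7blk3_F0_eval (X : K7bDat R) (t : ℝ) (y : Fin 2 → ℝ) (w : ℝ) :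
    MvPolynomial.eval (ksArg t y w) (k7blk3F0 X) = (X.nb (t, y)).1 := by
  have h0 : ksArg t y w 0 = t := ksl18_arg_zero t y w
  unfold k7blk3F0 K7bDat.nb
  simp only [map_add, map_mul, MvPolynomial.eval_C, MvPolynomial.eval_X, h0]
  ring

theorem k7blk3_F1_eval (X : K7bDat R) (t : ℝ) (y : Fin 2 → ℝ) (w : ℝ) :
    MvPolynomial.eval (ksArg t y w) (k7blk3F1 X) = (X.nb (t, y)).2.1 := by
  have h1 : ksArg t y w (Fin.succ (Fin.castSucc (0 : Fin 2))) = y 0 := ksl18_arg_mid t y w 0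
  unfold k7blk3F1 K7bDat.nb ksZ
  simp only [map_add, map_mul, MvPolynomial.eval_C, MvPolynomial.eval_X, h1]
  ring

theorem k7blk3_F2_eval (X : K7bDat R) (t : ℝ) (y : Fin 2 → ℝ) (w : ℝ) :
    MvPolynomial.eval (ksArg t y w) (k7blk3F2 X) = (X.nb (t, y)).2.2 := by
  have h0 : ksArg t y w 0 = t := ksl18_arg_zero t y w
  have h1 : ksArg t y w (Fin.succ (Fin.castSucc (0 : Fin 2))) = y 0 := ksl18_arg_mid t y w 0
  have h2 : ksArg t y w (Fin.succ (Fin.castSucc (1 : Fin 2))) = y 1 := ksl18_arg_mid t y w 1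
  unfold k7blk3F2 K7bDat.nb ksZ ksY
  simp only [map_add, map_mul, MvPolynomial.eval_C, MvPolynomial.eval_X, h0, h1, h2]
  ring

theorem k7blk3_F_eval (X : K7bDat R) (t : ℝ) (y : Fin 2 → ℝ) (w : ℝ) :
    (fun i => MvPolynomial.eval (ksArg t y w) (k7blk3F X i)) = ![(X.nb (t, y)).1, (X.nb (t, y)).2.1, (X.nb (t, y)).2.2] := by
  funext i
  match i with
  | 0 => exact k7blk3_F0_eval X t y w
  | 1 => exact k7blk3_F1_eval X t y w
  | 2 => exact k7blk3_F2_eval X t y w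

/-- the lifted test as a polynomial -/
noncomputable def k7blk3P (X : K7bDat R) (P : MvPolynomial (Fin 3) ℝ) : MvPolynomial (Fin (2 + 2)) ℝ :=
  MvPolynomial.X (Fin.succ (Fin.last 2)) + (MvPolynomial.C (-X.L.1) + (MvPolynomial.C (-X.L.2.1) * k7blk3F0 X
    + (MvPolynomial.C (-X.L.2.2.1) * k7blk3F1 X + (MvPolynomial.C (-X.L.2.2.2) * k7blk3F2 X
    + MvPolynomial.C (-R.a X.r) * MvPolynomial.bind₁ (k7blk3F X) P))))

theorem k7blk3_eqns_cite2 : True := by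
  have := @k7blk3P.eq_1
  trivial

theorem k7blk3_P_deg (X : K7bDat R) (P : MvPolynomial (Fin 3) ℝ) (hP : P.totalDegree ≤ 2) : (k7blk3P X P).totalDegree ≤ 2 := by
  have hF : ∀ (a : ℝ) (i : Fin 3), (MvPolynomial.C a * k7blk3F X i).totalDegree ≤ 2 :=
    fun a i => ksl18_deg_mul 0 1 (ksl18_deg_C a) (k7blk3_F_deg X i) (by norm_num)
  unfold k7blk3P
  refine ksl18_deg_add ((ksl18_deg_X _).trans (by norm_num)) (ksl18_deg_add ((ksl18_deg_C _).trans (by norm_num))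
    (ksl18_deg_add (hF _ 0) (ksl18_deg_add (hF _ 1) (ksl18_deg_add (hF _ 2) ?_))))
  exact ksl18_deg_mul 0 2 (ksl18_deg_C _) ((k7blk3_deg_bind _ (k7blk3_F_deg X) P).trans hP) le_rfl

theorem k7blk3_P_eval (X : K7bDat R) (P : MvPolynomial (Fin 3) ℝ) (t : ℝ) (y : Fin 2 → ℝ) (w : ℝ) :
    MvPolynomial.eval (ksArg t y w) (k7blk3P X P) = w - k7bAff X.L (X.nb (t, y)) - R.a X.r * k8Ev P (X.nb (t, y)) := by
  have hw : ksArg t y w (Fin.succ (Fin.last 2)) = w := ksl18_arg_last t y w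
  have hb : MvPolynomial.eval (ksArg t y w) (MvPolynomial.bind₁ (k7blk3F X) P) = k8Ev P (X.nb (t, y)) := by
    unfold k8Ev
    rw [← k7blk3_F_eval X t y w]
    exact MvPolynomial.eval₂Hom_bind₁ (RingHom.id ℝ) (ksArg t y w) (k7blk3F X) P
  unfold k7blk3P
  simp only [map_add, map_mul, MvPolynomial.eval_C, MvPolynomial.eval_X, hw, k7blk3_F0_eval, k7blk3_F1_eval, k7blk3_F2_eval, hb]
  unfold k7bAff
  ring

/-- the lifted test -/
noncomputable def k7blk3T (X : K7bDat R) (P : MvPolynomial (Fin 3) ℝ) : KbTest KbVer.two :=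
  fun t y w => w - k7bAff X.L (X.nb (t, y)) - R.a X.r * k8Ev P (X.nb (t, y))

theorem k7blk3_eqns_cite3 : True := by
  have := @k7blk3T.eq_1
  trivial

theorem k7blk3_T_quad (X : K7bDat R) (P : MvPolynomial (Fin 3) ℝ) (hP : P.totalDegree ≤ 2) : KbIsQuad (k7blk3T X P) :=
  ksl18_quad_congr (ks_poly_quad (v := KbVer.two) (k7blk3P X P) (k7blk3_P_deg X P hP)) fun t y w => (k7blk3_P_eval X P t y w).symm

theorem k7blk3_T_dw (X : K7bDat R) (P : MvPolynomial (Fin 3) ℝ) (t : ℝ) (y : KbB KbVer.two) (w : ℝ) : kbDw (k7blk3T X P) t y w = 1 := by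
  unfold kbDw k7blk3T
  ring

theorem k7blk3_T_dww (X : K7bDat R) (P : MvPolynomial (Fin 3) ℝ) (t : ℝ) (y : KbB KbVer.two) (w : ℝ) : kbDww (k7blk3T X P) t y w = 0 := by
  unfold kbDww k7blk3T
  ring

theorem k7blk3_tOf (X : K7bDat R) (t : ℝ) : X.tOf ((t - X.t0) / X.q) = t := by
  have hq := (k7blk1_q_pos X).ne'
  unfold K7bDat.tOf
  field_simp
  ring

theorem k7blk3_up_meas (X : K7bDat R) {C : Set (R.L × ℝ)} (hC : MeasurableSet C) : MeasurableSet (X.up C) := by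
  have hm : Measurable fun p : R.L × ℝ => (p.1, (p.2 - X.t0) / X.q) :=
    measurable_fst.prodMk ((measurable_snd.sub_const _).div_const _)
  exact hm hC

/-- the value of the lifted test along a trajectory -/
theorem k7blk3_val (X : K7bDat R) (hN : 0 < R.N) (P : MvPolynomial (Fin 3) ℝ) (l : R.L) (t : ℝ) :
    R.ev (k7blk3T X P) l t = R.a X.r * (X.hor.Xt l ((t - X.t0) / X.q) - k8Ev P (X.hor.bs l ((t - X.t0) / X.q))) := by
  have ha : R.a X.r ≠ 0 := (Real.rpow_pos_of_pos hN _).ne'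
  rw [k7b_link_X, k7b_link_bs]
  unfold K7bDat.xh K7bDat.nbs
  rw [k7blk3_tOf]
  show R.w l t - k7bAff X.L (X.nb (t, R.y l t)) - R.a X.r * k8Ev P (X.nb (t, R.y l t)) = _
  field_simp

/-- **LK3** a candidate of the horizontal problem is a time-improvement candidate of the tangent problem, same gain, same slack -/
theorem k7b_lift_time {K₀ K s g e0 Mξ Mχ Mϱ : ℝ} {G : Finset ℝ} (hR : R.Ok K₀) (X : K7bDat R) (hK : 1 ≤ K) (hpos : R.νQ X.Qr ≠ 0)
    (hsub : X.Sp ⊆ R.inc X.Qr) (hX : X.hor.Ok (K7bDat.par R e0 G Mξ Mχ Mϱ) K) {E : Set (R.L × ℝ)} (hE : X.Sp ⊆ E)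
    {E' : Set (R.L × ℝ)} (hE' : E' ⊆ X.SpN) {q : R.Lab} {P : MvPolynomial (Fin 3) ℝ} {Cn : Set (R.L × ℝ)}
    (hc : K8Cand X.hor (K7bDat.par R e0 G Mξ Mχ Mϱ) K s g E' q P Cn) :
    ∃ P' : KbTest KbVer.two, KsTimeCand R E K g q P' (X.up Cn) := by
  classical
  have hN : 0 < R.N := by linarith [hR.N_ge]
  have hK0 : 0 ≤ K := by linarith
  have hs : s ∈ G := hc.s_mem
  obtain ⟨hdep, hdesc, -⟩ : R.dep q = X.r + s ∧ R.Desc q X.Qr ∧ ∃ p ∈ X.Sp, R.labAt (X.r + s) p = q := by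
    have := hc.q_mem
    exact (Finset.mem_filter.1 this).2
  have hCS : Cn ⊆ X.SpN := hc.sub.trans hE'
  have hmem : ∀ p ∈ X.up Cn, ((p.1, (p.2 - X.t0) / X.q) : R.L × ℝ) ∈ Cn := fun p hp => hp
  have hinc : ∀ p : R.L × ℝ, X.inc (p.1, (p.2 - X.t0) / X.q) = p := by
    intro p
    unfold K7bDat.inc
    rw [k7blk3_tOf]
  refine ⟨k7blk3T X P, ⟨k7blk3_T_quad X P hc.deg, fun h => absurd h (by decide)⟩, ?_, k7blk3_up_meas X hc.meas, ?_, ?_, ?_, ?_, ?_, ?_⟩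
  · -- positivity of the label
    have h1 := (hX.νQ s hs q hc.q_mem).1
    have hpos' : 0 < (K7bDat.par R e0 G Mξ Mχ Mϱ).a s ^ (K7bDat.par R e0 G Mξ Mχ Mϱ).d * (K7bDat.par R e0 G Mξ Mχ Mϱ).h s ^ 3 / K := by
      have a1 : 0 < (K7bDat.par R e0 G Mξ Mχ Mϱ).a s := Real.rpow_pos_of_pos hN _
      have a2 : 0 < (K7bDat.par R e0 G Mξ Mχ Mϱ).h s := Real.rpow_pos_of_pos hN _
      have a3 := Real.rpow_pos_of_pos a1 (K7bDat.par R e0 G Mξ Mχ Mϱ).d
      positivity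
    have h2 : X.νf (R.asg q) ≠ 0 := by
      intro h0
      have h3 : X.hor.ν (X.hor.asg q) = 0 := h0
      rw [h3] at h1
      exact absurd (le_antisymm h1 bot_le) (ENNReal.ofReal_pos.2 hpos').ne'
    intro h0
    apply h2
    unfold K7bDat.νf
    rw [Measure.smul_apply, smul_eq_mul]
    have h4 : (R.ν.restrict (R.asg X.Qr)) (R.asg q) = 0 :=
      le_antisymm ((Measure.restrict_le_self _).trans h0.le) bot_le
    rw [h4, mul_zero]
  · -- inclusion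
    intro p hp
    have h1 := hCS (hmem p hp)
    have h2 : X.inc (p.1, (p.2 - X.t0) / X.q) ∈ X.Sp := h1
    rw [hinc p] at h2
    refine ⟨hE h2, ?_⟩
    have h3 := hX.labmem s hs _ h1
    rw [hc.lab _ (hmem p hp)] at h3
    have h4 : X.tOf ((p.2 - X.t0) / X.q) ∈ R.blk q := (k7b_link_blk X q _).1 h3.2.1
    rw [k7blk3_tOf] at h4
    exact ⟨h3.2.2, h4⟩
  · -- the value
    intro p hp t ht
    have hτ : (t - X.t0) / X.q ∈ X.hor.blk q := by
      rw [k7b_link_blk, k7blk3_tOf]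
      exact ht
    have h1 := hc.fit _ (hmem p hp) _ hτ
    rw [k7blk3_val X hN, abs_mul, abs_of_pos (show 0 < R.a X.r from Real.rpow_pos_of_pos hN _)]
    have e : R.a (R.dep q + g) = R.a X.r * (K7bDat.par R e0 G Mξ Mχ Mϱ).a (s + g) := by
      rw [hdep]
      show R.N ^ (-(X.r + s + g)) = R.N ^ (-X.r) * R.N ^ (-(s + g))
      rw [← Real.rpow_add hN]
      congr 1
      ring
    rw [e]
    have ha : 0 ≤ R.a X.r := (Real.rpow_pos_of_pos hN _).le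
    calc R.a X.r * |X.hor.Xt p.1 ((t - X.t0) / X.q) - k8Ev P (X.hor.bs p.1 ((t - X.t0) / X.q))|
        ≤ R.a X.r * (K * (K7bDat.par R e0 G Mξ Mχ Mϱ).a (s + g)) := mul_le_mul_of_nonneg_left h1 ha
      _ = K * (R.a X.r * (K7bDat.par R e0 G Mξ Mχ Mϱ).a (s + g)) := by ring
  · intro p _ t _
    show |kbDw (k7blk3T X P) t _ _| ≤ K
    rw [k7blk3_T_dw, abs_one]
    exact hK
  · intro t y w
    rw [k7blk3_T_dww, abs_zero, zero_mul]
    exact hK0
  · intro p _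
    show 1 ≤ K * |kbDw (k7blk3T X P) p.2 _ _|
    rw [k7blk3_T_dw, abs_one, mul_one]
    exact hK
  · -- the mass
    have h1 := k7b_link_mass hR X hpos hsub Cn hc.meas hCS
    have h2 := k7b_link_mQ hR X hpos q hdesc
    have h3 := hc.mass
    have hq0 : 0 ≤ R.q q := by
      unfold KsRef.q kbQ
      positivity
    have e : R.a (R.d * g) = (K7bDat.par R e0 G Mξ Mχ Mϱ).N ^ (-((K7bDat.par R e0 G Mξ Mχ Mϱ).d * g)) := rfl
    rw [ENNReal.ofReal_mul hq0, h1, e]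
    calc ENNReal.ofReal (R.q q) * ENNReal.ofReal ((K7bDat.par R e0 G Mξ Mχ Mϱ).N ^ (-((K7bDat.par R e0 G Mξ Mχ Mϱ).d * g))) * R.νQ q
        = (ENNReal.ofReal (R.q q) * R.νQ q) * ENNReal.ofReal ((K7bDat.par R e0 G Mξ Mχ Mϱ).N ^ (-((K7bDat.par R e0 G Mξ Mχ Mϱ).d * g))) := by ring
      _ = ENNReal.ofReal X.q * R.νQ X.Qr *
          (X.hor.mQ q * ENNReal.ofReal ((K7bDat.par R e0 G Mξ Mχ Mϱ).N ^ (-((K7bDat.par R e0 G Mξ Mχ Mϱ).d * g)))) := by rw [← h2]; ring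
      _ ≤ ENNReal.ofReal X.q * R.νQ X.Qr * (ENNReal.ofReal K * X.hor.lam Cn) := mul_le_mul' le_rfl h3
      _ = ENNReal.ofReal K * (ENNReal.ofReal X.q * R.νQ X.Qr * X.hor.lam Cn) := by ring

end Claimed.Agent.R252
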