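-- KEEP
import Claimed.Agent.R252.State.KsTan
import Claimed.Agent.R252.S7b.Lift
import Claimed.Agent.R252.S8.Hubs

/-!
# Row 252, Secs. 7 + 8: COMMON VOCABULARY OF THE EXIT `0 < ℓ < ∞` (one scale, `τ`-language of `State/KsTan.lean` and `S8/Defs.lean`)      (helper95)      DEFINITIONS ONLY
* `R.Sup p G`   the record has AT LEAST the requirement lists `G` (`KsRef.Has` implies it).
* `K7In p G τ N₁ R A E`   the standing hypotheses of a one-scale core for `0 < ℓ`.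
* `K7Cand`, `K7Strip`   candidates at depth `≤ D₀`, gain in `[c₀, C₀]`, slack `K`.
* `K7Model R E r e₀ G' M K`   the prepared horizontal model inside `R` (exit of Secs. 7.4-7.5: `S7b/HubH.lean`, `k7_model_tau`; entry of Sec. 8 + lift: `Top/Fin8.lean`).
The sequence-level assembly (all dichotomies: ruling 29518) is `Top/Fin.lean`, `Top/Fin2.lean`, `Top/Fin8.lean`.   The former one-scale hubs with alternating quantifiers (`K7Local`, `K7HubA`, `K7HubH`, `K8ExitR`, `k7_exit`) are WITHDRAWN.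
-/

set_option autoImplicit false

namespace Claimed.Agent.R252

open MeasureTheory
open scoped ENNReal BigOperators

noncomputable section

/-- the record has at least the required lists -/
structure KsRef.Sup {v : KbVer} (R : KsRef v) (p : KpPrm) (G : KsReq) : Prop where
  prm : R.prm = p
  depths : G.depths ⊆ R.depths
  widths : G.widths ⊆ R.widths
  meshes : G.meshes ⊆ R.meshes
  ord : G.ord ≤ R.ord
  χ : R.χ ≤ R.N ^ (-G.U)

/-- the standing hypotheses of a one-scale local statement for `0 < ℓ` -/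
structure K7In (p : KpPrm) (G : KsReq) (τ N₁ : ℝ) (R : KsRef KbVer.two) (A : R.Par) (E : Set (R.L × ℝ)) : Prop where
  N : N₁ ≤ R.N
  sup : R.Sup p G
  ok : R.Ok (R.N ^ τ)
  tilt : R.Tilt (R.N ^ τ)
  one : R.One A
  cur : KsCur R E (R.N ^ τ)

/-- a time or strip candidate at depth `≤ D₀`, gain in `[c₀, C₀]`, slack `K` -/
def K7Cand (R : KsRef KbVer.two) (E : Set (R.L × ℝ)) (D₀ c₀ C₀ K : ℝ) : Prop :=
  ∃ (Q : R.Lab) (c : ℝ), R.dep Q ≤ D₀ ∧ c₀ ≤ c ∧ c ≤ C₀ ∧ ((∃ P Cn, KsTimeCand R E K c Q P Cn) ∨ ∃ ρ Cn, KsStripCand R E K c Q ρ Cn)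

/-- a strip candidate at depth `≤ D₀`, gain in `[c₀, C₀]`, slack `K` -/
def K7Strip (R : KsRef KbVer.two) (E : Set (R.L × ℝ)) (D₀ c₀ C₀ K : ℝ) : Prop :=
  ∃ (Q : R.Lab) (c : ℝ), R.dep Q ≤ D₀ ∧ c₀ ≤ c ∧ c ≤ C₀ ∧ ∃ ρ Cn, KsStripCand R E K c Q ρ Cn

/-- the horizontal model inside `R`, on a part of `E` : parent of depth `r`, parameters `(e₀, G', M)`, slack `K` -/
def K7Model (R : KsRef KbVer.two) (E : Set (R.L × ℝ)) (r e0 : ℝ) (G' : Finset ℝ) (M : ℝ × ℝ × ℝ) (K : ℝ) : Prop :=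
  ∃ X : K7bDat R, R.dep X.Qr = r ∧ R.νQ X.Qr ≠ 0 ∧ X.Sp ⊆ E ∩ R.inc X.Qr ∧ X.hor.Ok (K7bDat.par R e0 G' M.1 M.2.1 M.2.2) K ∧
    X.hor.Res X.hor.Sp (1 / K)

theorem k7_exit_eqns_cite : True := by
  have := @K7Cand.eq_1
  have := @K7Strip.eq_1
  have := @K7Model.eq_1
  trivial

end

end Claimed.Agent.R252
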