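-- KEEP
import Claimed.Agent.R252.S7b.HorGrp

/-!
# Row 252, S7b, leaf L-252-S7b-4B  (CONTRACT: one sorry)      07 l.1385-1388: affine Remez on a centred horizontal box
PAPER-FREE, Mathlib + `k7bBox` (`CoreA.lean`) + `k7bAff` (`HorDefs.lean`).   `W` is ANY set (outer measure).   `volume` on `ℝ × ℝ × ℝ` is the product measure.
PLAN (triangular, no change of variables).  Write `k7bAff L u = c₀ + c₁ t̂ + c₂ Ẑ + c₃ Ŷ`, `t̂ = (t - tc)/h`, `Ẑ = (Z - Zc)/h`, `Ŷ = (Y - Yc - (-Zc (t - tc) + tc (Z - Zc)))/h²`  (`|t̂|, |Ẑ|, |Ŷ| ≤ ρ` on the box).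
(1) `W ⊆ {u ∈ box | |aff| ≤ M}`; for fixed `(t, Z)` the `Y`-section is an interval of length `≤ 2 M h² / |c₃|`; Fubini (`Measure.prod_apply`, the set is closed hence measurable): `θ h⁴ ≤ (2ρh)² 2 M h² / |c₃|`, so `|c₃| ≤ 8 ρ² M / θ`.
(2) on `W` : `|c₀ + c₁ t̂ + c₂ Ẑ| ≤ M₂ := M + ρ |c₃|`; the same with the `Z`-sections: `|c₂| ≤ 8 ρ² M₂ / θ`.   (3) `|c₀ + c₁ t̂| ≤ M₃ := M₂ + ρ |c₂|`, `|c₁| ≤ 8 ρ² M₃ / θ`, `|c₀| ≤ M₃ + ρ |c₁|`.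
With `B = 1 + 8 ρ³ / θ` : `M₂ ≤ B M`, `M₃ ≤ B² M`, `|c₀|, |c_i| ≤ B³ M`; on the `R`-box `|aff| ≤ (1 + 3 R) B³ M ≤ 4 R B³ M`.      (Alternative: `rmz_mv` of `R252/Remez/Mv.lean` with `n = 3`, `d = 1` after a shear.)
-/

set_option autoImplicit false

namespace Claimed.Agent.R252

open MeasureTheory
open scoped ENNReal

theorem k7b4b_vol1 (α g r : ℝ) (hα : α ≠ 0) : volume {x : ℝ | |α * x + g| ≤ r} ≤ ENNReal.ofReal (2 * r / |α|) := by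
  have hsub : {x : ℝ | |α * x + g| ≤ r} ⊆ Metric.closedBall (-g / α) (r / |α|) := by
    intro x hx
    rw [Metric.mem_closedBall, Real.dist_eq, le_div_iff₀ (abs_pos.2 hα), ← abs_mul]
    have : (x - -g / α) * α = α * x + g := by
      field_simp
      ring
    rw [this]
    exact hx
  refine (measure_mono hsub).trans ?_
  rw [Real.volume_closedBall]
  apply le_of_eq
  congr 1
  ring

theorem k7b4b_vol2 (α₂ α₃ g₂ r₂ r₃ : ℝ) (g₃ : ℝ → ℝ) (h2 : α₂ ≠ 0) (h3 : α₃ ≠ 0) (hg₃ : Continuous g₃) :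
    volume {q : ℝ × ℝ | |α₂ * q.1 + g₂| ≤ r₂ ∧ |α₃ * q.2 + g₃ q.1| ≤ r₃} ≤
      ENNReal.ofReal (2 * r₂ / |α₂|) * ENNReal.ofReal (2 * r₃ / |α₃|) := by
  have hA : MeasurableSet {q : ℝ × ℝ | |α₂ * q.1 + g₂| ≤ r₂ ∧ |α₃ * q.2 + g₃ q.1| ≤ r₃} := by
    have c1 : Continuous fun q : ℝ × ℝ => |α₂ * q.1 + g₂| := by fun_prop
    have c2 : Continuous fun q : ℝ × ℝ => |α₃ * q.2 + g₃ q.1| := by fun_prop
    exact ((isClosed_le c1 continuous_const).inter (isClosed_le c2 continuous_const)).measurableSet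
  have hI : MeasurableSet {x : ℝ | |α₂ * x + g₂| ≤ r₂} := by
    have c1 : Continuous fun x : ℝ => |α₂ * x + g₂| := by fun_prop
    exact (isClosed_le c1 continuous_const).measurableSet
  rw [Measure.volume_eq_prod, Measure.prod_apply hA]
  calc ∫⁻ x : ℝ, volume (Prod.mk x ⁻¹' {q : ℝ × ℝ | |α₂ * q.1 + g₂| ≤ r₂ ∧ |α₃ * q.2 + g₃ q.1| ≤ r₃})
      ≤ ∫⁻ x : ℝ, {x : ℝ | |α₂ * x + g₂| ≤ r₂}.indicator (fun _ => ENNReal.ofReal (2 * r₃ / |α₃|)) x := by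
        refine lintegral_mono fun x => ?_
        by_cases hx : |α₂ * x + g₂| ≤ r₂
        · rw [Set.indicator_of_mem (show x ∈ {x : ℝ | |α₂ * x + g₂| ≤ r₂} from hx)]
          refine (measure_mono ?_).trans (k7b4b_vol1 α₃ (g₃ x) r₃ h3)
          intro y hy
          exact hy.2
        · have : Prod.mk x ⁻¹' {q : ℝ × ℝ | |α₂ * q.1 + g₂| ≤ r₂ ∧ |α₃ * q.2 + g₃ q.1| ≤ r₃} = ∅ := by
            ext y
            simp only [Set.mem_preimage, Set.mem_ofPred_eq, Set.mem_empty_iff_false, iff_false]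
            exact fun h => hx h.1
          rw [this, measure_empty]
          exact zero_le
    _ = ENNReal.ofReal (2 * r₃ / |α₃|) * volume {x : ℝ | |α₂ * x + g₂| ≤ r₂} := by
        rw [lintegral_indicator hI, setLIntegral_const]
    _ ≤ ENNReal.ofReal (2 * r₃ / |α₃|) * ENNReal.ofReal (2 * r₂ / |α₂|) := mul_le_mul_right (k7b4b_vol1 α₂ g₂ r₂ h2) _
    _ = _ := mul_comm _ _

theorem k7b4b_vol3 (α₁ α₂ α₃ g₁ r₁ r₂ r₃ : ℝ) (g₂ : ℝ → ℝ) (g₃ : ℝ → ℝ → ℝ) (h1 : α₁ ≠ 0) (h2 : α₂ ≠ 0) (h3 : α₃ ≠ 0)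
    (hg₂ : Continuous g₂) (hg₃ : Continuous fun q : ℝ × ℝ => g₃ q.1 q.2) :
    volume {u : ℝ × ℝ × ℝ | |α₁ * u.1 + g₁| ≤ r₁ ∧ |α₂ * u.2.1 + g₂ u.1| ≤ r₂ ∧ |α₃ * u.2.2 + g₃ u.1 u.2.1| ≤ r₃} ≤
      ENNReal.ofReal (2 * r₁ / |α₁|) * (ENNReal.ofReal (2 * r₂ / |α₂|) * ENNReal.ofReal (2 * r₃ / |α₃|)) := by
  have hA : MeasurableSet {u : ℝ × ℝ × ℝ | |α₁ * u.1 + g₁| ≤ r₁ ∧ |α₂ * u.2.1 + g₂ u.1| ≤ r₂ ∧
      |α₃ * u.2.2 + g₃ u.1 u.2.1| ≤ r₃} := by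
    have c1 : Continuous fun u : ℝ × ℝ × ℝ => |α₁ * u.1 + g₁| := by fun_prop
    have c2 : Continuous fun u : ℝ × ℝ × ℝ => |α₂ * u.2.1 + g₂ u.1| := by fun_prop
    have c3' : Continuous fun u : ℝ × ℝ × ℝ => g₃ u.1 u.2.1 :=
      hg₃.comp (continuous_fst.prodMk (continuous_fst.comp continuous_snd))
    have c3 : Continuous fun u : ℝ × ℝ × ℝ => |α₃ * u.2.2 + g₃ u.1 u.2.1| := by fun_prop
    exact ((isClosed_le c1 continuous_const).inter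
      ((isClosed_le c2 continuous_const).inter (isClosed_le c3 continuous_const))).measurableSet
  have hI : MeasurableSet {x : ℝ | |α₁ * x + g₁| ≤ r₁} := by
    have c1 : Continuous fun x : ℝ => |α₁ * x + g₁| := by fun_prop
    exact (isClosed_le c1 continuous_const).measurableSet
  rw [Measure.volume_eq_prod, Measure.prod_apply hA]
  calc ∫⁻ x : ℝ, volume (Prod.mk x ⁻¹' {u : ℝ × ℝ × ℝ | |α₁ * u.1 + g₁| ≤ r₁ ∧ |α₂ * u.2.1 + g₂ u.1| ≤ r₂ ∧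
        |α₃ * u.2.2 + g₃ u.1 u.2.1| ≤ r₃})
      ≤ ∫⁻ x : ℝ, {x : ℝ | |α₁ * x + g₁| ≤ r₁}.indicator
          (fun _ => ENNReal.ofReal (2 * r₂ / |α₂|) * ENNReal.ofReal (2 * r₃ / |α₃|)) x := by
        refine lintegral_mono fun x => ?_
        by_cases hx : |α₁ * x + g₁| ≤ r₁
        · rw [Set.indicator_of_mem (show x ∈ {x : ℝ | |α₁ * x + g₁| ≤ r₁} from hx)]
          refine (measure_mono ?_).trans (k7b4b_vol2 α₂ α₃ (g₂ x) r₂ r₃ (g₃ x) h2 h3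
            (hg₃.comp (continuous_const.prodMk continuous_id)))
          intro y hy
          exact hy.2
        · have : Prod.mk x ⁻¹' {u : ℝ × ℝ × ℝ | |α₁ * u.1 + g₁| ≤ r₁ ∧ |α₂ * u.2.1 + g₂ u.1| ≤ r₂ ∧
              |α₃ * u.2.2 + g₃ u.1 u.2.1| ≤ r₃} = ∅ := by
            ext y
            simp only [Set.mem_preimage, Set.mem_ofPred_eq, Set.mem_empty_iff_false, iff_false]
            exact fun h => hx h.1
          rw [this, measure_empty]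
          exact zero_le
    _ = ENNReal.ofReal (2 * r₂ / |α₂|) * ENNReal.ofReal (2 * r₃ / |α₃|) * volume {x : ℝ | |α₁ * x + g₁| ≤ r₁} := by
        rw [lintegral_indicator hI, setLIntegral_const]
    _ ≤ ENNReal.ofReal (2 * r₂ / |α₂|) * ENNReal.ofReal (2 * r₃ / |α₃|) * ENNReal.ofReal (2 * r₁ / |α₁|) :=
        mul_le_mul_right (k7b4b_vol1 α₁ g₁ r₁ h1) _
    _ = _ := mul_comm _ _

theorem k7b4b_step {W : Set (ℝ × ℝ × ℝ)} {v : ℝ} (hvol : ENNReal.ofReal v ≤ volume W)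
    (α₁ α₂ α₃ g₁ r₁ r₂ r₃ : ℝ) (g₂ : ℝ → ℝ) (g₃ : ℝ → ℝ → ℝ) (h1 : α₁ ≠ 0) (h2 : α₂ ≠ 0) (h3 : α₃ ≠ 0)
    (hg₂ : Continuous g₂) (hg₃ : Continuous fun q : ℝ × ℝ => g₃ q.1 q.2) (hr₁ : 0 ≤ r₁) (hr₂ : 0 ≤ r₂) (hr₃ : 0 ≤ r₃)
    (hsub : ∀ u ∈ W, |α₁ * u.1 + g₁| ≤ r₁ ∧ |α₂ * u.2.1 + g₂ u.1| ≤ r₂ ∧ |α₃ * u.2.2 + g₃ u.1 u.2.1| ≤ r₃) :
    v ≤ 2 * r₁ / |α₁| * (2 * r₂ / |α₂| * (2 * r₃ / |α₃|)) := by
  have h := hvol.trans ((measure_mono (fun u hu => hsub u hu)).trans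
    (k7b4b_vol3 α₁ α₂ α₃ g₁ r₁ r₂ r₃ g₂ g₃ h1 h2 h3 hg₂ hg₃))
  rw [← ENNReal.ofReal_mul (by positivity), ← ENNReal.ofReal_mul (by positivity)] at h
  exact (ENNReal.ofReal_le_ofReal_iff (by positivity)).1 h

/-- the bookkeeping of the constants -/
theorem k7b4b_alg {θ ρ M R c C₁ C₂ C₃ : ℝ} (hθ : 0 < θ) (hρ : 1 ≤ ρ) (hR : 1 ≤ R) (hM0 : 0 ≤ M)
    (hC₁0 : 0 ≤ C₁) (hC₂0 : 0 ≤ C₂) (hC₃0 : 0 ≤ C₃)
    (s1 : θ * C₃ ≤ 8 * ρ ^ 2 * M) (s2 : θ * C₂ ≤ 8 * ρ ^ 2 * (M + ρ * C₃))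
    (s3 : θ * C₁ ≤ 8 * ρ ^ 2 * (M + ρ * C₃ + ρ * C₂)) (s0 : c ≤ M + ρ * C₃ + ρ * C₂ + ρ * C₁) :
    c + R * C₁ + R * C₂ + R * C₃ ≤ 4 * R * (1 + 8 * ρ ^ 3 / θ) ^ 3 * M := by
  have hρ0 : 0 < ρ := by linarith
  obtain ⟨β, hβ⟩ : ∃ β : ℝ, β = 8 * ρ ^ 3 / θ := ⟨_, rfl⟩
  have hβ0 : 0 ≤ β := by rw [hβ]; positivity
  rw [← hβ]
  have key : ∀ C m : ℝ, θ * C ≤ 8 * ρ ^ 2 * m → ρ * C ≤ β * m := by
    intro C m hCm
    rw [hβ, div_mul_eq_mul_div, le_div_iff₀ hθ]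
    have := mul_le_mul_of_nonneg_left hCm hρ0.le
    calc ρ * C * θ = ρ * (θ * C) := by ring
      _ ≤ ρ * (8 * ρ ^ 2 * m) := this
      _ = 8 * ρ ^ 3 * m := by ring
  obtain ⟨M₂, hM₂⟩ : ∃ M₂ : ℝ, M₂ = M + ρ * C₃ := ⟨_, rfl⟩
  obtain ⟨M₃, hM₃⟩ : ∃ M₃ : ℝ, M₃ = M₂ + ρ * C₂ := ⟨_, rfl⟩
  rw [← hM₂] at s2 s3 s0
  rw [← hM₃] at s3 s0
  have k1 := key C₁ M₃ s3
  have k2 := key C₂ M₂ s2
  have k3 := key C₃ M s1
  have hB : 0 ≤ 1 + β := by linarith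
  have m2 : M₂ ≤ (1 + β) * M := by rw [hM₂]; linarith
  have m3' : M₃ ≤ (1 + β) * M₂ := by rw [hM₃]; linarith
  have m3 : M₃ ≤ (1 + β) ^ 2 * M := by
    have h2 : (1 + β) * M₂ ≤ (1 + β) * ((1 + β) * M) := mul_le_mul_of_nonneg_left m2 hB
    calc M₃ ≤ (1 + β) * M₂ := m3'
      _ ≤ (1 + β) * ((1 + β) * M) := h2
      _ = (1 + β) ^ 2 * M := by ring
  have hB3 : (1 + β) * M₃ ≤ (1 + β) ^ 3 * M := by
    have h2 : (1 + β) * M₃ ≤ (1 + β) * ((1 + β) ^ 2 * M) := mul_le_mul_of_nonneg_left m3 hB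
    calc (1 + β) * M₃ ≤ (1 + β) * ((1 + β) ^ 2 * M) := h2
      _ = (1 + β) ^ 3 * M := by ring
  obtain ⟨P, hP⟩ : ∃ P : ℝ, P = (1 + β) ^ 3 * M := ⟨_, rfl⟩
  rw [← hP] at hB3
  have hP0 : 0 ≤ P := by rw [hP]; positivity
  have hM₂0 : 0 ≤ M₂ := by rw [hM₂]; positivity
  have hM₃0 : 0 ≤ M₃ := by rw [hM₃]; positivity
  have q1 : C₁ ≤ ρ * C₁ := le_mul_of_one_le_left hC₁0 hρ
  have q2 : C₂ ≤ ρ * C₂ := le_mul_of_one_le_left hC₂0 hρ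
  have q3 : C₃ ≤ ρ * C₃ := le_mul_of_one_le_left hC₃0 hρ
  have q4 : 0 ≤ β * M₃ := by positivity
  have e0 : c ≤ P := by linarith
  have e1 : C₁ ≤ P := by linarith
  have e2 : C₂ ≤ P := by
    have h3 : C₂ ≤ M₃ := by rw [hM₃]; linarith
    linarith
  have e3 : C₃ ≤ P := by
    have h3 : C₃ ≤ M₂ := by rw [hM₂]; linarith
    have h4 : M₂ ≤ M₃ := by
      rw [hM₃]
      have : 0 ≤ ρ * C₂ := by positivity
      linarith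
    linarith
  have hR0 : 0 ≤ R := by linarith
  have r1 := mul_le_mul_of_nonneg_left e1 hR0
  have r2 := mul_le_mul_of_nonneg_left e2 hR0
  have r3 := mul_le_mul_of_nonneg_left e3 hR0
  have r0 : P ≤ R * P := le_mul_of_one_le_left hP0 hR
  calc c + R * C₁ + R * C₂ + R * C₃ ≤ 4 * (R * P) := by linarith
    _ = 4 * R * (1 + β) ^ 3 * M := by rw [hP]; ring

/-- removing one term -/
theorem k7b4b_drop {x y a m r b : ℝ} (h1 : |x + a * y| ≤ m) (hy : |y| ≤ r * b) : |x| ≤ m + r * (|a| * b) := by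
  have h2 : |a * y| ≤ |a| * (r * b) := by
    rw [abs_mul]
    exact mul_le_mul_of_nonneg_left hy (abs_nonneg _)
  have h3 : |x| ≤ |x + a * y| + |a * y| := by
    have := abs_sub (x + a * y) (a * y)
    rwa [add_sub_cancel_right] at this
  have e : |a| * (r * b) = r * (|a| * b) := by ring
  linarith

theorem k7b4b_s1 {tc Zc h ρ θ M : ℝ} (hh : 0 < h) (hρ0 : 0 < ρ) (hM0 : 0 ≤ M) (L0 L1 L2 L3 : ℝ) (W : Set (ℝ × ℝ × ℝ))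
    (hvol : ENNReal.ofReal (θ * h ^ 4) ≤ volume W)
    (hb : ∀ u ∈ W, |u.1 - tc| ≤ ρ * h ∧ |u.2.1 - Zc| ≤ ρ * h ∧ |L0 + L1 * u.1 + L2 * u.2.1 + L3 * u.2.2| ≤ M) :
    θ * (|L3| * h ^ 2) ≤ 8 * ρ ^ 2 * M := by
  by_cases h3 : L3 = 0
  · rw [h3, abs_zero, zero_mul, mul_zero]
    positivity
  · have hs := k7b4b_step hvol 1 1 L3 (-tc) (ρ * h) (ρ * h) M (fun _ => -Zc) (fun t Z => L0 + L1 * t + L2 * Z)
      one_ne_zero one_ne_zero h3 continuous_const (by fun_prop) (by positivity) (by positivity) hM0 (by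
        intro u hu
        obtain ⟨b1, b2, b3⟩ := hb u hu
        refine ⟨by rw [one_mul, ← sub_eq_add_neg]; exact b1, by rw [one_mul, ← sub_eq_add_neg]; exact b2, ?_⟩
        have e : L3 * u.2.2 + (L0 + L1 * u.1 + L2 * u.2.1) = L0 + L1 * u.1 + L2 * u.2.1 + L3 * u.2.2 := by ring
        rw [e]
        exact b3)
    have hp : 0 < |L3| := abs_pos.2 h3
    simp only [abs_one, div_one] at hs
    have e : 2 * (ρ * h) * (2 * (ρ * h) * (2 * M / |L3|)) = 8 * ρ ^ 2 * h ^ 2 * M / |L3| := by ring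
    rw [e, le_div_iff₀ hp] at hs
    have : h ^ 2 * (θ * (|L3| * h ^ 2)) ≤ h ^ 2 * (8 * ρ ^ 2 * M) := by
      calc h ^ 2 * (θ * (|L3| * h ^ 2)) = θ * h ^ 4 * |L3| := by ring
        _ ≤ 8 * ρ ^ 2 * h ^ 2 * M := hs
        _ = h ^ 2 * (8 * ρ ^ 2 * M) := by ring
    exact le_of_mul_le_mul_left this (by positivity)

theorem k7b4b_s2 {tc Zc Yc h ρ θ M₂ : ℝ} (hh : 0 < h) (hρ0 : 0 < ρ) (hM₂0 : 0 ≤ M₂) (c₀ a₁ a₂ : ℝ) (W : Set (ℝ × ℝ × ℝ))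
    (hvol : ENNReal.ofReal (θ * h ^ 4) ≤ volume W)
    (hb : ∀ u ∈ W, |u.1 - tc| ≤ ρ * h ∧ |c₀ + a₁ * (u.1 - tc) + a₂ * (u.2.1 - Zc)| ≤ M₂ ∧
      |u.2.2 - Yc - (-Zc * (u.1 - tc) + tc * (u.2.1 - Zc))| ≤ ρ * h ^ 2) :
    θ * (|a₂| * h) ≤ 8 * ρ ^ 2 * M₂ := by
  by_cases h2 : a₂ = 0
  · rw [h2, abs_zero, zero_mul, mul_zero]
    positivity
  · have hs := k7b4b_step hvol 1 a₂ 1 (-tc) (ρ * h) M₂ (ρ * h ^ 2) (fun t => c₀ + a₁ * (t - tc) - a₂ * Zc)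
      (fun t Z => -Yc - (-Zc * (t - tc) + tc * (Z - Zc)))
      one_ne_zero h2 one_ne_zero (by fun_prop) (by fun_prop) (by positivity) hM₂0 (by positivity) (by
        intro u hu
        obtain ⟨b1, b2, b3⟩ := hb u hu
        refine ⟨by rw [one_mul, ← sub_eq_add_neg]; exact b1, ?_, ?_⟩
        · have e : a₂ * u.2.1 + (c₀ + a₁ * (u.1 - tc) - a₂ * Zc) = c₀ + a₁ * (u.1 - tc) + a₂ * (u.2.1 - Zc) := by ring
          rw [e]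
          exact b2
        · have e : 1 * u.2.2 + (-Yc - (-Zc * (u.1 - tc) + tc * (u.2.1 - Zc))) =
              u.2.2 - Yc - (-Zc * (u.1 - tc) + tc * (u.2.1 - Zc)) := by ring
          rw [e]
          exact b3)
    have hp : 0 < |a₂| := abs_pos.2 h2
    simp only [abs_one, div_one] at hs
    have e : 2 * (ρ * h) * (2 * M₂ / |a₂| * (2 * (ρ * h ^ 2))) = 8 * ρ ^ 2 * h ^ 3 * M₂ / |a₂| := by ring
    rw [e, le_div_iff₀ hp] at hs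
    have : h ^ 3 * (θ * (|a₂| * h)) ≤ h ^ 3 * (8 * ρ ^ 2 * M₂) := by
      calc h ^ 3 * (θ * (|a₂| * h)) = θ * h ^ 4 * |a₂| := by ring
        _ ≤ 8 * ρ ^ 2 * h ^ 3 * M₂ := hs
        _ = h ^ 3 * (8 * ρ ^ 2 * M₂) := by ring
    exact le_of_mul_le_mul_left this (by positivity)

theorem k7b4b_s3 {tc Zc Yc h ρ θ M₃ : ℝ} (hh : 0 < h) (hρ0 : 0 < ρ) (hM₃0 : 0 ≤ M₃) (c₀ a₁ : ℝ) (W : Set (ℝ × ℝ × ℝ))
    (hvol : ENNReal.ofReal (θ * h ^ 4) ≤ volume W)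
    (hb : ∀ u ∈ W, |c₀ + a₁ * (u.1 - tc)| ≤ M₃ ∧ |u.2.1 - Zc| ≤ ρ * h ∧
      |u.2.2 - Yc - (-Zc * (u.1 - tc) + tc * (u.2.1 - Zc))| ≤ ρ * h ^ 2) :
    θ * (|a₁| * h) ≤ 8 * ρ ^ 2 * M₃ := by
  by_cases h1 : a₁ = 0
  · rw [h1, abs_zero, zero_mul, mul_zero]
    positivity
  · have hs := k7b4b_step hvol a₁ 1 1 (c₀ - a₁ * tc) M₃ (ρ * h) (ρ * h ^ 2) (fun _ => -Zc)
      (fun t Z => -Yc - (-Zc * (t - tc) + tc * (Z - Zc)))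
      h1 one_ne_zero one_ne_zero continuous_const (by fun_prop) hM₃0 (by positivity) (by positivity) (by
        intro u hu
        obtain ⟨b1, bZ, bY⟩ := hb u hu
        refine ⟨?_, by rw [one_mul, ← sub_eq_add_neg]; exact bZ, ?_⟩
        · have e : a₁ * u.1 + (c₀ - a₁ * tc) = c₀ + a₁ * (u.1 - tc) := by ring
          rw [e]
          exact b1
        · have e : 1 * u.2.2 + (-Yc - (-Zc * (u.1 - tc) + tc * (u.2.1 - Zc))) =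
              u.2.2 - Yc - (-Zc * (u.1 - tc) + tc * (u.2.1 - Zc)) := by ring
          rw [e]
          exact bY)
    have hp : 0 < |a₁| := abs_pos.2 h1
    simp only [abs_one, div_one] at hs
    have e : 2 * M₃ / |a₁| * (2 * (ρ * h) * (2 * (ρ * h ^ 2))) = 8 * ρ ^ 2 * h ^ 3 * M₃ / |a₁| := by ring
    rw [e, le_div_iff₀ hp] at hs
    have : h ^ 3 * (θ * (|a₁| * h)) ≤ h ^ 3 * (8 * ρ ^ 2 * M₃) := by
      calc h ^ 3 * (θ * (|a₁| * h)) = θ * h ^ 4 * |a₁| := by ring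
        _ ≤ 8 * ρ ^ 2 * h ^ 3 * M₃ := hs
        _ = h ^ 3 * (8 * ρ ^ 2 * M₃) := by ring
    exact le_of_mul_le_mul_left this (by positivity)

theorem k7b_affine_remez {tc Zc Yc h ρ θ M R : ℝ} (hh : 0 < h) (hρ : 1 ≤ ρ) (hθ : 0 < θ) (hR : 1 ≤ R)
    (L : ℝ × ℝ × ℝ × ℝ) (W : Set (ℝ × ℝ × ℝ)) (hW : W ⊆ k7bBox tc Zc Yc h ρ)
    (hvol : ENNReal.ofReal (θ * h ^ 4) ≤ volume W) (hM : ∀ u ∈ W, |k7bAff L u| ≤ M) :
    ∀ u ∈ k7bBox tc Zc Yc h R, |k7bAff L u| ≤ 4 * R * (1 + 8 * ρ ^ 3 / θ) ^ 3 * M := by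
  obtain ⟨L0, L1, L2, L3⟩ := L
  obtain ⟨a₁, ha₁⟩ : ∃ a₁ : ℝ, a₁ = L1 - L3 * Zc := ⟨_, rfl⟩
  obtain ⟨a₂, ha₂⟩ : ∃ a₂ : ℝ, a₂ = L2 + L3 * tc := ⟨_, rfl⟩
  obtain ⟨c₀, hc₀⟩ : ∃ c₀ : ℝ, c₀ = L0 + L1 * tc + L2 * Zc + L3 * Yc := ⟨_, rfl⟩
  have haff : ∀ u : ℝ × ℝ × ℝ, k7bAff (L0, L1, L2, L3) u = c₀ + a₁ * (u.1 - tc) + a₂ * (u.2.1 - Zc) +
      L3 * (u.2.2 - Yc - (-Zc * (u.1 - tc) + tc * (u.2.1 - Zc))) := by
    intro u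
    unfold k7bAff
    rw [hc₀, ha₁, ha₂]
    ring
  have hρ0 : 0 < ρ := by linarith
  have hWne : W.Nonempty := by
    by_contra hne
    rw [Set.not_nonempty_iff_eq_empty] at hne
    rw [hne, measure_empty] at hvol
    have : 0 < ENNReal.ofReal (θ * h ^ 4) := ENNReal.ofReal_pos.2 (by positivity)
    exact absurd hvol (not_le.2 this)
  obtain ⟨u₀, hu₀⟩ := hWne
  have hM0 : 0 ≤ M := (abs_nonneg _).trans (hM u₀ hu₀)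
  have hbox : ∀ u ∈ W, |u.1 - tc| ≤ ρ * h ∧ |u.2.1 - Zc| ≤ ρ * h ∧
      |u.2.2 - Yc - (-Zc * (u.1 - tc) + tc * (u.2.1 - Zc))| ≤ ρ * h ^ 2 := fun u hu => hW hu
  have s1 : θ * (|L3| * h ^ 2) ≤ 8 * ρ ^ 2 * M :=
    k7b4b_s1 hh hρ0 hM0 L0 L1 L2 L3 W hvol fun u hu => ⟨(hbox u hu).1, (hbox u hu).2.1, hM u hu⟩
  have b2 : ∀ u ∈ W, |c₀ + a₁ * (u.1 - tc) + a₂ * (u.2.1 - Zc)| ≤ M + ρ * (|L3| * h ^ 2) := by
    intro u hu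
    have h1 := hM u hu
    rw [haff u] at h1
    exact k7b4b_drop h1 (hbox u hu).2.2
  have s2 : θ * (|a₂| * h) ≤ 8 * ρ ^ 2 * (M + ρ * (|L3| * h ^ 2)) :=
    k7b4b_s2 hh hρ0 (by positivity) c₀ a₁ a₂ W hvol fun u hu => ⟨(hbox u hu).1, b2 u hu, (hbox u hu).2.2⟩
  have b3 : ∀ u ∈ W, |c₀ + a₁ * (u.1 - tc)| ≤ M + ρ * (|L3| * h ^ 2) + ρ * (|a₂| * h) :=
    fun u hu => k7b4b_drop (b2 u hu) (hbox u hu).2.1
  have s3 : θ * (|a₁| * h) ≤ 8 * ρ ^ 2 * (M + ρ * (|L3| * h ^ 2) + ρ * (|a₂| * h)) :=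
    k7b4b_s3 hh hρ0 (by positivity) c₀ a₁ W hvol fun u hu => ⟨b3 u hu, (hbox u hu).2.1, (hbox u hu).2.2⟩
  have s0 : |c₀| ≤ M + ρ * (|L3| * h ^ 2) + ρ * (|a₂| * h) + ρ * (|a₁| * h) :=
    k7b4b_drop (b3 u₀ hu₀) (hbox u₀ hu₀).1
  have hfin := k7b4b_alg hθ hρ hR hM0 (by positivity) (by positivity) (by positivity) s1 s2 s3 s0
  intro u hu
  obtain ⟨bt, bZ, bY⟩ : |u.1 - tc| ≤ R * h ∧ |u.2.1 - Zc| ≤ R * h ∧
      |u.2.2 - Yc - (-Zc * (u.1 - tc) + tc * (u.2.1 - Zc))| ≤ R * h ^ 2 := hu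
  refine le_trans ?_ hfin
  rw [haff u]
  have t1 : |a₁ * (u.1 - tc)| ≤ R * (|a₁| * h) := by
    rw [abs_mul]
    have := mul_le_mul_of_nonneg_left bt (abs_nonneg a₁)
    linarith
  have t2 : |a₂ * (u.2.1 - Zc)| ≤ R * (|a₂| * h) := by
    rw [abs_mul]
    have := mul_le_mul_of_nonneg_left bZ (abs_nonneg a₂)
    linarith
  have t3 : |L3 * (u.2.2 - Yc - (-Zc * (u.1 - tc) + tc * (u.2.1 - Zc)))| ≤ R * (|L3| * h ^ 2) := by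
    rw [abs_mul]
    have := mul_le_mul_of_nonneg_left bY (abs_nonneg L3)
    linarith
  have tri : |c₀ + a₁ * (u.1 - tc) + a₂ * (u.2.1 - Zc) + L3 * (u.2.2 - Yc - (-Zc * (u.1 - tc) + tc * (u.2.1 - Zc)))| ≤
      |c₀| + |a₁ * (u.1 - tc)| + |a₂ * (u.2.1 - Zc)| + |L3 * (u.2.2 - Yc - (-Zc * (u.1 - tc) + tc * (u.2.1 - Zc)))| :=
    (abs_add_le _ _).trans (add_le_add_left ((abs_add_le _ _).trans (add_le_add_left (abs_add_le _ _) _)) _)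
  linarith

end Claimed.Agent.R252
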