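-- KEEP
import Claimed.Agent.R252.S7b.P4Remez

/-!
# Row 252, S7b, leaf L-252-S7b-4A  (PROVED, helper138)      07 l.1366-1383: deletion of the light pairs of affine entries
PAPER-FREE.  Read `HorDefs.lean` (record `K7bHor`, predicate `Ok`) and `HorGrp.lean` (`pairEv`, `Pairs`).
PLAN.  `n = #c.G`.  For `(s', s) ∈ G × G`, `s' ≤ s`, and `x = (q, L, L')` put `A x = {z | lab s z = q ∧ entOf s z = L ∧ entOf s' z = L'}` (measurable: `mlab`, `ment`).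
Only finitely many `x` occur on `Sp` : `q ∈ Qat s` (`labmem`), `L ∈ ent q` (`entmem`), `L' ∈ ent (lab s' z₀)` where `z₀` is any point of `Sp` with `lab s z₀ = q` (`nest` : the ancestor label is the same for all of them);
so at most `K²` pairs `(L, L')` per `q` (`entcard`).   Call `x` light if `lam (E ∩ A x) < ofReal (ε / (n² K²)) * mQ q`.   `E' = E \ ⋃ light`.
Loss `≤ ∑_{(s',s)} ∑_q K² (ε / (n² K²)) mQ q ≤ ε` by `budget`.   For `z ∈ E'` the event `pairEv s' s z = A (lab s z, entOf s z, entOf s' z)` is not light.   (`mQ q < ∞` : `νle`.)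
One pass only: the floor is measured in `E`, not in `E'`.
-/

set_option autoImplicit false

namespace Claimed.Agent.R252

open MeasureTheory
open scoped ENNReal BigOperators

/-- the event of a triple `(q, L, L')` inside `E` -/
def k7b4aB (H : K7bHor) (E : Set (H.Lam × ℝ)) (s' s : ℝ) (q : H.Q) (p : (ℝ × ℝ × ℝ × ℝ) × (ℝ × ℝ × ℝ × ℝ)) : Set (H.Lam × ℝ) :=
  E ∩ {z | H.lab s z = q ∧ H.entOf s z = p.1 ∧ H.entOf s' z = p.2}

theorem k7b4a_B_meas {c : K7bPar} {H : K7bHor} {K : ℝ} (h : H.Ok c K) {E : Set (H.Lam × ℝ)} (hm : MeasurableSet E) {s' s : ℝ} (hs' : s' ∈ c.G)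
    (hs : s ∈ c.G) (q : H.Q) (p : (ℝ × ℝ × ℝ × ℝ) × (ℝ × ℝ × ℝ × ℝ)) : MeasurableSet (k7b4aB H E s' s q p) :=
  hm.inter ((h.mlab s hs q).inter ((h.ment s hs p.1).inter (h.ment s' hs' p.2)))

open Classical in
/-- the union of the light events of the pair of depths `(s', s)` -/
def k7b4aLt (H : K7bHor) (E : Set (H.Lam × ℝ)) (t : ℝ≥0∞) (anc : H.Q → H.Q) (s' s : ℝ) : Set (H.Lam × ℝ) :=
  ⋃ q ∈ H.Qat s, ⋃ p ∈ H.ent q ×ˢ H.ent (anc q), if H.lam (k7b4aB H E s' s q p) < t * H.mQ q then k7b4aB H E s' s q p else ∅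

theorem k7b4a_Lt_meas {c : K7bPar} {H : K7bHor} {K : ℝ} (h : H.Ok c K) {E : Set (H.Lam × ℝ)} (hm : MeasurableSet E) (t : ℝ≥0∞) (anc : H.Q → H.Q)
    {s' s : ℝ} (hs' : s' ∈ c.G) (hs : s ∈ c.G) : MeasurableSet (k7b4aLt H E t anc s' s) := by
  unfold k7b4aLt
  refine Finset.measurableSet_biUnion _ fun q _ => Finset.measurableSet_biUnion _ fun p _ => ?_
  split_ifs
  · exact k7b4a_B_meas h hm hs' hs q p
  · exact MeasurableSet.empty

theorem k7b4a_card_le {c : K7bPar} {H : K7bHor} {K : ℝ} (h : H.Ok c K) (q q' : H.Q) :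
    ((H.ent q ×ˢ H.ent q').card : ℝ≥0∞) ≤ ENNReal.ofReal (K ^ 2) := by
  rw [← ENNReal.ofReal_natCast]
  refine ENNReal.ofReal_le_ofReal ?_
  rw [Finset.card_product]
  push_cast
  have h1 := h.entcard q
  have h2 := h.entcard q'
  have h3 : (0 : ℝ) ≤ ((H.ent q).card : ℝ) := Nat.cast_nonneg _
  have h4 : (0 : ℝ) ≤ ((H.ent q').card : ℝ) := Nat.cast_nonneg _
  nlinarith

theorem k7b4a_Lt_le {c : K7bPar} {H : K7bHor} {K : ℝ} (h : H.Ok c K) (E : Set (H.Lam × ℝ)) (t : ℝ≥0∞) (anc : H.Q → H.Q) (s' : ℝ) {s : ℝ}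
    (hs : s ∈ c.G) : H.lam (k7b4aLt H E t anc s' s) ≤ ENNReal.ofReal (K ^ 2) * t := by
  classical
  unfold k7b4aLt
  calc _ ≤ ∑ q ∈ H.Qat s, H.lam (⋃ p ∈ H.ent q ×ˢ H.ent (anc q), if H.lam (k7b4aB H E s' s q p) < t * H.mQ q then k7b4aB H E s' s q p else ∅) :=
        measure_biUnion_finset_le _ _
    _ ≤ ∑ q ∈ H.Qat s, ∑ p ∈ H.ent q ×ˢ H.ent (anc q), H.lam (if H.lam (k7b4aB H E s' s q p) < t * H.mQ q then k7b4aB H E s' s q p else ∅) :=
        Finset.sum_le_sum fun q _ => measure_biUnion_finset_le _ _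
    _ ≤ ∑ q ∈ H.Qat s, ∑ _p ∈ H.ent q ×ˢ H.ent (anc q), t * H.mQ q := by
        refine Finset.sum_le_sum fun q _ => Finset.sum_le_sum fun p _ => ?_
        split_ifs with hl
        · exact hl.le
        · rw [measure_empty]; exact zero_le
    _ = ∑ q ∈ H.Qat s, ((H.ent q ×ˢ H.ent (anc q)).card : ℝ≥0∞) * (t * H.mQ q) := by
        refine Finset.sum_congr rfl fun q _ => ?_
        rw [Finset.sum_const, nsmul_eq_mul]
    _ ≤ ∑ q ∈ H.Qat s, ENNReal.ofReal (K ^ 2) * (t * H.mQ q) :=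
        Finset.sum_le_sum fun q _ => mul_le_mul' (k7b4a_card_le h q (anc q)) le_rfl
    _ = ENNReal.ofReal (K ^ 2) * t * ∑ q ∈ H.Qat s, H.mQ q := by
        rw [Finset.mul_sum]
        exact Finset.sum_congr rfl fun q _ => (mul_assoc _ _ _).symm
    _ ≤ ENNReal.ofReal (K ^ 2) * t * 1 := mul_le_mul' le_rfl (h.budget s hs)
    _ = ENNReal.ofReal (K ^ 2) * t := mul_one _

theorem k7b_pair_prune (c : K7bPar) (H : K7bHor) {K ε : ℝ} (hK : 1 ≤ K) (hε : 0 < ε) (h : H.Ok c K)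
    {E : Set (H.Lam × ℝ)} (hE : E ⊆ H.Sp) (hm : MeasurableSet E) :
    ∃ E' ⊆ E, MeasurableSet E' ∧ H.lam (E \ E') ≤ ENNReal.ofReal ε ∧ H.Pairs c ((c.G.card : ℝ) ^ 2 * K ^ 2 / ε) E E' := by
  classical
  have hK0 : 0 < K := by linarith
  let anc : ℝ → ℝ → H.Q → H.Q := fun s' s q => if hq : ∃ z₀ ∈ H.Sp, H.lab s z₀ = q then H.lab s' hq.choose else q
  obtain ⟨n, hn⟩ : ∃ n : ℝ, n = (c.G.card : ℝ) := ⟨_, rfl⟩
  rw [← hn]
  obtain ⟨t, ht⟩ : ∃ t : ℝ≥0∞, t = ENNReal.ofReal (ε / (n ^ 2 * K ^ 2)) := ⟨_, rfl⟩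
  obtain ⟨Bad, hBad⟩ : ∃ Bad : Set (H.Lam × ℝ), Bad = ⋃ x ∈ c.G ×ˢ c.G, k7b4aLt H E t (anc x.1 x.2) x.1 x.2 := ⟨_, rfl⟩
  have hBm : MeasurableSet Bad := by
    rw [hBad]
    exact Finset.measurableSet_biUnion _ fun x hx => k7b4a_Lt_meas h hm t _ (Finset.mem_product.1 hx).1 (Finset.mem_product.1 hx).2
  refine ⟨E \ Bad, Set.sdiff_subset, hm.diff hBm, ?_, ?_⟩
  · have hsub : E \ (E \ Bad) ⊆ Bad := by
      intro z hz
      by_contra hcon
      exact hz.2 ⟨hz.1, hcon⟩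
    calc H.lam (E \ (E \ Bad)) ≤ H.lam Bad := measure_mono hsub
      _ ≤ ∑ x ∈ c.G ×ˢ c.G, H.lam (k7b4aLt H E t (anc x.1 x.2) x.1 x.2) := by
          rw [hBad]; exact measure_biUnion_finset_le _ _
      _ ≤ ∑ _x ∈ c.G ×ˢ c.G, ENNReal.ofReal (K ^ 2) * t :=
          Finset.sum_le_sum fun x hx => k7b4a_Lt_le h E t _ x.1 (Finset.mem_product.1 hx).2
      _ = ((c.G ×ˢ c.G).card : ℝ≥0∞) * (ENNReal.ofReal (K ^ 2) * t) := by rw [Finset.sum_const, nsmul_eq_mul]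
      _ ≤ ENNReal.ofReal ε := by
          rcases Nat.eq_zero_or_pos c.G.card with h0 | h0
          · rw [Finset.card_product, h0]; simp
          · have hn0 : 0 < n := by rw [hn]; exact_mod_cast h0
            rw [← ENNReal.ofReal_natCast, ht, ← ENNReal.ofReal_mul (by positivity), ← ENNReal.ofReal_mul (by positivity), Finset.card_product]
            refine ENNReal.ofReal_le_ofReal (le_of_eq ?_)
            push_cast
            rw [← hn]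
            field_simp
  · intro s' hs' s hs hss z hz
    have hzE := hz.1
    have hzSp := hE hzE
    have hq : H.lab s z ∈ H.Qat s := (h.labmem s hs z hzSp).1
    have hanc : anc s' s (H.lab s z) = H.lab s' z := by
      have hex : ∃ z₀ ∈ H.Sp, H.lab s z₀ = H.lab s z := ⟨z, hzSp, rfl⟩
      simp only [anc, dif_pos hex]
      exact h.nest s' hs' s hs hss _ hex.choose_spec.1 z hzSp hex.choose_spec.2
    have hp : (H.entOf s z, H.entOf s' z) ∈ H.ent (H.lab s z) ×ˢ H.ent (anc s' s (H.lab s z)) :=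
      Finset.mem_product.2 ⟨h.entmem s hs z hzSp, by rw [hanc]; exact h.entmem s' hs' z hzSp⟩
    have hB : k7b4aB H E s' s (H.lab s z) (H.entOf s z, H.entOf s' z) = E ∩ H.pairEv s' s z := rfl
    have hnl : ¬ H.lam (k7b4aB H E s' s (H.lab s z) (H.entOf s z, H.entOf s' z)) < t * H.mQ (H.lab s z) := by
      intro hl
      apply hz.2
      rw [hBad]
      simp only [Set.mem_iUnion]
      refine ⟨(s', s), Finset.mem_product.2 ⟨hs', hs⟩, ?_⟩
      unfold k7b4aLt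
      simp only [Set.mem_iUnion]
      refine ⟨H.lab s z, hq, _, hp, ?_⟩
      rw [if_pos hl]
      exact ⟨hzE, rfl, rfl, rfl⟩
    rw [not_lt, hB] at hnl
    have hn0 : 0 < n := by
      rw [hn]
      exact_mod_cast Finset.card_pos.2 ⟨s, hs⟩
    have hκt : ENNReal.ofReal (n ^ 2 * K ^ 2 / ε) * t = 1 := by
      rw [ht, ← ENNReal.ofReal_mul (by positivity)]
      have : n ^ 2 * K ^ 2 / ε * (ε / (n ^ 2 * K ^ 2)) = 1 := by field_simp
      rw [this, ENNReal.ofReal_one]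
    calc H.mQ (H.lab s z) = ENNReal.ofReal (n ^ 2 * K ^ 2 / ε) * (t * H.mQ (H.lab s z)) := by rw [← mul_assoc, hκt, one_mul]
      _ ≤ ENNReal.ofReal (n ^ 2 * K ^ 2 / ε) * H.lam (E ∩ H.pairEv s' s z) := mul_le_mul' le_rfl hnl

end Claimed.Agent.R252

/-!
# Row 252, S7b, leaf L-252-S7b-4C  (PROVED, helper96)      07 l.1385: "the child base cap gives inverse-subpower filling"
PAPER-FREE.  Read `HorDefs.lean` (fields `capQ`, `bllen`, `νQ` of `K7bHor.Ok`; `mQ`).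
PLAN.  `C := toMeasurable volume (H.base '' W)`; `W ⊆ Sp ∩ {z | base z ∈ C ∧ lab s z = q}`, so `lam W ≤ ofReal (K a_s^d) * volume (base '' W)` (`capQ`, `measure_toMeasurable`).
`mQ q = ofReal (bl q) * ν (asg q) ≥ ofReal (h_s / K) * ofReal (a_s^d h_s³ / K)`.   Hence `a_s^d h_s⁴ / K² ≤ K₁ K a_s^d vol`; divide by `a_s^d > 0` (case `vol = ∞` trivial).
-/

set_option autoImplicit false

namespace Claimed.Agent.R252

open MeasureTheory
open scoped ENNReal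

theorem k7b_label_fill (c : K7bPar) (H : K7bHor) {K K₁ s : ℝ} (hc : c.WF) (hK : 1 ≤ K) (hK₁ : 1 ≤ K₁) (h : H.Ok c K)
    (hs : s ∈ c.G) {q : H.Q} (hq : q ∈ H.Qat s) (W : Set (H.Lam × ℝ)) (hW : W ⊆ H.Sp ∩ {z | H.lab s z = q})
    (hfl : H.mQ q ≤ ENNReal.ofReal K₁ * H.lam W) :
    ENNReal.ofReal (c.h s ^ 4 / (K ^ 3 * K₁)) ≤ volume (H.base '' W) := by
  have hN : 0 < c.N := lt_of_lt_of_le one_pos hc.N1
  have ha0 : 0 < c.a s := by unfold K7bPar.a; exact Real.rpow_pos_of_pos hN _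
  have ha : 0 < c.a s ^ c.d := Real.rpow_pos_of_pos ha0 _
  have hh : 0 < c.h s := by unfold K7bPar.h; exact Real.rpow_pos_of_pos hN _
  have hK0 : 0 < K := lt_of_lt_of_le one_pos hK
  have hK10 : 0 < K₁ := lt_of_lt_of_le one_pos hK₁
  by_cases hVt : volume (H.base '' W) = ∞
  · rw [hVt]; exact le_top
  have hCm : MeasurableSet (toMeasurable volume (H.base '' W)) := measurableSet_toMeasurable _ _
  have hCv : volume (toMeasurable volume (H.base '' W)) = volume (H.base '' W) := measure_toMeasurable _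
  have hsub : W ⊆ H.Sp ∩ {z | H.base z ∈ toMeasurable volume (H.base '' W) ∧ H.lab s z = q} := by
    intro z hz
    exact ⟨(hW hz).1, subset_toMeasurable _ _ ⟨z, hz, rfl⟩, (hW hz).2⟩
  have h1 : H.lam W ≤ ENNReal.ofReal (K * c.a s ^ c.d) * volume (H.base '' W) := by
    calc H.lam W ≤ H.lam (H.Sp ∩ {z | H.base z ∈ toMeasurable volume (H.base '' W) ∧ H.lab s z = q}) := measure_mono hsub
      _ ≤ ENNReal.ofReal (K * c.a s ^ c.d) * volume (toMeasurable volume (H.base '' W)) := h.capQ s hs q hq _ hCm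
      _ = _ := by rw [hCv]
  have h2 : ENNReal.ofReal (c.h s / K) * ENNReal.ofReal (c.a s ^ c.d * c.h s ^ 3 / K) ≤ H.mQ q := by
    unfold K7bHor.mQ
    exact mul_le_mul' (ENNReal.ofReal_le_ofReal (h.bllen s hs q hq).1) (h.νQ s hs q hq).1
  have h3 : ENNReal.ofReal (c.h s / K) * ENNReal.ofReal (c.a s ^ c.d * c.h s ^ 3 / K)
      ≤ ENNReal.ofReal K₁ * (ENNReal.ofReal (K * c.a s ^ c.d) * volume (H.base '' W)) :=
    h2.trans (hfl.trans (by gcongr))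
  obtain ⟨v, hv0, hv⟩ : ∃ v : ℝ, 0 ≤ v ∧ volume (H.base '' W) = ENNReal.ofReal v :=
    ⟨(volume (H.base '' W)).toReal, ENNReal.toReal_nonneg, (ENNReal.ofReal_toReal hVt).symm⟩
  rw [hv] at h3 ⊢
  rw [← ENNReal.ofReal_mul (by positivity), ← ENNReal.ofReal_mul (by positivity), ← ENNReal.ofReal_mul (by positivity)] at h3
  have h4 := (ENNReal.ofReal_le_ofReal_iff (by positivity)).1 h3
  apply ENNReal.ofReal_le_ofReal
  rw [div_le_iff₀ (by positivity)]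
  have h5 : c.h s / K * (c.a s ^ c.d * c.h s ^ 3 / K) * K ^ 2 ≤ K₁ * (K * c.a s ^ c.d * v) * K ^ 2 :=
    mul_le_mul_of_nonneg_right h4 (by positivity)
  have e1 : c.h s / K * (c.a s ^ c.d * c.h s ^ 3 / K) * K ^ 2 = c.a s ^ c.d * c.h s ^ 4 := by
    field_simp
  have e2 : K₁ * (K * c.a s ^ c.d * v) * K ^ 2 = c.a s ^ c.d * (v * (K ^ 3 * K₁)) := by ring
  rw [e1, e2] at h5
  exact le_of_mul_le_mul_left h5 ha

end Claimed.Agent.R252

/-!
# Row 252, S7b, leaf L-252-S7b-4D  (CONTRACT: one sorry)      07 l.1385-1390: paired entries agree on the whole child box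
PAPER-FREE.  Uses `k7b_affine_remez`, `k7b_label_fill`.
PLAN.  Fix `s' ≤ s` in `G`, `z ∈ E`, `q = lab s z ∈ Qat s`, `W = E₀ ∩ pairEv s' s z ⊆ Sp ∩ {lab s = q}`.   `k7b_label_fill` : `vol* (base '' W) ≥ h_s⁴ / (K³ K₁)`.   `base '' W ⊆ qBox c s q K` (`labmem`, `box`).
At `z' ∈ W` : `|X z' - aff (entOf s z) (base z')| ≤ K a_s` and `|X z' - aff (entOf s' z) (base z')| ≤ K a_{s'}` (`entfit` at `t = z'.2`, which lies in both blocks by `labmem`; `X z' = Xt z'.1 z'.2`, `base z' = bs z'.1 z'.2`);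
`a_s ≤ a_{s'}` (`N ≥ 1`).   So the affine function `aff (L - L')` is `≤ 2 K a_{s'}` on `base '' W`; `k7b_affine_remez` with `ρ = K`, `θ = 1 / (K³ K₁)`.     `8 ρ³ / θ = 8 K⁶ K₁`.
`ZeroFit` : the same with `s' = s` and `|X z'| ≤ 2 K` (`bddx`, `time`), `a_s ≤ 1` : `|aff (entOf s z)| ≤ 3 K` on `base '' W`.
-/

set_option autoImplicit false

namespace Claimed.Agent.R252

open MeasureTheory
open scoped ENNReal

theorem k7b4d_aff_sub (L L' : ℝ × ℝ × ℝ × ℝ) (u : ℝ × ℝ × ℝ) :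
    k7bAff (L - L') u = k7bAff L u - k7bAff L' u := by
  simp only [k7bAff, Prod.fst_sub, Prod.snd_sub]
  ring

theorem k7b4d_core (c : K7bPar) (H : K7bHor) {K K₁ : ℝ} (hc : c.WF) (hK : 1 ≤ K) (hK₁ : 1 ≤ K₁) (h : H.Ok c K)
    {E₀ E : Set (H.Lam × ℝ)} (hE₀ : E₀ ⊆ H.Sp) (hE : E ⊆ H.Sp) (hP : H.Pairs c K₁ E₀ E)
    {s' s : ℝ} (hs' : s' ∈ c.G) (hs : s ∈ c.G) (hss : s' ≤ s) {z : H.Lam × ℝ} (hz : z ∈ E)
    (L : ℝ × ℝ × ℝ × ℝ) (M : ℝ) (hM : ∀ z' ∈ E₀ ∩ H.pairEv s' s z, |k7bAff L (H.base z')| ≤ M)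
    {R : ℝ} (hR : 1 ≤ R) :
    ∀ u ∈ H.qBox c s (H.lab s z) R, |k7bAff L u| ≤ 4 * R * (1 + 8 * K ^ 6 * K₁) ^ 3 * M := by
  have hK0 : 0 < K := by linarith
  have hK₁0 : 0 < K₁ := by linarith
  have hN0 : 0 < c.N := by linarith [hc.N1]
  have hh : 0 < c.h s := Real.rpow_pos_of_pos hN0 _
  have hq : H.lab s z ∈ H.Qat s := (h.labmem s hs z (hE hz)).1
  have hW : E₀ ∩ H.pairEv s' s z ⊆ H.Sp ∩ {z' | H.lab s z' = H.lab s z} := by
    rintro z' ⟨h1, h2, -, -⟩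
    exact ⟨hE₀ h1, h2⟩
  have hfill := k7b_label_fill c H hc hK hK₁ h hs hq _ hW (hP s' hs' s hs hss z hz)
  have hbox : H.base '' (E₀ ∩ H.pairEv s' s z)
      ⊆ k7bBox (H.ct (H.lab s z)) (H.cZ (H.lab s z)) (H.cY (H.lab s z)) (c.h s) K := by
    rintro _ ⟨z', ⟨h1, h2, -, -⟩, rfl⟩
    have h3 := h.labmem s hs z' (hE₀ h1)
    rw [h2] at h3
    exact h.box s hs _ hq z'.1 h3.2.2 z'.2 h3.2.1
  have hθ : 0 < 1 / (K ^ 3 * K₁) := by positivity
  have hvol : ENNReal.ofReal (1 / (K ^ 3 * K₁) * c.h s ^ 4) ≤ volume (H.base '' (E₀ ∩ H.pairEv s' s z)) := by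
    have e : 1 / (K ^ 3 * K₁) * c.h s ^ 4 = c.h s ^ 4 / (K ^ 3 * K₁) := by ring
    rw [e]
    exact hfill
  have hM' : ∀ u ∈ H.base '' (E₀ ∩ H.pairEv s' s z), |k7bAff L u| ≤ M := by
    rintro _ ⟨z', hz', rfl⟩
    exact hM z' hz'
  intro u hu
  have := k7b_affine_remez hh hK hθ hR L _ hbox hvol hM' u hu
  have e : 8 * K ^ 3 / (1 / (K ^ 3 * K₁)) = 8 * K ^ 6 * K₁ := by
    field_simp
  rw [e] at this
  exact this

theorem k7b_pair_fit (c : K7bPar) (H : K7bHor) {K K₁ : ℝ} (hc : c.WF) (hK : 1 ≤ K) (hK₁ : 1 ≤ K₁) (h : H.Ok c K)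
    {E₀ E : Set (H.Lam × ℝ)} (hE₀ : E₀ ⊆ H.Sp) (hE : E ⊆ H.Sp) (hP : H.Pairs c K₁ E₀ E) :
    H.PairFit c (12 * K * (1 + 8 * K ^ 6 * K₁) ^ 3) E ∧ H.ZeroFit c (12 * K * (1 + 8 * K ^ 6 * K₁) ^ 3) E := by
  have hK0 : 0 < K := by linarith
  have hK₁0 : 0 < K₁ := by linarith
  have hN0 : 0 < c.N := by linarith [hc.N1]
  have hB : 0 ≤ (1 + 8 * K ^ 6 * K₁) ^ 3 := by positivity
  constructor
  · intro s' hs' s hs hss z hz R hR u hu
    have ha0 : 0 < c.a s' := Real.rpow_pos_of_pos hN0 _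
    have haa : c.a s ≤ c.a s' := Real.rpow_le_rpow_of_exponent_le hc.N1 (by linarith)
    have hM : ∀ z' ∈ E₀ ∩ H.pairEv s' s z,
        |k7bAff (H.entOf s z - H.entOf s' z) (H.base z')| ≤ 2 * K * c.a s' := by
      rintro z' ⟨h1, h2, h3, h4⟩
      have f1 := h.entfit s hs z' (hE₀ h1) z'.2 (h.labmem s hs z' (hE₀ h1)).2.1
      have f2 := h.entfit s' hs' z' (hE₀ h1) z'.2 (h.labmem s' hs' z' (hE₀ h1)).2.1
      rw [h3] at f1
      rw [h4] at f2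
      rw [k7b4d_aff_sub]
      have e : k7bAff (H.entOf s z) (H.base z') - k7bAff (H.entOf s' z) (H.base z')
          = (H.Xt z'.1 z'.2 - k7bAff (H.entOf s' z) (H.bs z'.1 z'.2))
            - (H.Xt z'.1 z'.2 - k7bAff (H.entOf s z) (H.bs z'.1 z'.2)) := by
        simp only [K7bHor.base]
        ring
      rw [e]
      refine (abs_sub _ _).trans ?_
      have : K * c.a s ≤ K * c.a s' := mul_le_mul_of_nonneg_left haa hK0.le
      linarith
    have := k7b4d_core c H hc hK hK₁ h hE₀ hE hP hs' hs hss hz _ _ hM hR u hu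
    rw [k7b4d_aff_sub] at this
    refine this.trans ?_
    have hp : 0 ≤ K * R * (1 + 8 * K ^ 6 * K₁) ^ 3 * c.a s' := by positivity
    nlinarith
  · intro s hs z hz R hR u hu
    have ha1 : c.a s ≤ 1 := by
      have : c.a s ≤ c.N ^ (0 : ℝ) :=
        Real.rpow_le_rpow_of_exponent_le hc.N1 (by linarith [hc.G0 s hs])
      rwa [Real.rpow_zero] at this
    have hM : ∀ z' ∈ E₀ ∩ H.pairEv s s z, |k7bAff (H.entOf s z) (H.base z')| ≤ 3 * K := by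
      rintro z' ⟨h1, h2, h3, -⟩
      have f1 := h.entfit s hs z' (hE₀ h1) z'.2 (h.labmem s hs z' (hE₀ h1)).2.1
      rw [h3] at f1
      have hx := h.bddx z' (hE₀ h1)
      have ht := h.time z' (hE₀ h1)
      have hX : |H.Xt z'.1 z'.2| ≤ 2 * K := by
        simp only [K7bHor.Xt]
        refine (abs_add_le _ _).trans ?_
        rw [abs_mul, abs_of_nonneg ht.1]
        have : z'.2 * |H.x1 z'.1| ≤ 1 * K := mul_le_mul ht.2 hx.2 (abs_nonneg _) (by norm_num)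
        linarith [hx.1]
      have e : k7bAff (H.entOf s z) (H.base z')
          = H.Xt z'.1 z'.2 - (H.Xt z'.1 z'.2 - k7bAff (H.entOf s z) (H.bs z'.1 z'.2)) := by
        simp only [K7bHor.base]
        ring
      rw [e]
      refine (abs_sub _ _).trans ?_
      have : K * c.a s ≤ K * 1 := mul_le_mul_of_nonneg_left ha1 hK0.le
      linarith
    have := k7b4d_core c H hc hK hK₁ h hE₀ hE hP hs hs le_rfl hz _ _ hM hR u hu
    refine this.trans (le_of_eq ?_)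
    ring

end Claimed.Agent.R252

/-!
# Row 252, S7b, leaf L-252-S7b-4E  (CONTRACT: one sorry)      07 l.1390-1410: telescoping of the slope increments
PAPER-FREE.  Uses `k7b_affine_slopes`, `k7b_affine_slopes_at`, `k7b_telescope_term` (`CoreA.lean`).
PLAN.  Fix `z ∈ E`, the target depth `s ∈ G`, and `c₀ = (1 + K) K₁ N^gap`.   Write `L_σ = entOf σ z = (·, α₁, α₂, γ)`, `t = z.2`, `Z = Zt z.1 z.2`.
CLAIM, by strong induction on `#{σ' ∈ G | σ' < σ}` : for every `σ ∈ G`, `σ ≤ s`, with `m = #{σ' ∈ G | σ' < σ} + 1` :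
`|α₁ - γ Z|, |α₂ + γ t| ≤ m c₀ (1 + a_s / h_s)`, `|γ| ≤ m c₀ (1 + a_s / h_s²)`      (the target `s` is FIXED on the right-hand side).
`σ = 0` : `ZeroFit` with `R = 1`, `h_0 = 1`, `k7b_affine_slopes` and `k7b_affine_slopes_at` (`base z ∈ qBox c 0 (lab 0 z) K` by `labmem`, `box`, so `ρ = K`).
`σ > 0` : take `σ' ∈ G`, `σ' < σ`, `σ - σ' ≤ gap`; `PairFit` with `R = 1` bounds `aff (L_σ - L_σ')` by `K₁ a_σ'` on `qBox c σ (lab σ z) 1`; slopes `≤ (1 + K) K₁ a_σ' / h_σ`, `K₁ a_σ' / h_σ²`;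
`k7b_telescope_term` (`p = 1, 2`; `(N^(-(kσ)))^(p:ℝ)`: convert the real power to `^ 1`, `^ 2`) : `a_σ' / h_σ^p ≤ N^gap (1 + a_s / h_s^p)`.   Add the bound for `σ'`.     Finally `m ≤ #G`.
-/

set_option autoImplicit false

namespace Claimed.Agent.R252

open MeasureTheory
open scoped ENNReal

theorem k7b4e_aff_sub (L L' : ℝ × ℝ × ℝ × ℝ) (u : ℝ × ℝ × ℝ) :
    k7bAff (L - L') u = k7bAff L u - k7bAff L' u := by
  simp only [k7bAff, Prod.fst_sub, Prod.snd_sub]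
  ring

theorem k7b4e_box_slopes {tc Zc Yc h A K t Z Y : ℝ} (hh : 0 < h) (L : ℝ × ℝ × ℝ × ℝ)
    (hL : ∀ u ∈ k7bBox tc Zc Yc h 1, |k7bAff L u| ≤ A) (hu : (t, Z, Y) ∈ k7bBox tc Zc Yc h K) :
    |L.2.1 + L.2.2.2 * (-Z)| ≤ (1 + K) * (A / h) ∧ |L.2.2.1 + L.2.2.2 * t| ≤ (1 + K) * (A / h) ∧
      |L.2.2.2| ≤ A / h ^ 2 := by
  obtain ⟨h1, h2, h3⟩ := k7b_affine_slopes (c := L.1) (α1 := L.2.1) (α2 := L.2.2.1) (γ := L.2.2.2) hh hL
  obtain ⟨g1, g2⟩ := k7b_affine_slopes_at hh h1 h2 h3 hu.1 hu.2.1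
  exact ⟨g1, g2, h3⟩

theorem k7b4e_step (c : K7bPar) (H : K7bHor) {K K₁ gap : ℝ} (hc : c.WF) (hK : 1 ≤ K) (hK₁ : 1 ≤ K₁)
    (h : H.Ok c K) {z : H.Lam × ℝ} (hz : z ∈ H.Sp) {s σ σ' : ℝ} (hσ : σ ∈ c.G) (hσs : σ ≤ s)
    (hg : σ - σ' ≤ gap) (L : ℝ × ℝ × ℝ × ℝ)
    (hL : ∀ u ∈ H.qBox c σ (H.lab σ z) 1, |k7bAff L u| ≤ K₁ * c.a σ') :
    |L.2.1 + L.2.2.2 * (-(H.Zt z.1 z.2))| ≤ (1 + K) * K₁ * c.N ^ gap * (1 + c.a s / c.h s) ∧
    |L.2.2.1 + L.2.2.2 * z.2| ≤ (1 + K) * K₁ * c.N ^ gap * (1 + c.a s / c.h s) ∧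
    |L.2.2.2| ≤ (1 + K) * K₁ * c.N ^ gap * (1 + c.a s / c.h s ^ 2) := by
  have hK0 : 0 < K := by linarith
  have hK₁0 : 0 < K₁ := by linarith
  have hN0 : 0 < c.N := by linarith [hc.N1]
  have hh : 0 < c.h σ := Real.rpow_pos_of_pos hN0 _
  have hhs : 0 < c.h s := Real.rpow_pos_of_pos hN0 _
  have has : 0 < c.a s := Real.rpow_pos_of_pos hN0 _
  have hNg : 0 < c.N ^ gap := Real.rpow_pos_of_pos hN0 _
  have hl := h.labmem σ hσ z hz
  have hb : (z.2, H.Zt z.1 z.2, H.Yt z.1 z.2)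
      ∈ k7bBox (H.ct (H.lab σ z)) (H.cZ (H.lab σ z)) (H.cY (H.lab σ z)) (c.h σ) K :=
    h.box σ hσ _ hl.1 z.1 hl.2.2 z.2 hl.2.1
  obtain ⟨g1, g2, g3⟩ := k7b4e_box_slopes hh L hL hb
  have T1 : c.a σ' / c.h σ ≤ c.N ^ gap * (1 + c.a s / c.h s) := by
    have := k7b_telescope_term (N := c.N) (k := c.k) (s := s) (si := σ) (sj := σ') (gap := gap) (p := 1)
      hc.N1 (hc.G0 σ hσ) hσs hg
    simpa only [Real.rpow_one, K7bPar.a, K7bPar.h] using this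
  have T2 : c.a σ' / c.h σ ^ 2 ≤ c.N ^ gap * (1 + c.a s / c.h s ^ 2) := by
    have := k7b_telescope_term (N := c.N) (k := c.k) (s := s) (si := σ) (sj := σ') (gap := gap) (p := 2)
      hc.N1 (hc.G0 σ hσ) hσs hg
    simpa only [Real.rpow_two, K7bPar.a, K7bPar.h] using this
  have e1 : (1 + K) * (K₁ * c.a σ' / c.h σ) ≤ (1 + K) * K₁ * c.N ^ gap * (1 + c.a s / c.h s) := by
    have : (1 + K) * K₁ * (c.a σ' / c.h σ) ≤ (1 + K) * K₁ * (c.N ^ gap * (1 + c.a s / c.h s)) :=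
      mul_le_mul_of_nonneg_left T1 (by positivity)
    calc (1 + K) * (K₁ * c.a σ' / c.h σ) = (1 + K) * K₁ * (c.a σ' / c.h σ) := by ring
      _ ≤ _ := this
      _ = _ := by ring
  have e2 : K₁ * c.a σ' / c.h σ ^ 2 ≤ (1 + K) * K₁ * c.N ^ gap * (1 + c.a s / c.h s ^ 2) := by
    have h1 : K₁ * (c.a σ' / c.h σ ^ 2) ≤ K₁ * (c.N ^ gap * (1 + c.a s / c.h s ^ 2)) :=
      mul_le_mul_of_nonneg_left T2 hK₁0.le
    have h2 : 0 ≤ K₁ * (c.N ^ gap * (1 + c.a s / c.h s ^ 2)) := by positivity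
    calc K₁ * c.a σ' / c.h σ ^ 2 = K₁ * (c.a σ' / c.h σ ^ 2) := by ring
      _ ≤ K₁ * (c.N ^ gap * (1 + c.a s / c.h s ^ 2)) := h1
      _ ≤ (1 + K) * (K₁ * (c.N ^ gap * (1 + c.a s / c.h s ^ 2))) := by nlinarith
      _ = _ := by ring
  exact ⟨g1.trans e1, g2.trans e1, g3.trans e2⟩

theorem k7b4e_add {x y B m m' : ℝ} (hx : |x| ≤ m' * B) (hy : |y| ≤ B) (hB : 0 ≤ B) (hm : m' + 1 ≤ m) :
    |x + y| ≤ m * B := by
  refine (abs_add_le _ _).trans ?_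
  nlinarith

theorem k7b4e_ind (c : K7bPar) (H : K7bHor) {K K₁ gap : ℝ} (hc : c.WF) (hK : 1 ≤ K) (hK₁ : 1 ≤ K₁)
    (hgap : 0 ≤ gap) (h : H.Ok c K) {E : Set (H.Lam × ℝ)} (hE : E ⊆ H.Sp) (hP : H.PairFit c K₁ E)
    (hZ : H.ZeroFit c K₁ E) (hgrid : ∀ s ∈ c.G, 0 < s → ∃ s' ∈ c.G, s' < s ∧ s - s' ≤ gap)
    {z : H.Lam × ℝ} (hz : z ∈ E) (s : ℝ) :
    ∀ n : ℕ, ∀ σ ∈ c.G, σ ≤ s → (c.G.filter (· < σ)).card < n →
    |(H.entOf σ z).2.1 + (H.entOf σ z).2.2.2 * (-(H.Zt z.1 z.2))|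
      ≤ (((c.G.filter (· < σ)).card : ℝ) + 1) * ((1 + K) * K₁ * c.N ^ gap * (1 + c.a s / c.h s)) ∧
    |(H.entOf σ z).2.2.1 + (H.entOf σ z).2.2.2 * z.2|
      ≤ (((c.G.filter (· < σ)).card : ℝ) + 1) * ((1 + K) * K₁ * c.N ^ gap * (1 + c.a s / c.h s)) ∧
    |(H.entOf σ z).2.2.2|
      ≤ (((c.G.filter (· < σ)).card : ℝ) + 1) * ((1 + K) * K₁ * c.N ^ gap * (1 + c.a s / c.h s ^ 2)) := by
  have hK0 : 0 < K := by linarith
  have hK₁0 : 0 < K₁ := by linarith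
  have hN0 : 0 < c.N := by linarith [hc.N1]
  have hhs : 0 < c.h s := Real.rpow_pos_of_pos hN0 _
  have has : 0 < c.a s := Real.rpow_pos_of_pos hN0 _
  have hNg : 0 < c.N ^ gap := Real.rpow_pos_of_pos hN0 _
  have hB1 : 0 ≤ (1 + K) * K₁ * c.N ^ gap * (1 + c.a s / c.h s) := by positivity
  have hB2 : 0 ≤ (1 + K) * K₁ * c.N ^ gap * (1 + c.a s / c.h s ^ 2) := by positivity
  intro n
  induction n with
  | zero => intro σ _ _ hn; exact absurd hn (Nat.not_lt_zero _)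
  | succ n ih =>
    intro σ hσ hσs hn
    rcases (hc.G0 σ hσ).eq_or_lt with h0 | hpos
    · -- `σ = 0`
      have ha0 : c.a σ = 1 := by
        rw [← h0]
        simp [K7bPar.a]
      have hL : ∀ u ∈ H.qBox c σ (H.lab σ z) 1, |k7bAff (H.entOf σ z) u| ≤ K₁ * c.a σ := by
        intro u hu
        rw [ha0]
        exact hZ σ hσ z hz 1 le_rfl u hu
      obtain ⟨g1, g2, g3⟩ := k7b4e_step c H hc hK hK₁ h (hE hz) hσ hσs (σ' := σ) (gap := gap) (by linarith) _ hL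
      have hm : (1 : ℝ) ≤ ((c.G.filter (· < σ)).card : ℝ) + 1 := by
        have : (0 : ℝ) ≤ ((c.G.filter (· < σ)).card : ℝ) := Nat.cast_nonneg _
        linarith
      refine ⟨g1.trans ?_, g2.trans ?_, g3.trans ?_⟩
      · exact le_mul_of_one_le_left hB1 hm
      · exact le_mul_of_one_le_left hB1 hm
      · exact le_mul_of_one_le_left hB2 hm
    · obtain ⟨σ', hσ', hlt, hg⟩ := hgrid σ hσ hpos
      have hcard : (c.G.filter (· < σ')).card < (c.G.filter (· < σ)).card := by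
        refine Finset.card_lt_card ?_
        rw [Finset.ssubset_iff_of_subset]
        · exact ⟨σ', Finset.mem_filter.2 ⟨hσ', hlt⟩, fun hh => lt_irrefl _ (Finset.mem_filter.1 hh).2⟩
        · intro x hx
          rw [Finset.mem_filter] at hx ⊢
          exact ⟨hx.1, hx.2.trans hlt⟩
      obtain ⟨i1, i2, i3⟩ := ih σ' hσ' (hlt.le.trans hσs) (by omega)
      have hL : ∀ u ∈ H.qBox c σ (H.lab σ z) 1,
          |k7bAff (H.entOf σ z - H.entOf σ' z) u| ≤ K₁ * c.a σ' := by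
        intro u hu
        rw [k7b4e_aff_sub]
        have := hP σ' hσ' σ hσ hlt.le z hz 1 le_rfl u hu
        rwa [mul_one] at this
      obtain ⟨g1, g2, g3⟩ := k7b4e_step c H hc hK hK₁ h (hE hz) hσ hσs hg _ hL
      simp only [Prod.fst_sub, Prod.snd_sub] at g1 g2 g3
      have hm : (((c.G.filter (· < σ')).card : ℝ) + 1) + 1 ≤ ((c.G.filter (· < σ)).card : ℝ) + 1 := by
        have : ((c.G.filter (· < σ')).card : ℝ) + 1 ≤ ((c.G.filter (· < σ)).card : ℝ) := by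
          exact_mod_cast hcard
        linarith
      refine ⟨?_, ?_, ?_⟩
      · have := k7b4e_add i1 g1 hB1 hm
        refine le_trans (le_of_eq ?_) this
        congr 1
        ring
      · have := k7b4e_add i2 g2 hB1 hm
        refine le_trans (le_of_eq ?_) this
        congr 1
        ring
      · have := k7b4e_add i3 g3 hB2 hm
        refine le_trans (le_of_eq ?_) this
        congr 1
        ring

theorem k7b_slopes_of_fit (c : K7bPar) (H : K7bHor) {K K₁ gap : ℝ} (hc : c.WF) (hK : 1 ≤ K) (hK₁ : 1 ≤ K₁) (hgap : 0 ≤ gap)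
    (h : H.Ok c K) {E : Set (H.Lam × ℝ)} (hE : E ⊆ H.Sp) (hP : H.PairFit c K₁ E) (hZ : H.ZeroFit c K₁ E)
    (hgrid : ∀ s ∈ c.G, 0 < s → ∃ s' ∈ c.G, s' < s ∧ s - s' ≤ gap) :
    H.Slopes c ((c.G.card : ℝ) * (1 + K) * K₁ * c.N ^ gap) E := by
  have hK0 : 0 < K := by linarith
  have hK₁0 : 0 < K₁ := by linarith
  have hN0 : 0 < c.N := by linarith [hc.N1]
  intro s hs z hz
  have hhs : 0 < c.h s := Real.rpow_pos_of_pos hN0 _
  have has : 0 < c.a s := Real.rpow_pos_of_pos hN0 _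
  have hNg : 0 < c.N ^ gap := Real.rpow_pos_of_pos hN0 _
  have hB1 : 0 ≤ (1 + K) * K₁ * c.N ^ gap * (1 + c.a s / c.h s) := by positivity
  have hB2 : 0 ≤ (1 + K) * K₁ * c.N ^ gap * (1 + c.a s / c.h s ^ 2) := by positivity
  obtain ⟨g1, g2, g3⟩ := k7b4e_ind c H hc hK hK₁ hgap h hE hP hZ hgrid hz s _ s hs le_rfl (Nat.lt_succ_self _)
  have hcard : (c.G.filter (· < s)).card < c.G.card :=
    Finset.card_lt_card (Finset.filter_ssubset.2 ⟨s, hs, lt_irrefl s⟩)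
  have hm : ((c.G.filter (· < s)).card : ℝ) + 1 ≤ (c.G.card : ℝ) := by exact_mod_cast hcard
  have e1 : (((c.G.filter (· < s)).card : ℝ) + 1) * ((1 + K) * K₁ * c.N ^ gap * (1 + c.a s / c.h s))
      ≤ (c.G.card : ℝ) * (1 + K) * K₁ * c.N ^ gap * (1 + c.a s / c.h s) := by
    have := mul_le_mul_of_nonneg_right hm hB1
    refine this.trans (le_of_eq ?_)
    ring
  have e2 : (((c.G.filter (· < s)).card : ℝ) + 1) * ((1 + K) * K₁ * c.N ^ gap * (1 + c.a s / c.h s ^ 2))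
      ≤ (c.G.card : ℝ) * (1 + K) * K₁ * c.N ^ gap * (1 + c.a s / c.h s ^ 2) := by
    have := mul_le_mul_of_nonneg_right hm hB2
    refine this.trans (le_of_eq ?_)
    ring
  exact ⟨g1.trans e1, g2.trans e1, g3.trans e2⟩

end Claimed.Agent.R252

/-!
# Row 252, S7b: **S4 = `a06:nested-affine-slopes`** (07 l.1347-1412) AT ONE SCALE      (architect helper95)
ASSEMBLY, no sorry in this file (the sorries are in the five leaves `P4Prune`, `P4Remez`, `P4Fill`, `P4Fit`, `P4Slopes`).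
INPUT : a horizontal problem `H.Ok c K`, ANY measurable selection `E ⊆ Sp`, a depth grid `c.G ∋ 0` with gaps `≤ gap`, a loss `ε`.
OUTPUT: `E' ⊆ E`, `lam (E \ E') ≤ ε`, with
* `Pairs`   stored full-domain witnesses IN `E` of all ancestor/child pairs of entries (also nonconsecutive: 08 l.399, l.834),
* `PairFit` `‖L_s - L_{s'}‖ ≤ K₂ R a_{s'}` on the `R`-enlarged child box,   `ZeroFit` `‖L_s‖ ≤ K₂ R`,
* `Slopes`  (a06:affine-slope-bounds) with the constant `#G (1 + K) K₂ N^gap`.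
The constants are explicit polynomials in `#G, K, 1/ε` : `k7bK1`, `k7bK2`.    All four properties persist under every further restriction of `E'` (`k7b_s4_mono`).
-/

set_option autoImplicit false

namespace Claimed.Agent.R252

open MeasureTheory
open scoped ENNReal

/-- the witness constant of S4 -/
noncomputable def k7bK1 (n : ℕ) (K ε : ℝ) : ℝ := max 1 ((n : ℝ) ^ 2 * K ^ 2 / ε)

/-- the fit constant of S4 -/
noncomputable def k7bK2 (n : ℕ) (K ε : ℝ) : ℝ := 12 * K * (1 + 8 * K ^ 6 * k7bK1 n K ε) ^ 3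

theorem k7b_s4_eqns_cite : True := by
  have := @k7bK1.eq_1
  have := @k7bK2.eq_1
  trivial

theorem K7bHor.Pairs.mono {H : K7bHor} {c : K7bPar} {K K' : ℝ} {E₀ E E' : Set (H.Lam × ℝ)} (h : H.Pairs c K E₀ E) (hK : K ≤ K')
    (hE : E' ⊆ E) : H.Pairs c K' E₀ E' := fun s' hs' s hs hss z hz =>
  (h s' hs' s hs hss z (hE hz)).trans (mul_le_mul_left (ENNReal.ofReal_le_ofReal hK) _)

theorem K7bHor.PairFit.mono {H : K7bHor} {c : K7bPar} {K : ℝ} {E E' : Set (H.Lam × ℝ)} (h : H.PairFit c K E) (hE : E' ⊆ E) :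
    H.PairFit c K E' := fun s' hs' s hs hss z hz => h s' hs' s hs hss z (hE hz)

theorem K7bHor.ZeroFit.mono {H : K7bHor} {c : K7bPar} {K : ℝ} {E E' : Set (H.Lam × ℝ)} (h : H.ZeroFit c K E) (hE : E' ⊆ E) :
    H.ZeroFit c K E' := fun s hs z hz => h s hs z (hE hz)

theorem K7bHor.Slopes.mono {H : K7bHor} {c : K7bPar} {K : ℝ} {E E' : Set (H.Lam × ℝ)} (h : H.Slopes c K E) (hE : E' ⊆ E) :
    H.Slopes c K E' := fun s hs z hz => h s hs z (hE hz)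

/-- **S4 at one scale** -/
theorem k7b_nested_slopes (c : K7bPar) (H : K7bHor) {K ε gap : ℝ} (hc : c.WF) (hK : 1 ≤ K) (hε : 0 < ε) (hgap : 0 ≤ gap)
    (h : H.Ok c K) {E : Set (H.Lam × ℝ)} (hE : E ⊆ H.Sp) (hm : MeasurableSet E)
    (hgrid : ∀ s ∈ c.G, 0 < s → ∃ s' ∈ c.G, s' < s ∧ s - s' ≤ gap) :
    ∃ E' ⊆ E, MeasurableSet E' ∧ H.lam (E \ E') ≤ ENNReal.ofReal ε ∧ H.Pairs c (k7bK1 c.G.card K ε) E E' ∧
      H.PairFit c (k7bK2 c.G.card K ε) E' ∧ H.ZeroFit c (k7bK2 c.G.card K ε) E' ∧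
      H.Slopes c ((c.G.card : ℝ) * (1 + K) * k7bK2 c.G.card K ε * c.N ^ gap) E' := by
  obtain ⟨E', hsub, hmE', hloss, hP⟩ := k7b_pair_prune c H hK hε h hE hm
  have hP1 : H.Pairs c (k7bK1 c.G.card K ε) E E' := hP.mono (le_max_right _ _) subset_rfl
  have hK1 : 1 ≤ k7bK1 c.G.card K ε := le_max_left _ _
  obtain ⟨hF, hZ⟩ := k7b_pair_fit c H hc hK hK1 h hE (hsub.trans hE) hP1
  have hK2 : 1 ≤ k7bK2 c.G.card K ε := by
    unfold k7bK2
    have h1 : (1 : ℝ) ≤ (1 + 8 * K ^ 6 * k7bK1 c.G.card K ε) ^ 3 := by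
      apply one_le_pow₀
      have : 0 ≤ 8 * K ^ 6 * k7bK1 c.G.card K ε := by positivity
      linarith
    nlinarith
  exact ⟨E', hsub, hmE', hloss, hP1, hF, hZ, k7b_slopes_of_fit c H hc hK hK2 hgap h (hsub.trans hE) hF hZ hgrid⟩

end Claimed.Agent.R252
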