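-- KEEP
import Claimed.Agent.R252.S8.Prep
import Claimed.Agent.R252.S8.Floor
import Claimed.Agent.R252.S7b.P5Main

/-!
# Row 252, S7b -> S8: **`𝒢(1)`** (08 l.448-450) = hub `K8HGOne`      (helper151; prefix `k7g`)      no sorry
`k7g_gone : K8HGOne`.   Composition (`k8_hub_trans`) of `k8_prep` (= `k7b_nested_slopes` in hub form) with `k7g_core` (= `k7b_coeff_count` at `D = a_s`, `η = a_s / K`, `ε = 1 / (2K)`).
The labelling: `dom = {|x₀|, |x₁| ≤ K}`, predictor of `l` = left end points of its full-time coefficient bin of width `a_s` (no `P`-dependence).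
Both floors of `K8Lab.Ok` (`floor`, `prior`) are the field `Cnt.bfl`; no further deletion is needed.
`smax = min R e₀`, `M0 = smax + 1`.
-/

set_option autoImplicit false

namespace Claimed.Agent.R252

open MeasureTheory
open scoped ENNReal BigOperators

/-- the predictor of a coefficient bin of width `a` -/
noncomputable def k7gPr (a : ℝ) (b : ℤ × ℤ) : K8Pr := ⟨b.1 * a, b.2 * a, 0, 0, 0, 0⟩

/-- the labelling of `𝒢(1)` -/
noncomputable def k7gLab (H : K7bHor) (a K : ℝ) : K8Lab H where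
  dom := {l | |H.x0 l| ≤ K ∧ |H.x1 l| ≤ K}
  pr := fun l => k7gPr a (H.cf a l)

theorem k7g_eqns_cite : True := by
  have := @k7gPr.eq_1
  have := @k7gLab.eq_1
  trivial

theorem k7g_pr_inj {a : ℝ} (ha : a ≠ 0) {b b' : ℤ × ℤ} (h : k7gPr a b = k7gPr a b') : b = b' := by
  have h1 : (b.1 : ℝ) * a = b'.1 * a := congrArg K8Pr.c0 h
  have h2 : (b.2 : ℝ) * a = b'.2 * a := congrArg K8Pr.c1 h
  exact Prod.ext (by exact_mod_cast mul_right_cancel₀ ha h1) (by exact_mod_cast mul_right_cancel₀ ha h2)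

theorem k7g_pr_ev (a : ℝ) (b : ℤ × ℤ) (t p q : ℝ) : (k7gPr a b).ev t p q = b.1 * a + b.2 * a * t := by
  simp [k7gPr, K8Pr.ev]

/-- a number is within `a` of the left end point of its bin -/
theorem k7g_bin {a : ℝ} (ha : 0 < a) (x : ℝ) : 0 ≤ x - (k7bBin a x : ℝ) * a ∧ x - (k7bBin a x : ℝ) * a ≤ a := by
  unfold k7bBin
  have h1 : (⌊x / a⌋ : ℝ) ≤ x / a := Int.floor_le _
  have h2 : x / a < ⌊x / a⌋ + 1 := Int.lt_floor_add_one _
  rw [le_div_iff₀ ha] at h1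
  rw [div_lt_iff₀ ha] at h2
  constructor <;> nlinarith

theorem k7g_cf_meas {H : K7bHor} {c : K7bPar} {K : ℝ} (h : H.Ok c K) (a : ℝ) : Measurable (H.cf a) :=
  ((h.mx0.div_const _).floor).prodMk ((h.mx1.div_const _).floor)

/-- **the labelling of `𝒢(1)` from the coefficient count** -/
theorem k7g_lab_ok {H : K7bHor} {c : K7bPar} {K K₁ K₂ s η : ℝ} {E : Set (H.Lam × ℝ)} (hc : c.WF) (hs : 0 ≤ s) (h : H.Ok c K)
    (hE : E ⊆ H.Sp) (hC : H.Cnt c s (c.a s) η K₁ E) (h1 : K₁ ≤ K₂) (h2 : 2 * K + 2 ≤ K₂) :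
    (k7gLab H (c.a s) K).Ok c K₂ s (c.a s) E := by
  have hN : 0 < c.N := lt_of_lt_of_le one_pos hc.N1
  have ha : 0 < c.a s := Real.rpow_pos_of_pos hN _
  have ha1 : c.a s ≤ 1 := Real.rpow_le_one_of_one_le_of_nonpos hc.N1 (by linarith)
  have hcov : ∀ z ∈ E, z.1 ∈ (k7gLab H (c.a s) K).dom := fun z hz => h.bddx z (hE hz)
  have hsub : ∀ z : H.Lam × ℝ, E ∩ H.gI c.χ (c.a s) (H.grp c.χ (c.a s) z.1) ∩ H.cI (c.a s) (H.cf (c.a s) z.1)
      ⊆ E ∩ (k7gLab H (c.a s) K).inc c.χ (c.a s) z.1 := by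
    rintro z z' ⟨⟨a1, a2⟩, a3⟩
    refine ⟨a1, hcov z' a1, a2, ?_⟩
    show k7gPr (c.a s) (H.cf (c.a s) z'.1) = k7gPr (c.a s) (H.cf (c.a s) z.1)
    rw [show H.cf (c.a s) z'.1 = H.cf (c.a s) z.1 from a3]
  have hoK : ENNReal.ofReal K₁ ≤ ENNReal.ofReal K₂ := ENNReal.ofReal_le_ofReal h1
  refine ⟨?_, ?_, ?_, hcov, ?_, ?_, ?_, ?_⟩
  · exact (measurableSet_le h.mx0.abs measurable_const).inter (measurableSet_le h.mx1.abs measurable_const)
  · intro p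
    have : (k7gLab H (c.a s) K).pr ⁻¹' {p} = H.cf (c.a s) ⁻¹' (k7gPr (c.a s) ⁻¹' {p}) := rfl
    rw [this]
    exact k7g_cf_meas h _ (MeasurableSet.of_discrete)
  · refine Set.Finite.subset (((Set.finite_Icc ⌊-K / c.a s⌋ ⌊K / c.a s⌋).prod (Set.finite_Icc ⌊-K / c.a s⌋ ⌊K / c.a s⌋)).image
      (k7gPr (c.a s))) ?_
    rintro _ ⟨l, hl, rfl⟩
    exact ⟨H.cf (c.a s) l, ⟨k8f_bin_mem ha hl.1, k8f_bin_mem ha hl.2⟩, rfl⟩
  · intro l hl t ht
    have hK0 : 0 ≤ K := (abs_nonneg _).trans hl.1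
    show |H.Xt l t - (k7gPr (c.a s) (H.cf (c.a s) l)).ev t (H.p l) (H.q0 l)| ≤ K₂ * c.a s
    rw [k7g_pr_ev]
    obtain ⟨b1, b2⟩ := k7g_bin ha (H.x0 l)
    obtain ⟨b3, b4⟩ := k7g_bin ha (H.x1 l)
    have e : H.Xt l t - (((H.cf (c.a s) l).1 : ℝ) * c.a s + ((H.cf (c.a s) l).2 : ℝ) * c.a s * t)
        = (H.x0 l - (k7bBin (c.a s) (H.x0 l) : ℝ) * c.a s) + t * (H.x1 l - (k7bBin (c.a s) (H.x1 l) : ℝ) * c.a s) := by
      unfold K7bHor.Xt K7bHor.cf
      ring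
    rw [e, abs_of_nonneg (add_nonneg b1 (mul_nonneg ht.1 b3))]
    have h3 : t * (H.x1 l - (k7bBin (c.a s) (H.x1 l) : ℝ) * c.a s) ≤ 1 * c.a s := mul_le_mul ht.2 b4 b3 zero_le_one
    have h4 : 2 * c.a s ≤ K₂ * c.a s := mul_le_mul_of_nonneg_right (by linarith) ha.le
    linarith
  · intro l hl t ht p q _ _
    show |(k7gPr (c.a s) (H.cf (c.a s) l)).ev t p q| ≤ K₂
    rw [k7g_pr_ev]
    obtain ⟨b1, b2⟩ := k7g_bin ha (H.x0 l)
    obtain ⟨b3, b4⟩ := k7g_bin ha (H.x1 l)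
    obtain ⟨c1, c2⟩ := abs_le.1 hl.1
    obtain ⟨c3, c4⟩ := abs_le.1 hl.2
    have d1 : |((H.cf (c.a s) l).1 : ℝ) * c.a s| ≤ K + 1 := by
      rw [abs_le]
      show -(K + 1) ≤ (k7bBin (c.a s) (H.x0 l) : ℝ) * c.a s ∧ (k7bBin (c.a s) (H.x0 l) : ℝ) * c.a s ≤ K + 1
      constructor <;> linarith
    have d2 : |((H.cf (c.a s) l).2 : ℝ) * c.a s| ≤ K + 1 := by
      rw [abs_le]
      show -(K + 1) ≤ (k7bBin (c.a s) (H.x1 l) : ℝ) * c.a s ∧ (k7bBin (c.a s) (H.x1 l) : ℝ) * c.a s ≤ K + 1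
      constructor <;> linarith
    have d3 : |((H.cf (c.a s) l).2 : ℝ) * c.a s * t| ≤ K + 1 := by
      rw [abs_mul, abs_of_nonneg ht.1]
      exact (mul_le_of_le_one_right (abs_nonneg _) ht.2).trans d2
    exact (abs_add_le _ _).trans (by linarith)
  · intro z hz
    have h3 := hC.bfl z hz
    rw [mul_comm]
    exact (le_self_add.trans h3).trans (mul_le_mul' hoK (measure_mono (hsub z)))
  · intro z hz
    have h3 := hC.bfl z hz
    refine le_trans (measure_mono ?_) ((le_add_self.trans h3).trans (mul_le_mul' hoK (measure_mono (hsub z))))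
    rintro l ⟨_, a2, a3⟩
    exact ⟨a2, k7g_pr_inj ha.ne' a3⟩

/-- bookkeeping of the slack -/
theorem k7g_consts (C : ℕ) {K : ℝ} (hK : 1 ≤ K) :
    (C : ℝ) * (K / (1 / (2 * K))) ^ C ≤ ((C : ℝ) * 2 ^ C + 4) * K ^ (2 * C + 1) ∧ 2 * K + 2 ≤ ((C : ℝ) * 2 ^ C + 4) * K ^ (2 * C + 1) := by
  have hK0 : 0 < K := by linarith
  have e : K / (1 / (2 * K)) = 2 * K ^ 2 := by field_simp
  have h1 : K ^ (2 * C) ≤ K ^ (2 * C + 1) := pow_le_pow_right₀ hK (by omega)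
  have h2 : K ≤ K ^ (2 * C + 1) := by
    have := pow_le_pow_right₀ hK (show 1 ≤ 2 * C + 1 by omega)
    rwa [pow_one] at this
  have h3 : 0 ≤ (C : ℝ) * 2 ^ C := by positivity
  have h4 : 0 ≤ K ^ (2 * C + 1) := by positivity
  constructor
  · rw [e, mul_pow, ← pow_mul]
    calc (C : ℝ) * (2 ^ C * K ^ (2 * C)) = ((C : ℝ) * 2 ^ C) * K ^ (2 * C) := by ring
      _ ≤ ((C : ℝ) * 2 ^ C) * K ^ (2 * C + 1) := mul_le_mul_of_nonneg_left h1 h3
      _ ≤ _ := by nlinarith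
  · nlinarith

/-- **the coefficient count in hub form**: prepared affine data give the labels of `𝒢(1)` -/
theorem k7g_core (x : K8Exp) (hx : x.Ok) (hk : 2 * x.k ≤ 1) (s : ℝ) (hs : 0 < s) (hsR : s ≤ x.R) (hse : s ≤ x.e0) :
    K8HubAt x (s + 1) (A := fun H => Set (H.Lam × ℝ)) (fun H E₀ c K E => K8Prep H c K E₀ E) (fun H _ c K E => K8GC s 1 H c K E) := by
  obtain ⟨C, hC⟩ := k7b_coeff_count x.d hx.d0 hx.d1
  intro M m1 m2 m3 τ hτ
  obtain ⟨A, hA⟩ : ∃ A : ℝ, A = (C : ℝ) * 2 ^ C + 4 := ⟨_, rfl⟩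
  have hA4 : 4 ≤ A := by
    have : 0 ≤ (C : ℝ) * 2 ^ C := by positivity
    linarith
  refine ⟨{s}, min (1 / 2) (τ / (2 * (2 * C + 1))), max 64 (A ^ (2 / τ)), by positivity, ?_, ?_⟩
  · intro s' hs'
    rw [Finset.mem_singleton.1 hs']
    exact ⟨hs.le, hsR⟩
  intro H E₀ c K E hAd hI hK hP
  have hc := hAd.wf
  have hN64 : 64 ≤ c.N := (le_max_left _ _).trans hAd.hN
  have hN1 : 1 < c.N := by linarith
  have hN0 : 0 < c.N := by linarith
  have hK1 := hI.K1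
  have hK0 : 0 < K := by linarith
  have ha : 0 < c.a s := Real.rpow_pos_of_pos hN0 _
  have hsG : s ∈ c.G := hAd.hG (Finset.mem_singleton_self s)
  -- `8 K ≤ N`
  have hK8 : 8 * K ≤ c.N := by
    have h1 : K ≤ c.N ^ (1 / 2 : ℝ) := hK.trans (Real.rpow_le_rpow_of_exponent_le hN1.le (min_le_left _ _))
    have h2 : (8 : ℝ) ≤ c.N ^ (1 / 2 : ℝ) := by
      calc (8 : ℝ) = (64 : ℝ) ^ (1 / 2 : ℝ) := by
            rw [show (64 : ℝ) = 8 ^ (2 : ℝ) by norm_num, ← Real.rpow_mul (by norm_num)]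
            norm_num
        _ ≤ c.N ^ (1 / 2 : ℝ) := Real.rpow_le_rpow (by norm_num) hN64 (by norm_num)
    calc 8 * K ≤ c.N ^ (1 / 2 : ℝ) * c.N ^ (1 / 2 : ℝ) := mul_le_mul h2 h1 hK0.le (by positivity)
      _ = c.N := by
        rw [← Real.rpow_add hN0]
        norm_num
  -- a mesh `< 2 N^(-m)`, `m ≥ s + 1`, is `≤ 2 a_s / N`
  have hmesh : ∀ m y : ℝ, s + 1 ≤ m → y < 2 * c.N ^ (-m) → y * c.N ≤ 2 * c.a s := by
    intro m y hm hy
    have h1 : c.N ^ (-m) ≤ c.N ^ (-s - 1) := Real.rpow_le_rpow_of_exponent_le hN1.le (by linarith)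
    have h2 : c.N ^ (-s - 1) * c.N = c.a s := by
      unfold K7bPar.a
      rw [Real.rpow_sub hN0, Real.rpow_one]
      field_simp
    calc y * c.N ≤ (2 * c.N ^ (-s - 1)) * c.N := mul_le_mul_of_nonneg_right (hy.le.trans (by linarith)) hN0.le
      _ = 2 * c.a s := by rw [mul_assoc, h2]
  have hξ := hmesh _ _ m1 hAd.hξ.2
  have hχ := hmesh _ _ m2 hAd.hχ.2
  have hϱ := hmesh _ _ m3 hAd.hϱ.2
  have hsmall : ∀ y : ℝ, 0 < y → y * c.N ≤ 2 * c.a s → 4 * K * y ≤ c.a s := by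
    intro y hy h
    nlinarith
  have h5 : K7bS5 c K s (c.a s) (c.a s / K) :=
    { wf := hc, K1 := hK1, sG := hsG
      khalf := by rw [hAd.hk]; linarith
      D0 := ha, Da := le_rfl
      χD := by have := hsmall _ hc.χ0 hχ; nlinarith [hc.χ0]
      eD := by
        unfold K7bPar.a
        exact Real.rpow_le_rpow_of_exponent_le hN1.le (by rw [hAd.he]; linarith)
      ξD := hsmall _ hc.ξ0 hξ
      ϱa := by have := hsmall _ hc.ϱ0 hϱ; nlinarith [hc.ϱ0]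
      η0 := div_pos ha hK0
      ηa := by rw [mul_div_cancel₀ _ hK0.ne']
      ξη := by
        rw [le_div_iff₀ hK0]
        have := hsmall _ hc.ξ0 hξ
        nlinarith [hc.ξ0] }
  obtain ⟨E', hsub, hmE', hloss, hCnt⟩ := hC c H K (1 / (2 * K)) s (c.a s) (c.a s / K) E₀ E hAd.hd h5 (by positivity)
    (by rw [div_le_one (by positivity)]; linarith) hI.ok hP.sub0 hP.meas0 hI.res.sub hI.res.meas hP.pairs hP.slopes
  obtain ⟨c1, c2⟩ := k7g_consts C hK1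
  rw [← hA] at c1 c2
  -- `A K^(2C+1) ≤ N^τ`
  have hbig : A * K ^ (2 * C + 1) ≤ c.N ^ τ := by
    have h1 : A ≤ c.N ^ (τ / 2) := by
      have h1 : A ^ (2 / τ) ≤ c.N := (le_max_right _ _).trans hAd.hN
      calc A = (A ^ (2 / τ)) ^ (τ / 2) := by
            rw [← Real.rpow_mul (by linarith)]
            have : 2 / τ * (τ / 2) = 1 := by field_simp
            rw [this, Real.rpow_one]
        _ ≤ c.N ^ (τ / 2) := Real.rpow_le_rpow (by positivity) h1 (by positivity)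
    have h2 : K ^ (2 * C + 1) ≤ c.N ^ (τ / 2) := by
      have h3 : K ≤ c.N ^ (τ / (2 * (2 * C + 1))) := hK.trans (Real.rpow_le_rpow_of_exponent_le hN1.le (min_le_right _ _))
      calc K ^ (2 * C + 1) ≤ (c.N ^ (τ / (2 * (2 * C + 1)))) ^ (2 * C + 1) := pow_le_pow_left₀ hK0.le h3 _
        _ = c.N ^ (τ / 2) := by
          rw [← Real.rpow_natCast, ← Real.rpow_mul hN0.le]
          congr 1
          push_cast
          field_simp
    calc _ ≤ c.N ^ (τ / 2) * c.N ^ (τ / 2) := mul_le_mul h1 h2 (by positivity) (by positivity)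
      _ = c.N ^ τ := by
        rw [← Real.rpow_add hN0]
        congr 1
        ring
  refine ⟨E', hsub, ⟨hsub.trans hI.res.sub, hmE', ?_⟩, k7gLab H (c.a s) K, ?_⟩
  · refine le_trans (ENNReal.ofReal_le_ofReal ?_) (k8f_mass_half H.lam hK0 hI.res.mass hloss)
    exact one_div_le_one_div_of_le (by positivity) (by linarith)
  · rw [Real.rpow_one]
    exact k7g_lab_ok hc hs.le hI.ok (hsub.trans hI.res.sub) hCnt (c1.trans hbig) (c2.trans hbig)

/-- **`𝒢(1)`** -/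
theorem k7g_gone : K8HGOne := by
  intro x hx hk
  refine ⟨min x.R x.e0, min x.R x.e0 + 1, lt_min hx.R0 hx.e0, ?_⟩
  intro s hs hsm
  have hsR : s ≤ x.R := hsm.le.trans (min_le_left _ _)
  have hse : s ≤ x.e0 := hsm.le.trans (min_le_right _ _)
  refine k8_hub_trans (B := fun H => Set (H.Lam × ℝ)) (k8_prep x _) ((k7g_core x hx hk s hs hsR hse).mono (by linarith)) ?_
  rintro H _ _ c K E E' hE ⟨E'', h1, h2⟩
  exact ⟨E'', h1.trans hE, h2⟩

end Claimed.Agent.R252
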