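-- KEEP
import Claimed.Agent.R252.Re6.Fit
import Claimed.Agent.R252.S7b.CoreB
import Claimed.Agent.R252.State.KsStateC

/-!
# Row 252 (Kakeya in R^4), Sec. 7.4, `prop:horizontal-model` (07 l.927-1075), unit S7b-S1 (sub-architect helper77; prefix `k7h_` / `K7h`), file 1: THE ABSTRACT ROW FIT.      All leaves L-252-S7h-AB1..AB7 PROVED (helper5), no `sorry`.

PAPER-FREE.   07 l.957-1000 ("We verify the remaining row-fit hypotheses").   ONE scale, explicit slack `K ≥ 1`.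
MODEL = the model of `Re6/FitDefs.lean` : trajectories `l ∈ Λ`, prior `P`, unit time, `z(t) = (t, Z0 l + vel l * t)`, incidence measure `μ` concentrated on `W`, palette `pal`, mesh `ξ` (positions AND velocities), accuracy `E ≥ ξ`.
NEW DATA: `cst l` = the (normalised transverse) velocity, a constant of the trajectory, `|cst| ≤ K`;
          `st : Λ × ℝ → St` a countable STATE (deep row label + position cell), which knows the row `Tσ (st ω)` and the position cell;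
          `hcond` : conditional velocity domination of every state by `K pal`;      `hlist` : position cell + velocity bin leave `≤ K` values of `cst` up to `K E`.
RESULT: `Re6Fit` for the row `T = Tσ ∘ st` on the LIVE part of `W` (states of positive mass), hence (`re6_row_fit`)   `cst = B₁ + B₂ vel - lam Z0 + O(ξ^{-τ'} E)` on mass `≥ ξ^{τ'}`.
PROOF.  A live state `s` : its supporting velocity bins have palette mass `≥ 1/K` (`k7b_support_mass`); the interval cap gives pairs of supporting bins separated by `ρ ∼ K^{-C}` of palette product weight `≥ 1/(2K²)` (`k7b_sep_pairs`).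
  Two witnesses: `Tσ s · (1, v_i) = cst_i + O(K E)`, `|cst_i| ≤ K` ⟹ `|Tσ s| ≤ K'` (`k7b_row_interp`).
  Fixed position cell `q`, fixed separated pair of bins: the two lists leave `≤ K²` pairs of values, each fixes the row up to `K'' E` ⟹ `≤ M` bins of the `E`-grid of rows.   Double counting with the palette product law
  (`k7b_options_count`: options = occupied `E`-bins of rows at the cell `q`, one live state per option; total weight `≤ 1`; every option has weight `≥ 1/(2K²)`) ⟹ `≤ 2 K² M` row bins.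
-/

set_option autoImplicit false

namespace Claimed.Agent.R252

open MeasureTheory
open scoped ENNReal BigOperators

noncomputable section

/-- the interval of the velocity bin `k` at the mesh `ξ` -/
def k7hIv (ξ : ℝ) (k : ℤ) : Set ℝ := Set.Ico ((k : ℝ) * ξ) (((k : ℝ) + 1) * ξ)

/-- the event "velocity bin `k`" -/
def k7hVb {Λ : Type} (ξ : ℝ) (vel : Λ → ℝ) (k : ℤ) : Set (Λ × ℝ) := {ω | ⌊vel ω.1 / ξ⌋ = k}

/-- **hypotheses of the abstract row fit** -/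
structure K7hPre {Λ : Type} [MeasurableSpace Λ] {St : Type} (ξ E K S : ℝ) (P : Measure Λ) (Z0 vel cst : Λ → ℝ) (st : Λ × ℝ → St) (Tσ : St → ℝ × ℝ)
    (W : Set (Λ × ℝ)) (μ : Measure (Λ × ℝ)) (pal : Measure ℝ) : Prop where
  hP : P Set.univ ≤ 1
  hZ0m : Measurable Z0
  hvelm : Measurable vel
  hWm : MeasurableSet W
  hdom : μ ≤ ENNReal.ofReal K • (P.prod (volume.restrict (Set.Icc (0 : ℝ) 1)))
  hW : μ Wᶜ = 0
  hmass : ENNReal.ofReal (1 / K) ≤ μ Set.univ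
  hWt : ∀ ω ∈ W, 0 ≤ ω.2 ∧ ω.2 ≤ 1
  hbd : ∀ ω ∈ W, |Z0 ω.1 + vel ω.1 * ω.2| ≤ K ∧ |vel ω.1| ≤ K
  hpal1 : pal Set.univ ≤ 1
  hpal : ∀ a b : ℝ, ξ ≤ b - a → b - a ≤ 1 → pal (Set.Icc a b) ≤ ENNReal.ofReal (K * (b - a) ^ S)
  /-- joint cell cap -/
  hcap : ∀ (q : ℤ × ℤ) (k : ℤ), μ {ω | re6Zc ξ Z0 vel ω = q ∧ ⌊vel ω.1 / ξ⌋ = k} ≤ ENNReal.ofReal (K * ξ ^ 2) * pal (k7hIv ξ k)
  /-- the state is a label which knows the position cell -/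
  hst : KsLab st
  hcell : ∀ ω ∈ W, ∀ ω' ∈ W, st ω = st ω' → re6Zc ξ Z0 vel ω = re6Zc ξ Z0 vel ω'
  hcst : ∀ ω ∈ W, |cst ω.1| ≤ K
  /-- the row of the state predicts the constant of the trajectory -/
  hrow : ∀ ω ∈ W, |(Tσ (st ω)).1 + vel ω.1 * (Tσ (st ω)).2 - cst ω.1| ≤ K * E
  /-- conditional velocity domination -/
  hcond : ∀ (s : St) (k : ℤ), μ (st ⁻¹' {s} ∩ k7hVb ξ vel k) ≤ ENNReal.ofReal K * pal (k7hIv ξ k) * μ (st ⁻¹' {s})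
  /-- the lists -/
  hlist : ∀ (q : ℤ × ℤ) (k : ℤ), ∃ L : Finset ℝ, (L.card : ℝ) ≤ K ∧
    ∀ ω ∈ W, re6Zc ξ Z0 vel ω = q → ⌊vel ω.1 / ξ⌋ = k → ∃ y ∈ L, |cst ω.1 - y| ≤ K * E

/-- the live part: states of positive mass -/
def k7hLive {Λ : Type} [MeasurableSpace Λ] {St : Type} (st : Λ × ℝ → St) (W : Set (Λ × ℝ)) (μ : Measure (Λ × ℝ)) : Set (Λ × ℝ) :=
  W ∩ {ω | μ (st ⁻¹' {st ω}) ≠ 0}

theorem k7h_abs_eqns_cite : True := by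
  have := @k7hIv.eq_1
  have := @k7hVb.eq_1
  have := @k7hLive.eq_1
  trivial

section abs

variable {Λ : Type} [MeasurableSpace Λ] {St : Type} [Countable St] {ξ E K S : ℝ} {P : Measure Λ} {Z0 vel cst : Λ → ℝ} {st : Λ × ℝ → St} {Tσ : St → ℝ × ℝ}
  {W : Set (Λ × ℝ)} {μ : Measure (Λ × ℝ)} {pal : Measure ℝ}

omit [MeasurableSpace Λ] in
theorem k7h_lab_meas {Ω : Type} [MeasurableSpace Ω] {st : Ω → St} (h : KsLab st) (B : Set St) : MeasurableSet (st ⁻¹' B) := by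
  have e : st ⁻¹' B = ⋃ d ∈ B, st ⁻¹' {d} := by
    ext x
    simp
  rw [e]
  exact MeasurableSet.biUnion (Set.to_countable B) fun d _ => h d

/-- **L-252-S7h-AB1** the live part is measurable and full; the row is measurable -/
theorem k7h_live (h : K7hPre ξ E K S P Z0 vel cst st Tσ W μ pal) :
    MeasurableSet (k7hLive st W μ) ∧ μ (k7hLive st W μ)ᶜ = 0 ∧ Measurable (fun ω => Tσ (st ω)) := by
  have e1 : k7hLive st W μ = W ∩ st ⁻¹' {s | μ (st ⁻¹' {s}) ≠ 0} := rfl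
  refine ⟨?_, ?_, ?_⟩
  · rw [e1]
    exact h.hWm.inter (k7h_lab_meas h.hst _)
  · have e2 : (k7hLive st W μ)ᶜ ⊆ Wᶜ ∪ ⋃ s ∈ {s | μ (st ⁻¹' {s}) = 0}, st ⁻¹' {s} := by
      intro ω hω
      by_cases hW : ω ∈ W
      · right
        simp only [Set.mem_iUnion]
        refine ⟨st ω, ?_, rfl⟩
        by_contra h0
        exact hω ⟨hW, h0⟩
      · exact Or.inl hW
    refine measure_mono_null e2 (measure_union_null h.hW ?_)
    rw [measure_biUnion_null_iff (Set.to_countable _)]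
    intro s hs
    exact hs
  · intro B _
    exact k7h_lab_meas h.hst (Tσ ⁻¹' B)

omit [Countable St] in
theorem k7h_mu_fin (h : K7hPre ξ E K S P Z0 vel cst st Tσ W μ pal) (A : Set (Λ × ℝ)) : μ A ≠ ⊤ := by
  have h1 : μ A ≤ (ENNReal.ofReal K • (P.prod (volume.restrict (Set.Icc (0 : ℝ) 1)))) Set.univ :=
    (measure_mono (Set.subset_univ A)).trans (h.hdom _)
  refine ne_top_of_le_ne_top ?_ h1
  rw [Measure.smul_apply, smul_eq_mul, ← Set.univ_prod_univ, Measure.prod_prod, Measure.restrict_apply_univ,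
    Real.volume_Icc]
  exact ENNReal.mul_ne_top ENNReal.ofReal_ne_top
    (ENNReal.mul_ne_top (ne_top_of_le_ne_top ENNReal.one_ne_top h.hP) ENNReal.ofReal_ne_top)

theorem k7h_iv_mem {ξ : ℝ} (hξ : 0 < ξ) (y : ℝ) (k : ℤ) : y ∈ k7hIv ξ k ↔ ⌊y / ξ⌋ = k := by
  rw [Int.floor_eq_iff, k7hIv, Set.mem_Ico, le_div_iff₀ hξ, div_lt_iff₀ hξ]

theorem k7h_pal_sum {ξ : ℝ} (hξ : 0 < ξ) (pal : Measure ℝ) (A : Finset ℤ) (B : Set ℝ) (hB : ∀ k ∈ A, k7hIv ξ k ⊆ B) :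
    ∑ k ∈ A, pal (k7hIv ξ k) ≤ pal B := by
  have hm : ∀ k ∈ A, MeasurableSet (k7hIv ξ k) := fun k _ => measurableSet_Ico
  rw [← measure_biUnion_finset ?_ hm]
  · exact measure_mono (Set.iUnion₂_subset hB)
  · intro k _ k' _ hne
    rw [Function.onFun, Set.disjoint_left]
    intro y hy hy'
    exact hne (((k7h_iv_mem hξ y k).1 hy).symm.trans ((k7h_iv_mem hξ y k').1 hy'))

omit [Countable St] in
theorem k7h_pal_fin (h : K7hPre ξ E K S P Z0 vel cst st Tσ W μ pal) (B : Set ℝ) : pal B ≠ ⊤ :=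
  ne_top_of_le_ne_top ENNReal.one_ne_top ((measure_mono (Set.subset_univ B)).trans h.hpal1)

/-- the velocity bin of an incidence of `W` -/
theorem k7h_bin_bd {K ξ v : ℝ} (hξ : 0 < ξ) (hv : |v| ≤ K) (N : ℕ) (hN : K / ξ + 1 ≤ N) :
    ⌊v / ξ⌋ ∈ Finset.Icc (-(N : ℤ)) N := by
  obtain ⟨h1, h2⟩ := abs_le.1 hv
  have h3 : v / ξ ≤ K / ξ := div_le_div_of_nonneg_right h2 hξ.le
  have h4 : -(K / ξ) ≤ v / ξ := by
    rw [← neg_div]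
    exact div_le_div_of_nonneg_right h1 hξ.le
  rw [Finset.mem_Icc]
  constructor
  · rw [Int.le_floor]
    push_cast
    linarith
  · have h5 : ((⌊v / ξ⌋ : ℤ) : ℝ) ≤ ((N : ℤ) : ℝ) := by
      push_cast
      linarith [Int.floor_le (v / ξ)]
    exact_mod_cast h5

/-- **L-252-S7h-AB2** separated pairs of supporting velocity bins of a live state carry palette product weight `≥ 1/(2K²)`.
PLAN: `A` := the bins `k`, `|k| ≤ K/ξ + 1`, with `μ (st = s, bin k) ≠ 0` (finite: `hbd`, `hW`); `∑_{k ∈ A} μ (s, k) = μ (s)` (finite, nonzero: `hdom`, `hP`), `hcond` ⟹ `1/K ≤ ∑_A pal`;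
`∑_{k ∈ A, |k ξ - x| < ρ} pal (Iv k) ≤ pal (Icc (x - ρ) (x + ρ + ξ)) ≤ K (3ρ)^S`; `k7b_sep_pairs` with `m = 1/K`, `κ = 1/(2K)`. -/
theorem k7h_sep_pairs (h : K7hPre ξ E K S P Z0 vel cst st Tσ W μ pal) (hξ : 0 < ξ) (hK : 1 ≤ K) (hS : 0 < S) {ρ : ℝ} (hρ1 : ξ ≤ ρ) (hρ2 : 3 * ρ ≤ 1)
    (hρ : K * (3 * ρ) ^ S ≤ 1 / (2 * K)) (s : St) (hs : μ (st ⁻¹' {s}) ≠ 0) :
    ∃ A : Finset ℤ, (∀ k ∈ A, μ (st ⁻¹' {s} ∩ k7hVb ξ vel k) ≠ 0) ∧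
      1 / (2 * K ^ 2) ≤ ∑ p ∈ (A ×ˢ A).filter (fun p => ρ ≤ |(p.2 : ℝ) * ξ - (p.1 : ℝ) * ξ|), (pal (k7hIv ξ p.1)).toReal * (pal (k7hIv ξ p.2)).toReal := by
  classical
  have hK0 : 0 < K := by linarith
  have hρ0 : 0 < ρ := lt_of_lt_of_le hξ hρ1
  obtain ⟨N, hN⟩ : ∃ N : ℕ, K / ξ + 1 ≤ N := exists_nat_ge _
  obtain ⟨A, hA⟩ : ∃ A : Finset ℤ,
      A = (Finset.Icc (-(N : ℤ)) N).filter (fun k => μ (st ⁻¹' {s} ∩ k7hVb ξ vel k) ≠ 0) := ⟨_, rfl⟩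
  refine ⟨A, fun k hk => by rw [hA] at hk; exact (Finset.mem_filter.1 hk).2, ?_⟩
  have hfin := k7h_mu_fin h (st ⁻¹' {s})
  have h1 : μ (st ⁻¹' {s}) ≤ ∑ k ∈ A, μ (st ⁻¹' {s} ∩ k7hVb ξ vel k) := by
    have hsub : st ⁻¹' {s} ⊆ Wᶜ ∪ ⋃ k ∈ Finset.Icc (-(N : ℤ)) N, (st ⁻¹' {s} ∩ k7hVb ξ vel k) := by
      intro ω hω
      by_cases hW : ω ∈ W
      · right
        simp only [Set.mem_iUnion]
        exact ⟨⌊vel ω.1 / ξ⌋, k7h_bin_bd hξ (h.hbd ω hW).2 N hN, hω, rfl⟩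
      · exact Or.inl hW
    calc μ (st ⁻¹' {s}) ≤ μ Wᶜ + ∑ k ∈ Finset.Icc (-(N : ℤ)) N, μ (st ⁻¹' {s} ∩ k7hVb ξ vel k) :=
          (measure_mono hsub).trans ((measure_union_le _ _).trans (add_le_add le_rfl (measure_biUnion_finset_le _ _)))
      _ = _ := by rw [h.hW, zero_add, hA, Finset.sum_filter_ne_zero]
  have h2 : ∑ k ∈ A, μ (st ⁻¹' {s} ∩ k7hVb ξ vel k) ≤ (ENNReal.ofReal K * ∑ k ∈ A, pal (k7hIv ξ k)) * μ (st ⁻¹' {s}) := by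
    rw [Finset.mul_sum, Finset.sum_mul]
    exact Finset.sum_le_sum fun k _ => h.hcond s k
  have h3 : 1 ≤ ENNReal.ofReal K * ∑ k ∈ A, pal (k7hIv ξ k) := by
    have h4 : 1 * μ (st ⁻¹' {s}) ≤ (ENNReal.ofReal K * ∑ k ∈ A, pal (k7hIv ξ k)) * μ (st ⁻¹' {s}) := by
      rw [one_mul]
      exact h1.trans h2
    exact (ENNReal.mul_le_mul_iff_left hs hfin).1 h4
  have hsumfin : ∀ A' : Finset ℤ, ∑ k ∈ A', pal (k7hIv ξ k) ≠ ⊤ := fun A' =>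
    ENNReal.sum_ne_top.2 fun k _ => k7h_pal_fin h _
  have h4 : 1 / K ≤ ∑ k ∈ A, (pal (k7hIv ξ k)).toReal := by
    have h5 := ENNReal.toReal_mono (ENNReal.mul_ne_top ENNReal.ofReal_ne_top (hsumfin A)) h3
    rw [ENNReal.toReal_mul, ENNReal.toReal_ofReal hK0.le, ENNReal.toReal_sum fun k _ => k7h_pal_fin h _,
      ENNReal.toReal_one] at h5
    rw [div_le_iff₀ hK0]
    linarith
  have hcap : ∀ x : ℝ, ∑ k ∈ A.filter (fun k : ℤ => |(k : ℝ) * ξ - x| < ρ), (pal (k7hIv ξ k)).toReal ≤ 1 / (2 * K) := by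
    intro x
    have h5 : ∑ k ∈ A.filter (fun k : ℤ => |(k : ℝ) * ξ - x| < ρ), pal (k7hIv ξ k) ≤ pal (Set.Icc (x - ρ) (x + ρ + ξ)) := by
      refine k7h_pal_sum hξ pal _ _ fun k hk y hy => ?_
      obtain ⟨h6, h7⟩ := abs_lt.1 (Finset.mem_filter.1 hk).2
      rw [k7hIv, Set.mem_Ico] at hy
      exact ⟨by linarith [hy.1], by linarith [hy.2]⟩
    have h6 := h.hpal (x - ρ) (x + ρ + ξ) (by linarith) (by linarith)
    have h7 : K * (x + ρ + ξ - (x - ρ)) ^ S ≤ 1 / (2 * K) := by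
      refine le_trans (mul_le_mul_of_nonneg_left ?_ hK0.le) hρ
      exact Real.rpow_le_rpow (by linarith) (by linarith) hS.le
    have h8 := ENNReal.toReal_mono ENNReal.ofReal_ne_top (h5.trans h6)
    have h10 : 0 ≤ (x + ρ + ξ - (x - ρ)) ^ S := Real.rpow_nonneg (by linarith) _
    rw [ENNReal.toReal_sum fun k _ => k7h_pal_fin h _, ENNReal.toReal_ofReal (by positivity)] at h8
    exact h8.trans h7
  have h9 := k7b_sep_pairs A (fun k => (pal (k7hIv ξ k)).toReal) (fun k => (k : ℝ) * ξ) (fun _ _ => ENNReal.toReal_nonneg)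
    (m := 1 / K) (κ := 1 / (2 * K)) (ρ := ρ) h4 (by positivity)
    (by rw [div_le_div_iff₀ (by positivity) hK0]; linarith) hcap
  have e : 1 / (2 * K ^ 2) = 1 / K * (1 / K - 1 / (2 * K)) := by
    field_simp
    ring
  rw [e]
  convert h9

/-- **L-252-S7h-AB3** a bin of positive mass contains a witness in `W` -/
theorem k7h_witness (h : K7hPre ξ E K S P Z0 vel cst st Tσ W μ pal) (s : St) (k : ℤ) (hk : μ (st ⁻¹' {s} ∩ k7hVb ξ vel k) ≠ 0) :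
    ∃ ω ∈ W, st ω = s ∧ ⌊vel ω.1 / ξ⌋ = k ∧ μ (st ⁻¹' {st ω}) ≠ 0 := by
  by_contra hcon
  push Not at hcon
  apply hk
  refine measure_mono_null ?_ h.hW
  intro ω hω hW
  have h1 : st ω = s := hω.1
  have h2 : ⌊vel ω.1 / ξ⌋ = k := hω.2
  have h3 := hcon ω hW h1 h2
  rw [h1] at h3
  exact hk (measure_mono_null Set.inter_subset_left h3)

/-- **L-252-S7h-AB4** bounded rows (07 l.975-977).   Two witnesses in bins separated by `ρ ≥ 2ξ` : `|v₁ - v₂| ≥ ρ/2`; `|Tσ s · (1, v_i)| ≤ K + K E ≤ 2K`; `k7b_row_interp`. -/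
theorem k7h_pre_T (h : K7hPre ξ E K S P Z0 vel cst st Tσ W μ pal) (hξ : 0 < ξ) (hE : E ≤ 1) (hE0 : 0 ≤ E) (hK : 1 ≤ K) (hS : 0 < S) {ρ : ℝ} (hρ1 : 2 * ξ ≤ ρ) (hρ2 : 3 * ρ ≤ 1)
    (hρ : K * (3 * ρ) ^ S ≤ 1 / (2 * K)) :
    ∀ ω ∈ k7hLive st W μ, |(Tσ (st ω)).1| ≤ 6 * K * (K + 2 / ρ) ^ 2 ∧ |(Tσ (st ω)).2| ≤ 6 * K * (K + 2 / ρ) ^ 2 := by
  classical
  intro ω hω
  have hK0 : 0 < K := by linarith
  have hρ0 : 0 < ρ := by linarith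
  obtain ⟨A, hA, hsum⟩ := k7h_sep_pairs h hξ hK hS (by linarith) hρ2 hρ (st ω) hω.2
  have hpos : 0 < ∑ p ∈ (A ×ˢ A).filter (fun p => ρ ≤ |(p.2 : ℝ) * ξ - (p.1 : ℝ) * ξ|),
      (pal (k7hIv ξ p.1)).toReal * (pal (k7hIv ξ p.2)).toReal := lt_of_lt_of_le (by positivity) hsum
  obtain ⟨p, hp, _⟩ := Finset.exists_ne_zero_of_sum_ne_zero hpos.ne'
  rw [Finset.mem_filter, Finset.mem_product] at hp
  obtain ⟨⟨hp1, hp2⟩, hsep⟩ := hp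
  obtain ⟨ω1, hW1, hs1, hk1, _⟩ := k7h_witness h (st ω) p.1 (hA _ hp1)
  obtain ⟨ω2, hW2, hs2, hk2, _⟩ := k7h_witness h (st ω) p.2 (hA _ hp2)
  have hv1 := (k7h_iv_mem hξ _ _).2 hk1
  have hv2 := (k7h_iv_mem hξ _ _).2 hk2
  rw [k7hIv, Set.mem_Ico] at hv1 hv2
  have hsepv : ρ / 2 ≤ |vel ω1.1 - vel ω2.1| := by
    rcases le_abs.1 hsep with h5 | h5
    · rw [abs_sub_comm]
      exact le_trans (by linarith [hv1.1, hv1.2, hv2.1, hv2.2]) (le_abs_self _)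
    · exact le_trans (by linarith [hv1.1, hv1.2, hv2.1, hv2.2]) (le_abs_self _)
  have hrow : ∀ ω' ∈ W, st ω' = st ω → |(Tσ (st ω)).1 + (Tσ (st ω)).2 * vel ω'.1| ≤ 2 * K := by
    intro ω' hW' hs'
    have h5 := h.hrow ω' hW'
    rw [hs'] at h5
    have h6 := h.hcst ω' hW'
    have h7 : K * E ≤ K := by nlinarith
    have e : (Tσ (st ω)).1 + (Tσ (st ω)).2 * vel ω'.1
        = ((Tσ (st ω)).1 + vel ω'.1 * (Tσ (st ω)).2 - cst ω'.1) + cst ω'.1 := by ring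
    rw [e]
    exact (abs_add_le _ _).trans (by linarith)
  have hK' : 1 ≤ K + 2 / ρ := by
    have : 0 < 2 / ρ := by positivity
    linarith
  have hK'0 : 0 < K + 2 / ρ := by linarith
  have hsep' : 1 / (K + 2 / ρ) ≤ |vel ω1.1 - vel ω2.1| := by
    refine le_trans ?_ hsepv
    rw [div_le_iff₀ hK'0]
    have : ρ / 2 * (2 / ρ) = 1 := by field_simp
    nlinarith
  have hv1K : |vel ω1.1| ≤ K + 2 / ρ := by
    have : 0 < 2 / ρ := by positivity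
    linarith [(h.hbd ω1 hW1).2]
  obtain ⟨h8, h9⟩ := k7b_row_interp hK' hv1K hsep' (hrow ω1 hW1 hs1) (hrow ω2 hW2 hs2)
  have hsq : K + 2 / ρ ≤ (K + 2 / ρ) ^ 2 := by nlinarith
  have hsq1 : 1 ≤ (K + 2 / ρ) ^ 2 := by nlinarith
  constructor
  · refine h9.trans ?_
    nlinarith
  · refine h8.trans ?_
    nlinarith

theorem k7h_card_Icc (a b : ℝ) (hab : a ≤ b) : ((Finset.Icc ⌊a⌋ ⌊b⌋).card : ℝ) ≤ b - a + 2 := by
  rw [Int.card_Icc]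
  have h1 : ⌊a⌋ ≤ ⌊b⌋ := Int.floor_le_floor hab
  have h3 := Int.toNat_of_nonneg (show 0 ≤ ⌊b⌋ + 1 - ⌊a⌋ by omega)
  have h4 : (((⌊b⌋ + 1 - ⌊a⌋).toNat : ℤ) : ℝ) = (⌊b⌋ : ℝ) + 1 - ⌊a⌋ := by
    rw [h3]
    push_cast
    ring
  have h5 : (((⌊b⌋ + 1 - ⌊a⌋).toNat : ℤ) : ℝ) = ((⌊b⌋ + 1 - ⌊a⌋).toNat : ℝ) := by
    push_cast
    rfl
  rw [← h5, h4]
  linarith [Int.floor_le b, Int.lt_floor_add_one a]

theorem k7h_bins_arith (K ρ : ℝ) (hK : 1 ≤ K) (hρ0 : 0 < ρ) (hρ1 : ρ ≤ 1) :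
    2 * K ^ 2 * (K ^ 2 * (2 * ((1 + 2 * (K + 1 + 1 / ρ) ^ 2) * (2 * K + 6 * K * (K + 2 / ρ) ^ 2)) + 2) ^ 2)
      ≤ 9073800 * (K / ρ) ^ 14 := by
  obtain ⟨X, hX⟩ : ∃ X : ℝ, X = K / ρ := ⟨_, rfl⟩
  rw [← hX]
  have hK0 : 0 < K := by linarith
  have hXK : K ≤ X := by
    rw [hX, le_div_iff₀ hρ0]
    nlinarith
  have hXρ : 1 / ρ ≤ X := by
    rw [hX]
    exact div_le_div_of_nonneg_right hK hρ0.le
  have hX1 : 1 ≤ X := hK.trans hXK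
  have hX0 : 0 < X := by linarith
  have hρi : 0 < 1 / ρ := by positivity
  have a1 : K + 2 / ρ ≤ 3 * X := by
    have : 2 / ρ = 2 * (1 / ρ) := by ring
    linarith
  have a2 : K + 1 + 1 / ρ ≤ 3 * X := by linarith
  have a3 : (K + 2 / ρ) ^ 2 ≤ 9 * X ^ 2 := by
    have := pow_le_pow_left₀ (by positivity) a1 2
    nlinarith
  have a4 : (K + 1 + 1 / ρ) ^ 2 ≤ 9 * X ^ 2 := by
    have := pow_le_pow_left₀ (by positivity) a2 2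
    nlinarith
  have p2 : 1 ≤ X ^ 2 := one_le_pow₀ hX1
  have p3 : X ≤ X ^ 3 := by nlinarith
  have a5 : 6 * K * (K + 2 / ρ) ^ 2 ≤ 54 * X ^ 3 := by
    calc 6 * K * (K + 2 / ρ) ^ 2 ≤ 6 * X * (9 * X ^ 2) :=
          mul_le_mul (by linarith) a3 (by positivity) (by positivity)
      _ = 54 * X ^ 3 := by ring
  have a6 : 2 * K + 6 * K * (K + 2 / ρ) ^ 2 ≤ 56 * X ^ 3 := by linarith
  have a7 : 1 + 2 * (K + 1 + 1 / ρ) ^ 2 ≤ 19 * X ^ 2 := by linarith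
  have a8 : (1 + 2 * (K + 1 + 1 / ρ) ^ 2) * (2 * K + 6 * K * (K + 2 / ρ) ^ 2) ≤ 1064 * X ^ 5 := by
    calc _ ≤ (19 * X ^ 2) * (56 * X ^ 3) := mul_le_mul a7 a6 (by positivity) (by positivity)
      _ = 1064 * X ^ 5 := by ring
  have p5 : 1 ≤ X ^ 5 := one_le_pow₀ hX1
  have a9 : 2 * ((1 + 2 * (K + 1 + 1 / ρ) ^ 2) * (2 * K + 6 * K * (K + 2 / ρ) ^ 2)) + 2 ≤ 2130 * X ^ 5 := by linarith
  have a10 : (2 * ((1 + 2 * (K + 1 + 1 / ρ) ^ 2) * (2 * K + 6 * K * (K + 2 / ρ) ^ 2)) + 2) ^ 2 ≤ 4536900 * X ^ 10 := by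
    calc _ ≤ (2130 * X ^ 5) ^ 2 := pow_le_pow_left₀ (by positivity) a9 2
      _ = 4536900 * X ^ 10 := by ring
  have a11 : K ^ 2 ≤ X ^ 2 := pow_le_pow_left₀ hK0.le hXK 2
  calc _ ≤ 2 * X ^ 2 * (X ^ 2 * (4536900 * X ^ 10)) :=
        mul_le_mul (by linarith) (mul_le_mul a11 a10 (by positivity) (by positivity)) (by positivity) (by positivity)
    _ = 9073800 * X ^ 14 := by ring

/-- replace the velocity by the corner of its bin and the constant by its list value -/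
theorem k7h_bins_shift {T1 T2 K KT E ξ v vb c y : ℝ} (hE0 : 0 < E) (hξE : ξ ≤ E) (hT2 : |T2| ≤ KT) (h1 : vb ≤ v) (h2 : v < vb + ξ)
    (h3 : |T1 + v * T2 - c| ≤ K * E) (h4 : |c - y| ≤ K * E) : |T1 + vb * T2 - y| ≤ (2 * K + KT) * E := by
  have e : T1 + vb * T2 - y = (T1 + v * T2 - c) + (c - y) + (vb - v) * T2 := by ring
  rw [e]
  have h5 : |(vb - v) * T2| ≤ E * KT := by
    rw [abs_mul]
    refine mul_le_mul ?_ hT2 (abs_nonneg _) hE0.le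
    rw [abs_le]
    constructor <;> linarith
  refine (abs_add_three _ _ _).trans ?_
  linarith

/-- two approximate equations fix the row -/
theorem k7h_bins_solve {T1 T2 v1 v2 y1 y2 K' e : ℝ} (hK' : 1 ≤ K') (hv1 : |v1| ≤ K') (hsep : 1 / K' ≤ |v1 - v2|)
    (k1 : |T1 + v1 * T2 - y1| ≤ e) (k2 : |T1 + v2 * T2 - y2| ≤ e) :
    |T1 - (y1 - v1 * ((y1 - y2) / (v1 - v2)))| ≤ (1 + 2 * K' ^ 2) * e ∧ |T2 - (y1 - y2) / (v1 - v2)| ≤ (1 + 2 * K' ^ 2) * e := by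
  have hne : v1 - v2 ≠ 0 := by
    intro h0
    rw [h0, abs_zero] at hsep
    have : 0 < 1 / K' := by positivity
    linarith
  have he0 : 0 ≤ e := (abs_nonneg _).trans k1
  have d1 : |(T1 - (y1 - v1 * ((y1 - y2) / (v1 - v2)))) + (T2 - (y1 - y2) / (v1 - v2)) * v1| ≤ e := by
    have : (T1 - (y1 - v1 * ((y1 - y2) / (v1 - v2)))) + (T2 - (y1 - y2) / (v1 - v2)) * v1 = T1 + v1 * T2 - y1 := by ring
    rw [this]
    exact k1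
  have d2 : |(T1 - (y1 - v1 * ((y1 - y2) / (v1 - v2)))) + (T2 - (y1 - y2) / (v1 - v2)) * v2| ≤ e := by
    have : (T1 - (y1 - v1 * ((y1 - y2) / (v1 - v2)))) + (T2 - (y1 - y2) / (v1 - v2)) * v2 = T1 + v2 * T2 - y2 := by
      field_simp
      ring
    rw [this]
    exact k2
  obtain ⟨g2, g1⟩ := k7b_row_interp hK' hv1 hsep d1 d2
  refine ⟨g1, g2.trans (mul_le_mul_of_nonneg_right ?_ he0)⟩
  nlinarith

theorem k7h_bins_floor {T t r E : ℝ} (hE0 : 0 < E) (h : |T - t| ≤ r) : ⌊T / E⌋ ∈ Finset.Icc ⌊(t - r) / E⌋ ⌊(t + r) / E⌋ := by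
  obtain ⟨a1, a2⟩ := abs_le.1 h
  rw [Finset.mem_Icc]
  exact ⟨Int.floor_le_floor (div_le_div_of_nonneg_right (by linarith) hE0.le),
    Int.floor_le_floor (div_le_div_of_nonneg_right (by linarith) hE0.le)⟩

theorem k7h_bins_boxcard {E rE : ℝ} (hE0 : 0 < E) (hrE : 0 ≤ rE) (t : ℝ) :
    ((Finset.Icc ⌊(t - rE * E) / E⌋ ⌊(t + rE * E) / E⌋).card : ℝ) ≤ 2 * rE + 2 := by
  have h1 : (t - rE * E) / E ≤ (t + rE * E) / E := by
    refine div_le_div_of_nonneg_right ?_ hE0.le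
    nlinarith
  refine (k7h_card_Icc _ _ h1).trans (le_of_eq ?_)
  field_simp
  ring

/-- a separated pair of velocity bins is compatible with few row bins -/
theorem k7h_bins_mult (h : K7hPre ξ E K S P Z0 vel cst st Tσ W μ pal) (hξ : 0 < ξ) (hξE : ξ ≤ E) (hE1 : E ≤ 1) (hK : 1 ≤ K)
    {ρ KT : ℝ} (hρ0 : 0 < ρ) (hKT0 : 0 ≤ KT) (q : ℤ × ℤ) (p : ℤ × ℤ) (hsep : ρ ≤ |(p.2 : ℝ) * ξ - (p.1 : ℝ) * ξ|) :
    ∃ F : Finset (ℤ × ℤ), (F.card : ℝ) ≤ K ^ 2 * (2 * ((1 + 2 * (K + 1 + 1 / ρ) ^ 2) * (2 * K + KT)) + 2) ^ 2 ∧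
      ∀ ω ∈ W, re6Zc ξ Z0 vel ω = q → |(Tσ (st ω)).2| ≤ KT → μ (st ⁻¹' {st ω} ∩ k7hVb ξ vel p.1) ≠ 0 →
        μ (st ⁻¹' {st ω} ∩ k7hVb ξ vel p.2) ≠ 0 → (⌊(Tσ (st ω)).1 / E⌋, ⌊(Tσ (st ω)).2 / E⌋) ∈ F := by
  classical
  have hE0 : 0 < E := lt_of_lt_of_le hξ hξE
  have hK0 : 0 < K := by linarith
  have hρi : 0 < 1 / ρ := by positivity
  obtain ⟨K', hK'⟩ : ∃ K' : ℝ, K' = K + 1 + 1 / ρ := ⟨_, rfl⟩
  obtain ⟨rE, hrE⟩ : ∃ rE : ℝ, rE = (1 + 2 * K' ^ 2) * (2 * K + KT) := ⟨_, rfl⟩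
  rw [← hK', ← hrE]
  have hK'1 : 1 ≤ K' := by rw [hK']; linarith
  have hrE0 : 0 ≤ rE := by rw [hrE]; positivity
  obtain ⟨L1, hL1, hL1'⟩ := h.hlist q p.1
  obtain ⟨L2, hL2, hL2'⟩ := h.hlist q p.2
  obtain ⟨v1, hv1⟩ : ∃ v1 : ℝ, v1 = (p.1 : ℝ) * ξ := ⟨_, rfl⟩
  obtain ⟨v2, hv2⟩ : ∃ v2 : ℝ, v2 = (p.2 : ℝ) * ξ := ⟨_, rfl⟩
  rw [← hv1, ← hv2] at hsep
  obtain ⟨Bx, hBx⟩ : ∃ Bx : ℝ × ℝ → Finset (ℤ × ℤ), Bx = fun y =>
      Finset.Icc ⌊((y.1 - v1 * ((y.1 - y.2) / (v1 - v2))) - rE * E) / E⌋ ⌊((y.1 - v1 * ((y.1 - y.2) / (v1 - v2))) + rE * E) / E⌋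
        ×ˢ Finset.Icc ⌊((y.1 - y.2) / (v1 - v2) - rE * E) / E⌋ ⌊((y.1 - y.2) / (v1 - v2) + rE * E) / E⌋ := ⟨_, rfl⟩
  have hBxc : ∀ y, ((Bx y).card : ℝ) ≤ (2 * rE + 2) ^ 2 := by
    intro y
    rw [hBx]
    simp only [Finset.card_product]
    push_cast
    rw [sq]
    exact mul_le_mul (k7h_bins_boxcard hE0 hrE0 _) (k7h_bins_boxcard hE0 hrE0 _) (Nat.cast_nonneg _) (by positivity)
  refine ⟨(L1 ×ˢ L2).biUnion Bx, ?_, ?_⟩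
  · calc (((L1 ×ˢ L2).biUnion Bx).card : ℝ) ≤ ∑ y ∈ L1 ×ˢ L2, ((Bx y).card : ℝ) := by
          exact_mod_cast Finset.card_biUnion_le
      _ ≤ ∑ _y ∈ L1 ×ˢ L2, (2 * rE + 2) ^ 2 := Finset.sum_le_sum fun y _ => hBxc y
      _ = (L1.card : ℝ) * L2.card * (2 * rE + 2) ^ 2 := by
          rw [Finset.sum_const, Finset.card_product, nsmul_eq_mul]
          push_cast
          ring
      _ ≤ K ^ 2 * (2 * rE + 2) ^ 2 := by
          refine mul_le_mul_of_nonneg_right ?_ (by positivity)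
          rw [sq]
          exact mul_le_mul hL1 hL2 (Nat.cast_nonneg _) hK0.le
  · intro ω hω hq hT2b hm1 hm2
    obtain ⟨ω1, hW1, hs1, hk1, _⟩ := k7h_witness h (st ω) p.1 hm1
    obtain ⟨ω2, hW2, hs2, hk2, _⟩ := k7h_witness h (st ω) p.2 hm2
    have hq1 : re6Zc ξ Z0 vel ω1 = q := (h.hcell ω1 hW1 ω hω hs1).trans hq
    have hq2 : re6Zc ξ Z0 vel ω2 = q := (h.hcell ω2 hW2 ω hω hs2).trans hq
    obtain ⟨y1, hy1, hy1'⟩ := hL1' ω1 hW1 hq1 hk1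
    obtain ⟨y2, hy2, hy2'⟩ := hL2' ω2 hW2 hq2 hk2
    have hb1 := (k7h_iv_mem hξ _ _).2 hk1
    have hb2 := (k7h_iv_mem hξ _ _).2 hk2
    rw [k7hIv, Set.mem_Ico, ← hv1] at hb1
    rw [k7hIv, Set.mem_Ico, ← hv2] at hb2
    have hr1 := h.hrow ω1 hW1
    have hr2 := h.hrow ω2 hW2
    rw [hs1] at hr1
    rw [hs2] at hr2
    have k1 := k7h_bins_shift hE0 hξE hT2b hb1.1 (by linarith [hb1.2]) hr1 hy1'
    have k2 := k7h_bins_shift hE0 hξE hT2b hb2.1 (by linarith [hb2.2]) hr2 hy2'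
    have hv1K : |v1| ≤ K' := by
      have h5 := abs_le.1 (h.hbd ω1 hW1).2
      rw [hK', abs_le]
      constructor <;> linarith [hb1.1, hb1.2]
    have hsep' : 1 / K' ≤ |v1 - v2| := by
      rw [abs_sub_comm]
      refine le_trans ?_ hsep
      rw [div_le_iff₀ (by linarith), hK']
      have e3 : ρ * (K + 1 + 1 / ρ) = ρ * K + ρ + 1 := by field_simp
      rw [e3]
      have : 0 < ρ * K := by positivity
      linarith
    obtain ⟨g1, g2⟩ := k7h_bins_solve hK'1 hv1K hsep' k1 k2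
    rw [← mul_assoc, ← hrE] at g1 g2
    rw [Finset.mem_biUnion]
    refine ⟨(y1, y2), Finset.mem_product.2 ⟨hy1, hy2⟩, ?_⟩
    rw [hBx]
    exact Finset.mem_product.2 ⟨k7h_bins_floor hE0 g1, k7h_bins_floor hE0 g2⟩

/-- **L-252-S7h-AB5** at most `C (K/ρ)^C` row bins of width `E` per position cell (07 l.979-987).   See the header. -/
theorem k7h_pre_bins : ∃ C : ℕ, ∀ {Λ : Type} [MeasurableSpace Λ] {St : Type} [Countable St] {ξ E K S : ℝ} {P : Measure Λ} {Z0 vel cst : Λ → ℝ} {st : Λ × ℝ → St} {Tσ : St → ℝ × ℝ}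
    {W : Set (Λ × ℝ)} {μ : Measure (Λ × ℝ)} {pal : Measure ℝ}, K7hPre ξ E K S P Z0 vel cst st Tσ W μ pal → 0 < ξ → ξ ≤ E → E ≤ 1 → 1 ≤ K → 0 < S →
    ∀ ρ : ℝ, 2 * ξ ≤ ρ → 3 * ρ ≤ 1 → K * (3 * ρ) ^ S ≤ 1 / (2 * K) →
    ∀ q : ℤ × ℤ, ∃ bins : Finset (ℝ × ℝ), (bins.card : ℝ) ≤ C * (K / ρ) ^ C ∧
      ∀ ω ∈ k7hLive st W μ, re6Zc ξ Z0 vel ω = q → ∃ b ∈ bins, |(Tσ (st ω)).1 - b.1| ≤ E ∧ |(Tσ (st ω)).2 - b.2| ≤ E := by
  classical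
  refine ⟨9073800, ?_⟩
  intro Λ _ St _ ξ E K S P Z0 vel cst st Tσ W μ pal h hξ hξE hE1 hK hS ρ hρ1 hρ2 hρ q
  have hE0 : 0 < E := lt_of_lt_of_le hξ hξE
  have hK0 : 0 < K := by linarith
  have hρ0 : 0 < ρ := by linarith
  obtain ⟨KT, hKT⟩ : ∃ KT : ℝ, KT = 6 * K * (K + 2 / ρ) ^ 2 := ⟨_, rfl⟩
  obtain ⟨Mr, hMr⟩ : ∃ Mr : ℝ, Mr = K ^ 2 * (2 * ((1 + 2 * (K + 1 + 1 / ρ) ^ 2) * (2 * K + KT)) + 2) ^ 2 := ⟨_, rfl⟩
  have hKT0 : 0 ≤ KT := by rw [hKT]; positivity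
  have hMr0 : 0 ≤ Mr := by rw [hMr]; positivity
  have hT := k7h_pre_T h hξ hE1 hE0.le hK hS hρ1 hρ2 hρ
  rw [← hKT] at hT
  -- the options
  obtain ⟨β, hβ⟩ : ∃ β : Λ × ℝ → ℤ × ℤ, β = fun ω => (⌊(Tσ (st ω)).1 / E⌋, ⌊(Tσ (st ω)).2 / E⌋) := ⟨_, rfl⟩
  obtain ⟨NB, hNB⟩ : ∃ NB : ℕ, KT / E + 1 ≤ NB := exists_nat_ge _
  obtain ⟨Opt, hOpt⟩ : ∃ Opt : Finset (ℤ × ℤ), Opt = ((Finset.Icc (-(NB : ℤ)) NB) ×ˢ (Finset.Icc (-(NB : ℤ)) NB)).filter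
      (fun o => ∃ ω ∈ k7hLive st W μ, re6Zc ξ Z0 vel ω = q ∧ β ω = o) := ⟨_, rfl⟩
  have hOptmem : ∀ ω ∈ k7hLive st W μ, re6Zc ξ Z0 vel ω = q → β ω ∈ Opt := by
    intro ω hω hq
    rw [hOpt, Finset.mem_filter, Finset.mem_product]
    refine ⟨?_, ω, hω, hq, rfl⟩
    rw [hβ]
    exact ⟨k7h_bin_bd hE0 (hT ω hω).1 NB hNB, k7h_bin_bd hE0 (hT ω hω).2 NB hNB⟩
  -- the witnesses
  obtain ⟨N, hN⟩ : ∃ N : ℕ, K / ξ + 1 ≤ N := exists_nat_ge _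
  obtain ⟨VB, hVB⟩ : ∃ VB : Finset ℤ, VB = Finset.Icc (-(N : ℤ)) N := ⟨_, rfl⟩
  obtain ⟨w, hw⟩ : ∃ w : ℤ × ℤ → ℝ, w = fun p => (pal (k7hIv ξ p.1)).toReal * (pal (k7hIv ξ p.2)).toReal := ⟨_, rfl⟩
  have hw0 : ∀ p, 0 ≤ w p := fun p => by rw [hw]; positivity
  obtain ⟨R, hR⟩ : ∃ R : ℤ × ℤ → ℤ × ℤ → Prop, R = fun o p => ρ ≤ |(p.2 : ℝ) * ξ - (p.1 : ℝ) * ξ| ∧
      ∃ ω ∈ k7hLive st W μ, re6Zc ξ Z0 vel ω = q ∧ β ω = o ∧ μ (st ⁻¹' {st ω} ∩ k7hVb ξ vel p.1) ≠ 0 ∧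
        μ (st ⁻¹' {st ω} ∩ k7hVb ξ vel p.2) ≠ 0 := ⟨_, rfl⟩
  have htot : ∑ p ∈ VB ×ˢ VB, w p ≤ 1 := by
    have h1 : ∑ k ∈ VB, (pal (k7hIv ξ k)).toReal ≤ 1 := by
      have h2 := (k7h_pal_sum hξ pal VB Set.univ fun k _ => Set.subset_univ _).trans h.hpal1
      have h3 := ENNReal.toReal_mono ENNReal.one_ne_top h2
      rwa [ENNReal.toReal_sum fun k _ => k7h_pal_fin h _, ENNReal.toReal_one] at h3
    have h0 : 0 ≤ ∑ k ∈ VB, (pal (k7hIv ξ k)).toReal := Finset.sum_nonneg fun _ _ => ENNReal.toReal_nonneg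
    rw [hw, Finset.sum_product]
    simp only
    rw [← Finset.sum_mul_sum]
    exact mul_le_one₀ h1 h0 h1
  have hwit : ∀ o ∈ Opt, 1 / (2 * K ^ 2) ≤ ∑ p ∈ VB ×ˢ VB with R o p, w p := by
    intro o ho
    rw [hOpt, Finset.mem_filter] at ho
    obtain ⟨_, ω, hω, hq, hβo⟩ := ho
    obtain ⟨A, hA, hsum⟩ := k7h_sep_pairs h hξ hK hS (by linarith) hρ2 hρ (st ω) hω.2
    refine hsum.trans ?_
    rw [hw]
    refine Finset.sum_le_sum_of_subset_of_nonneg ?_ fun p _ _ => by positivity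
    intro p hp
    rw [Finset.mem_filter, Finset.mem_product] at hp
    obtain ⟨⟨hp1, hp2⟩, hsep⟩ := hp
    obtain ⟨ω1, hW1, _, hk1, _⟩ := k7h_witness h (st ω) p.1 (hA _ hp1)
    obtain ⟨ω2, hW2, _, hk2, _⟩ := k7h_witness h (st ω) p.2 (hA _ hp2)
    rw [Finset.mem_filter, Finset.mem_product, hVB]
    refine ⟨⟨?_, ?_⟩, ?_⟩
    · rw [← hk1]; exact k7h_bin_bd hξ (h.hbd ω1 hW1).2 N hN
    · rw [← hk2]; exact k7h_bin_bd hξ (h.hbd ω2 hW2).2 N hN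
    · rw [hR]
      exact ⟨hsep, ω, hω, hq, hβo, hA _ hp1, hA _ hp2⟩
  have hmult : ∀ p ∈ VB ×ˢ VB, (Opt.filter (fun o => R o p)).card ≤ ⌊Mr⌋₊ := by
    intro p _
    by_cases hsep : ρ ≤ |(p.2 : ℝ) * ξ - (p.1 : ℝ) * ξ|
    · obtain ⟨F, hF, hF'⟩ := k7h_bins_mult h hξ hξE hE1 hK hρ0 hKT0 q p hsep
      rw [← hMr] at hF
      refine Nat.le_floor (le_trans ?_ hF)
      have hsub : Opt.filter (fun o => R o p) ⊆ F := by
        intro o ho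
        rw [Finset.mem_filter, hR] at ho
        obtain ⟨_, _, ω, hω, hq, hβo, hm1, hm2⟩ := ho
        rw [← hβo, hβ]
        exact hF' ω hω.1 hq (hT ω hω).2 hm1 hm2
      exact_mod_cast Finset.card_le_card hsub
    · have : Opt.filter (fun o => R o p) = ∅ := by
        rw [Finset.filter_eq_empty_iff]
        intro o _ hRo
        rw [hR] at hRo
        exact hsep hRo.1
      rw [this]
      simp
  have hcount := k7b_options_count Opt (VB ×ˢ VB) w (fun p _ => hw0 p) R htot hwit hmult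
  have hOptc : (Opt.card : ℝ) ≤ 9073800 * (K / ρ) ^ 14 := by
    have h1 : ((⌊Mr⌋₊ : ℕ) : ℝ) ≤ Mr := Nat.floor_le hMr0
    have h2 : (Opt.card : ℝ) ≤ 2 * K ^ 2 * Mr := by
      have h3 : (Opt.card : ℝ) * (1 / (2 * K ^ 2)) ≤ Mr := by linarith
      rw [mul_one_div, div_le_iff₀ (by positivity)] at h3
      linarith
    refine h2.trans ?_
    rw [hMr, hKT]
    exact k7h_bins_arith K ρ hK hρ0 (by linarith)
  refine ⟨Opt.image (fun o => ((o.1 : ℝ) * E, (o.2 : ℝ) * E)), ?_, ?_⟩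
  · have hX1 : 1 ≤ K / ρ := by
      rw [le_div_iff₀ hρ0]
      linarith
    calc ((Opt.image (fun o : ℤ × ℤ => ((o.1 : ℝ) * E, (o.2 : ℝ) * E))).card : ℝ) ≤ Opt.card := by
          exact_mod_cast Finset.card_image_le
      _ ≤ 9073800 * (K / ρ) ^ 14 := hOptc
      _ ≤ ((9073800 : ℕ) : ℝ) * (K / ρ) ^ 9073800 := by
          push_cast
          exact mul_le_mul_of_nonneg_left (pow_le_pow_right₀ hX1 (by norm_num)) (by norm_num)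
  · intro ω hω hq
    refine ⟨_, Finset.mem_image_of_mem _ (hOptmem ω hω hq), ?_⟩
    rw [hβ]
    have hfl : ∀ x : ℝ, |x - (⌊x / E⌋ : ℝ) * E| ≤ E := by
      intro x
      have h1 := Int.floor_le (x / E)
      have h2 := Int.lt_floor_add_one (x / E)
      rw [le_div_iff₀ hE0] at h1
      rw [div_lt_iff₀ hE0] at h2
      rw [abs_le]
      constructor <;> linarith
    exact ⟨hfl _, hfl _⟩

end abs

theorem k7h_poly_le (c m C : ℕ) (hc : c ≤ C) (hm : m ≤ C) {K : ℝ} (hK : 1 ≤ K) : (c : ℝ) * K ^ m ≤ (C : ℝ) * K ^ C :=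
  mul_le_mul (by exact_mod_cast hc) (pow_le_pow_right₀ hK hm) (by positivity) (by positivity)

/-- the separation `ρ = (2K²)^{-1/S} / 3` -/
theorem k7h_rho (S : ℝ) (hS : 0 < S) (K : ℝ) (hK : 1 ≤ K) : ∃ ρ : ℝ, 0 < ρ ∧ 3 * ρ ≤ 1 ∧ K * (3 * ρ) ^ S ≤ 1 / (2 * K) ∧
    1 / ρ ≤ ((3 * 2 ^ ⌈1 / S⌉₊ : ℕ) : ℝ) * K ^ (2 * ⌈1 / S⌉₊) := by
  have hK0 : 0 < K := by linarith
  have hb1 : (1 : ℝ) ≤ 2 * K ^ 2 := by nlinarith
  have hb0 : (0 : ℝ) < 2 * K ^ 2 := by linarith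
  refine ⟨(2 * K ^ 2) ^ (-1 / S) / 3, by positivity, ?_, ?_, ?_⟩
  · rw [mul_div_cancel₀ _ (by norm_num : (3 : ℝ) ≠ 0)]
    refine Real.rpow_le_one_of_one_le_of_nonpos hb1 ?_
    rw [neg_div]
    have : 0 < 1 / S := by positivity
    linarith
  · rw [mul_div_cancel₀ _ (by norm_num : (3 : ℝ) ≠ 0), ← Real.rpow_mul hb0.le, div_mul_cancel₀ _ hS.ne', Real.rpow_neg_one]
    refine le_of_eq ?_
    field_simp
  · have e1 : 1 / ((2 * K ^ 2) ^ (-1 / S) / 3) = 3 * (2 * K ^ 2) ^ (1 / S) := by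
      rw [neg_div, Real.rpow_neg hb0.le]
      field_simp
    rw [e1]
    have h1 : (2 * K ^ 2) ^ (1 / S) ≤ (2 * K ^ 2) ^ ⌈1 / S⌉₊ := by
      have h2 := Real.rpow_le_rpow_of_exponent_le hb1 (Nat.le_ceil (1 / S))
      rwa [Real.rpow_natCast] at h2
    calc 3 * (2 * K ^ 2) ^ (1 / S) ≤ 3 * (2 * K ^ 2) ^ ⌈1 / S⌉₊ := by linarith
      _ = _ := by
          rw [mul_pow, ← pow_mul]
          push_cast
          ring

/-- **L-252-S7h-AB6** the hypotheses of `a06:row-fit`.   `ρ := (2 K²)^{-1/S} / 3`, `1/ρ ≤ C K^C`. -/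
theorem k7h_pre_fit (S : ℝ) (hS : 0 < S) : ∃ C : ℕ, 1 ≤ C ∧ ∀ {Λ : Type} [MeasurableSpace Λ] {St : Type} [Countable St] {ξ E K : ℝ} {P : Measure Λ} {Z0 vel cst : Λ → ℝ}
    {st : Λ × ℝ → St} {Tσ : St → ℝ × ℝ} {W : Set (Λ × ℝ)} {μ : Measure (Λ × ℝ)} {pal : Measure ℝ},
    K7hPre ξ E K S P Z0 vel cst st Tσ W μ pal → 0 < ξ → ξ ≤ E → E ≤ 1 → 1 ≤ K → (C : ℝ) * K ^ C * ξ ≤ 1 →
    Re6Fit ξ E ((C : ℝ) * K ^ C) S P Z0 vel cst (fun ω => Tσ (st ω)) (k7hLive st W μ) μ pal := by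
  obtain ⟨C₅, hbins⟩ := k7h_pre_bins
  obtain ⟨a, ha⟩ : ∃ a : ℕ, a = 3 * 2 ^ ⌈1 / S⌉₊ := ⟨_, rfl⟩
  obtain ⟨b, hb⟩ : ∃ b : ℕ, b = 2 * ⌈1 / S⌉₊ := ⟨_, rfl⟩
  have hb1 : 1 ≤ b := by
    have : 0 < ⌈1 / S⌉₊ := Nat.ceil_pos.2 (by positivity)
    omega
  obtain ⟨C, hC⟩ : ∃ C : ℕ, C = C₅ * a ^ C₅ + 6 * (1 + 2 * a) ^ 2 + 2 * a + (b + 1) * C₅ + 2 * b + 1 + 1 := ⟨_, rfl⟩
  refine ⟨C, by omega, ?_⟩
  intro Λ _ St _ ξ E K P Z0 vel cst st Tσ W μ pal h hξ hξE hE1 hK hsmall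
  obtain ⟨ρ, hρ0, hρ2, hρ, hρi⟩ := k7h_rho S hS K hK
  rw [← ha, ← hb] at hρi
  have hK0 : 0 < K := by linarith
  have hE0 : 0 < E := lt_of_lt_of_le hξ hξE
  obtain ⟨K₁, hK₁⟩ : ∃ K₁ : ℝ, K₁ = (C : ℝ) * K ^ C := ⟨_, rfl⟩
  rw [← hK₁] at hsmall ⊢
  have hKb : K ≤ K ^ b := le_self_pow₀ hK (by omega)
  have hKb0 : 0 < K ^ b := by positivity
  have c1 : K ≤ K₁ := by
    have := k7h_poly_le 1 1 C (by omega) (by omega) hK
    rw [hK₁]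
    simpa using this
  have c4 : 2 / ρ ≤ K₁ := by
    have h1 := k7h_poly_le (2 * a) b C (by omega) (by omega) hK
    rw [hK₁]
    refine le_trans ?_ h1
    push_cast
    have : 2 / ρ = 2 * (1 / ρ) := by ring
    rw [this]
    linarith
  have c2 : 6 * K * (K + 2 / ρ) ^ 2 ≤ K₁ := by
    have h1 := k7h_poly_le (6 * (1 + 2 * a) ^ 2) (2 * b + 1) C (by omega) (by omega) hK
    rw [hK₁]
    refine le_trans ?_ h1
    push_cast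
    have h2 : K + 2 / ρ ≤ (1 + 2 * (a : ℝ)) * K ^ b := by
      have : 2 / ρ = 2 * (1 / ρ) := by ring
      rw [this]
      linarith
    have h3 : (K + 2 / ρ) ^ 2 ≤ ((1 + 2 * (a : ℝ)) * K ^ b) ^ 2 := pow_le_pow_left₀ (by positivity) h2 2
    calc 6 * K * (K + 2 / ρ) ^ 2 ≤ 6 * K * ((1 + 2 * (a : ℝ)) * K ^ b) ^ 2 := mul_le_mul_of_nonneg_left h3 (by positivity)
      _ = _ := by ring
  have c3 : (C₅ : ℝ) * (K / ρ) ^ C₅ ≤ K₁ := by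
    have h1 := k7h_poly_le (C₅ * a ^ C₅) ((b + 1) * C₅) C (by omega) (by omega) hK
    rw [hK₁]
    refine le_trans ?_ h1
    push_cast
    have h2 : K / ρ ≤ (a : ℝ) * K ^ (b + 1) := by
      have : K / ρ = (1 / ρ) * K := by ring
      rw [this, pow_succ, ← mul_assoc]
      exact mul_le_mul_of_nonneg_right hρi hK0.le
    have h3 : (K / ρ) ^ C₅ ≤ ((a : ℝ) * K ^ (b + 1)) ^ C₅ := pow_le_pow_left₀ (by positivity) h2 _
    calc (C₅ : ℝ) * (K / ρ) ^ C₅ ≤ (C₅ : ℝ) * ((a : ℝ) * K ^ (b + 1)) ^ C₅ := mul_le_mul_of_nonneg_left h3 (by positivity)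
      _ = _ := by rw [mul_pow, ← pow_mul]; ring
  have hK₁0 : 0 < K₁ := by linarith
  have hρ1 : 2 * ξ ≤ ρ := by
    have h1 : 2 / ρ * ξ ≤ 1 := (mul_le_mul_of_nonneg_right c4 hξ.le).trans hsmall
    rw [div_mul_eq_mul_div, div_le_one hρ0] at h1
    exact h1
  have hlive := k7h_live h
  have hT := k7h_pre_T h hξ hE1 hE0.le hK hS hρ1 hρ2 hρ
  exact
    { hP := h.hP
      hZ0m := h.hZ0m
      hvelm := h.hvelm
      hTm := hlive.2.2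
      hWm := hlive.1
      hdom := h.hdom.trans (Measure.le_iff'.2 fun s => by
        simp only [Measure.smul_apply, smul_eq_mul]
        exact mul_le_mul_left (ENNReal.ofReal_le_ofReal c1) _)
      hW := hlive.2.1
      hmass := (ENNReal.ofReal_le_ofReal (one_div_le_one_div_of_le hK0 c1)).trans h.hmass
      hWt := fun ω hω => h.hWt ω hω.1
      hbd := fun ω hω => ⟨(h.hbd ω hω.1).1.trans c1, (h.hbd ω hω.1).2.trans c1⟩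
      hpal1 := h.hpal1
      hpal := fun x y h1 h2 => (h.hpal x y h1 h2).trans
        (ENNReal.ofReal_le_ofReal (mul_le_mul_of_nonneg_right c1 (Real.rpow_nonneg (by linarith) _)))
      hcap := fun q k => (h.hcap q k).trans
        (mul_le_mul_left (ENNReal.ofReal_le_ofReal (mul_le_mul_of_nonneg_right c1 (by positivity))) _)
      hT := fun ω hω => ⟨(hT ω hω).1.trans c2, (hT ω hω).2.trans c2⟩
      hbins := fun q => by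
        obtain ⟨bins, hb1, hb2⟩ := hbins h hξ hξE hE1 hK hS ρ hρ1 hρ2 hρ q
        exact ⟨bins, hb1.trans c3, hb2⟩
      hrow := fun ω hω => (h.hrow ω hω.1).trans (mul_le_mul_of_nonneg_right c1 hE0.le) }

theorem k7h_small (c x : ℝ) (hc : 1 ≤ c) (hx : 0 < x) : ∃ ξ₀ : ℝ, 0 < ξ₀ ∧ ∀ ξ : ℝ, 0 < ξ → ξ < ξ₀ → c ≤ ξ ^ (-x) := by
  have hc0 : 0 < c := by linarith
  refine ⟨c ^ (-1 / x), by positivity, fun ξ hξ hξ0 => ?_⟩
  have h1 : (c ^ (-1 / x)) ^ (-x) ≤ ξ ^ (-x) := Real.rpow_le_rpow_of_nonpos hξ hξ0.le (by linarith)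
  rw [← Real.rpow_mul hc0.le] at h1
  have e : -1 / x * -x = 1 := by field_simp
  rwa [e, Real.rpow_one] at h1

theorem k7h_fit_pt {K δ E T1 T2 B₁ B₂ lam v z t c : ℝ} (hK : 1 ≤ K) (hδ1 : 1 ≤ δ) (hE0 : 0 < E) (hv : |v| ≤ K)
    (hrow : |T1 + v * T2 - c| ≤ K * E) (h1 : |T1 - B₁ + lam * (z + v * t)| ≤ δ * E) (h2 : |T2 - B₂ - lam * t| ≤ δ * E) :
    |c - (B₁ + B₂ * v - lam * z)| ≤ 3 * (K * δ) * E := by
  have hK0 : 0 < K := by linarith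
  have e : c - (B₁ + B₂ * v - lam * z) = -(T1 + v * T2 - c) + (T1 - B₁ + lam * (z + v * t)) + v * (T2 - B₂ - lam * t) := by ring
  have h3 : |v * (T2 - B₂ - lam * t)| ≤ K * (δ * E) := by
    rw [abs_mul]
    exact mul_le_mul hv h2 (abs_nonneg _) hK0.le
  have h4 : |c - (B₁ + B₂ * v - lam * z)| ≤ K * E + δ * E + K * (δ * E) := by
    rw [e]
    refine (abs_add_three _ _ _).trans ?_
    rw [abs_neg]
    linarith
  refine h4.trans ?_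
  have a1 : K * E ≤ K * δ * E := by
    have : K * 1 ≤ K * δ := mul_le_mul_of_nonneg_left hδ1 hK0.le
    nlinarith
  have a2 : δ * E ≤ K * δ * E := by
    have : 1 * δ ≤ K * δ := mul_le_mul_of_nonneg_right hK (by linarith)
    nlinarith
  nlinarith

theorem k7h_fit_slack {ξ K σ : ℝ} {C : ℕ} (hC1 : 1 ≤ C) (hξ : 0 < ξ) (hK : 1 ≤ K) (hCξ : (C : ℝ) ≤ ξ ^ (-(σ / 2)))
    (hKa : K ≤ ξ ^ (-(σ / (2 * C)))) : (C : ℝ) * K ^ C ≤ ξ ^ (-σ) := by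
  have hCr : (1 : ℝ) ≤ C := by exact_mod_cast hC1
  have hK0 : 0 < K := by linarith
  have h1 : K ^ C ≤ ξ ^ (-(σ / 2)) := by
    calc K ^ C ≤ (ξ ^ (-(σ / (2 * C)))) ^ C := pow_le_pow_left₀ hK0.le hKa _
      _ = ξ ^ (-(σ / 2)) := by
          rw [← Real.rpow_natCast, ← Real.rpow_mul hξ.le]
          congr 1
          field_simp
  calc (C : ℝ) * K ^ C ≤ ξ ^ (-(σ / 2)) * ξ ^ (-(σ / 2)) := mul_le_mul hCξ h1 (by positivity) (by positivity)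
    _ = ξ ^ (-σ) := by
        rw [← Real.rpow_add hξ]
        congr 1
        ring

/-- **L-252-S7h-AB7** THE ABSTRACT ROW FIT (exit of this file): `cst = B₁ + B₂ vel - lam Z0 + O(ξ^{-τ'} E)` on mass `≥ ξ^{τ'}`.
PLAN: `k7h_pre_fit`, `re6_row_fit S (τ'/4)`; on the good set `T₁ + vel T₂ = B₁ + B₂ vel - lam Z0 ± (1 + K) ξ^{-τ'/4} E`, `hrow`. -/
theorem k7h_abs_fit (S τ' : ℝ) (hS : 0 < S) (hτ' : 0 < τ') :
    ∃ τ ξ₀ : ℝ, 0 < τ ∧ 0 < ξ₀ ∧ ∀ {Λ : Type} [MeasurableSpace Λ] {St : Type} [Countable St] {ξ E K : ℝ} {P : Measure Λ} {Z0 vel cst : Λ → ℝ}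
      {st : Λ × ℝ → St} {Tσ : St → ℝ × ℝ} {W : Set (Λ × ℝ)} {μ : Measure (Λ × ℝ)} {pal : Measure ℝ},
      0 < ξ → ξ < ξ₀ → ξ ≤ E → E ≤ 1 → 1 ≤ K → K ≤ ξ ^ (-τ) → K7hPre ξ E K S P Z0 vel cst st Tσ W μ pal →
      ∃ B₁ B₂ lam : ℝ, |B₁| ≤ ξ ^ (-τ') ∧ |B₂| ≤ ξ ^ (-τ') ∧ |lam| ≤ ξ ^ (-τ') ∧
        ENNReal.ofReal (ξ ^ τ') ≤ μ {ω | ω ∈ W ∧ |cst ω.1 - (B₁ + B₂ * vel ω.1 - lam * Z0 ω.1)| ≤ ξ ^ (-τ') * E} := by
  obtain ⟨C, hC1, hfit⟩ := k7h_pre_fit S hS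
  obtain ⟨τ₁, ξ₁, hτ₁, hξ₁, hrf⟩ := re6_row_fit S (τ' / 4) hS (by positivity)
  have hCr : (1 : ℝ) ≤ C := by exact_mod_cast hC1
  have hC0 : (0 : ℝ) < C := by linarith
  obtain ⟨σ, hσ⟩ : ∃ σ : ℝ, σ = min τ₁ 1 := ⟨_, rfl⟩
  have hσ0 : 0 < σ := by rw [hσ]; exact lt_min hτ₁ one_pos
  have hσ1 : σ ≤ 1 := by rw [hσ]; exact min_le_right _ _
  have hστ : σ ≤ τ₁ := by rw [hσ]; exact min_le_left _ _
  obtain ⟨ξ₂, hξ₂, hs2⟩ := k7h_small C (σ / 2) hCr (by positivity)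
  obtain ⟨ξ₃, hξ₃, hs3⟩ := k7h_small 3 (τ' / 2) (by norm_num) (by positivity)
  refine ⟨min (σ / (2 * C)) (τ' / 4), min (min ξ₁ 1) (min ξ₂ ξ₃), lt_min (by positivity) (by positivity),
    lt_min (lt_min hξ₁ one_pos) (lt_min hξ₂ hξ₃), ?_⟩
  intro Λ _ St _ ξ E K P Z0 vel cst st Tσ W μ pal hξ hξ0 hξE hE1 hK hKξ h
  have hξa : ξ < ξ₁ := lt_of_lt_of_le hξ0 ((min_le_left _ _).trans (min_le_left _ _))
  have hξb : ξ < 1 := lt_of_lt_of_le hξ0 ((min_le_left _ _).trans (min_le_right _ _))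
  have hξc : ξ < ξ₂ := lt_of_lt_of_le hξ0 ((min_le_right _ _).trans (min_le_left _ _))
  have hξd : ξ < ξ₃ := lt_of_lt_of_le hξ0 ((min_le_right _ _).trans (min_le_right _ _))
  have hmono : ∀ x y : ℝ, x ≤ y → ξ ^ (-x) ≤ ξ ^ (-y) := fun x y hxy =>
    Real.rpow_le_rpow_of_exponent_ge hξ hξb.le (neg_le_neg hxy)
  have hE0 : 0 < E := lt_of_lt_of_le hξ hξE
  have hKa : K ≤ ξ ^ (-(σ / (2 * C))) := hKξ.trans (hmono _ _ (min_le_left _ _))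
  have hKb : K ≤ ξ ^ (-(τ' / 4)) := hKξ.trans (hmono _ _ (min_le_right _ _))
  have hK₁ : (C : ℝ) * K ^ C ≤ ξ ^ (-σ) := k7h_fit_slack hC1 hξ hK (hs2 ξ hξ hξc) hKa
  have hK₁1 : 1 ≤ (C : ℝ) * K ^ C := one_le_mul_of_one_le_of_one_le hCr (one_le_pow₀ hK)
  have hsmall : (C : ℝ) * K ^ C * ξ ≤ 1 := by
    calc (C : ℝ) * K ^ C * ξ ≤ ξ ^ (-σ) * ξ := mul_le_mul_of_nonneg_right hK₁ hξ.le
      _ = ξ ^ (1 - σ) := by
          rw [sub_eq_neg_add, Real.rpow_add hξ, Real.rpow_one]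
      _ ≤ 1 := Real.rpow_le_one hξ.le hξb.le (sub_nonneg.2 hσ1)
  obtain ⟨B₁, B₂, lam, hB₁, hB₂, hlam, hmass⟩ := hrf ξ E _ hξ hξa hξE hK₁1 (hK₁.trans (hmono _ _ hστ)) Λ P Z0 vel cst _ _ μ pal
    (hfit h hξ hξE hE1 hK hsmall)
  have hq : ξ ^ (-(τ' / 4)) ≤ ξ ^ (-τ') := hmono _ _ (by linarith)
  refine ⟨B₁, B₂, lam, hB₁.trans hq, hB₂.trans hq, hlam.trans hq, ?_⟩
  have hm1 : ξ ^ τ' ≤ ξ ^ (τ' / 4) := Real.rpow_le_rpow_of_exponent_ge hξ hξb.le (by linarith)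
  refine (ENNReal.ofReal_le_ofReal hm1).trans (hmass.trans (measure_mono ?_))
  rintro ω ⟨hω, h1, h2⟩
  refine ⟨hω.1, ?_⟩
  refine (k7h_fit_pt hK (hK.trans hKb) hE0 (h.hbd ω hω.1).2 (h.hrow ω hω.1) h1 h2).trans
    (mul_le_mul_of_nonneg_right ?_ hE0.le)
  have h6 : ξ ^ (-τ') = ξ ^ (-(τ' / 2)) * (ξ ^ (-(τ' / 4)) * ξ ^ (-(τ' / 4))) := by
    rw [← Real.rpow_add hξ, ← Real.rpow_add hξ]
    congr 1
    ring
  rw [h6]
  exact mul_le_mul (hs3 ξ hξ hξd) (mul_le_mul_of_nonneg_right hKb (by positivity)) (by positivity) (by positivity)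

end

end Claimed.Agent.R252
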