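-- KEEP
import Claimed.Agent.R252.State.KsTan
import Claimed.Agent.R252.S7b.HorLink
import Claimed.Agent.R252.S7b.S1AbsContract

/-!
# Row 252 (Kakeya in R^4), Sec. 7.4, `prop:horizontal-model` (07 l.927-1075), unit S7b-S1 (sub-architect helper77; prefix `k7h_` / `K7h`), files 2-5: FROM THE ROW LIST TO THE HORIZONTAL MODEL.
FILES: `S1AbsContract` (abstract row fit) ; `S1NormContract` (THIS FILE: definitions, normalisation of a label) ; `S1StateContract` (state calculus) ; `S1FitContract` (cores A, B, C) ; `S1ModelContract` (core D, τ-language).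
CONTRACT file: the `sorry`s are the leaves L-252-S7h-*.      Entry: `K7bRowList` (S7b/HorLink, producer S7a `k7a_RowK`).      Exit: `X.hor.Ok0` (S7b/HorLink) or `KsStripCand`.

## Shape (ruling helper261 #29518: NO dichotomy inside a core; the exponent of `λ` is decided at the sequence level)
INTERFACE between the cores = `K7hFit R A E Ds ξ K ε Q ρ0 ρ1 μ Cn` :  a true label `Q` (depth `r`), a dense part `Cn ⊆ E ∩ inc Q` on which, IN TANGENT COORDINATES,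
        `|Y' - (ρ0 + ρ1 Z' + μ (Z(t_Q) - Z_Q))| ≤ ε`,      `|ρ - A_Q| ≤ K g_r`,   `|μ| q_r ≤ K g_r`           (paper: `ρ = A_Q + g_r B`, `μ = - λ g_r / q_r`, `ε = K β`, i.e. `|λ| = |μ| q_r / g_r`)
  + the numerator ceiling of `Cn` against the masses of `E ∩ inc Q` for the state (end history, true labels at the depths `Ds`, normalised position cell of mesh `ξ`)   [so NO `RefIn` is needed: reference weights = masses inside `Q`].
* CORE A `k7h_rowfit`      row list ⟹ `K7hFit`, slack `N^τo`, `ε = N^(τo - B)`                                                     (07 l.941-1000)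
* CORE B `k7h_strip`       `|μ| q_r ≤ K g_r N^-c`, `ε ≤ K g_r N^-c` ⟹ strip candidate of gain `c` at `Q`                           (07 l.1003-1005)
* CORE C1 `k7h_mu_le`      `|μ| h_{r+s'} ≤ C K^C (g_{r+s'} + ε)`, i.e. `|λ| N^{-k s'} ≤ K' (N^{-ℓ s'} + E)`  (so `k < ℓ` forces `λ` power-small)   (07 l.1014-1035)
* CORE C2 `k7h_child_strip` strip candidate at a child of relative depth `s'` : gain `(k - ℓ) s'` if `k > ℓ`                            (07 l.1035-1041)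
* CORE D `k7h_model`       `k = ℓ`, `g_r ≤ K |μ| q_r` ⟹ the EXPLICIT record `k7hX ..` satisfies `Ok0` with slack `C K^C`, on half of `Cn`     (07 l.1006-1013, l.1043-1075)
SEQUENCE LEVEL (Top/Fin): `x := ulim (- log_N (|μ| q_r / g_r)) ∈ [0, ∞]`.  `x > 0` : B.   `x = 0`: `k < ℓ` contradicts C1, `k > ℓ` : C2, `k = ℓ` : D.    (C2 needs no lower bound on `λ`.)
## State calculus
ONE global append `k7h_append` (labels at all needed depths + normalised cell), afterwards only denominator prunings `k7h_cond` against masses; `k7h_sep` : every retained incidence has a partner in the same state with separated velocity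
(`ks_dom_ball`).   Normalised position cells are cells of `(τ, Ẑ) = ((t - t_Q)/q, (Z - Z_Q)/q)`, no alignment with the tangent grids is needed; velocity bins are dyadic (`kbBin`), coarse bins = unions of the finest bins.
-/

set_option autoImplicit false

namespace Claimed.Agent.R252

open MeasureTheory
open scoped ENNReal BigOperators

noncomputable section

/-! ## 0. Definitions -/

section defs

variable (R : KsRef KbVer.two)

/-- the constant major centre of a label -/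
def k7hZc (Q : R.Lab) : ℝ := ksZ ((R.ch Q).yc (R.t0 Q))
/-- normalised incidence ↦ tangent incidence (`= K7bDat.inc`) -/
def k7hInc (Q : R.Lab) (z : R.L × ℝ) : R.L × ℝ := (z.1, R.t0 Q + R.q Q * z.2)
/-- normalised major position at `τ = 0` -/
def k7hZ0 (Q : R.Lab) (l : R.L) : ℝ := (ksZ (R.y l (R.t0 Q)) - k7hZc R Q) / R.q Q
/-- horizontal velocity -/
def k7hVel (l : R.L) : ℝ := ksZ (R.V l)
/-- normalised transverse velocity `(Y' - A_Q V₁) / g_r` -/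
def k7hCst (Q : R.Lab) (l : R.L) : ℝ := (ksY (R.V l) - (R.row Q 0 + R.row Q 1 * ksZ (R.V l))) / R.g Q
/-- normalised row `(A_{Q'} - A_Q) / g_r` -/
def k7hRow (Q Q' : R.Lab) : ℝ × ℝ := ((R.row Q' 0 - R.row Q 0) / R.g Q, (R.row Q' 1 - R.row Q 1) / R.g Q)
/-- the conditioned prior (`= K7bDat.νf`) -/
def k7hPr (Q : R.Lab) : Measure R.L := (R.νQ Q)⁻¹ • R.ν.restrict (R.asg Q)
/-- the normalised law of a tangent selection -/
def k7hLaw (Q : R.Lab) (F : Set (R.L × ℝ)) : Measure (R.L × ℝ) := ((k7hPr R Q).prod k7bTime).restrict (k7hInc R Q ⁻¹' F)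
/-- the palette of `Z'` : marginal of the parent palette on the strip `[Y'] = 0` of the finest mesh -/
def k7hPal (A : R.Par) : Measure ℝ := ((R.pal A).restrict {u | kbBin R.χ (ksY u) = 0}).map ksZ
/-- the normalised position cell (mesh `ξ`) of a TANGENT incidence in the chart of `Q` -/
def k7hCell (Q : R.Lab) (ξ : ℝ) (p : R.L × ℝ) : ℤ × ℤ :=
  (⌊(p.2 - R.t0 Q) / R.q Q / ξ⌋, ⌊(ksZ (R.y p.1 p.2) - k7hZc R Q) / R.q Q / ξ⌋)
/-- the appended datum: true labels at the depths `Ds`, normalised position cell in the chart of the label of depth `r` -/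
def k7hDat (Ds : Finset ℝ) (r ξ : ℝ) (p : R.L × ℝ) : ({s // s ∈ Ds} → R.Lab) × (ℤ × ℤ) :=
  (fun s => R.labAt s.1 p, k7hCell R (R.labAt r p) ξ p)
/-- the appended end history -/
def k7hEh (Ds : Finset ℝ) (p : R.L × ℝ) : R.Hist × ({s // s ∈ Ds} → R.Lab) := (R.hist p, fun s => R.labAt s.1 p)

/-- **numerator ceiling** of the selection `E₁` against the masses of `E₀`; state = (end history, datum), tests = finest velocity bins -/
def K7hCeil (A : R.Par) (E₀ E₁ : Set (R.L × ℝ)) (K : ℝ) (Ds : Finset ℝ) (r ξ : ℝ) : Prop :=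
  KsDom (R.law E₁) (ksPair R.hist (k7hDat R Ds r ξ)) R.vT (fun _ b => R.pi A b) (ksMass (R.law E₀) (ksPair R.hist (k7hDat R Ds r ξ))) (ENNReal.ofReal K)

/-- **conditional ceiling** of the selection `F` for the state = datum; all states which occur are live -/
def K7hCond (A : R.Par) (F : Set (R.L × ℝ)) (K : ℝ) (Ds : Finset ℝ) (r ξ : ℝ) : Prop :=
  KsCond (R.law F) (k7hDat R Ds r ξ) R.vT (fun _ b => R.pi A b) (ENNReal.ofReal K) ∧
    ∀ p ∈ F, ksMass (R.law F) (k7hDat R Ds r ξ) (k7hDat R Ds r ξ p) ≠ 0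

/-- every incidence of `F` has a partner in `F` with the same datum and separated horizontal velocity -/
def K7hSep (F : Set (R.L × ℝ)) (K : ℝ) (Ds : Finset ℝ) (r ξ : ℝ) : Prop :=
  ∀ p ∈ F, ∃ p' ∈ F, k7hDat R Ds r ξ p' = k7hDat R Ds r ξ p ∧ 1 ≤ K * |ksZ (R.V p.1) - ksZ (R.V p'.1)|

/-- **THE INTERFACE: the affine velocity law on a dense part of a true label** -/
structure K7hFit (A : R.Par) (E : Set (R.L × ℝ)) (Ds : Finset ℝ) (ξ K ε : ℝ) (Q : R.Lab) (ρ0 ρ1 μ : ℝ) (Cn : Set (R.L × ℝ)) : Prop where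
  pos : R.νQ Q ≠ 0
  meas : MeasurableSet Cn
  sub : Cn ⊆ E ∩ R.inc Q
  mass : ENNReal.ofReal (R.q Q) * R.νQ Q ≤ ENNReal.ofReal K * R.prior Cn
  fit : ∀ p ∈ Cn, |ksY (R.V p.1) - (ρ0 + ρ1 * ksZ (R.V p.1) + μ * (ksZ (R.y p.1 (R.t0 Q)) - k7hZc R Q))| ≤ ε
  row0 : |ρ0 - R.row Q 0| ≤ K * R.g Q
  row1 : |ρ1 - R.row Q 1| ≤ K * R.g Q
  mu : |μ| * R.q Q ≤ K * R.g Q
  ceil : K7hCeil R A (E ∩ R.inc Q) Cn K Ds (R.dep Q) ξ

end defs

/-- the standing hypotheses of the cores in the `τ`-language (`= K7In` of S7b/Exit) -/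
structure K7hStd (p : KpPrm) (G : KsReq) (τ N₁ : ℝ) (R : KsRef KbVer.two) (A : R.Par) (E : Set (R.L × ℝ)) : Prop where
  N : N₁ ≤ R.N
  prm : R.prm = p
  depths : G.depths ⊆ R.depths
  widths : G.widths ⊆ R.widths
  meshes : G.meshes ⊆ R.meshes
  χ : R.χ ≤ R.N ^ (-G.U)
  ok : R.Ok (R.N ^ τ)
  tilt : R.Tilt (R.N ^ τ)
  one : R.One A
  cur : KsCur R E (R.N ^ τ)

theorem k7h_eqns_cite : True := by
  have := @k7hZc.eq_1
  have := @k7hInc.eq_1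
  have := @k7hZ0.eq_1
  have := @k7hVel.eq_1
  have := @k7hCst.eq_1
  have := @k7hRow.eq_1
  have := @k7hPr.eq_1
  have := @k7hLaw.eq_1
  have := @k7hPal.eq_1
  have := @k7hCell.eq_1
  have := @k7hDat.eq_1
  have := @k7hEh.eq_1
  have := @K7hCeil.eq_1
  have := @K7hCond.eq_1
  have := @K7hSep.eq_1
  trivial

/-! ## 1. Normalisation of a true label -/

section norm

variable {R : KsRef KbVer.two}

/-! helpers of the leaf L-252-S7h-Na (helper42) -/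

theorem k7h_na_q_pos (R : KsRef KbVer.two) (Q : R.Lab) : 0 < R.q Q := by
  unfold KsRef.q kbQ
  positivity

theorem k7h_na_blk (R : KsRef KbVer.two) (Q : R.Lab) : R.blk Q = Set.Ico (R.t0 Q) (R.t0 Q + R.q Q) := by
  unfold KsRef.blk kbI KsRef.t0 KsRef.q
  congr 1
  ring

theorem k7h_na_blk_sub {K : ℝ} (hR : R.Ok K) (Q : R.Lab) : R.blk Q ⊆ Set.Icc (0 : ℝ) 1 := by
  intro t ht
  unfold KsRef.blk kbI at ht
  have hq : 0 < kbQ (R.lev Q) := k7h_na_q_pos R Q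
  have h1 : ((R.iv Q : ℝ) + 1) * kbQ (R.lev Q) ≤ 1 := by
    have h2 : ((R.iv Q : ℝ) + 1) ≤ 2 ^ R.lev Q := by
      have := hR.iv_lt Q
      exact_mod_cast this
    have h3 : (2 : ℝ) ^ R.lev Q * kbQ (R.lev Q) = 1 := by
      unfold kbQ
      rw [← mul_pow]
      norm_num
    calc ((R.iv Q : ℝ) + 1) * kbQ (R.lev Q) ≤ 2 ^ R.lev Q * kbQ (R.lev Q) := mul_le_mul_of_nonneg_right h2 hq.le
      _ = 1 := h3
  have h0 : (0 : ℝ) ≤ (R.iv Q : ℝ) * kbQ (R.lev Q) := by positivity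
  exact ⟨h0.trans ht.1, ht.2.le.trans h1⟩

/-- one fibre: `q * |{τ ∈ [0,1] : t0 + q τ ∈ B}| = |B ∩ [0,1]|` for `B ⊆ [t0, t0 + q) ⊆ [0,1]` -/
theorem k7h_na_fibre (t0 q : ℝ) (hq : 0 < q) (B : Set ℝ) (hB : B ⊆ Set.Ico t0 (t0 + q)) (hB1 : B ⊆ Set.Icc (0 : ℝ) 1) :
    ENNReal.ofReal q * k7bTime ((fun τ : ℝ => t0 + q * τ) ⁻¹' B) = KbPb.tm B := by
  have h1 : KbPb.tm B = volume B := by
    unfold KbPb.tm
    exact Measure.restrict_eq_self _ hB1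
  have h2 : k7bTime ((fun τ : ℝ => t0 + q * τ) ⁻¹' B) = volume ((fun τ : ℝ => t0 + q * τ) ⁻¹' B) := by
    unfold k7bTime
    refine Measure.restrict_eq_self _ fun τ hτ => ?_
    have h3 := hB hτ
    simp only [Set.mem_Ico] at h3
    constructor
    · by_contra hneg
      have : q * τ < 0 := mul_neg_of_pos_of_neg hq (not_le.1 hneg)
      linarith [h3.1]
    · by_contra hneg
      have : q * 1 < q * τ := mul_lt_mul_of_pos_left (not_le.1 hneg) hq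
      linarith [h3.2]
  have h4 : (fun τ : ℝ => t0 + q * τ) ⁻¹' B = (fun τ : ℝ => q * τ) ⁻¹' ((fun x : ℝ => t0 + x) ⁻¹' B) := rfl
  rw [h1, h2, h4, Real.volume_preimage_mul_left hq.ne', measure_preimage_add, ← mul_assoc,
    ← ENNReal.ofReal_mul hq.le, abs_of_pos (inv_pos.2 hq), mul_inv_cancel₀ hq.ne', ENNReal.ofReal_one, one_mul]

/-- **L-252-S7h-N0** the cells of `Re6/FitDefs` in the normalised chart are the cells `k7hCell` -/
theorem k7h_cell_eq (Q : R.Lab) (ξ : ℝ) (z : R.L × ℝ) : re6Zc ξ (k7hZ0 R Q) (k7hVel R) z = k7hCell R Q ξ (k7hInc R Q z) := by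
  have hq : R.q Q ≠ 0 := (k7h_na_q_pos R Q).ne'
  unfold re6Zc k7hCell k7hInc k7hZ0 k7hVel
  have e1 : (R.t0 Q + R.q Q * z.2 - R.t0 Q) / R.q Q = z.2 := by
    field_simp
    ring
  have e2 : (ksZ (R.y z.1 (R.t0 Q + R.q Q * z.2)) - k7hZc R Q) / R.q Q
      = (ksZ (R.y z.1 (R.t0 Q)) - k7hZc R Q) / R.q Q + ksZ (R.V z.1) * z.2 := by
    have e3 : ksZ (R.y z.1 (R.t0 Q + R.q Q * z.2)) = ksZ (R.y z.1 (R.t0 Q)) + R.q Q * z.2 * ksZ (R.V z.1) := by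
      have y1 : ∀ s, ksZ (R.y z.1 s) = ksZ (R.co z.1).1 + s * ksZ (R.V z.1) := fun _ => rfl
      rw [y1, y1]
      ring
    rw [e3]
    field_simp
    ring
  simp only [e1, e2]

/-- **L-252-S7h-N1** change of variables `t = t_Q + q τ` : tangent mass inside `Q` = `q ν_Q` times normalised mass.
PLAN: `prior = ν.prod tm`, `inc Q = asg Q ×ˢ blk Q`, `blk Q = Ico (iv q) ((iv+1) q) ⊆ [0,1]` (`iv_lt`); `Measure.prod_apply` on both sides; for fixed `l` : `volume {t ∈ blk | (l,t) ∈ G} = q * volume {τ ∈ [0,1] | (l, t0 + q τ) ∈ G ∩ inc Q}`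
(`Real.volume_preimage_mul_left`, translation invariance; the end point `τ = 1` is null). -/
theorem k7h_link_mass {K : ℝ} (hR : R.Ok K) (Q : R.Lab) (hν : R.νQ Q ≠ 0) (G : Set (R.L × ℝ)) (hG : MeasurableSet G) :
    ENNReal.ofReal (R.q Q) * R.νQ Q * ((k7hPr R Q).prod k7bTime) (k7hInc R Q ⁻¹' (G ∩ R.inc Q)) = R.prior (G ∩ R.inc Q) := by
  have := hR.prob
  have hq := k7h_na_q_pos R Q
  have hνt : R.νQ Q ≠ ⊤ := measure_ne_top _ _
  have hinc : MeasurableSet (R.inc Q) := (hR.m_asg Q).prod (by rw [k7h_na_blk]; exact measurableSet_Ico)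
  have hA : MeasurableSet (G ∩ R.inc Q) := hG.inter hinc
  have hΦ : Measurable (k7hInc R Q) :=
    measurable_fst.prodMk (measurable_const.add (measurable_const.mul measurable_snd))
  have hT : SFinite k7bTime := by unfold k7bTime; infer_instance
  have hT' : SFinite KbPb.tm := by unfold KbPb.tm; infer_instance
  have hm : Measurable fun l => k7bTime (Prod.mk l ⁻¹' (k7hInc R Q ⁻¹' (G ∩ R.inc Q))) :=
    measurable_measure_prodMk_left (hΦ hA)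
  have hpt : ∀ l, ENNReal.ofReal (R.q Q) * k7bTime (Prod.mk l ⁻¹' (k7hInc R Q ⁻¹' (G ∩ R.inc Q)))
      = KbPb.tm (Prod.mk l ⁻¹' (G ∩ R.inc Q)) := by
    intro l
    have hB : Prod.mk l ⁻¹' (G ∩ R.inc Q) ⊆ R.blk Q := fun t ht => ht.2.2
    exact k7h_na_fibre (R.t0 Q) (R.q Q) hq _ (by rw [← k7h_na_blk]; exact hB) (hB.trans (k7h_na_blk_sub hR Q))
  have hz : ∀ l, l ∉ R.asg Q → KbPb.tm (Prod.mk l ⁻¹' (G ∩ R.inc Q)) = 0 := by
    intro l hl
    have : Prod.mk l ⁻¹' (G ∩ R.inc Q) = ∅ := by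
      ext t
      simp only [Set.mem_preimage, Set.mem_inter_iff, Set.mem_empty_iff_false, iff_false, not_and]
      intro _ h
      exact hl h.1
    rw [this, measure_empty]
  have hL : ((k7hPr R Q).prod k7bTime) (k7hInc R Q ⁻¹' (G ∩ R.inc Q))
      = (R.νQ Q)⁻¹ * ∫⁻ l in R.asg Q, k7bTime (Prod.mk l ⁻¹' (k7hInc R Q ⁻¹' (G ∩ R.inc Q))) ∂(R.ν) := by
    rw [Measure.prod_apply (hΦ hA)]
    unfold k7hPr
    rw [lintegral_smul_measure, smul_eq_mul]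
  have hRr : R.prior (G ∩ R.inc Q) = ∫⁻ l in R.asg Q, KbPb.tm (Prod.mk l ⁻¹' (G ∩ R.inc Q)) ∂(R.ν) := by
    unfold KsRef.prior
    rw [Measure.prod_apply hA, ← lintegral_indicator (hR.m_asg Q)]
    refine lintegral_congr fun l => ?_
    by_cases hl : l ∈ R.asg Q
    · rw [Set.indicator_of_mem hl]
    · rw [Set.indicator_of_notMem hl, hz l hl]
  rw [hL, hRr]
  calc ENNReal.ofReal (R.q Q) * R.νQ Q *
        ((R.νQ Q)⁻¹ * ∫⁻ l in R.asg Q, k7bTime (Prod.mk l ⁻¹' (k7hInc R Q ⁻¹' (G ∩ R.inc Q))) ∂(R.ν))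
      = ENNReal.ofReal (R.q Q) * (R.νQ Q * (R.νQ Q)⁻¹) *
          ∫⁻ l in R.asg Q, k7bTime (Prod.mk l ⁻¹' (k7hInc R Q ⁻¹' (G ∩ R.inc Q))) ∂(R.ν) := by ring
    _ = ENNReal.ofReal (R.q Q) * ∫⁻ l in R.asg Q, k7bTime (Prod.mk l ⁻¹' (k7hInc R Q ⁻¹' (G ∩ R.inc Q))) ∂(R.ν) := by
        rw [ENNReal.mul_inv_cancel hν hνt, mul_one]
    _ = ∫⁻ l in R.asg Q, ENNReal.ofReal (R.q Q) * k7bTime (Prod.mk l ⁻¹' (k7hInc R Q ⁻¹' (G ∩ R.inc Q))) ∂(R.ν) :=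
        (lintegral_const_mul _ hm).symm
    _ = ∫⁻ l in R.asg Q, KbPb.tm (Prod.mk l ⁻¹' (G ∩ R.inc Q)) ∂(R.ν) := by simp only [hpt]

/-- **L-252-S7h-N2** the mass of a label: `prior (inc Q) = q ν_Q`; the conditioned prior is a probability measure -/
theorem k7h_inc_mass {K : ℝ} (hR : R.Ok K) (Q : R.Lab) :
    R.prior (R.inc Q) = ENNReal.ofReal (R.q Q) * R.νQ Q ∧ (R.νQ Q ≠ 0 → k7hPr R Q Set.univ = 1) ∧ R.νQ Q ≠ ⊤ ∧ MeasurableSet (R.inc Q) ∧ Measurable (k7hInc R Q) := by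
  have := hR.prob
  have hq := k7h_na_q_pos R Q
  have hνt : R.νQ Q ≠ ⊤ := measure_ne_top _ _
  have hT' : SFinite KbPb.tm := by unfold KbPb.tm; infer_instance
  refine ⟨?_, fun hν => ?_, hνt, (hR.m_asg Q).prod (by rw [k7h_na_blk]; exact measurableSet_Ico),
    measurable_fst.prodMk (measurable_const.add (measurable_const.mul measurable_snd))⟩
  · unfold KsRef.prior KsRef.inc
    rw [Measure.prod_prod]
    have h1 : KbPb.tm (R.blk Q) = ENNReal.ofReal (R.q Q) := by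
      unfold KbPb.tm
      rw [Measure.restrict_eq_self _ (k7h_na_blk_sub hR Q), k7h_na_blk, Real.volume_Ico, add_sub_cancel_left]
    rw [h1, mul_comm]
    rfl
  · unfold k7hPr
    rw [Measure.smul_apply, Measure.restrict_apply MeasurableSet.univ, Set.univ_inter, smul_eq_mul]
    exact ENNReal.inv_mul_cancel hν hνt

/-! helpers of the leaf L-252-S7h-Nb (helper42) -/

theorem k7h_nb_mZ : Measurable ksZ := measurable_pi_apply _

theorem k7h_nb_mY : Measurable ksY := measurable_pi_apply _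

theorem k7h_nb_strip (χ : ℝ) : MeasurableSet {u : KbB KbVer.two | kbBin χ (ksY u) = 0} :=
  ((ksl17_bin_meas χ).comp k7h_nb_mY) (measurableSet_singleton 0)

/-- the point `(x, 0)` -/
def k7hPt (x : ℝ) : KbB KbVer.two := fun i => if (i : ℕ) = 0 then x else 0

/-- the index `(b, 0)` -/
def k7hIx (b : ℤ) : Fin KbVer.two.j → ℤ := fun i => if (i : ℕ) = 0 then b else 0

theorem k7h_nb_cite : True := by
  have := @k7hPt.eq_1
  have := @k7hIx.eq_1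
  trivial

theorem k7h_nb_ball (x r : ℝ) (hr : 0 ≤ r) (u : KbB KbVer.two) (h1 : |ksZ u - x| ≤ r) (h2 : |ksY u| ≤ r) :
    u ∈ Metric.closedBall (k7hPt x) r := by
  have key : ∀ (u c : Fin 2 → ℝ), |u 0 - c 0| ≤ r → |u 1 - c 1| ≤ r → u ∈ Metric.closedBall c r := by
    intro u c a1 a2
    rw [Metric.mem_closedBall, dist_pi_le_iff hr, Fin.forall_fin_two]
    exact ⟨by rw [Real.dist_eq]; exact a1, by rw [Real.dist_eq]; exact a2⟩
  refine key u (k7hPt x) ?_ ?_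
  · exact h1
  · have e : (k7hPt x) (1 : Fin 2) = 0 := rfl
    rw [e, sub_zero]
    exact h2

theorem k7h_nb_pal_apply (R : KsRef KbVer.two) (A : R.Par) {B : Set ℝ} (hB : MeasurableSet B) :
    k7hPal R A B = R.pal A (ksZ ⁻¹' B ∩ {u | kbBin R.χ (ksY u) = 0}) := by
  unfold k7hPal
  rw [Measure.map_apply k7h_nb_mZ hB, Measure.restrict_apply (k7h_nb_mZ hB)]

theorem k7h_nb_bin_zero (χ : ℝ) : kbBin χ 0 = 0 := by
  unfold kbBin
  simp

/-- the finest velocity bin if `0 < ℓ` -/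
theorem k7h_nb_vbin (R : KsRef KbVer.two) (hell : 0 < R.ell) (l : R.L) : R.vbin l = k7hIx (kbBin R.χ (ksZ (R.V l))) := by
  funext i
  unfold KsRef.vbin KsRef.vel kpPv k7hIx
  rw [if_pos hell]
  by_cases hi : (i : ℕ) = 0
  · simp only [if_pos hi]
    have : i = (0 : Fin 2) := Fin.ext hi
    rw [this]
    rfl
  · simp only [if_neg hi]
    exact k7h_nb_bin_zero _

/-- the dyadic meshes are nested -/
theorem k7h_nb_dy {χ m : ℝ} (hχ : 0 < χ) (hm : χ ≤ m) : ∃ j : ℕ, kbDy m = 2 ^ j * kbDy χ := by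
  have h1 : ⌈Real.logb 2 χ⌉ ≤ ⌈Real.logb 2 m⌉ := Int.ceil_le_ceil (Real.logb_le_logb_of_le (by norm_num) hχ hm)
  refine ⟨(⌈Real.logb 2 m⌉ - ⌈Real.logb 2 χ⌉).toNat, ?_⟩
  unfold kbDy
  rw [← zpow_natCast, Int.toNat_of_nonneg (by omega), ← zpow_add₀ (by norm_num)]
  congr 1
  ring

theorem k7h_nb_ix_inj {b b' : ℤ} (h : k7hIx b = k7hIx b') : b = b' := by
  have := congrFun h (0 : Fin 2)
  exact this

/-- **L-252-S7h-N3** the palette of `Z'` : total mass, interval cap.   `{Z ∈ Icc (x-ρ) (x+ρ), [Y]_χ = 0} ⊆ closedBall (x, 0) (2ρ)` for `χ ≤ ρ` (`kbDy χ < 2χ`), `pal_ball`. -/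
theorem k7h_pal_cap {K : ℝ} (hR : R.Ok K) (A : R.Par) :
    k7hPal R A Set.univ ≤ 1 ∧ ∀ x ρ : ℝ, R.χ ≤ ρ → k7hPal R A (Set.Icc (x - ρ) (x + ρ)) ≤ ENNReal.ofReal (K * (2 * ρ) ^ R.S) := by
  have hχ := hR.χ_pos
  constructor
  · rw [k7h_nb_pal_apply R A MeasurableSet.univ]
    exact (measure_mono (Set.subset_univ _)).trans (hR.pal_le A)
  · intro x ρ hρ
    rw [k7h_nb_pal_apply R A measurableSet_Icc]
    refine (measure_mono ?_).trans (hR.pal_ball A (k7hPt x) (2 * ρ) (by linarith))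
    intro u hu
    obtain ⟨h1, h2⟩ := hu
    have h1' : x - ρ ≤ ksZ u ∧ ksZ u ≤ x + ρ := h1
    have h2' : kbBin R.χ (ksY u) = 0 := h2
    rw [ksl17_bin_iff] at h2'
    have h3 := ksl17_dy_lt hχ
    refine k7h_nb_ball x (2 * ρ) (by linarith) u ?_ ?_
    · rw [abs_le]
      constructor <;> linarith [h1'.1, h1'.2]
    · rw [abs_le]
      push_cast at h2'
      constructor <;> linarith [h2'.1, h2'.2]

/-- **L-252-S7h-N4** a ceiling at the finest velocity bins gives the ceiling at every coarser DYADIC mesh `m ≥ χ`, with the palette of `Z'`.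
PLAN: `0 < ℓ` ⟹ `R.vbin l = (kbBin χ Z', 0)` (`kpPv`, `kbBin χ 0 = 0`); `kbDy m / kbDy χ = 2^j`; `{kbBin m Z' = k} = ⋃_{b ∈ [k 2^j, (k+1) 2^j)} vT (b, 0)`; `ks_dom_union`;
`∑_b R.pi A (b, 0) = k7hPal R A (k7bIv (kbDy m) k)` (disjoint measurable cubes, `Measure.map_apply`, `measure_biUnion_finset`). -/
theorem k7h_dom_coarse {K : ℝ} (hR : R.Ok K) (hell : 0 < R.ell) (A : R.Par) {S : Type*} {μ : Measure (R.L × ℝ)} {s : R.L × ℝ → S} {Ref : S → ℝ≥0∞} {K0 : ℝ≥0∞}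
    (hd : KsDom μ s R.vT (fun _ b => R.pi A b) Ref K0) (m : ℝ) (hm : R.χ ≤ m) :
    KsDom μ s (fun k : ℤ => {p : R.L × ℝ | kbBin m (ksZ (R.V p.1)) = k}) (fun _ k => k7hPal R A (k7bIv (kbDy m) k)) Ref K0 := by
  classical
  have hχ := hR.χ_pos
  obtain ⟨j, hj⟩ := k7h_nb_dy hχ hm
  have hd0 := ksl17_dy_pos R.χ
  obtain ⟨F, hF⟩ : ∃ F : ℤ → Finset (Fin KbVer.two.j → ℤ),
      F = fun k => (Finset.Ico (k * 2 ^ j) ((k + 1) * 2 ^ j)).image k7hIx := ⟨_, rfl⟩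
  have hU := ks_dom_union hd F
  intro s0 k
  have hsub : {p : R.L × ℝ | kbBin m (ksZ (R.V p.1)) = k} ⊆ ⋃ i ∈ F k, R.vT i := by
    intro p hp
    have hp' : kbBin m (ksZ (R.V p.1)) = k := hp
    rw [ksl17_bin_iff, hj] at hp'
    obtain ⟨b, hb⟩ : ∃ b, b = kbBin R.χ (ksZ (R.V p.1)) := ⟨_, rfl⟩
    have hb' := (ksl17_bin_iff _ _ _).1 hb.symm
    have c1 : k * 2 ^ j ≤ b := by
      have h1 : ((k : ℝ) * 2 ^ j) * kbDy R.χ < ((b : ℝ) + 1) * kbDy R.χ := by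
        calc ((k : ℝ) * 2 ^ j) * kbDy R.χ = (k : ℝ) * (2 ^ j * kbDy R.χ) := by ring
          _ ≤ ksZ (R.V p.1) := hp'.1
          _ < _ := hb'.2
      have h2 : ((k : ℝ) * 2 ^ j) < (b : ℝ) + 1 := lt_of_mul_lt_mul_right h1 hd0.le
      have h3 : k * 2 ^ j < b + 1 := by exact_mod_cast h2
      omega
    have c2 : b < (k + 1) * 2 ^ j := by
      have h1 : (b : ℝ) * kbDy R.χ < (((k : ℝ) + 1) * 2 ^ j) * kbDy R.χ := by
        calc (b : ℝ) * kbDy R.χ ≤ ksZ (R.V p.1) := hb'.1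
          _ < ((k : ℝ) + 1) * (2 ^ j * kbDy R.χ) := hp'.2
          _ = _ := by ring
      have h2 : (b : ℝ) < ((k : ℝ) + 1) * 2 ^ j := lt_of_mul_lt_mul_right h1 hd0.le
      exact_mod_cast h2
    refine Set.mem_iUnion₂.2 ⟨k7hIx b, ?_, ?_⟩
    · rw [hF]
      exact Finset.mem_image_of_mem _ (Finset.mem_Ico.2 ⟨c1, c2⟩)
    · show R.vbin p.1 = k7hIx b
      rw [k7h_nb_vbin R hell, hb]
  have hsum : ∑ i ∈ F k, R.pi A i ≤ k7hPal R A (k7bIv (kbDy m) k) := by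
    have hIv : MeasurableSet (k7bIv (kbDy m) k) := measurableSet_Ico
    rw [k7h_nb_pal_apply R A hIv]
    unfold KsRef.pi
    rw [← measure_biUnion_finset (fun i _ i' _ hne => ksl17_cube_disj R.χ hne) (fun i _ => ksl17_cube_meas R.χ i)]
    refine measure_mono ?_
    intro u hu
    obtain ⟨i, hi, hui⟩ := Set.mem_iUnion₂.1 hu
    rw [hF] at hi
    obtain ⟨b, hb, rfl⟩ := Finset.mem_image.1 hi
    obtain ⟨c1, c2⟩ := Finset.mem_Ico.1 hb
    have u0 : kbBin R.χ (ksZ u) = b := hui (0 : Fin 2)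
    have u1 : kbBin R.χ (ksY u) = 0 := hui (1 : Fin 2)
    refine ⟨?_, u1⟩
    rw [ksl17_bin_iff] at u0
    have c1' : (k : ℝ) * 2 ^ j ≤ b := by exact_mod_cast c1
    have c2' : (b : ℝ) + 1 ≤ ((k : ℝ) + 1) * 2 ^ j := by
      have : b + 1 ≤ (k + 1) * 2 ^ j := by omega
      exact_mod_cast this
    show ksZ u ∈ Set.Ico ((k : ℝ) * kbDy m) (((k : ℝ) + 1) * kbDy m)
    rw [hj]
    constructor
    · calc (k : ℝ) * (2 ^ j * kbDy R.χ) = ((k : ℝ) * 2 ^ j) * kbDy R.χ := by ring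
        _ ≤ (b : ℝ) * kbDy R.χ := mul_le_mul_of_nonneg_right c1' hd0.le
        _ ≤ ksZ u := u0.1
    · calc ksZ u < ((b : ℝ) + 1) * kbDy R.χ := u0.2
        _ ≤ (((k : ℝ) + 1) * 2 ^ j) * kbDy R.χ := mul_le_mul_of_nonneg_right c2' hd0.le
        _ = ((k : ℝ) + 1) * (2 ^ j * kbDy R.χ) := by ring
  calc μ (s ⁻¹' {s0} ∩ {p : R.L × ℝ | kbBin m (ksZ (R.V p.1)) = k})
      ≤ μ (s ⁻¹' {s0} ∩ ⋃ i ∈ F k, R.vT i) := measure_mono (Set.inter_subset_inter_right _ hsub)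
    _ ≤ K0 * (∑ i ∈ F k, R.pi A i) * Ref s0 := hU s0 k
    _ ≤ K0 * k7hPal R A (k7bIv (kbDy m) k) * Ref s0 := mul_le_mul' (mul_le_mul' le_rfl hsum) le_rfl

theorem k7h_cc_slab {α : Type*} [MeasurableSpace α] (μ : Measure α) [SFinite μ] (S : Set α) (hS : MeasurableSet S)
    (f : α → ℝ) (hf : Measurable f) (r : ℝ) :
    (μ.prod volume) {z : α × ℝ | z.1 ∈ S ∧ |z.2 - f z.1| ≤ r} = μ S * ENNReal.ofReal (2 * r) := by
  have hm : MeasurableSet {z : α × ℝ | z.1 ∈ S ∧ |z.2 - f z.1| ≤ r} := by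
    apply MeasurableSet.inter (measurable_fst hS)
    have hg : Measurable fun z : α × ℝ => |z.2 - f z.1| := by fun_prop
    exact measurableSet_le hg measurable_const
  rw [Measure.prod_apply hm]
  have key : ∀ x, volume (Prod.mk x ⁻¹' {z : α × ℝ | z.1 ∈ S ∧ |z.2 - f z.1| ≤ r})
      = S.indicator (fun _ => ENNReal.ofReal (2 * r)) x := by
    intro x
    by_cases hx : x ∈ S
    · rw [Set.indicator_of_mem hx]
      have : Prod.mk x ⁻¹' {z : α × ℝ | z.1 ∈ S ∧ |z.2 - f z.1| ≤ r} = Set.Icc (f x - r) (f x + r) := by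
        ext y
        simp only [Set.mem_preimage, Set.mem_ofPred_eq, hx, true_and, Set.mem_Icc, abs_le]
        constructor <;> rintro ⟨h1, h2⟩ <;> constructor <;> linarith
      rw [this, Real.volume_Icc]
      congr 1
      ring
    · rw [Set.indicator_of_notMem hx]
      have : Prod.mk x ⁻¹' {z : α × ℝ | z.1 ∈ S ∧ |z.2 - f z.1| ≤ r} = ∅ := by
        ext y
        simp [hx]
      rw [this, measure_empty]
  simp_rw [key]
  rw [lintegral_indicator hS, lintegral_const, Measure.restrict_apply_univ, mul_comm]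

/-- the volume of a sheared box -/
theorem k7h_cc_vol (I1 I2 : Set ℝ) (h1 : MeasurableSet I1) (h2 : MeasurableSet I2) (f : ℝ × ℝ → ℝ) (hf : Measurable f)
    (r : ℝ) :
    MeasurableSet {z : ℝ × (Fin 2 → ℝ) | z.1 ∈ I1 ∧ z.2 0 ∈ I2 ∧ |z.2 1 - f (z.1, z.2 0)| ≤ r} ∧
    volume {z : ℝ × (Fin 2 → ℝ) | z.1 ∈ I1 ∧ z.2 0 ∈ I2 ∧ |z.2 1 - f (z.1, z.2 0)| ≤ r}
      = volume I1 * volume I2 * ENNReal.ofReal (2 * r) := by
  have hmp : MeasurePreserving (fun z : ℝ × (Fin 2 → ℝ) => ((z.1, z.2 0), z.2 1)) volume volume := by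
    have a1 := (MeasurePreserving.id (volume : Measure ℝ)).prod (volume_preserving_finTwoArrow ℝ)
    have a2 := (measurePreserving_prodAssoc (volume : Measure ℝ) (volume : Measure ℝ) (volume : Measure ℝ)).symm
    exact a2.comp a1
  have hs := k7h_cc_slab (volume : Measure (ℝ × ℝ)) (I1 ×ˢ I2) (h1.prod h2) f hf r
  have hm : MeasurableSet {z : (ℝ × ℝ) × ℝ | z.1 ∈ I1 ×ˢ I2 ∧ |z.2 - f z.1| ≤ r} := by
    apply MeasurableSet.inter (measurable_fst (h1.prod h2))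
    have hg : Measurable fun z : (ℝ × ℝ) × ℝ => |z.2 - f z.1| := by fun_prop
    exact measurableSet_le hg measurable_const
  have e := hmp.measure_preimage hm.nullMeasurableSet
  have e2 : (fun z : ℝ × (Fin 2 → ℝ) => ((z.1, z.2 0), z.2 1)) ⁻¹' {z : (ℝ × ℝ) × ℝ | z.1 ∈ I1 ×ˢ I2 ∧ |z.2 - f z.1| ≤ r}
      = {z : ℝ × (Fin 2 → ℝ) | z.1 ∈ I1 ∧ z.2 0 ∈ I2 ∧ |z.2 1 - f (z.1, z.2 0)| ≤ r} := by
    ext z
    simp only [Set.mem_preimage, Set.mem_ofPred_eq, Set.mem_prod, and_assoc]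
  rw [← e2]
  refine ⟨hmp.measurable hm, ?_⟩
  rw [e]
  have e3 : (volume : Measure ((ℝ × ℝ) × ℝ)) = (volume : Measure (ℝ × ℝ)).prod volume := rfl
  rw [e3, hs, Measure.volume_eq_prod, Measure.prod_prod]

theorem k7h_cc_floor (x x0 q ξ : ℝ) (hq : 0 < q) (hξ : 0 < ξ) (c : ℤ) (h : ⌊(x - x0) / q / ξ⌋ = c) :
    x ∈ Set.Ico (x0 + q * ξ * c) (x0 + q * ξ * c + q * ξ) := by
  rw [Int.floor_eq_iff, div_div, le_div_iff₀ (by positivity), div_lt_iff₀ (by positivity)] at h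
  exact ⟨by nlinarith [h.1], by nlinarith [h.2]⟩

/-- **L-252-S7h-N5** the horizontal cell cap (07 l.989-995): `λ⁰ (inc Q ∩ {cell = c}) ≤ C K^C ξ² q ν_Q`.
PLAN: the set lies in `inc Q ∩ base ⁻¹' U`, `U = {(t, y) | (t - t0)/q/ξ ∈ [c₁, c₁+1), (Z - Zc)/q/ξ ∈ [c₂, c₂+1), |Y - Y_Q (t, Z)| ≤ K^5 b}` (`ks_tilt_box`), `volume U = (q ξ)² 2 K^5 b` (Fubini; shear in `Y`);
`capQ`, `J_lo`, `b = a (k r) g ≤ K q g` (`ksl8_b_eq`, `q_lo`). -/
theorem k7h_cellcap : ∃ C : ℕ, ∀ (R : KsRef KbVer.two) (K ξ : ℝ) (Q : R.Lab) (c : ℤ × ℤ), R.Ok K → R.Tilt K → 0 < ξ →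
    R.lam0 (R.inc Q ∩ {p | k7hCell R Q ξ p = c}) ≤ ENNReal.ofReal ((C : ℝ) * K ^ C * ξ ^ 2) * (ENNReal.ofReal (R.q Q) * R.νQ Q) := by
  refine ⟨8, fun R K ξ Q c hR hT hξ => ?_⟩
  have hK := hR.K_ge
  have hK0 : (0 : ℝ) ≤ K := by linarith
  have hq := ksl8_q_pos R Q
  have hg : 0 < R.g Q := ksl8_a_pos hR _
  have hb : 0 < R.b Q := ksl8_a_pos hR _
  have hf : Measurable fun p : ℝ × ℝ => R.YQ Q p.1 p.2 := by
    have e : ∀ p : ℝ × ℝ, R.YQ Q p.1 p.2 = (ksY (R.ch Q).y0 + p.1 * ksY (R.ch Q).y1)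
        + R.tl Q * (p.2 - (ksZ (R.ch Q).y0 + p.1 * ksZ (R.ch Q).y1)) := fun _ => rfl
    simp_rw [e]
    fun_prop
  obtain ⟨hU, hvol⟩ := k7h_cc_vol (Set.Ico (R.t0 Q + R.q Q * ξ * c.1) (R.t0 Q + R.q Q * ξ * c.1 + R.q Q * ξ))
    (Set.Ico (k7hZc R Q + R.q Q * ξ * c.2) (k7hZc R Q + R.q Q * ξ * c.2 + R.q Q * ξ)) measurableSet_Ico measurableSet_Ico
    (fun p : ℝ × ℝ => R.YQ Q p.1 p.2) hf (K ^ 5 * R.b Q)
  rw [Real.volume_Ico, Real.volume_Ico, add_sub_cancel_left, add_sub_cancel_left] at hvol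
  have hcap := (hR.capQ Q _ hU).trans (le_of_eq (congrArg (fun x => ENNReal.ofReal K * R.νQ Q * x) hvol))
  have hsub : R.inc Q ∩ {p | k7hCell R Q ξ p = c} ⊆ R.inc Q ∩ R.base ⁻¹'
      {z : ℝ × (Fin 2 → ℝ) | z.1 ∈ Set.Ico (R.t0 Q + R.q Q * ξ * c.1) (R.t0 Q + R.q Q * ξ * c.1 + R.q Q * ξ) ∧
        z.2 0 ∈ Set.Ico (k7hZc R Q + R.q Q * ξ * c.2) (k7hZc R Q + R.q Q * ξ * c.2 + R.q Q * ξ) ∧
        |z.2 1 - R.YQ Q z.1 (z.2 0)| ≤ K ^ 5 * R.b Q} := by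
    rintro p ⟨hp, hc⟩
    refine ⟨hp, ?_, ?_, ?_⟩
    · exact k7h_cc_floor _ _ _ _ hq hξ _ (congrArg Prod.fst hc)
    · exact k7h_cc_floor _ _ _ _ hq hξ _ (congrArg Prod.snd hc)
    · exact (((ks_tilt_box hR hT Q p.1 hp.1).1 p.2 hp.2).2)
  have hJ : R.q Q ^ 2 * R.g Q ≤ K * R.J Q := hR.J_lo Q
  have hJpos : 0 < R.J Q := by
    have : 0 < K * R.J Q := lt_of_lt_of_le (by positivity) hJ
    exact (mul_pos_iff_of_pos_left (by linarith : 0 < K)).1 this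
  have hbq : R.b Q ≤ K * R.q Q * R.g Q := by
    rw [ksl8_b_eq hR Q]
    have := hR.q_lo Q
    gcongr
  have hreal : K * (R.q Q * ξ * (R.q Q * ξ) * (2 * (K ^ 5 * R.b Q))) ≤ R.J Q * (((8 : ℕ) : ℝ) * K ^ 8 * ξ ^ 2 * R.q Q) := by
    calc K * (R.q Q * ξ * (R.q Q * ξ) * (2 * (K ^ 5 * R.b Q)))
        = 2 * K ^ 6 * R.q Q ^ 2 * ξ ^ 2 * R.b Q := by ring
      _ ≤ 2 * K ^ 6 * R.q Q ^ 2 * ξ ^ 2 * (K * R.q Q * R.g Q) := by gcongr
      _ = 2 * K ^ 7 * ξ ^ 2 * R.q Q * (R.q Q ^ 2 * R.g Q) := by ring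
      _ ≤ 2 * K ^ 7 * ξ ^ 2 * R.q Q * (K * R.J Q) := by gcongr
      _ = R.J Q * (2 * K ^ 8 * ξ ^ 2 * R.q Q) := by ring
      _ ≤ R.J Q * (((8 : ℕ) : ℝ) * K ^ 8 * ξ ^ 2 * R.q Q) := by
          have : (2 : ℝ) ≤ ((8 : ℕ) : ℝ) := by norm_num
          gcongr
  have e1 : ∀ A s t : ℝ, 0 ≤ A → 0 ≤ s → ENNReal.ofReal (A * (s * s * t))
      = ENNReal.ofReal A * (ENNReal.ofReal s * ENNReal.ofReal s * ENNReal.ofReal t) := by
    intro A s t hA hs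
    rw [ENNReal.ofReal_mul hA, ENNReal.ofReal_mul (mul_nonneg hs hs), ENNReal.ofReal_mul hs]
  have hJ0 : ENNReal.ofReal (R.J Q) ≠ 0 := by
    rw [Ne, ENNReal.ofReal_eq_zero, not_le]
    exact hJpos
  rw [← ENNReal.mul_le_mul_iff_right hJ0 ENNReal.ofReal_ne_top]
  calc ENNReal.ofReal (R.J Q) * R.lam0 (R.inc Q ∩ {p | k7hCell R Q ξ p = c})
      ≤ ENNReal.ofReal (R.J Q) * R.lam0 (R.inc Q ∩ R.base ⁻¹'
      {z : ℝ × (Fin 2 → ℝ) | z.1 ∈ Set.Ico (R.t0 Q + R.q Q * ξ * c.1) (R.t0 Q + R.q Q * ξ * c.1 + R.q Q * ξ) ∧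
        z.2 0 ∈ Set.Ico (k7hZc R Q + R.q Q * ξ * c.2) (k7hZc R Q + R.q Q * ξ * c.2 + R.q Q * ξ) ∧
        |z.2 1 - R.YQ Q z.1 (z.2 0)| ≤ K ^ 5 * R.b Q}) := mul_le_mul' le_rfl (measure_mono hsub)
    _ ≤ ENNReal.ofReal K * R.νQ Q * (ENNReal.ofReal (R.q Q * ξ) * ENNReal.ofReal (R.q Q * ξ) * ENNReal.ofReal (2 * (K ^ 5 * R.b Q))) := hcap
    _ = ENNReal.ofReal (K * (R.q Q * ξ * (R.q Q * ξ) * (2 * (K ^ 5 * R.b Q)))) * R.νQ Q := by
        rw [e1 _ _ _ hK0 (by positivity)]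
        ring
    _ ≤ ENNReal.ofReal (R.J Q * (((8 : ℕ) : ℝ) * K ^ 8 * ξ ^ 2 * R.q Q)) * R.νQ Q :=
        mul_le_mul' (ENNReal.ofReal_le_ofReal hreal) le_rfl
    _ = ENNReal.ofReal (R.J Q) * (ENNReal.ofReal (((8 : ℕ) : ℝ) * K ^ 8 * ξ ^ 2) * (ENNReal.ofReal (R.q Q) * R.νQ Q)) := by
        rw [ENNReal.ofReal_mul hJpos.le, ENNReal.ofReal_mul (by positivity)]
        ring

/-- **L-252-S7h-N6** geometry of the normalised chart, on the whole assigned pieces (`ks_tilt_box`, `Tilt.cen`, `V_bd`) -/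
theorem k7h_geom {K : ℝ} (hR : R.Ok K) (hT : R.Tilt K) (Q : R.Lab) (l : R.L) (hl : l ∈ R.asg Q) :
    |k7hZ0 R Q l| ≤ K ^ 2 ∧ |k7hVel R l| ≤ K ∧ |k7hCst R Q l| ≤ 4 * K ^ 6 ∧
      (∀ τ ∈ Set.Icc (0 : ℝ) 1, |k7hZ0 R Q l + k7hVel R l * τ| ≤ 2 * K ^ 2) ∧
      ∀ Q' : R.Lab, l ∈ R.asg Q' → |(k7hRow R Q Q').1 + k7hVel R l * (k7hRow R Q Q').2 - k7hCst R Q l| ≤ 4 * K ^ 6 * (R.g Q' / R.g Q) := by
  have hK := hR.K_ge
  have hK0 : 0 ≤ K := by linarith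
  have hq := ksl8_q_pos R Q
  have hg : 0 < R.g Q := ksl8_a_pos hR _
  obtain ⟨hbox, hrow⟩ := ks_tilt_box hR hT Q l hl
  have ht0 : R.t0 Q ∈ R.blk Q := by
    rw [k7h_na_blk]
    exact ⟨le_rfl, by linarith⟩
  have h1 : |k7hZ0 R Q l| ≤ K ^ 2 := by
    unfold k7hZ0 k7hZc
    rw [abs_div, abs_of_pos hq, div_le_iff₀ hq]
    exact (hbox _ ht0).1
  have h2 : |k7hVel R l| ≤ K := (ksl8_abs_le_norm (R.V l)).1.trans (hR.V_bd l (hR.asg_Sp Q hl))
  have h3 : |k7hCst R Q l| ≤ 4 * K ^ 6 := by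
    unfold k7hCst
    rw [abs_div, abs_of_pos hg, div_le_iff₀ hg]
    exact hrow
  refine ⟨h1, h2, h3, fun τ hτ => ?_, fun Q' hl' => ?_⟩
  · have h4 : |k7hVel R l * τ| ≤ K := by
      rw [abs_mul, abs_of_nonneg hτ.1]
      calc |k7hVel R l| * τ ≤ K * 1 := mul_le_mul h2 hτ.2 hτ.1 hK0
        _ = K := mul_one _
    have h5 : K ≤ K ^ 2 := by nlinarith
    calc |k7hZ0 R Q l + k7hVel R l * τ| ≤ |k7hZ0 R Q l| + |k7hVel R l * τ| := abs_add_le _ _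
      _ ≤ 2 * K ^ 2 := by linarith
  · have hrow' := (ks_tilt_box hR hT Q' l hl').2
    have e : (k7hRow R Q Q').1 + k7hVel R l * (k7hRow R Q Q').2 - k7hCst R Q l
        = -(ksY (R.V l) - (R.row Q' 0 + R.row Q' 1 * ksZ (R.V l))) / R.g Q := by
      unfold k7hRow k7hVel k7hCst
      field_simp
      ring
    rw [e, abs_div, abs_neg, abs_of_pos hg, ← mul_div_assoc]
    exact div_le_div_of_nonneg_right hrow' hg.le

/-- helper of L-252-S7h-Nd (helper42): a short interval meets at most two bins -/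
theorem k7h_nd_two {a δ m x : ℝ} (hm : 0 < m) (hδ : δ ≤ m) (h1 : a ≤ x) (h2 : x < a + δ) :
    k7bBin m x = k7bBin m a ∨ k7bBin m x = k7bBin m a + 1 := by
  unfold k7bBin
  have e1 : ⌊a / m⌋ ≤ ⌊x / m⌋ := Int.floor_le_floor (div_le_div_of_nonneg_right h1 hm.le)
  have e2 : ⌊x / m⌋ ≤ ⌊a / m⌋ + 1 := by
    rw [← Int.floor_add_one]
    refine Int.floor_le_floor ?_
    rw [div_add_one hm.ne']
    exact div_le_div_of_nonneg_right (by linarith) hm.le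
  omega

/-- helper of L-252-S7h-Nd: the interval of a floor -/
theorem k7h_nd_floor {x m : ℝ} {k : ℤ} (hm : 0 < m) (h : ⌊x / m⌋ = k) : m * k ≤ x ∧ x < m * k + m := by
  rw [Int.floor_eq_iff, le_div_iff₀ hm, div_lt_iff₀ hm] at h
  constructor
  · linarith [h.1]
  · linarith [h.2]

/-- **L-252-S7h-N7** the row list in the normalised chart (07 l.941-955, l.966): normalised cell + velocity bin of mesh `ξ` leave `≤ 8 K` values of the normalised transverse velocity up to `3 β / g`.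
PLAN: a normalised cell has tangent diameter `q ξ ≤ ξT`, a velocity bin has width `ξ ≤ ξT` : each meets `≤ 2` bins of mesh `ξT`, so `≤ 8` cells `C` of the list; `L := {(j β - (A₀ + A₁ k ξ)) / g | j ∈ ⋃ Lst Q C}`;
`|Y' - j β| ≤ β`, `|A₁| |Z' - k ξ| ≤ K² ξ ≤ β`. -/
theorem k7h_list {K β ξT ξ : ℝ} (hR : R.Ok K) (hT : R.Tilt K) (Q : R.Lab) {F : Set (R.L × ℝ)} (hF : F ⊆ R.Ev0 ∩ R.inc Q)
    (hL : K7bRowList R F K β (R.dep Q) ξT) (hβ : 0 < β) (hξ : 0 < ξ) (hξT : ξ ≤ ξT) (hξβ : K ^ 2 * ξ ≤ β) (c : ℤ × ℤ) (k : ℤ) :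
    ∃ L : Finset ℝ, (L.card : ℝ) ≤ 8 * K ∧ ∀ p ∈ F, k7hCell R Q ξ p = c → ⌊ksZ (R.V p.1) / ξ⌋ = k → ∃ y ∈ L, |k7hCst R Q p.1 - y| ≤ 3 * (β / R.g Q) := by
  classical
  obtain ⟨Lst, hcard, hmem⟩ := hL
  have hK := hR.K_ge
  have hK0 : 0 ≤ K := by linarith
  have hq := ksl8_q_pos R Q
  have hq1 : R.q Q ≤ 1 := pow_le_one₀ (by norm_num) (by norm_num)
  have hg : 0 < R.g Q := ksl8_a_pos hR _
  have hξT0 : 0 < ξT := lt_of_lt_of_le hξ hξT
  have hqξ : 0 < R.q Q * ξ := mul_pos hq hξ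
  have hqξT : R.q Q * ξ ≤ ξT := by
    have : R.q Q * ξ ≤ 1 * ξ := mul_le_mul_of_nonneg_right hq1 hξ.le
    linarith
  obtain ⟨i1, hi1⟩ : ∃ i, i = k7bBin ξT (R.t0 Q + R.q Q * ξ * c.1) := ⟨_, rfl⟩
  obtain ⟨i2, hi2⟩ : ∃ i, i = k7bBin ξT (k7hZc R Q + R.q Q * ξ * c.2) := ⟨_, rfl⟩
  obtain ⟨i3, hi3⟩ : ∃ i, i = k7bBin ξT (ξ * k) := ⟨_, rfl⟩
  obtain ⟨Cs, hCs⟩ : ∃ Cs : Finset (ℤ × ℤ × ℤ),
      Cs = ({i1, i1 + 1} : Finset ℤ) ×ˢ (({i2, i2 + 1} : Finset ℤ) ×ˢ ({i3, i3 + 1} : Finset ℤ)) := ⟨_, rfl⟩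
  have hCc : Cs.card ≤ 8 := by
    rw [hCs, Finset.card_product, Finset.card_product]
    have a1 : ({i1, i1 + 1} : Finset ℤ).card ≤ 2 := Finset.card_le_two
    have a2 : ({i2, i2 + 1} : Finset ℤ).card ≤ 2 := Finset.card_le_two
    have a3 : ({i3, i3 + 1} : Finset ℤ).card ≤ 2 := Finset.card_le_two
    calc _ ≤ 2 * (2 * 2) := Nat.mul_le_mul a1 (Nat.mul_le_mul a2 a3)
      _ = 8 := by norm_num
  have hJ : ((Cs.biUnion (Lst Q)).card : ℝ) ≤ 8 * K := by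
    have h1 : ((Cs.biUnion (Lst Q)).card : ℝ) ≤ ∑ C ∈ Cs, ((Lst Q C).card : ℝ) := by
      exact_mod_cast Finset.card_biUnion_le
    have h2 : ∑ C ∈ Cs, ((Lst Q C).card : ℝ) ≤ ∑ _C ∈ Cs, K := Finset.sum_le_sum fun C _ => hcard Q C
    rw [Finset.sum_const, nsmul_eq_mul] at h2
    have h3 : (Cs.card : ℝ) ≤ 8 := by exact_mod_cast hCc
    calc _ ≤ (Cs.card : ℝ) * K := h1.trans h2
      _ ≤ 8 * K := mul_le_mul_of_nonneg_right h3 hK0
  refine ⟨(Cs.biUnion (Lst Q)).image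
    (fun j : ℤ => ((j : ℝ) * β - (R.row Q 0 + R.row Q 1 * (ξ * k))) / R.g Q), ?_, ?_⟩
  · refine le_trans ?_ hJ
    exact_mod_cast Finset.card_image_le
  · intro p hp hc hk
    have hEv := (hF hp).1
    have hinc := (hF hp).2
    have hlab : R.labAt (R.dep Q) p = Q := ks_lab_unique hR (hR.lab _ (hR.dep_mem Q) p hEv) ⟨rfl, hinc⟩
    have hm := hmem p hp
    rw [hlab] at hm
    have hc1 : ⌊(p.2 - R.t0 Q) / (R.q Q * ξ)⌋ = c.1 := by
      rw [← div_div]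
      exact congrArg Prod.fst hc
    have hc2 : ⌊(ksZ (R.y p.1 p.2) - k7hZc R Q) / (R.q Q * ξ)⌋ = c.2 := by
      rw [← div_div]
      exact congrArg Prod.snd hc
    obtain ⟨b1, b1'⟩ := k7h_nd_floor hqξ hc1
    obtain ⟨b2, b2'⟩ := k7h_nd_floor hqξ hc2
    obtain ⟨b3, b3'⟩ := k7h_nd_floor hξ hk
    have t1 := k7h_nd_two (a := R.t0 Q + R.q Q * ξ * c.1) (δ := R.q Q * ξ) (x := p.2) hξT0 hqξT (by linarith) (by linarith)
    have t2 := k7h_nd_two (a := k7hZc R Q + R.q Q * ξ * c.2) (δ := R.q Q * ξ) (x := ksZ (R.y p.1 p.2)) hξT0 hqξT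
      (by linarith) (by linarith)
    have t3 := k7h_nd_two (a := ξ * k) (δ := ξ) (x := ksZ (R.V p.1)) hξT0 hξT b3 b3'
    rw [← hi1] at t1
    rw [← hi2] at t2
    rw [← hi3] at t3
    have hC : (k7bBin ξT p.2, k7bBin ξT (ksZ (R.y p.1 p.2)), k7bBin ξT (ksZ (R.V p.1))) ∈ Cs := by
      rw [hCs]
      simp only [Finset.mem_product, Finset.mem_insert, Finset.mem_singleton]
      exact ⟨t1, t2, t3⟩
    refine ⟨_, Finset.mem_image_of_mem _ (Finset.mem_biUnion.2 ⟨_, hC, hm⟩), ?_⟩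
    obtain ⟨j, hj⟩ : ∃ j, j = k7bBin β (ksY (R.V p.1)) := ⟨_, rfl⟩
    rw [← hj]
    obtain ⟨b4, b4'⟩ := k7h_nd_floor hβ hj.symm
    have htl : |R.row Q 1| ≤ K ^ 2 := (ks_tilt_size hR hT Q).1
    have e : k7hCst R Q p.1 - ((j : ℝ) * β - (R.row Q 0 + R.row Q 1 * (ξ * k))) / R.g Q
        = ((ksY (R.V p.1) - β * j) - R.row Q 1 * (ksZ (R.V p.1) - ξ * k)) / R.g Q := by
      unfold k7hCst
      field_simp
      ring
    rw [e, abs_div, abs_of_pos hg, ← mul_div_assoc]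
    refine div_le_div_of_nonneg_right ?_ hg.le
    have a1 : |ksY (R.V p.1) - β * j| ≤ β := by
      rw [abs_le]
      constructor <;> linarith
    have a2 : |ksZ (R.V p.1) - ξ * k| ≤ ξ := by
      rw [abs_le]
      constructor <;> linarith
    have a3 : |R.row Q 1 * (ksZ (R.V p.1) - ξ * k)| ≤ K ^ 2 * ξ := by
      rw [abs_mul]
      exact mul_le_mul htl a2 (abs_nonneg _) (by positivity)
    calc |(ksY (R.V p.1) - β * j) - R.row Q 1 * (ksZ (R.V p.1) - ξ * k)|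
        ≤ |ksY (R.V p.1) - β * j| + |R.row Q 1 * (ksZ (R.V p.1) - ξ * k)| := abs_sub _ _
      _ ≤ 3 * β := by linarith

end norm

end

end Claimed.Agent.R252
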