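-- KEEP
import Claimed.Agent.R252.S7b.S1NormContract

/-!
# Row 252, Sec. 7.4, `prop:horizontal-model` (07 l.927-1075), unit S7b-S1 (sub-architect helper77; prefix `k7h_` / `K7h`), file 3: STATE CALCULUS ON `KsRef`.
CONTRACT file: the `sorry`s are the leaves L-252-S7h-*.   Overview, definitions and conventions: header of `S7b/S1NormContract.lean`.   Prove IN PLACE (splice only your theorem, helper lemmas directly above it).
-/

set_option autoImplicit false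

namespace Claimed.Agent.R252

open MeasureTheory
open scoped ENNReal BigOperators

noncomputable section

/-! ## 2. State calculus on `KsRef` -/

section state

variable {R : KsRef KbVer.two}

/-- a countable family of labels is a label -/
theorem k7h_lab_pi {Ω ι : Type*} [MeasurableSpace Ω] [Countable ι] {S : ι → Type*} (s : ∀ i, Ω → S i) (h : ∀ i, KsLab (s i)) : KsLab (fun ω i => s i ω) := by
  intro f
  have : (fun ω i => s i ω) ⁻¹' {f} = ⋂ i, s i ⁻¹' {f i} := by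
    ext ω
    simp only [Set.mem_preimage, Set.mem_singleton_iff, Set.mem_iInter, funext_iff]
  rw [this]
  exact MeasurableSet.iInter fun i => h i (f i)

theorem k7h_Z_meas {K : ℝ} (hR : R.Ok K) : Measurable fun p : R.L × ℝ => ksZ (R.y p.1 p.2) := by
  have hY : Continuous fun x : KbTj KbVer.two × ℝ => ksZ (kbY x.1 x.2) := by
    unfold kbY ksZ
    fun_prop
  exact hY.measurable.comp ((hR.m_co.comp measurable_fst).prodMk measurable_snd)

theorem k7h_cell_lab {K : ℝ} (hR : R.Ok K) (Q : R.Lab) (ξ : ℝ) : KsLab (k7hCell R Q ξ) := by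
  have h1 : Measurable (k7hCell R Q ξ) := by
    unfold k7hCell
    exact ((((measurable_snd.sub_const _).div_const _).div_const _).floor).prodMk (((((k7h_Z_meas hR).sub_const _).div_const _).div_const _).floor)
  exact fun c => h1 (measurableSet_singleton c)

/-- **L-252-S7h-P0** the datum and the appended history are labels; on `Ev0 ∩ inc Q` the label of depth `dep Q` is `Q` -/
theorem k7h_dat_lab {K : ℝ} (hR : R.Ok K) (Ds : Finset ℝ) (r ξ : ℝ) :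
    KsLab (k7hDat R Ds r ξ) ∧ KsLab (k7hEh R Ds) ∧ ∀ Q : R.Lab, ∀ p ∈ R.Ev0 ∩ R.inc Q, R.labAt (R.dep Q) p = Q := by
  have hpi : KsLab (fun (p : R.L × ℝ) (s : {s // s ∈ Ds}) => R.labAt s.1 p) := k7h_lab_pi _ fun s => ks_labAt_meas hR s.1
  refine ⟨?_, ks_lab_pair hR.m_hist hpi, ?_⟩
  · have hc : KsLab (fun p : R.L × ℝ => k7hCell R (R.labAt r p) ξ p) := by
      intro c
      have : (fun p : R.L × ℝ => k7hCell R (R.labAt r p) ξ p) ⁻¹' {c} = ⋃ Q : R.Lab, (R.labAt r ⁻¹' {Q} ∩ k7hCell R Q ξ ⁻¹' {c}) := by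
        ext p
        simp only [Set.mem_preimage, Set.mem_singleton_iff, Set.mem_iUnion, Set.mem_inter_iff]
        constructor
        · intro hp
          exact ⟨R.labAt r p, rfl, hp⟩
        · rintro ⟨Q, hQ, hp⟩
          rw [hQ]
          exact hp
      rw [this]
      exact MeasurableSet.iUnion fun Q => (ks_labAt_meas hR r Q).inter (k7h_cell_lab hR Q ξ c)
    exact ks_lab_pair hpi hc
  · intro Q p hp
    exact ks_lab_unique hR (hR.lab (R.dep Q) (hR.dep_mem Q) p hp.1) ⟨rfl, hp.2⟩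

/-! ### calculus of options -/

theorem k7h_opt_le {Ω S D : Type*} [MeasurableSpace Ω] {μ : Measure Ω} {s : Ω → S} {d : Ω → D} {n n' : ℕ} (h : KsOpt μ s d n) (hn : n ≤ n') : KsOpt μ s d n' := by
  intro s0
  obtain ⟨L, hL, hL'⟩ := h s0
  exact ⟨L, hL.trans hn, hL'⟩

theorem k7h_opt_pair {Ω S D D' : Type*} [MeasurableSpace Ω] {μ : Measure Ω} {s : Ω → S} {d : Ω → D} {d' : Ω → D'} {n n' : ℕ} (h : KsOpt μ s d n) (h' : KsOpt μ s d' n') :
    KsOpt μ s (ksPair d d') (n * n') := by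
  intro s0
  obtain ⟨L, hL, hL0⟩ := h s0
  obtain ⟨L', hL', hL0'⟩ := h' s0
  refine ⟨L ×ˢ L', ?_, ?_⟩
  · rw [Finset.card_product]
    exact Nat.mul_le_mul hL hL'
  · rintro ⟨d0, d0'⟩ hd
    rw [Finset.mem_product, not_and_or] at hd
    rcases hd with hd | hd
    · refine measure_mono_null ?_ (hL0 d0 hd)
      intro ω hω
      have h1 : (s ω, (d ω, d' ω)) = (s0, (d0, d0')) := hω
      have h2 : s ω = s0 := congrArg Prod.fst h1
      have h3 : d ω = d0 := congrArg (fun x => x.2.1) h1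
      show (s ω, d ω) = (s0, d0)
      rw [h2, h3]
    · refine measure_mono_null ?_ (hL0' d0' hd)
      intro ω hω
      have h1 : (s ω, (d ω, d' ω)) = (s0, (d0, d0')) := hω
      have h2 : s ω = s0 := congrArg Prod.fst h1
      have h3 : d' ω = d0' := congrArg (fun x => x.2.2) h1
      show (s ω, d' ω) = (s0, d0')
      rw [h2, h3]

theorem k7h_opt_pi {Ω S ι D : Type*} [MeasurableSpace Ω] [Fintype ι] [DecidableEq ι] {μ : Measure Ω} {s : Ω → S} {d : ι → Ω → D} {n : ℕ} (h : ∀ i, KsOpt μ s (d i) n) :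
    KsOpt μ s (fun ω i => d i ω) (n ^ Fintype.card ι) := by
  intro s0
  choose L hL hL0 using fun i => h i s0
  refine ⟨Fintype.piFinset L, ?_, ?_⟩
  · rw [Fintype.card_piFinset]
    calc ∏ i, (L i).card ≤ ∏ _i : ι, n := Finset.prod_le_prod' fun i _ => hL i
      _ = n ^ Fintype.card ι := by rw [Finset.prod_const, Finset.card_univ]
  · intro f hf
    rw [Fintype.mem_piFinset, not_forall] at hf
    obtain ⟨i, hi⟩ := hf
    refine measure_mono_null ?_ (hL0 i (f i) hi)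
    intro ω hω
    have h1 : (s ω, fun i => d i ω) = (s0, f) := hω
    have h2 : s ω = s0 := congrArg Prod.fst h1
    have h3 : d i ω = f i := congrFun (congrArg Prod.snd h1) i
    show (s ω, d i ω) = (s0, f i)
    rw [h2, h3]

/-- a datum which is a multivalued function of a datum with few options -/
theorem k7h_opt_multi {Ω S D D' : Type*} [MeasurableSpace Ω] [Countable D] [DecidableEq D'] {μ : Measure Ω} {s : Ω → S} {d : Ω → D} {d' : Ω → D'} {n k : ℕ} (h : KsOpt μ s d n)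
    (G : Set Ω) (hG : μ Gᶜ = 0) (Φ : D → Finset D') (hΦ : ∀ x, (Φ x).card ≤ k) (hd : ∀ ω ∈ G, d' ω ∈ Φ (d ω)) : KsOpt μ s d' (n * k) := by
  intro s0
  obtain ⟨L, hL, hL0⟩ := h s0
  refine ⟨L.biUnion Φ, ?_, ?_⟩
  · refine Finset.card_biUnion_le.trans ?_
    calc ∑ x ∈ L, (Φ x).card ≤ ∑ _x ∈ L, k := Finset.sum_le_sum fun x _ => hΦ x
      _ = L.card * k := by rw [Finset.sum_const, smul_eq_mul]
      _ ≤ n * k := Nat.mul_le_mul_right k hL
  · intro d0 hd0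
    have hnull : μ (Gᶜ ∪ ⋃ x : {x // x ∉ L}, ksPair s d ⁻¹' {(s0, (x : D))}) = 0 :=
      measure_union_null hG (measure_iUnion_null fun x => hL0 x x.2)
    refine measure_mono_null ?_ hnull
    intro ω hω
    have h1 : (s ω, d' ω) = (s0, d0) := hω
    have h2 : s ω = s0 := congrArg Prod.fst h1
    have h3 : d' ω = d0 := congrArg Prod.snd h1
    by_cases hωG : ω ∈ G
    · right
      have h4 : d ω ∉ L := by
        intro h5
        apply hd0
        rw [← h3]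
        exact Finset.mem_biUnion.2 ⟨d ω, h5, hd ω hωG⟩
      refine Set.mem_iUnion.2 ⟨⟨d ω, h4⟩, ?_⟩
      show (s ω, d ω) = (s0, d ω)
      rw [h2]
    · exact Or.inl hωG

theorem k7h_dy_pos (x : ℝ) : 0 < kbDy x := by
  unfold kbDy
  exact zpow_pos (by norm_num) _

theorem k7h_dy_lt {x : ℝ} (hx : 0 < x) : kbDy x < 2 * x := by
  unfold kbDy
  rw [← Real.rpow_intCast]
  calc (2 : ℝ) ^ ((⌈Real.logb 2 x⌉ : ℤ) : ℝ) < (2 : ℝ) ^ (Real.logb 2 x + 1) :=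
        Real.rpow_lt_rpow_of_exponent_lt (by norm_num) (Int.ceil_lt_add_one _)
    _ = 2 * x := by
        rw [Real.rpow_add (by norm_num), Real.rpow_logb (by norm_num) (by norm_num) hx, Real.rpow_one, mul_comm]

theorem k7h_bin_iff (wd x : ℝ) (d : ℤ) : kbBin wd x = d ↔ (d : ℝ) * kbDy wd ≤ x ∧ x < ((d : ℝ) + 1) * kbDy wd := by
  unfold kbBin
  rw [Int.floor_eq_iff, le_div_iff₀ (k7h_dy_pos wd), div_lt_iff₀ (k7h_dy_pos wd)]

/-- an interval of length `≤ q ξ` meets two normalised cells -/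
theorem k7h_floor_two {W q ξ x x0 t0 : ℝ} (hq : 0 < q) (hξ : 0 < ξ) (hW : W ≤ q * ξ) (h1 : x0 ≤ x) (h2 : x < x0 + W) :
    ⌊(x - t0) / q / ξ⌋ ∈ ({⌊(x0 - t0) / q / ξ⌋, ⌊(x0 - t0) / q / ξ⌋ + 1} : Finset ℤ) := by
  have a1 : (x0 - t0) / q / ξ ≤ (x - t0) / q / ξ := by
    refine div_le_div_of_nonneg_right (div_le_div_of_nonneg_right (by linarith) hq.le) hξ.le
  have a2 : (x - t0) / q / ξ ≤ (x0 - t0) / q / ξ + 1 := by
    rw [div_div, div_div, div_add_one (by positivity), div_le_div_iff_of_pos_right (by positivity)]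
    linarith
  have b1 := Int.floor_le_floor a1
  have b2 := Int.floor_le_floor a2
  rw [Int.floor_add_one] at b2
  rw [Finset.mem_insert, Finset.mem_singleton]
  omega

/-- **L-252-S7h-P1** an end history leaves `≤ 4 K^(n+2)` options for the datum.
PLAN: `opt_ent` at the depths of `Ds ∪ {r}` (`labAt = eLab ∘ ent`), `opt_pt M w` : `≤ K` tangent cells of width `kbDy (a M) < 2 a M ≤ q ξ`; given the label of depth `r`, a tangent cell meets `≤ 2 × 2` normalised cells. -/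
theorem k7h_opt {K : ℝ} (hR : R.Ok K) (Ds : Finset ℝ) (r ξ M w : ℝ) (n : ℕ) (hDs : Ds ⊆ R.depths) (hn : Ds.card ≤ n) (hr : r ∈ R.depths) (hM : M ∈ R.meshes) (hw : w ∈ R.widths)
    (hξ : 0 < ξ) (hfine : ∀ Q : R.Lab, R.dep Q = r → 2 * R.a M ≤ R.q Q * ξ) :
    ∃ m : ℕ, (m : ℝ) ≤ 4 * K ^ (n + 2) ∧ KsOpt R.lam0 R.st (k7hDat R Ds r ξ) m := by
  classical
  have hK1 : 1 ≤ K := hR.K_ge
  have hK0 : 0 ≤ K := by linarith
  have hk1 : 1 ≤ ⌊K⌋₊ := Nat.le_floor (by exact_mod_cast hK1)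
  have hkK : (⌊K⌋₊ : ℝ) ≤ K := Nat.floor_le hK0
  have hent : ∀ s ∈ R.depths, KsOpt R.lam0 R.st (R.ent s) ⌊K⌋₊ := by
    intro s hs
    obtain ⟨m, hm, ho⟩ := hR.opt_ent s hs
    exact k7h_opt_le ho (Nat.le_floor hm)
  have hpt : KsOpt R.lam0 R.st (R.pt M w) ⌊K⌋₊ := by
    obtain ⟨m, hm, ho⟩ := hR.opt_pt M hM w hw
    exact k7h_opt_le ho (Nat.le_floor hm)
  have h1 : KsOpt R.lam0 R.st (ksPair (fun (p : R.L × ℝ) (s : {s // s ∈ Ds}) => R.ent s.1 p) (ksPair (R.ent r) (R.pt M w)))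
      (⌊K⌋₊ ^ Fintype.card {s // s ∈ Ds} * (⌊K⌋₊ * ⌊K⌋₊)) :=
    k7h_opt_pair (k7h_opt_pi fun s => hent s.1 (hDs s.2)) (k7h_opt_pair (hent r hr) hpt)
  have hnull : R.lam0 R.Ev0ᶜ = 0 := by
    show (R.prior.restrict R.Ev0) R.Ev0ᶜ = 0
    rw [Measure.restrict_apply' hR.m_Ev0, Set.compl_inter_self, measure_empty]
  have h2 := k7h_opt_multi (d' := k7hDat R Ds r ξ) (k := 4) h1 R.Ev0 hnull
    (fun x => ({fun s => R.eLab (x.1 s)} : Finset ({s // s ∈ Ds} → R.Lab)) ×ˢ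
      (({⌊((x.2.2.1 : ℝ) * kbDy (R.a M) - R.t0 (R.eLab x.2.1)) / R.q (R.eLab x.2.1) / ξ⌋,
          ⌊((x.2.2.1 : ℝ) * kbDy (R.a M) - R.t0 (R.eLab x.2.1)) / R.q (R.eLab x.2.1) / ξ⌋ + 1} : Finset ℤ) ×ˢ
       ({⌊((x.2.2.2.1 (0 : Fin 2) : ℝ) * kbDy (R.a M) - k7hZc R (R.eLab x.2.1)) / R.q (R.eLab x.2.1) / ξ⌋,
          ⌊((x.2.2.2.1 (0 : Fin 2) : ℝ) * kbDy (R.a M) - k7hZc R (R.eLab x.2.1)) / R.q (R.eLab x.2.1) / ξ⌋ + 1} : Finset ℤ)))
    (fun x => by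
      rw [Finset.card_product, Finset.card_product, Finset.card_singleton, one_mul]
      exact Nat.mul_le_mul (Finset.card_le_two) (Finset.card_le_two))
    (fun p hp => by
      have hdep : R.dep (R.labAt r p) = r := (hR.lab r hr p hp).1
      have hW : kbDy (R.a M) ≤ R.q (R.labAt r p) * ξ :=
        (k7h_dy_lt (ksl8_a_pos hR M)).le.trans (hfine _ hdep)
      have hq : 0 < R.q (R.labAt r p) := ksl8_q_pos R _
      have b1 := (k7h_bin_iff (R.a M) p.2 _).1 rfl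
      have b2 := (k7h_bin_iff (R.a M) (R.y p.1 p.2 (0 : Fin 2)) _).1 rfl
      have c1 : p.2 < (kbBin (R.a M) p.2 : ℝ) * kbDy (R.a M) + kbDy (R.a M) := by linarith [b1.2]
      have c2 : R.y p.1 p.2 (0 : Fin 2) < (kbBin (R.a M) (R.y p.1 p.2 (0 : Fin 2)) : ℝ) * kbDy (R.a M) + kbDy (R.a M) := by linarith [b2.2]
      refine Finset.mem_product.2 ⟨Finset.mem_singleton.2 rfl, Finset.mem_product.2 ⟨?_, ?_⟩⟩
      · exact k7h_floor_two hq hξ hW b1.1 c1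
      · exact k7h_floor_two hq hξ hW b2.1 c2)
  refine ⟨4 * ⌊K⌋₊ ^ (n + 2), ?_, k7h_opt_le h2 ?_⟩
  · push_cast
    exact mul_le_mul_of_nonneg_left (pow_le_pow_left₀ (Nat.cast_nonneg _) hkK _) (by norm_num)
  · rw [Fintype.card_coe]
    calc ⌊K⌋₊ ^ Ds.card * (⌊K⌋₊ * ⌊K⌋₊) * 4 ≤ ⌊K⌋₊ ^ n * (⌊K⌋₊ * ⌊K⌋₊) * 4 :=
          Nat.mul_le_mul_right _ (Nat.mul_le_mul_right _ (Nat.pow_le_pow_right hk1 hn))
      _ = 4 * ⌊K⌋₊ ^ (n + 2) := by ring

/-- options persist under restriction -/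
theorem k7h_opt_mono {Ω S D : Type*} [MeasurableSpace Ω] {μ μ' : Measure Ω} {s : Ω → S} {d : Ω → D} {n : ℕ} (h : KsOpt μ s d n) (hμ : μ' ≤ μ) : KsOpt μ' s d n := by
  intro s0
  obtain ⟨L, hL, hL'⟩ := h s0
  exact ⟨L, hL, fun d0 hd0 => le_antisymm ((hμ _).trans (hL' d0 hd0).le) zero_le⟩

theorem k7h_law_finite {R : KsRef KbVer.two} {K : ℝ} (hR : R.Ok K) (E : Set (R.L × ℝ)) : IsFiniteMeasure (R.law E) := by
  have := hR.prob
  have : IsFiniteMeasure KbPb.tm := by unfold KbPb.tm; infer_instance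
  unfold KsRef.law KsRef.prior
  infer_instance

theorem k7h_lab_st {R : KsRef KbVer.two} {K : ℝ} (hR : R.Ok K) : KsLab R.st :=
  ks_lab_pair (fun A => measurable_fst (hR.m_par A)) hR.m_hist

theorem k7h_ref_sum {R : KsRef KbVer.two} {K : ℝ} (hR : R.Ok K) : ∑' x, R.ref x ≤ ENNReal.ofReal K := by
  have h1 : ∑ A, R.pA A = 1 := by
    have h1 := ks_mass_sum R.ν hR.m_par
    have := hR.prob
    rw [measure_univ] at h1
    exact h1
  rw [tsum_fintype, Fintype.sum_prod_type]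
  calc ∑ A, ∑ hh, R.ref (A, hh) ≤ ∑ A, ENNReal.ofReal K * R.pA A := Finset.sum_le_sum fun A _ => hR.ref_par A
    _ = ENNReal.ofReal K := by rw [← Finset.mul_sum, h1, mul_one]

/-- one parent: the palette of the numerator ceiling is `π_A` -/
theorem k7h_dom_one {R : KsRef KbVer.two} {A : R.Par} {K : ℝ} {E : Set (R.L × ℝ)} (hR : R.Ok K) (hA : R.One A) (hE : KsCur R E K) :
    KsDom (R.law E) R.st R.vT (fun _ b => R.pi A b) R.ref (ENNReal.ofReal K) := by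
  rintro ⟨A', hh⟩ b
  by_cases hAA : A' = A
  · subst hAA
    exact hE.dom hR (A', hh) b
  · have h0 : R.law E (R.st ⁻¹' {(A', hh)} ∩ R.vT b) = 0 := by
      unfold KsRef.law
      rw [Measure.restrict_apply' hE.meas]
      have : R.st ⁻¹' {(A', hh)} ∩ R.vT b ∩ E = ∅ := by
        apply Set.eq_empty_of_forall_notMem
        rintro p ⟨⟨hp, -⟩, hpE⟩
        have h1 : R.par p.1 = A' := congrArg Prod.fst (hp : R.st p = (A', hh))
        exact hAA (h1.symm.trans (hA.par p (hE.sub hpE)))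
      rw [this, measure_empty]
    rw [h0]
    exact zero_le

/-- **L-252-S7h-P2** THE GLOBAL APPEND (07 l.968-971; `a03:finite-state-conditioning`): half of the current selection survives, numerator ceiling against the masses of `E`.
PLAN: `KsCur.dom` (states with `par ≠ A` are null: `One.par`, so the palette may be replaced by `π_A`); `ksc_step` with `d = k7hDat`, `K₁ = 2 m K²`, coarsening `((A', h), d) ↦ (h, d)`; `ref_par` + `∑ pA = 1` : `∑ ref ≤ K`;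
`ksc_prune_half`; `E₁ := E ∩ (kept entries)` (`KsCur.law_restrict`). -/
theorem k7h_append (n : ℕ) : ∃ C : ℕ, ∀ (R : KsRef KbVer.two) (A : R.Par) (K : ℝ) (E : Set (R.L × ℝ)) (Ds : Finset ℝ) (r ξ M w : ℝ),
    R.Ok K → R.One A → KsCur R E K → Ds ⊆ R.depths → Ds.card ≤ n → r ∈ R.depths → M ∈ R.meshes → w ∈ R.widths → 0 < ξ →
    (∀ Q : R.Lab, R.dep Q = r → 2 * R.a M ≤ R.q Q * ξ) →
    ∃ E₁ ⊆ E, MeasurableSet E₁ ∧ R.prior E ≤ 2 * R.prior E₁ ∧ K7hCeil R A E E₁ ((C : ℝ) * K ^ C) Ds r ξ := by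
  refine ⟨n + 8, fun R A K E Ds r ξ M w hR hA hE hDs hn hr hM hw hξ hfine => ?_⟩
  have hK1 : 1 ≤ K := hR.K_ge
  have hK0 : 0 ≤ K := by linarith
  obtain ⟨m, hm, hopt0⟩ := k7h_opt hR Ds r ξ M w n hDs hn hr hM hw hξ hfine
  have hopt : KsOpt (R.law E) R.st (k7hDat R Ds r ξ) m := k7h_opt_mono hopt0 hE.law_le
  have hs := k7h_lab_st hR
  have hd := (k7h_dat_lab hR Ds r ξ).1
  have hfin := k7h_law_finite hR E
  obtain ⟨K1, hK1def⟩ : ∃ K1 : ℝ≥0∞, K1 = ENNReal.ofReal (2 * m * K * K) := ⟨_, rfl⟩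
  obtain ⟨g1, -⟩ := ksc_step hs hd (k7h_dom_one hR hA hE) K1 m hopt
    (fun x : (R.Par × R.Hist) × (({s // s ∈ Ds} → R.Lab) × (ℤ × ℤ)) => (x.1.2, x.2)) (fun _ b => R.pi A b) (fun _ _ => le_rfl)
  have g2 := ksc_prune_half (R.law E) hs hd R.ref (ENNReal.ofReal K) K1 (ENNReal.ofReal K) 1 m hopt
    (by rw [mul_one]; exact k7h_ref_sum hR) (by rw [KsCur.law_univ]; exact hE.mass)
    (by
      rw [hK1def, ENNReal.ofReal_mul (by positivity), ENNReal.ofReal_mul (by positivity), ENNReal.ofReal_mul (by norm_num),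
        ENNReal.ofReal_ofNat, ENNReal.ofReal_natCast])
    (by rw [hK1def]; exact ENNReal.ofReal_ne_top)
  have hkm : MeasurableSet (ksPair R.st (k7hDat R Ds r ξ) ⁻¹' ksKeep (R.law E) (ksPair R.st (k7hDat R Ds r ξ)) (fun x => R.ref x.1) K1) :=
    ksc_lab_preimage (ks_lab_pair hs hd) _
  have happ : ksApp (R.law E) R.st (k7hDat R Ds r ξ) R.ref K1
      = R.law (E ∩ ksPair R.st (k7hDat R Ds r ξ) ⁻¹' ksKeep (R.law E) (ksPair R.st (k7hDat R Ds r ξ)) (fun x => R.ref x.1) K1) :=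
    KsCur.law_restrict R E hkm
  rw [happ] at g1 g2
  refine ⟨_, Set.inter_subset_left, hE.meas.inter hkm, ?_, ?_⟩
  · rw [KsCur.law_univ, KsCur.law_univ] at g2
    exact g2
  · refine ks_dom_mono g1 le_rfl (fun _ _ => le_rfl) (fun _ => le_rfl) ?_
    rw [hK1def, ← ENNReal.ofReal_mul hK0]
    refine ENNReal.ofReal_le_ofReal ?_
    have h1 : K * (2 * m * K * K) ≤ 8 * K ^ (n + 5) := by
      calc K * (2 * m * K * K) = 2 * K ^ 3 * m := by ring
        _ ≤ 2 * K ^ 3 * (4 * K ^ (n + 2)) := mul_le_mul_of_nonneg_left hm (by positivity)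
        _ = 8 * K ^ (n + 5) := by ring
    refine h1.trans ?_
    have h2 : K ^ (n + 5) ≤ K ^ (n + 8) := pow_le_pow_right₀ hK1 (by omega)
    have h3 : (8 : ℝ) ≤ ((n + 8 : ℕ) : ℝ) := by push_cast; linarith [(Nat.cast_nonneg n : (0 : ℝ) ≤ n)]
    exact mul_le_mul h3 h2 (by positivity) (by positivity)

theorem k7h_inc_meas {K : ℝ} (hR : R.Ok K) (Q : R.Lab) : MeasurableSet (R.inc Q) :=
  (hR.m_asg Q).prod measurableSet_Ico

/-- a state whose label of depth `r` is `Q` lives inside `inc Q` -/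
theorem k7h_inc_state_eq {K : ℝ} (hR : R.Ok K) {G : Set (R.L × ℝ)} (hG : G ⊆ R.Ev0) (mG : MeasurableSet G) {Ds : Finset ℝ} {r ξ : ℝ} (hr : r ∈ Ds) (Q : R.Lab) (hQ : R.dep Q = r)
    (d0 : ({s // s ∈ Ds} → R.Lab) × (ℤ × ℤ)) (hd : d0.1 ⟨r, hr⟩ = Q) (X : Set (R.L × ℝ)) :
    R.law (G ∩ R.inc Q) (k7hDat R Ds r ξ ⁻¹' {d0} ∩ X) = R.law G (k7hDat R Ds r ξ ⁻¹' {d0} ∩ X) := by
  unfold KsRef.law
  rw [Measure.restrict_apply' (mG.inter (k7h_inc_meas hR Q)), Measure.restrict_apply' mG]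
  congr 1
  ext p
  constructor
  · rintro ⟨h1, h2, -⟩
    exact ⟨h1, h2⟩
  · rintro ⟨h1, h2⟩
    refine ⟨h1, h2, ?_⟩
    have h3 : k7hDat R Ds r ξ p = d0 := h1.1
    have h4 : R.labAt r p = Q := by
      rw [← hd, ← h3]
      rfl
    have h5 := (hR.lab r (hQ ▸ hR.dep_mem Q) p (hG h2)).2
    rwa [h4] at h5

/-- a state whose label of depth `r` is not `Q` does not meet `inc Q` -/
theorem k7h_inc_state_zero {K : ℝ} (hR : R.Ok K) {G : Set (R.L × ℝ)} (hG : G ⊆ R.Ev0) (mG : MeasurableSet G) {Ds : Finset ℝ} {r ξ : ℝ} (hr : r ∈ Ds) (Q : R.Lab) (hQ : R.dep Q = r)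
    (d0 : ({s // s ∈ Ds} → R.Lab) × (ℤ × ℤ)) (hd : d0.1 ⟨r, hr⟩ ≠ Q) (X : Set (R.L × ℝ)) :
    R.law (G ∩ R.inc Q) (k7hDat R Ds r ξ ⁻¹' {d0} ∩ X) = 0 := by
  unfold KsRef.law
  rw [Measure.restrict_apply' (mG.inter (k7h_inc_meas hR Q))]
  have : k7hDat R Ds r ξ ⁻¹' {d0} ∩ X ∩ (G ∩ R.inc Q) = ∅ := by
    apply Set.eq_empty_of_forall_notMem
    rintro p ⟨h1, h2, h3⟩
    apply hd
    have h4 : k7hDat R Ds r ξ p = d0 := h1.1
    have h5 : R.labAt (R.dep Q) p = Q := (k7h_dat_lab hR Ds r ξ).2.2 Q p ⟨hG h2, h3⟩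
    rw [hQ] at h5
    rw [← h5, ← h4]
    rfl
  rw [this, measure_empty]

theorem k7h_pair_pre (Ds : Finset ℝ) (r ξ : ℝ) (x : R.Hist × (({s // s ∈ Ds} → R.Lab) × (ℤ × ℤ))) :
    ksPair R.hist (k7hDat R Ds r ξ) ⁻¹' {x} = k7hDat R Ds r ξ ⁻¹' {x.2} ∩ R.hist ⁻¹' {x.1} := by
  ext p
  simp only [ksPair, Set.mem_preimage, Set.mem_singleton_iff, Set.mem_inter_iff, Prod.ext_iff]
  tauto

/-- **L-252-S7h-P3** rules for the ceiling: smaller selection / larger slack; restriction of both selections to a label of depth `r ∈ Ds` (whole states); fewer depths (`ksc_coarsen`) -/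
theorem k7h_ceil_rules {K : ℝ} (hR : R.Ok K) {A : R.Par} {E₀ E₁ : Set (R.L × ℝ)} {K₁ : ℝ} {Ds : Finset ℝ} {r ξ : ℝ} (h : K7hCeil R A E₀ E₁ K₁ Ds r ξ)
    (h0 : E₀ ⊆ R.Ev0) (h1 : E₁ ⊆ E₀) (m0 : MeasurableSet E₀) :
    (∀ (E₂ : Set (R.L × ℝ)) (K₂ : ℝ), E₂ ⊆ E₁ → K₁ ≤ K₂ → K7hCeil R A E₀ E₂ K₂ Ds r ξ) ∧
    (r ∈ Ds → ∀ Q : R.Lab, R.dep Q = r → K7hCeil R A (E₀ ∩ R.inc Q) (E₁ ∩ R.inc Q) K₁ Ds r ξ) ∧
    (∀ Ds' ⊆ Ds, K7hCeil R A E₀ E₁ K₁ Ds' r ξ) := by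
  refine ⟨?_, ?_, ?_⟩
  · intro E₂ K₂ h2 hK
    exact ks_dom_mono h (Measure.restrict_mono h2 le_rfl) (fun _ _ => le_rfl) (fun _ => le_rfl) (ENNReal.ofReal_le_ofReal hK)
  · intro hr Q hQ x b
    by_cases hd : x.2.1 ⟨r, hr⟩ = Q
    · have e1 : ksMass (R.law (E₀ ∩ R.inc Q)) (ksPair R.hist (k7hDat R Ds r ξ)) x = ksMass (R.law E₀) (ksPair R.hist (k7hDat R Ds r ξ)) x := by
        unfold ksMass
        rw [k7h_pair_pre]
        exact k7h_inc_state_eq hR h0 m0 hr Q hQ x.2 hd _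
      rw [e1]
      exact ((Measure.restrict_mono Set.inter_subset_left le_rfl : R.law (E₁ ∩ R.inc Q) ≤ R.law E₁) _).trans (h x b)
    · have e1 : R.law (E₀ ∩ R.inc Q) (ksPair R.hist (k7hDat R Ds r ξ) ⁻¹' {x} ∩ R.vT b) = 0 := by
        rw [k7h_pair_pre, Set.inter_assoc]
        exact k7h_inc_state_zero hR h0 m0 hr Q hQ x.2 hd _
      have e2 : R.law (E₁ ∩ R.inc Q) (ksPair R.hist (k7hDat R Ds r ξ) ⁻¹' {x} ∩ R.vT b) ≤ R.law (E₀ ∩ R.inc Q) (ksPair R.hist (k7hDat R Ds r ξ) ⁻¹' {x} ∩ R.vT b) :=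
        (Measure.restrict_mono (Set.inter_subset_inter_left _ h1) le_rfl : R.law (E₁ ∩ R.inc Q) ≤ R.law (E₀ ∩ R.inc Q)) _
      rw [e1] at e2
      exact e2.trans zero_le
  · intro Ds' hsub
    have hlab : KsLab (ksPair R.hist (k7hDat R Ds r ξ)) := ks_lab_pair hR.m_hist (k7h_dat_lab hR Ds r ξ).1
    have g := ksc_coarsen h
      (fun x : R.Hist × (({s // s ∈ Ds} → R.Lab) × (ℤ × ℤ)) => ((x.1, ((fun s => x.2.1 ⟨s.1, hsub s.2⟩), x.2.2)) : R.Hist × (({s // s ∈ Ds'} → R.Lab) × (ℤ × ℤ))))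
      (fun _ b => R.pi A b) (fun _ _ => le_rfl)
    intro c b
    have g2 := g c b
    simp only [] at g2
    rw [ksc_push_mass (R.law E₀) hlab] at g2
    exact g2

theorem k7h_prior_fin {K : ℝ} (hR : R.Ok K) : IsFiniteMeasure R.prior := by
  have := hR.prob
  unfold KsRef.prior KbPb.tm
  infer_instance

theorem k7h_law_fin {K : ℝ} (hR : R.Ok K) (E : Set (R.L × ℝ)) : IsFiniteMeasure (R.law E) := by
  have := k7h_prior_fin hR
  unfold KsRef.law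
  infer_instance

/-- removal of the null states of a countable label does not change the measure -/
theorem k7h_null_states {Ω S : Type*} [MeasurableSpace Ω] [Countable S] (μ : Measure Ω) {s : Ω → S} (hs : KsLab s) :
    MeasurableSet {ω | ksMass μ s (s ω) ≠ 0} ∧ μ.restrict {ω | ksMass μ s (s ω) ≠ 0} = μ := by
  have e : {ω | ksMass μ s (s ω) ≠ 0} = s ⁻¹' {s0 | ksMass μ s s0 ≠ 0} := rfl
  refine ⟨e ▸ ksc_lab_preimage hs _, ?_⟩
  refine Measure.restrict_eq_self_of_ae_mem ?_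
  have h0 : μ (s ⁻¹' {s0 | ksMass μ s s0 = 0}) = 0 := by
    rw [ksc_mass_preimage μ hs]
    exact ENNReal.tsum_eq_zero.2 fun s0 => s0.2
  filter_upwards [measure_eq_zero_iff_ae_notMem.1 h0] with ω hω
  exact hω

/-- **L-252-S7h-P4** DENOMINATOR PRUNING: forget the history (`ksc_coarsen`), delete the states below `mass_{E₀} / (2K)` (`ksc_prune_half'`, `ksc_prune_cond`) and the null states. -/
theorem k7h_cond {K : ℝ} (hR : R.Ok K) {A : R.Par} {E₀ E₁ : Set (R.L × ℝ)} {K₁ : ℝ} {Ds : Finset ℝ} {r ξ : ℝ} (hK₁ : 1 ≤ K₁) (h : K7hCeil R A E₀ E₁ K₁ Ds r ξ)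
    (m0 : MeasurableSet E₀) (m1 : MeasurableSet E₁) (hm : R.prior E₀ ≤ ENNReal.ofReal K₁ * R.prior E₁) :
    ∃ E₂ ⊆ E₁, MeasurableSet E₂ ∧ R.prior E₁ ≤ 2 * R.prior E₂ ∧ K7hCond R A E₂ (2 * K₁ ^ 2) Ds r ξ := by
  classical
  have hd : KsLab (k7hDat R Ds r ξ) := (k7h_dat_lab hR Ds r ξ).1
  have hpl : KsLab (ksPair R.hist (k7hDat R Ds r ξ)) := ks_lab_pair hR.m_hist hd
  have := k7h_law_fin hR E₁
  -- forget the history
  have h1 : KsDom (R.law E₁) (k7hDat R Ds r ξ) R.vT (fun _ b => R.pi A b) (ksMass (R.law E₀) (k7hDat R Ds r ξ)) (ENNReal.ofReal K₁) := by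
    have h2 := ksc_coarsen h Prod.snd (fun _ b => R.pi A b) (fun _ _ => le_rfl)
    intro c i
    have h3 := h2 c i
    simp only [] at h3
    rw [ksc_push_mass (R.law E₀) hpl Prod.snd c] at h3
    exact h3
  -- the pruning
  set Ref := ksMass (R.law E₀) (k7hDat R Ds r ξ) with hRef
  set K2 : ℝ≥0∞ := ENNReal.ofReal (2 * K₁) with hK2
  have hsum : ∑' s0, Ref s0 ≤ 1 * R.prior E₀ := by
    rw [hRef, ksc_mass_sum (R.law E₀) hd, KsCur.law_univ, one_mul]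
  have hM : R.prior E₀ ≤ ENNReal.ofReal K₁ * R.law E₁ Set.univ := by
    rw [KsCur.law_univ]
    exact hm
  have hKK : 2 * 1 * ENNReal.ofReal K₁ ≤ K2 := by
    rw [hK2, ENNReal.ofReal_mul (by norm_num), mul_one]
    simp
  have hhalf := ksc_prune_half' (R.law E₁) hd Ref 1 K2 (ENNReal.ofReal K₁) (R.prior E₀) hsum hM hKK ENNReal.ofReal_ne_top
  have hcond := ksc_prune_cond hd h1 K2
  have mK : MeasurableSet (k7hDat R Ds r ξ ⁻¹' ksKeep (R.law E₁) (k7hDat R Ds r ξ) Ref K2) := ksc_lab_preimage hd _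
  have eP : ksPrune (R.law E₁) (k7hDat R Ds r ξ) Ref K2 = R.law (E₁ ∩ k7hDat R Ds r ξ ⁻¹' ksKeep (R.law E₁) (k7hDat R Ds r ξ) Ref K2) :=
    KsCur.law_restrict R E₁ mK
  set E' := E₁ ∩ k7hDat R Ds r ξ ⁻¹' ksKeep (R.law E₁) (k7hDat R Ds r ξ) Ref K2 with hE'
  rw [eP] at hhalf hcond
  obtain ⟨mN, eN⟩ := k7h_null_states (R.law E') hd
  rw [KsCur.law_restrict R E' mN] at eN
  refine ⟨E' ∩ {ω | ksMass (R.law E') (k7hDat R Ds r ξ) (k7hDat R Ds r ξ ω) ≠ 0}, fun p hp => hp.1.1, (m1.inter mK).inter mN, ?_, ?_, ?_⟩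
  · rw [← KsCur.law_univ R E₁, ← KsCur.law_univ R (E' ∩ _), eN]
    exact hhalf
  · rw [eN]
    have eK : ENNReal.ofReal (2 * K₁ ^ 2) = ENNReal.ofReal K₁ * K2 := by
      rw [hK2, ← ENNReal.ofReal_mul (by linarith)]
      congr 1
      ring
    rw [eK]
    exact hcond
  · intro p hp
    rw [eN]
    exact hp.2

/-- **L-252-S7h-P5** the conditional ceiling survives the restriction to a label of depth `r ∈ Ds` (whole states) -/
theorem k7h_cond_inc {K : ℝ} (hR : R.Ok K) {A : R.Par} {F : Set (R.L × ℝ)} {K₁ : ℝ} {Ds : Finset ℝ} {r ξ : ℝ} (h : K7hCond R A F K₁ Ds r ξ) (hF : F ⊆ R.Ev0) (mF : MeasurableSet F)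
    (hr : r ∈ Ds) (hDs : Ds ⊆ R.depths) (Q : R.Lab) (hQ : R.dep Q = r) : K7hCond R A (F ∩ R.inc Q) K₁ Ds r ξ := by
  have hmass : ∀ d0 : ({s // s ∈ Ds} → R.Lab) × (ℤ × ℤ), d0.1 ⟨r, hr⟩ = Q →
      ksMass (R.law (F ∩ R.inc Q)) (k7hDat R Ds r ξ) d0 = ksMass (R.law F) (k7hDat R Ds r ξ) d0 := by
    intro d0 hd
    have := k7h_inc_state_eq hR hF mF (ξ := ξ) hr Q hQ d0 hd Set.univ
    rwa [Set.inter_univ] at this
  refine ⟨?_, ?_⟩
  · intro d0 b
    by_cases hd : d0.1 ⟨r, hr⟩ = Q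
    · rw [hmass d0 hd, k7h_inc_state_eq hR hF mF hr Q hQ d0 hd]
      exact h.1 d0 b
    · rw [k7h_inc_state_zero hR hF mF hr Q hQ d0 hd]
      exact zero_le
  · rintro p ⟨hp, hpQ⟩
    have h5 : R.labAt (R.dep Q) p = Q := (k7h_dat_lab hR Ds r ξ).2.2 Q p ⟨hF hp, hpQ⟩
    rw [hQ] at h5
    rw [hmass _ h5]
    exact h.2 p hp

/-- the numerics of the separation radius -/
theorem k7h_sep_num (S0 : ℝ) (hS0 : 0 < S0) : ∃ C : ℕ, 1 ≤ C ∧ ∀ K : ℝ, 1 ≤ K → K * (K * (3 * (1 / ((C : ℝ) * K ^ C))) ^ S0) ≤ 1 / 2 := by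
  obtain ⟨n, hn⟩ := exists_nat_ge (1 / S0)
  have hnS : 1 ≤ (n : ℝ) * S0 := by
    rw [div_le_iff₀ hS0] at hn
    exact hn
  refine ⟨3 * 2 ^ n + 2 * n, by have := Nat.one_le_two_pow (n := n); omega, fun K hK => ?_⟩
  have hK0 : 0 < K := by linarith
  set C := 3 * 2 ^ n + 2 * n with hC
  have h1 : 3 * ((2 : ℝ) * K ^ 2) ^ n ≤ (C : ℝ) * K ^ C := by
    have a1 : (3 : ℝ) * 2 ^ n ≤ (C : ℝ) := by
      rw [hC]
      push_cast
      have : (0 : ℝ) ≤ 2 * n := by positivity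
      linarith
    have a2 : (K ^ 2) ^ n ≤ K ^ C := by
      rw [← pow_mul]
      exact pow_le_pow_right₀ hK (by omega)
    calc 3 * ((2 : ℝ) * K ^ 2) ^ n = (3 * 2 ^ n) * (K ^ 2) ^ n := by rw [mul_pow]; ring
      _ ≤ (C : ℝ) * K ^ C := mul_le_mul a1 a2 (by positivity) (by positivity)
  set x : ℝ := 1 / (2 * K ^ 2) with hx
  have hx0 : 0 < x := by positivity
  have hx1 : x ≤ 1 := by
    rw [hx, div_le_one (by positivity)]
    nlinarith
  have h2 : 3 * (1 / ((C : ℝ) * K ^ C)) ≤ x ^ n := by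
    rw [hx, div_pow, one_pow, mul_one_div, div_le_div_iff₀ (lt_of_lt_of_le (by positivity) h1) (by positivity)]
    linarith
  have h3 : (3 * (1 / ((C : ℝ) * K ^ C))) ^ S0 ≤ x := by
    have hpos : 0 ≤ 3 * (1 / ((C : ℝ) * K ^ C)) := by positivity
    calc (3 * (1 / ((C : ℝ) * K ^ C))) ^ S0 ≤ (x ^ n) ^ S0 := Real.rpow_le_rpow hpos h2 hS0.le
      _ = x ^ ((n : ℝ) * S0) := by rw [← Real.rpow_natCast, ← Real.rpow_mul hx0.le]
      _ ≤ x ^ (1 : ℝ) := Real.rpow_le_rpow_of_exponent_ge hx0 hx1 hnS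
      _ = x := Real.rpow_one x
  calc K * (K * (3 * (1 / ((C : ℝ) * K ^ C))) ^ S0) ≤ K * (K * x) := by gcongr
    _ = 1 / 2 := by
      rw [hx]
      field_simp

/-- **L-252-S7h-P6** SEPARATED PARTNERS.   `ρ := (2 K K₁)^{-1/S} / 3 ≥ χ` : `ks_dom_ball` at `x = vel p` : the part of the state of `p` within `ρ` of `vel p` has mass `≤ K₁ K (3ρ)^S m ≤ m / 2 < m`. -/
theorem k7h_sep (S0 : ℝ) (hS0 : 0 < S0) : ∃ C : ℕ, ∀ (R : KsRef KbVer.two) (A : R.Par) (K : ℝ) (F : Set (R.L × ℝ)) (Ds : Finset ℝ) (r ξ : ℝ),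
    R.S = S0 → 0 < R.ell → R.Ok K → MeasurableSet F → K7hCond R A F K Ds r ξ → (C : ℝ) * K ^ C * R.χ ≤ 1 → K7hSep R F ((C : ℝ) * K ^ C) Ds r ξ := by
  obtain ⟨C, hC1, hC⟩ := k7h_sep_num S0 hS0
  refine ⟨C, fun R A K F Ds r ξ hS hell hR mF hc hχ p hp => ?_⟩
  have hK := hR.K_ge
  have hK0 : 0 < K := by linarith
  have hCK : 0 < (C : ℝ) * K ^ C := by
    have : (0 : ℝ) < C := by exact_mod_cast hC1
    positivity
  set ρ : ℝ := 1 / ((C : ℝ) * K ^ C) with hρ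
  have hρ0 : 0 < ρ := by positivity
  have hχρ : R.χ ≤ ρ := by
    rw [hρ, le_div_iff₀ hCK, mul_comm]
    exact hχ
  have := k7h_law_fin hR F
  set s0 := k7hDat R Ds r ξ p with hs0
  set m := ksMass (R.law F) (k7hDat R Ds r ξ) s0 with hm
  have hm0 : m ≠ 0 := hc.2 p hp
  have hmT : m ≠ ⊤ := measure_ne_top _ _
  have hball := ks_dom_ball hR (A := fun _ => A) hc.1 s0 (R.vel p.1) ρ hχρ
  have hnum : ENNReal.ofReal K * ENNReal.ofReal (K * (3 * ρ) ^ R.S) ≤ ENNReal.ofReal (1 / 2) := by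
    rw [← ENNReal.ofReal_mul hK0.le, hS]
    exact ENNReal.ofReal_le_ofReal (hC K hK)
  have hlt : R.law F (k7hDat R Ds r ξ ⁻¹' {s0} ∩ {z | dist (R.vel z.1) (R.vel p.1) ≤ ρ}) < m := by
    refine lt_of_le_of_lt (hball.trans (mul_le_mul' hnum le_rfl)) ?_
    have : ENNReal.ofReal (1 / 2) < 1 := by
      rw [← ENNReal.ofReal_one]
      exact (ENNReal.ofReal_lt_ofReal_iff (by norm_num)).2 (by norm_num)
    calc ENNReal.ofReal (1 / 2) * m < 1 * m := (ENNReal.mul_lt_mul_iff_left hm0 hmT).2 this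
      _ = m := one_mul m
  -- a partner outside the ball
  have hex : ∃ p' ∈ F, k7hDat R Ds r ξ p' = s0 ∧ ρ < dist (R.vel p'.1) (R.vel p.1) := by
    by_contra hcon
    push Not at hcon
    have hle : m ≤ R.law F (k7hDat R Ds r ξ ⁻¹' {s0} ∩ {z | dist (R.vel z.1) (R.vel p.1) ≤ ρ}) := by
      rw [hm, ksMass, KsRef.law, Measure.restrict_apply' mF, Measure.restrict_apply' mF]
      refine measure_mono fun z hz => ⟨⟨hz.1, hcon z hz.2 hz.1⟩, hz.2⟩
    exact absurd hle (not_le.2 hlt)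
  obtain ⟨p', hp', hd', hdist⟩ := hex
  refine ⟨p', hp', hd', ?_⟩
  have hvel : ∀ l : R.L, R.vel l = fun i : Fin 2 => if (i : ℕ) = 0 then R.V l i else 0 := by
    intro l
    unfold KsRef.vel kpPv
    rw [if_pos hell]
    rfl
  have hdd : dist (R.vel p'.1) (R.vel p.1) ≤ |ksZ (R.V p.1) - ksZ (R.V p'.1)| := by
    refine (dist_pi_le_iff (abs_nonneg _)).2 fun i => ?_
    rw [hvel, hvel]
    fin_cases i
    · simp only [ksZ]
      rw [Real.dist_eq, abs_sub_comm]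
      simp
      exact le_rfl
    · simp
  have h5 : ρ < |ksZ (R.V p.1) - ksZ (R.V p'.1)| := lt_of_lt_of_le hdist hdd
  rw [hρ, div_lt_iff₀ hCK] at h5
  linarith

/-- ENNReal pigeonhole -/
theorem k7h_pigeon {ι : Type*} (s : Finset ι) (a w : ι → ℝ≥0∞) (T W : ℝ≥0∞) (hT : T ≠ 0) (ha : T ≤ ∑ i ∈ s, a i) (hw : ∑ i ∈ s, w i ≤ W) :
    ∃ i ∈ s, a i ≠ 0 ∧ w i * T ≤ W * a i := by
  classical
  by_contra hcon
  push Not at hcon
  have hne : (s.filter fun i => a i ≠ 0).Nonempty := by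
    by_contra he
    rw [Finset.not_nonempty_iff_eq_empty] at he
    have h0 : ∑ i ∈ s, a i = 0 := by
      refine Finset.sum_eq_zero fun i hi => ?_
      by_contra hai
      have : i ∈ s.filter fun i => a i ≠ 0 := Finset.mem_filter.2 ⟨hi, hai⟩
      rw [he] at this
      exact Finset.notMem_empty _ this
    rw [h0] at ha
    exact hT (le_antisymm ha zero_le)
  have h1 : ∑ i ∈ s, W * a i = ∑ i ∈ s.filter (fun i => a i ≠ 0), W * a i := by
    rw [Finset.sum_filter]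
    refine Finset.sum_congr rfl fun i _ => ?_
    by_cases hai : a i = 0
    · simp [hai]
    · simp [hai]
  have h2 : ∑ i ∈ s.filter (fun i => a i ≠ 0), W * a i < ∑ i ∈ s.filter (fun i => a i ≠ 0), w i * T :=
    ENNReal.sum_lt_sum_of_nonempty hne fun i hi => hcon i (Finset.mem_filter.1 hi).1 (Finset.mem_filter.1 hi).2
  have h3 : ∑ i ∈ s.filter (fun i => a i ≠ 0), w i * T ≤ ∑ i ∈ s, w i * T :=
    Finset.sum_le_sum_of_subset (Finset.filter_subset _ _)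
  have h4 : W * T ≤ ∑ i ∈ s, W * a i := by
    rw [← Finset.mul_sum]
    exact mul_le_mul' le_rfl ha
  have h5 : ∑ i ∈ s, w i * T ≤ W * T := by
    rw [← Finset.sum_mul]
    exact mul_le_mul' hw le_rfl
  exact lt_irrefl _ (lt_of_le_of_lt (h4.trans h1.le) (lt_of_lt_of_le h2 (h3.trans h5)))

open Classical in
/-- **L-252-S7h-P7** budget of the descendants of a label: `∑_{Q' ≤ Q, dep Q' = s} q' ν_{Q'} ≤ q ν_Q`  (blocks of one dyadic level inside `blk Q`, disjoint assignments inside `asg Q`) -/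
theorem k7h_budget_in {K : ℝ} (hR : R.Ok K) (Q : R.Lab) (s : ℝ) :
    ∑ Q' ∈ Finset.univ.filter (fun Q' => R.dep Q' = s ∧ R.Desc Q' Q), ENNReal.ofReal (R.q Q') * R.νQ Q' ≤ ENNReal.ofReal (R.q Q) * R.νQ Q := by
  rw [← (k7h_inc_mass hR Q).1]
  have e : ∀ Q' ∈ Finset.univ.filter (fun Q' => R.dep Q' = s ∧ R.Desc Q' Q), ENNReal.ofReal (R.q Q') * R.νQ Q' = R.prior (R.inc Q') :=
    fun Q' _ => (k7h_inc_mass hR Q').1.symm
  rw [Finset.sum_congr rfl e, ← measure_biUnion_finset _ (fun Q' _ => (k7h_inc_mass hR Q').2.2.2.1)]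
  · refine measure_mono ?_
    intro p hp
    simp only [Set.mem_iUnion] at hp
    obtain ⟨Q', hQ', hp⟩ := hp
    have hD := (Finset.mem_filter.1 hQ').2.2
    exact ⟨hD.2.1 hp.1, hD.2.2 hp.2⟩
  · intro Q1 h1 Q2 h2 hne
    refine Set.disjoint_left.2 fun p hp1 hp2 => hne ?_
    exact ks_lab_unique hR (s := s) (p := p) ⟨(Finset.mem_filter.1 h1).2.1, hp1⟩ ⟨(Finset.mem_filter.1 h2).2.1, hp2⟩

/-- **L-252-S7h-P8** a heavy label of depth `r` (pigeonhole with `ks_budget_depth`; the labels of depth `r` partition `Ev0`) -/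
theorem k7h_heavy {K : ℝ} (hR : R.Ok K) {F : Set (R.L × ℝ)} (mF : MeasurableSet F) (hF : F ⊆ R.Ev0) (h0 : R.prior F ≠ 0) {r : ℝ} (hr : r ∈ R.depths) :
    ∃ Q : R.Lab, R.dep Q = r ∧ R.νQ Q ≠ 0 ∧ ENNReal.ofReal (R.q Q) * R.νQ Q * R.prior F ≤ R.prior (F ∩ R.inc Q) := by
  classical
  have hcov : R.prior F ≤ ∑ Q ∈ Finset.univ.filter (fun Q => R.dep Q = r), R.prior (F ∩ R.inc Q) := by
    refine le_trans (measure_mono ?_) (measure_biUnion_finset_le _ _)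
    intro p hp
    have hl := hR.lab r hr p (hF hp)
    simp only [Set.mem_iUnion]
    exact ⟨R.labAt r p, Finset.mem_filter.2 ⟨Finset.mem_univ _, hl.1⟩, hp, hl.2⟩
  obtain ⟨Q, hQ, ha, hw⟩ := k7h_pigeon _ (fun Q => R.prior (F ∩ R.inc Q)) (fun Q => ENNReal.ofReal (R.q Q) * R.νQ Q) _ 1 h0 hcov (ks_budget_depth hR r)
  refine ⟨Q, (Finset.mem_filter.1 hQ).2, ?_, by simpa using hw⟩
  intro hν
  apply ha
  refine le_antisymm (le_trans (measure_mono Set.inter_subset_right) ?_) zero_le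
  rw [(k7h_inc_mass hR Q).1, hν, mul_zero]

/-- **L-252-S7h-P9** a heavy child (pigeonhole with `k7h_budget_in`; `nested` + `ks_lab_unique` : the label of depth `s` of an incidence of `Ev0 ∩ inc Q` is a descendant of `Q`) -/
theorem k7h_heavy_in {K : ℝ} (hR : R.Ok K) (Q : R.Lab) {F : Set (R.L × ℝ)} (mF : MeasurableSet F) (hF : F ⊆ R.Ev0 ∩ R.inc Q) (h0 : R.prior F ≠ 0) {s : ℝ} (hs : s ∈ R.depths)
    (hsQ : R.dep Q ≤ s) :
    ∃ Q' : R.Lab, R.dep Q' = s ∧ R.Desc Q' Q ∧ R.νQ Q' ≠ 0 ∧ ENNReal.ofReal (R.q Q') * R.νQ Q' * R.prior F ≤ ENNReal.ofReal (R.q Q) * R.νQ Q * R.prior (F ∩ R.inc Q') := by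
  classical
  have hcov : R.prior F ≤ ∑ Q' ∈ Finset.univ.filter (fun Q' => R.dep Q' = s ∧ R.Desc Q' Q), R.prior (F ∩ R.inc Q') := by
    refine le_trans (measure_mono ?_) (measure_biUnion_finset_le _ _)
    intro p hp
    have hl := hR.lab s hs p (hF hp).1
    obtain ⟨Q2, hQ2, hD⟩ := hR.nested (R.labAt s p) (R.dep Q) (hR.dep_mem Q) (by rw [hl.1]; exact hsQ)
    have hp2 : p ∈ R.inc Q2 := ⟨hD.2.1 hl.2.1, hD.2.2 hl.2.2⟩
    have hQQ : Q2 = Q := ks_lab_unique hR (s := R.dep Q) (p := p) ⟨hQ2, hp2⟩ ⟨rfl, (hF hp).2⟩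
    simp only [Set.mem_iUnion]
    exact ⟨R.labAt s p, Finset.mem_filter.2 ⟨Finset.mem_univ _, hl.1, hQQ ▸ hD⟩, hp, hl.2⟩
  obtain ⟨Q', hQ', ha, hw⟩ := k7h_pigeon _ (fun Q' => R.prior (F ∩ R.inc Q')) (fun Q' => ENNReal.ofReal (R.q Q') * R.νQ Q') _ _ h0 hcov (k7h_budget_in hR Q s)
  refine ⟨Q', (Finset.mem_filter.1 hQ').2.1, (Finset.mem_filter.1 hQ').2.2, ?_, hw⟩
  intro hν
  apply ha
  refine le_antisymm (le_trans (measure_mono Set.inter_subset_right) ?_) zero_le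
  rw [(k7h_inc_mass hR Q').1, hν, mul_zero]

end state

end

end Claimed.Agent.R252
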