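-- KEEP
import Claimed.Agent.R252.S7b.S1StateContract

/-!
# Row 252, Sec. 7.4, `prop:horizontal-model` (07 l.927-1075), unit S7b-S1 (sub-architect helper77; prefix `k7h_` / `K7h`), file 4: CORES A (row fit), B, C (strip candidates, `k` versus `ℓ`).
CONTRACT file: the `sorry`s are the leaves L-252-S7h-*.   Overview, definitions and conventions: header of `S7b/S1NormContract.lean`.   Prove IN PLACE (splice only your theorem, helper lemmas directly above it).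
-/

set_option autoImplicit false

namespace Claimed.Agent.R252

open MeasureTheory
open scoped ENNReal BigOperators

noncomputable section

/-! ## 3. CORE A : the row fit -/

section coreA

/-- measurability of the coarse velocity bins -/
theorem k7h_nc_bin_meas {R : KsRef KbVer.two} {K : ℝ} (hR : R.Ok K) (m : ℝ) (k : ℤ) :
    MeasurableSet {p : R.L × ℝ | kbBin m (ksZ (R.V p.1)) = k} := by
  have h1 : Measurable (fun p : R.L × ℝ => ksZ (R.V p.1)) :=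
    (measurable_pi_apply (0 : Fin 2)).comp ((measurable_fst.comp measurable_snd).comp (hR.m_co.comp measurable_fst))
  have h2 : Measurable (fun p : R.L × ℝ => kbBin m (ksZ (R.V p.1))) := (h1.div_const _).floor
  exact h2 (measurableSet_singleton k)

/-- normalised mass of a pulled back set = tangent mass / (q ν_Q) -/
theorem k7h_nc_mass {R : KsRef KbVer.two} {K : ℝ} (hR : R.Ok K) (Q : R.Lab) (hν : R.νQ Q ≠ 0) {F : Set (R.L × ℝ)} (mF : MeasurableSet F)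
    (hF : F ⊆ R.inc Q) (G : Set (R.L × ℝ)) (hG : MeasurableSet (G ∩ F)) :
    ENNReal.ofReal (R.q Q) * R.νQ Q * k7hLaw R Q F (k7hInc R Q ⁻¹' G) = R.prior (G ∩ F) := by
  have hi := (k7h_inc_mass hR Q).2.2.2.2
  have h1 := k7h_link_mass hR Q hν (G ∩ F) hG
  have e : G ∩ F ∩ R.inc Q = G ∩ F := Set.inter_eq_left.2 (Set.inter_subset_right.trans hF)
  rw [e] at h1
  rw [← h1, k7hLaw, Measure.restrict_apply' (hi mF)]
  rfl

/-- **L-252-S7h-A1** the conditional ceiling and the joint cell cap in the normalised chart, velocity mesh `ξ = kbDy m`.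
PLAN: `k7h_link_mass` turns every normalised mass into `prior (F ∩ ..) / (q ν_Q)`; `k7h_cell_eq`; `⌊v / kbDy m⌋ = kbBin m v` by `rfl`; `k7bIv = k7hIv` by `rfl`.
(1) `K7hCond` + `k7h_dom_coarse`.   (2) `K7hCeil` + `k7h_dom_coarse`, sum over the histories and the labels (`ksc_coarsen` to the state `cell`): `prior (F ∩ cell c ∩ bin k) ≤ K pal (k) prior (E₀ ∩ cell c)`, `E₀ ⊆ Ev0 ∩ inc Q`, `k7h_cellcap`. -/
theorem k7h_norm_caps : ∃ C : ℕ, ∀ (R : KsRef KbVer.two) (A : R.Par) (K m : ℝ) (E₀ F : Set (R.L × ℝ)) (Ds : Finset ℝ) (Q : R.Lab),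
    R.Ok K → R.Tilt K → R.νQ Q ≠ 0 → MeasurableSet E₀ → MeasurableSet F → E₀ ⊆ R.Ev0 ∩ R.inc Q → F ⊆ E₀ → R.χ ≤ m →
    K7hCeil R A E₀ F K Ds (R.dep Q) (kbDy m) → K7hCond R A F K Ds (R.dep Q) (kbDy m) →
    (∀ (s : ({s // s ∈ Ds} → R.Lab) × (ℤ × ℤ)) (k : ℤ),
      k7hLaw R Q F ((fun z => k7hDat R Ds (R.dep Q) (kbDy m) (k7hInc R Q z)) ⁻¹' {s} ∩ k7hVb (kbDy m) (k7hVel R) k)
        ≤ ENNReal.ofReal K * k7hPal R A (k7hIv (kbDy m) k) * k7hLaw R Q F ((fun z => k7hDat R Ds (R.dep Q) (kbDy m) (k7hInc R Q z)) ⁻¹' {s})) ∧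
    (∀ (c : ℤ × ℤ) (k : ℤ), k7hLaw R Q F {ω | re6Zc (kbDy m) (k7hZ0 R Q) (k7hVel R) ω = c ∧ ⌊k7hVel R ω.1 / kbDy m⌋ = k}
        ≤ ENNReal.ofReal ((C : ℝ) * K ^ C * kbDy m ^ 2) * k7hPal R A (k7hIv (kbDy m) k)) := by
  obtain ⟨C₀, hC₀⟩ := k7h_cellcap
  refine ⟨C₀ + 1, fun R A K m E₀ F Ds Q hR hT hν mE₀ mF hE₀ hF hm hceil hcond => ?_⟩
  have hK1 : 1 ≤ K := hR.K_ge
  have hK0 : 0 ≤ K := by linarith
  have hξ : 0 < kbDy m := by unfold kbDy; positivity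
  have hFQ : F ⊆ R.inc Q := fun p hp => (hE₀ (hF hp)).2
  have hq : 0 < R.q Q := by unfold KsRef.q kbQ; positivity
  have hνt : R.νQ Q ≠ ⊤ := (k7h_inc_mass hR Q).2.2.1
  obtain ⟨M, hMdef⟩ : ∃ M : ℝ≥0∞, M = ENNReal.ofReal (R.q Q) * R.νQ Q := ⟨_, rfl⟩
  have hM0 : M ≠ 0 := by
    rw [hMdef]
    exact mul_ne_zero (by simpa using hq) hν
  have hMt : M ≠ ⊤ := by
    rw [hMdef]
    exact ENNReal.mul_ne_top ENNReal.ofReal_ne_top hνt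
  have hmass : ∀ G : Set (R.L × ℝ), MeasurableSet (G ∩ F) → M * k7hLaw R Q F (k7hInc R Q ⁻¹' G) = R.prior (G ∩ F) := by
    intro G hG
    rw [hMdef]
    exact k7h_nc_mass hR Q hν mF hFQ G hG
  have hdat := (k7h_dat_lab hR Ds (R.dep Q) (kbDy m)).1
  have hlabQ := (k7h_dat_lab hR Ds (R.dep Q) (kbDy m)).2.2 Q
  have hlaw : ∀ (E X : Set (R.L × ℝ)), MeasurableSet E → R.law E X = R.prior (X ∩ E) := by
    intro E X hE
    unfold KsRef.law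
    rw [Measure.restrict_apply' hE]
  refine ⟨fun s k => ?_, fun c k => ?_⟩
  · have d1 := k7h_dom_coarse hR hT.ell_pos A hcond.1 m hm s k
    simp only [ksMass] at d1
    rw [hlaw F _ mF, hlaw F _ mF] at d1
    have e1 : (fun z => k7hDat R Ds (R.dep Q) (kbDy m) (k7hInc R Q z)) ⁻¹' {s} ∩ k7hVb (kbDy m) (k7hVel R) k
        = k7hInc R Q ⁻¹' (k7hDat R Ds (R.dep Q) (kbDy m) ⁻¹' {s} ∩ {p : R.L × ℝ | kbBin m (ksZ (R.V p.1)) = k}) := rfl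
    have e2 : (fun z => k7hDat R Ds (R.dep Q) (kbDy m) (k7hInc R Q z)) ⁻¹' {s}
        = k7hInc R Q ⁻¹' (k7hDat R Ds (R.dep Q) (kbDy m) ⁻¹' {s}) := rfl
    rw [e1, e2]
    refine (ENNReal.mul_le_mul_iff_right hM0 hMt).1 ?_
    rw [hmass _ (((hdat s).inter (k7h_nc_bin_meas hR m k)).inter mF)]
    refine d1.trans (le_of_eq ?_)
    rw [← hmass _ ((hdat s).inter mF)]
    show ENNReal.ofReal K * k7hPal R A (k7hIv (kbDy m) k) * _ = _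
    ring
  · obtain ⟨Cf, hCf⟩ : ∃ Cf : R.Hist × (({s // s ∈ Ds} → R.Lab) × (ℤ × ℤ)) → ℤ × ℤ, Cf = fun x => x.2.2 := ⟨_, rfl⟩
    have hpair : KsLab (ksPair R.hist (k7hDat R Ds (R.dep Q) (kbDy m))) := ks_lab_pair hR.m_hist hdat
    have d0 := k7h_dom_coarse hR hT.ell_pos A hceil m hm
    have d1 := ksc_coarsen d0 Cf (fun _ k => k7hPal R A (k7bIv (kbDy m) k)) (fun _ _ => le_rfl) c k
    simp only [] at d1
    rw [ksc_push_mass (R.law E₀) hpair Cf c] at d1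
    simp only [ksMass] at d1
    rw [hlaw F _ mF, hlaw E₀ _ mE₀] at d1
    have hCm : MeasurableSet ((Cf ∘ ksPair R.hist (k7hDat R Ds (R.dep Q) (kbDy m))) ⁻¹' {c}) := ksc_lab_comp hpair Cf c
    -- on `E₀` the coarse state is the cell in the chart of `Q`
    have hcell : ∀ p ∈ E₀, (Cf ∘ ksPair R.hist (k7hDat R Ds (R.dep Q) (kbDy m))) p = k7hCell R Q (kbDy m) p := by
      intro p hp
      have h1 := hlabQ p (hE₀ hp)
      rw [hCf]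
      show k7hCell R (R.labAt (R.dep Q) p) (kbDy m) p = _
      rw [h1]
    have e1 : {ω : R.L × ℝ | re6Zc (kbDy m) (k7hZ0 R Q) (k7hVel R) ω = c ∧ ⌊k7hVel R ω.1 / kbDy m⌋ = k}
        = k7hInc R Q ⁻¹' ({p : R.L × ℝ | k7hCell R Q (kbDy m) p = c} ∩ {p : R.L × ℝ | kbBin m (ksZ (R.V p.1)) = k}) := by
      ext ω
      show (re6Zc (kbDy m) (k7hZ0 R Q) (k7hVel R) ω = c ∧ _) ↔ (k7hCell R Q (kbDy m) (k7hInc R Q ω) = c ∧ _)
      rw [k7h_cell_eq]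
      rfl
    have e2 : {p : R.L × ℝ | k7hCell R Q (kbDy m) p = c} ∩ {p : R.L × ℝ | kbBin m (ksZ (R.V p.1)) = k} ∩ F
        = (Cf ∘ ksPair R.hist (k7hDat R Ds (R.dep Q) (kbDy m))) ⁻¹' {c} ∩ {p : R.L × ℝ | kbBin m (ksZ (R.V p.1)) = k} ∩ F := by
      ext p
      constructor
      · rintro ⟨⟨h1, h2⟩, h3⟩
        exact ⟨⟨(hcell p (hF h3)).trans h1, h2⟩, h3⟩
      · rintro ⟨⟨h1, h2⟩, h3⟩
        exact ⟨⟨(hcell p (hF h3)).symm.trans h1, h2⟩, h3⟩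
    have h3 : R.prior ((Cf ∘ ksPair R.hist (k7hDat R Ds (R.dep Q) (kbDy m))) ⁻¹' {c} ∩ E₀)
        ≤ ENNReal.ofReal ((C₀ : ℝ) * K ^ C₀ * kbDy m ^ 2) * M := by
      rw [hMdef]
      refine le_trans ?_ (hC₀ R K (kbDy m) Q c hR hT hξ)
      unfold KsRef.lam0
      rw [hlaw _ _ hR.m_Ev0]
      refine measure_mono ?_
      rintro p ⟨h1, h2⟩
      exact ⟨⟨(hE₀ h2).2, (hcell p h2).symm.trans h1⟩, (hE₀ h2).1⟩
    rw [e1]
    refine (ENNReal.mul_le_mul_iff_right hM0 hMt).1 ?_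
    rw [hmass _ (by rw [e2]; exact (hCm.inter (k7h_nc_bin_meas hR m k)).inter mF), e2]
    refine d1.trans ?_
    refine (mul_le_mul' le_rfl h3).trans ?_
    show ENNReal.ofReal K * k7hPal R A (k7hIv (kbDy m) k) * _ ≤ _
    have h4 : ENNReal.ofReal K * ENNReal.ofReal ((C₀ : ℝ) * K ^ C₀ * kbDy m ^ 2)
        ≤ ENNReal.ofReal (((C₀ + 1 : ℕ) : ℝ) * K ^ (C₀ + 1) * kbDy m ^ 2) := by
      rw [← ENNReal.ofReal_mul hK0]
      refine ENNReal.ofReal_le_ofReal ?_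
      have : K * ((C₀ : ℝ) * K ^ C₀ * kbDy m ^ 2) = (C₀ : ℝ) * K ^ (C₀ + 1) * kbDy m ^ 2 := by ring
      rw [this]
      push_cast
      have h5 : 0 ≤ K ^ (C₀ + 1) * kbDy m ^ 2 := by positivity
      nlinarith
    calc ENNReal.ofReal K * k7hPal R A (k7hIv (kbDy m) k) * (ENNReal.ofReal ((C₀ : ℝ) * K ^ C₀ * kbDy m ^ 2) * M)
        = M * ((ENNReal.ofReal K * ENNReal.ofReal ((C₀ : ℝ) * K ^ C₀ * kbDy m ^ 2)) * k7hPal R A (k7hIv (kbDy m) k)) := by ring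
      _ ≤ M * (ENNReal.ofReal (((C₀ + 1 : ℕ) : ℝ) * K ^ (C₀ + 1) * kbDy m ^ 2) * k7hPal R A (k7hIv (kbDy m) k)) :=
          mul_le_mul' le_rfl (mul_le_mul' h4 le_rfl)

theorem k7h_ab_dy_ge {x : ℝ} (hx : 0 < x) : x ≤ kbDy x := by
  unfold kbDy
  rw [← Real.rpow_intCast]
  calc x = (2 : ℝ) ^ Real.logb 2 x := (Real.rpow_logb (by norm_num) (by norm_num) hx).symm
    _ ≤ (2 : ℝ) ^ ((⌈Real.logb 2 x⌉ : ℤ) : ℝ) :=
        Real.rpow_le_rpow_of_exponent_le (by norm_num) (Int.le_ceil _)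

theorem k7h_ab_pb {m e c : ℕ} (hm : m ≤ c) (he : e ≤ c) {K : ℝ} (hK : 1 ≤ K) :
    (m : ℝ) * K ^ e ≤ (c : ℝ) * K ^ c :=
  mul_le_mul (by exact_mod_cast hm) (pow_le_pow_right₀ hK he) (by positivity) (by positivity)

theorem k7h_ab_meas {R : KsRef KbVer.two} {K : ℝ} (hR : R.Ok K) (Q : R.Lab) :
    Measurable (k7hZ0 R Q) ∧ Measurable (k7hVel R) ∧ Measurable (k7hCst R Q) := by
  have h := hR.m_co
  have h1 : Measurable fun l => (R.co l).1 := h.fst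
  have h2 : Measurable fun l => (R.co l).2.1 := h.snd.fst
  have a1 : Measurable fun l => (R.co l).1 (0 : Fin 2) := (measurable_pi_apply (0 : Fin 2)).comp h1
  have a2 : Measurable fun l => (R.co l).2.1 (0 : Fin 2) := (measurable_pi_apply (0 : Fin 2)).comp h2
  have a3 : Measurable fun l => (R.co l).2.1 (1 : Fin 2) := (measurable_pi_apply (1 : Fin 2)).comp h2
  refine ⟨?_, a2, ?_⟩
  · have : k7hZ0 R Q = fun l => ((R.co l).1 (0 : Fin 2) + R.t0 Q * (R.co l).2.1 (0 : Fin 2) - k7hZc R Q) / R.q Q := by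
      funext l
      rfl
    rw [this]
    exact ((a1.add (a2.const_mul _)).sub_const _).div_const _
  · have : k7hCst R Q = fun l => ((R.co l).2.1 (1 : Fin 2) - (R.row Q 0 + R.row Q 1 * (R.co l).2.1 (0 : Fin 2))) / R.g Q := by
      funext l
      rfl
    rw [this]
    exact (a3.sub ((a2.const_mul _).const_add _)).div_const _

/-- a normalised time of the block lies in `[0, 1)` -/
theorem k7h_ab_time {R : KsRef KbVer.two} (Q : R.Lab) {z : R.L × ℝ} (h : k7hInc R Q z ∈ R.inc Q) :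
    z.1 ∈ R.asg Q ∧ 0 ≤ z.2 ∧ z.2 ≤ 1 := by
  have hq := ksl8_q_pos R Q
  obtain ⟨h1, h2⟩ := h
  refine ⟨h1, ?_⟩
  have h3 : R.t0 Q + R.q Q * z.2 ∈ Set.Ico ((R.iv Q : ℝ) * kbQ (R.lev Q)) (((R.iv Q : ℝ) + 1) * kbQ (R.lev Q)) := h2
  have e1 : R.t0 Q = (R.iv Q : ℝ) * R.q Q := rfl
  have e2 : kbQ (R.lev Q) = R.q Q := rfl
  rw [e1, e2] at h3
  obtain ⟨h4, h5⟩ := h3
  constructor
  · by_contra hc
    have : R.q Q * z.2 < 0 := mul_neg_of_pos_of_neg hq (not_le.1 hc)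
    linarith
  · by_contra hc
    have : R.q Q * 1 < R.q Q * z.2 := mul_lt_mul_of_pos_left (not_le.1 hc) hq
    linarith

/-- the normalised mass of a part of a label -/
theorem k7h_ab_mass {R : KsRef KbVer.two} {K : ℝ} (hR : R.Ok K) (Q : R.Lab) (hν : R.νQ Q ≠ 0) {G : Set (R.L × ℝ)}
    (hG : MeasurableSet G) (hsub : G ⊆ R.inc Q) :
    ENNReal.ofReal (R.q Q) * R.νQ Q * ((k7hPr R Q).prod k7bTime) (k7hInc R Q ⁻¹' G) = R.prior G := by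
  have := k7h_link_mass hR Q hν G hG
  rwa [Set.inter_eq_left.2 hsub] at this

theorem k7h_ab_qν {R : KsRef KbVer.two} {K : ℝ} (hR : R.Ok K) (Q : R.Lab) (hν : R.νQ Q ≠ 0) :
    ENNReal.ofReal (R.q Q) * R.νQ Q ≠ 0 ∧ ENNReal.ofReal (R.q Q) * R.νQ Q ≠ ⊤ := by
  refine ⟨mul_ne_zero ?_ hν, ENNReal.mul_ne_top ENNReal.ofReal_ne_top (k7h_inc_mass hR Q).2.2.1⟩
  rw [Ne, ENNReal.ofReal_eq_zero, not_le]
  exact ksl8_q_pos R Q

/-- **L-252-S7h-A2** THE HYPOTHESES OF THE ABSTRACT ROW FIT hold in the normalised chart of a heavy label.   `D` = a deep depth with `g_D ≤ β`.   Field by field from `k7h_inc_mass`, `k7h_link_mass`, `k7h_pal_cap`, `k7h_norm_caps`,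
`k7h_geom`, `k7h_list`, `k7h_dat_lab`, `k7h_cell_eq`. -/
theorem k7h_pre (S0 : ℝ) : ∃ C : ℕ, 1 ≤ C ∧ ∀ (R : KsRef KbVer.two) (A : R.Par) (K β ξT m D : ℝ) (E₀ F : Set (R.L × ℝ)) (Ds : Finset ℝ) (Q : R.Lab) (hD : D ∈ Ds),
    R.S ≤ S0 → R.Ok K → R.Tilt K → R.νQ Q ≠ 0 → Ds ⊆ R.depths → MeasurableSet E₀ → MeasurableSet F → E₀ ⊆ R.Ev0 ∩ R.inc Q → F ⊆ E₀ →
    ENNReal.ofReal (R.q Q) * R.νQ Q ≤ ENNReal.ofReal K * R.prior F →
    K7hCeil R A E₀ F K Ds (R.dep Q) (kbDy m) → K7hCond R A F K Ds (R.dep Q) (kbDy m) → K7bRowList R F K β (R.dep Q) ξT →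
    0 < m → R.χ ≤ m → kbDy m ≤ ξT → K ^ 2 * kbDy m ≤ β → R.a (R.ell * D) ≤ β → β ≤ R.g Q →
    K7hPre (kbDy m) (β / R.g Q) ((C : ℝ) * K ^ C) R.S (k7hPr R Q) (k7hZ0 R Q) (k7hVel R) (k7hCst R Q) (fun z => k7hDat R Ds (R.dep Q) (kbDy m) (k7hInc R Q z))
      (fun d => k7hRow R Q (d.1 ⟨D, hD⟩)) (k7hInc R Q ⁻¹' F) (k7hLaw R Q F) (k7hPal R A) := by
  obtain ⟨C1, hC1⟩ := k7h_norm_caps
  obtain ⟨n0, hn0⟩ : ∃ n : ℕ, (2 : ℝ) ^ S0 ≤ n := exists_nat_ge _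
  obtain ⟨C, hC⟩ : ∃ C : ℕ, C = C1 + n0 + 8 := ⟨_, rfl⟩
  refine ⟨C, by omega, ?_⟩
  intro R A K β ξT m D E₀ F Ds Q hD hS hR hT hν hDs mE₀ mF hE₀ hFE hmass hceil hcond hlist hm hχm hξT hξβ hDβ hβg
  have hK := hR.K_ge
  have hK0 : 0 < K := by linarith
  have hpb : ∀ a e : ℕ, a ≤ C → e ≤ C → (a : ℝ) * K ^ e ≤ (C : ℝ) * K ^ C := fun a e ha he => k7h_ab_pb ha he hK
  obtain ⟨Kc, hKc⟩ : ∃ Kc : ℝ, Kc = (C : ℝ) * K ^ C := ⟨_, rfl⟩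
  rw [← hKc] at hpb ⊢
  have hKKc : K ≤ Kc := by simpa using hpb 1 1 (by omega) (by omega)
  have hKc1 : 1 ≤ Kc := hK.trans hKKc
  have hKc0 : 0 < Kc := by linarith
  have hg : 0 < R.g Q := ksl8_a_pos hR _
  have hq := ksl8_q_pos R Q
  have hβ : 0 < β := lt_of_lt_of_le (ksl8_a_pos hR _) hDβ
  have hE0 : 0 ≤ β / R.g Q := by positivity
  have hξ : 0 < kbDy m := ksl17_dy_pos m
  have hF : F ⊆ R.Ev0 ∩ R.inc Q := hFE.trans hE₀
  obtain ⟨hinc1, hinc2, hinc3, hinc4, hinc5⟩ := k7h_inc_mass hR Q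
  obtain ⟨mZ0, mvel, mcst⟩ := k7h_ab_meas hR Q
  have mW : MeasurableSet (k7hInc R Q ⁻¹' F) := hinc5 mF
  obtain ⟨hdat1, -, hdat3⟩ := k7h_dat_lab hR Ds (R.dep Q) (kbDy m)
  obtain ⟨hcaps1, hcaps2⟩ := hC1 R A K m E₀ F Ds Q hR hT hν mE₀ mF hE₀ hFE hχm hceil hcond
  have hW : ∀ ω ∈ k7hInc R Q ⁻¹' F, ω.1 ∈ R.asg Q ∧ 0 ≤ ω.2 ∧ ω.2 ≤ 1 := fun ω hω => k7h_ab_time Q (hF hω).2
  have hcellW : ∀ ω ∈ k7hInc R Q ⁻¹' F, (k7hDat R Ds (R.dep Q) (kbDy m) (k7hInc R Q ω)).2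
      = re6Zc (kbDy m) (k7hZ0 R Q) (k7hVel R) ω := by
    intro ω hω
    rw [k7h_cell_eq]
    show k7hCell R (R.labAt (R.dep Q) (k7hInc R Q ω)) (kbDy m) (k7hInc R Q ω) = _
    rw [hdat3 Q _ (hF hω)]
  exact
    { hP := (hinc2 hν).le
      hZ0m := mZ0
      hvelm := mvel
      hWm := mW
      hdom := by
        intro s
        rw [Measure.smul_apply, smul_eq_mul]
        calc k7hLaw R Q F s ≤ ((k7hPr R Q).prod k7bTime) s := Measure.restrict_apply_le _ _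
          _ = 1 * ((k7hPr R Q).prod k7bTime) s := (one_mul _).symm
          _ ≤ _ := mul_le_mul' (by rw [← ENNReal.ofReal_one]; exact ENNReal.ofReal_le_ofReal hKc1) le_rfl
      hW := by
        unfold k7hLaw
        rw [Measure.restrict_apply mW.compl, Set.compl_inter_self, measure_empty]
      hmass := by
        have h1 : k7hLaw R Q F Set.univ = ((k7hPr R Q).prod k7bTime) (k7hInc R Q ⁻¹' F) := by
          unfold k7hLaw
          rw [Measure.restrict_apply MeasurableSet.univ, Set.univ_inter]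
        obtain ⟨hne0, hnet⟩ := k7h_ab_qν hR Q hν
        have h2 := k7h_ab_mass hR Q hν mF (hF.trans Set.inter_subset_right)
        rw [← h2] at hmass
        have h3 : ENNReal.ofReal (R.q Q) * R.νQ Q * 1 ≤ ENNReal.ofReal (R.q Q) * R.νQ Q *
            (ENNReal.ofReal K * ((k7hPr R Q).prod k7bTime) (k7hInc R Q ⁻¹' F)) := by
          rw [mul_one]
          refine hmass.trans (le_of_eq ?_)
          ring
        have h4 := (ENNReal.mul_le_mul_iff_right hne0 hnet).1 h3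
        rw [h1]
        have h5 : ENNReal.ofReal (1 / K) ≤ ((k7hPr R Q).prod k7bTime) (k7hInc R Q ⁻¹' F) := by
          calc ENNReal.ofReal (1 / K) = ENNReal.ofReal (1 / K) * 1 := (mul_one _).symm
            _ ≤ ENNReal.ofReal (1 / K) * (ENNReal.ofReal K * ((k7hPr R Q).prod k7bTime) (k7hInc R Q ⁻¹' F)) := by gcongr
            _ = _ := by
                rw [← mul_assoc, ← ENNReal.ofReal_mul (by positivity), one_div, inv_mul_cancel₀ hK0.ne', ENNReal.ofReal_one, one_mul]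
        exact le_trans (ENNReal.ofReal_le_ofReal (one_div_le_one_div_of_le hK0 hKKc)) h5
      hWt := fun ω hω => (hW ω hω).2
      hbd := fun ω hω => by
        obtain ⟨hl, h0, h1⟩ := hW ω hω
        obtain ⟨-, g2, -, g4, -⟩ := k7h_geom hR hT Q ω.1 hl
        refine ⟨(g4 ω.2 ⟨h0, h1⟩).trans ?_, g2.trans hKKc⟩
        simpa using hpb 2 2 (by omega) (by omega)
      hpal1 := (k7h_pal_cap hR A).1
      hpal := fun a b hab hab1 => by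
        have hχ : R.χ ≤ b - a := hχm.trans ((k7h_ab_dy_ge hm).trans hab)
        have hba : 0 < b - a := lt_of_lt_of_le hR.χ_pos hχ
        have h1 := (k7h_pal_cap hR A).2 a (b - a) hχ
        refine le_trans (measure_mono (Set.Icc_subset_Icc (by linarith) (by linarith))) (h1.trans ?_)
        refine ENNReal.ofReal_le_ofReal ?_
        rw [Real.mul_rpow (by norm_num) hba.le, ← mul_assoc]
        refine mul_le_mul_of_nonneg_right ?_ (Real.rpow_nonneg hba.le _)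
        have h2 : (2 : ℝ) ^ R.S ≤ n0 := (Real.rpow_le_rpow_of_exponent_le (by norm_num) hS).trans hn0
        have h3 := hpb n0 1 (by omega) (by omega)
        rw [pow_one] at h3
        calc K * (2 : ℝ) ^ R.S ≤ K * n0 := by gcongr
          _ = n0 * K := mul_comm _ _
          _ ≤ Kc := h3
      hcap := fun c k => (hcaps2 c k).trans (mul_le_mul' (ENNReal.ofReal_le_ofReal
        (mul_le_mul_of_nonneg_right (hpb C1 C1 (by omega) (by omega)) (by positivity))) le_rfl)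
      hst := fun s0 => hinc5 (hdat1 s0)
      hcell := fun ω hω ω' hω' h => by
        rw [← hcellW ω hω, ← hcellW ω' hω']
        exact congrArg Prod.snd h
      hcst := fun ω hω => by
        obtain ⟨-, -, g3, -, -⟩ := k7h_geom hR hT Q ω.1 (hW ω hω).1
        refine g3.trans ?_
        simpa using hpb 4 6 (by omega) (by omega)
      hrow := fun ω hω => by
        obtain ⟨-, -, -, -, g5⟩ := k7h_geom hR hT Q ω.1 (hW ω hω).1
        have hlab := hR.lab D (hDs hD) (k7hInc R Q ω) (hF hω).1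
        have h1 := g5 (R.labAt D (k7hInc R Q ω)) hlab.2.1
        refine h1.trans ?_
        have h2 : R.g (R.labAt D (k7hInc R Q ω)) ≤ β := by
          unfold KsRef.g
          rw [hlab.1]
          exact hDβ
        have h3 : (4 : ℝ) * K ^ 6 ≤ Kc := by simpa using hpb 4 6 (by omega) (by omega)
        exact mul_le_mul h3 (div_le_div_of_nonneg_right h2 hg.le) (div_nonneg (ksl8_a_pos hR _).le hg.le) hKc0.le
      hcond := fun s k => (hcaps1 s k).trans (mul_le_mul' (mul_le_mul' (ENNReal.ofReal_le_ofReal hKKc) le_rfl) le_rfl)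
      hlist := fun c k => by
        obtain ⟨L, hL1, hL2⟩ := k7h_list hR hT Q hF hlist hβ hξ hξT hξβ c k
        refine ⟨L, hL1.trans (by simpa using hpb 8 1 (by omega) (by omega)), fun ω hω hc hk => ?_⟩
        obtain ⟨y, hy, hy2⟩ := hL2 (k7hInc R Q ω) hω (by rw [← k7h_cell_eq]; exact hc) hk
        refine ⟨y, hy, hy2.trans (mul_le_mul_of_nonneg_right ?_ hE0)⟩
        simpa using hpb 3 0 (by omega) (by omega) }

/-- **L-252-S7h-A3** back to tangent coordinates: `ρ0 = A₀ + g B₁`, `ρ1 = A₁ + g B₂`, `μ = - lam g / q`, `Cn = F ∩ {the fit}` (measurable: `m_co`); mass by `k7h_link_mass`. -/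
theorem k7h_fit_back {R : KsRef KbVer.two} {A : R.Par} {K K' β η : ℝ} {E F : Set (R.L × ℝ)} {Ds : Finset ℝ} {ξ : ℝ} {Q : R.Lab} (hR : R.Ok K) (hν : R.νQ Q ≠ 0)
    (mF : MeasurableSet F) (hF : F ⊆ E ∩ R.inc Q) (hc : K7hCeil R A (E ∩ R.inc Q) F K' Ds (R.dep Q) ξ) {B₁ B₂ lam : ℝ} (h1 : |B₁| ≤ K') (h2 : |B₂| ≤ K') (h3 : |lam| ≤ K') (hη : 0 < η)
    (hK' : 1 / η ≤ K')
    (hm : ENNReal.ofReal η ≤ k7hLaw R Q F {ω | ω ∈ k7hInc R Q ⁻¹' F ∧ |k7hCst R Q ω.1 - (B₁ + B₂ * k7hVel R ω.1 - lam * k7hZ0 R Q ω.1)| ≤ K' * (β / R.g Q)}) :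
    ∃ Cn : Set (R.L × ℝ), K7hFit R A E Ds ξ K' (K' * β) Q (R.row Q 0 + R.g Q * B₁) (R.row Q 1 + R.g Q * B₂) (-(lam * R.g Q / R.q Q)) Cn := by
  have hg : 0 < R.g Q := ksl8_a_pos hR _
  have hq := ksl8_q_pos R Q
  have hK'0 : 0 < K' := lt_of_lt_of_le (by positivity) hK'
  obtain ⟨mZ0, mvel, mcst⟩ := k7h_ab_meas hR Q
  obtain ⟨-, -, -, -, hinc5⟩ := k7h_inc_mass hR Q
  obtain ⟨T, hT⟩ : ∃ T : Set (R.L × ℝ), T = {p | |k7hCst R Q p.1 - (B₁ + B₂ * k7hVel R p.1 - lam * k7hZ0 R Q p.1)| ≤ K' * (β / R.g Q)} := ⟨_, rfl⟩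
  have mT : MeasurableSet T := by
    rw [hT]
    have hm1 : Measurable fun p : R.L × ℝ => k7hCst R Q p.1 - (B₁ + B₂ * k7hVel R p.1 - lam * k7hZ0 R Q p.1) :=
      (mcst.comp measurable_fst).sub ((((mvel.comp measurable_fst).const_mul _).const_add _).sub ((mZ0.comp measurable_fst).const_mul _))
    exact measurableSet_le (continuous_abs.measurable.comp hm1) measurable_const
  have mCn : MeasurableSet (F ∩ T) := mF.inter mT
  have hsub : F ∩ T ⊆ R.inc Q := fun p hp => (hF hp.1).2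
  refine ⟨F ∩ T, ?_⟩
  exact
    { pos := hν
      meas := mCn
      sub := Set.inter_subset_left.trans hF
      mass := by
        have e1 : k7hLaw R Q F {ω | ω ∈ k7hInc R Q ⁻¹' F ∧ |k7hCst R Q ω.1 - (B₁ + B₂ * k7hVel R ω.1 - lam * k7hZ0 R Q ω.1)| ≤ K' * (β / R.g Q)}
            ≤ ((k7hPr R Q).prod k7bTime) (k7hInc R Q ⁻¹' (F ∩ T)) := by
          refine (Measure.restrict_apply_le _ _).trans (measure_mono ?_)
          rintro ω ⟨hω1, hω2⟩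
          refine ⟨hω1, ?_⟩
          show k7hInc R Q ω ∈ T
          rw [hT]
          exact hω2
        rw [← k7h_ab_mass hR Q hν mCn hsub]
        calc ENNReal.ofReal (R.q Q) * R.νQ Q = ENNReal.ofReal (R.q Q) * R.νQ Q * 1 := (mul_one _).symm
          _ ≤ ENNReal.ofReal (R.q Q) * R.νQ Q * (ENNReal.ofReal K' * ENNReal.ofReal η) := by
              gcongr
              rw [← ENNReal.ofReal_mul hK'0.le, ← ENNReal.ofReal_one]
              refine ENNReal.ofReal_le_ofReal ?_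
              rw [div_le_iff₀ hη] at hK'
              exact hK'
          _ ≤ ENNReal.ofReal (R.q Q) * R.νQ Q * (ENNReal.ofReal K' * ((k7hPr R Q).prod k7bTime) (k7hInc R Q ⁻¹' (F ∩ T))) := by
              gcongr
              exact hm.trans e1
          _ = _ := by ring
      fit := fun p hp => by
        have h := hp.2
        rw [hT] at h
        have h' : |k7hCst R Q p.1 - (B₁ + B₂ * k7hVel R p.1 - lam * k7hZ0 R Q p.1)| ≤ K' * (β / R.g Q) := h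
        have e : ksY (R.V p.1) - (R.row Q 0 + R.g Q * B₁ + (R.row Q 1 + R.g Q * B₂) * ksZ (R.V p.1)
              + -(lam * R.g Q / R.q Q) * (ksZ (R.y p.1 (R.t0 Q)) - k7hZc R Q))
            = R.g Q * (k7hCst R Q p.1 - (B₁ + B₂ * k7hVel R p.1 - lam * k7hZ0 R Q p.1)) := by
          unfold k7hCst k7hVel k7hZ0
          field_simp
          ring
        rw [e, abs_mul, abs_of_pos hg]
        calc R.g Q * |k7hCst R Q p.1 - (B₁ + B₂ * k7hVel R p.1 - lam * k7hZ0 R Q p.1)|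
            ≤ R.g Q * (K' * (β / R.g Q)) := mul_le_mul_of_nonneg_left h' hg.le
          _ = K' * β := by field_simp
      row0 := by
        rw [add_sub_cancel_left, abs_mul, abs_of_pos hg, mul_comm]
        exact mul_le_mul_of_nonneg_right h1 hg.le
      row1 := by
        rw [add_sub_cancel_left, abs_mul, abs_of_pos hg, mul_comm]
        exact mul_le_mul_of_nonneg_right h2 hg.le
      mu := by
        rw [abs_neg, abs_div, abs_mul, abs_of_pos hg, abs_of_pos hq, div_mul_cancel₀ _ hq.ne']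
        exact mul_le_mul_of_nonneg_right h3 hg.le
      ceil := fun s0 i => le_trans (Measure.restrict_mono Set.inter_subset_left le_rfl _) (hc s0 i) }

theorem k7hA_dy_ge {x : ℝ} (hx : 0 < x) : x ≤ kbDy x := by
  unfold kbDy
  rw [← Real.rpow_intCast]
  calc x = (2 : ℝ) ^ (Real.logb 2 x) := (Real.rpow_logb (by norm_num) (by norm_num) hx).symm
    _ ≤ (2 : ℝ) ^ ((⌈Real.logb 2 x⌉ : ℤ) : ℝ) := Real.rpow_le_rpow_of_exponent_le (by norm_num) (Int.le_ceil _)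

/-- `C K^C ≤ N^θ` as soon as `K ≤ N^τ`, `τ` small, `N` large -/
theorem k7hA_sub (C : ℕ) (θ : ℝ) (hθ : 0 < θ) :
    ∃ τ : ℝ, 0 < τ ∧ ∃ N₁ : ℝ, ∀ N K : ℝ, 2 ≤ N → N₁ ≤ N → 1 ≤ K → K ≤ N ^ τ → (C : ℝ) * K ^ C ≤ N ^ θ := by
  refine ⟨θ / (2 * (C + 1)), by positivity, ((C : ℝ) + 1) ^ (2 / θ), ?_⟩
  intro N K hN hN1 hK hKN
  have hN0 : 0 < N := by linarith
  have h1 : (C : ℝ) ≤ N ^ (θ / 2) := by
    have h3 : (((C : ℝ) + 1) ^ (2 / θ)) ^ (θ / 2) ≤ N ^ (θ / 2) := Real.rpow_le_rpow (by positivity) hN1 (by positivity)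
    rw [← Real.rpow_mul (by positivity)] at h3
    have e : 2 / θ * (θ / 2) = 1 := by field_simp
    rw [e, Real.rpow_one] at h3
    linarith
  have h2 : (N ^ (θ / (2 * (C + 1)))) ^ C ≤ N ^ (θ / 2) := by
    rw [← Real.rpow_natCast, ← Real.rpow_mul hN0.le]
    apply Real.rpow_le_rpow_of_exponent_le (by linarith)
    rw [div_mul_eq_mul_div, div_le_div_iff₀ (by positivity) (by positivity)]
    nlinarith
  have h3 : K ^ C ≤ (N ^ (θ / (2 * (C + 1)))) ^ C := pow_le_pow_left₀ (by linarith) hKN C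
  calc (C : ℝ) * K ^ C ≤ N ^ (θ / 2) * N ^ (θ / 2) := by
        have : 0 ≤ K ^ C := by positivity
        have : 0 ≤ N ^ (θ / 2) := by positivity
        exact mul_le_mul h1 (h3.trans h2) (by positivity) (by positivity)
    _ = N ^ θ := by rw [← Real.rpow_add hN0]; congr 1; ring

theorem k7hA_tilt_mono {R : KsRef KbVer.two} {K K' : ℝ} (h : R.Tilt K) (hK : K ≤ K') : R.Tilt K' where
  ell_pos := h.ell_pos
  tri := h.tri
  full := fun Q => (h.full Q).trans (mul_le_mul_of_nonneg_right hK (abs_nonneg _))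
  cen := fun Q => (h.cen Q).trans hK

/-- the chain of slacks of CORE A -/
theorem k7hA_chain (Ca Cp : ℕ) (hCp1 : 1 ≤ Cp) (θq τo ξ₀ : ℝ) (hθq : 0 < θq) (hτo : 0 < τo) :
    ∃ τ : ℝ, 0 < τ ∧ τ ≤ 1 ∧ ∃ N₁ : ℝ, ∀ N : ℝ, N₁ ≤ N → 2 ≤ N ∧ 2 / ξ₀ + 1 ≤ N ∧ ∃ K₁ Kp : ℝ, 1 ≤ N ^ τ ∧ 2 * N ^ τ ≤ K₁ ∧ (Ca : ℝ) * (N ^ τ) ^ Ca ≤ K₁ ∧
      2 * K₁ ^ 2 ≤ Kp ∧ K₁ ≤ Kp ∧ 4 * N ^ τ ≤ Kp ∧ 1 ≤ (Cp : ℝ) * Kp ^ Cp ∧ (Cp : ℝ) * Kp ^ Cp ≤ N ^ θq ∧ 2 * Kp ^ 2 ≤ N ∧ K₁ ≤ N ^ τo := by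
  obtain ⟨τp1, hτp1, Np1, hp1⟩ := k7hA_sub Cp θq hθq
  obtain ⟨τp2, hτp2, Np2, hp2⟩ := k7hA_sub 2 1 one_pos
  obtain ⟨τ11, hτ11, N11, h11⟩ := k7hA_sub 4 (min τp1 τp2) (lt_min hτp1 hτp2)
  obtain ⟨τ0, hτ0, N0, h0⟩ := k7hA_sub (Ca + 2) (min τ11 τo) (lt_min hτ11 hτo)
  refine ⟨min τ0 1, lt_min hτ0 one_pos, min_le_right _ _, max 2 (max Np1 (max Np2 (max N11 (max N0 (2 / ξ₀ + 1))))), ?_⟩
  intro N hNbig
  have hN2 : 2 ≤ N := (le_max_left _ _).trans hNbig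
  have hNp1 : Np1 ≤ N := ((le_max_left _ _).trans (le_max_right _ _)).trans hNbig
  have hNp2 : Np2 ≤ N := ((le_max_left _ _).trans ((le_max_right _ _).trans (le_max_right _ _))).trans hNbig
  have hN11 : N11 ≤ N := ((le_max_left _ _).trans ((le_max_right _ _).trans ((le_max_right _ _).trans (le_max_right _ _)))).trans hNbig
  have hN0' : N0 ≤ N :=
    ((le_max_left _ _).trans ((le_max_right _ _).trans ((le_max_right _ _).trans ((le_max_right _ _).trans (le_max_right _ _))))).trans hNbig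
  have hNξ : 2 / ξ₀ + 1 ≤ N :=
    ((le_max_right _ _).trans ((le_max_right _ _).trans ((le_max_right _ _).trans ((le_max_right _ _).trans (le_max_right _ _))))).trans hNbig
  have hN1 : 1 ≤ N := by linarith
  obtain ⟨K, hKdef⟩ : ∃ K : ℝ, K = N ^ (min τ0 1) := ⟨_, rfl⟩
  rw [← hKdef]
  have hK1 : 1 ≤ K := by rw [hKdef]; exact Real.one_le_rpow hN1 (lt_min hτ0 one_pos).le
  have hK0 : 0 < K := by linarith
  have hKN0 : K ≤ N ^ τ0 := by rw [hKdef]; exact Real.rpow_le_rpow_of_exponent_le hN1 (min_le_left _ _)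
  obtain ⟨K₁, hK₁⟩ : ∃ K₁ : ℝ, K₁ = ((Ca + 2 : ℕ) : ℝ) * K ^ (Ca + 2) := ⟨_, rfl⟩
  obtain ⟨Kp, hKp⟩ : ∃ Kp : ℝ, Kp = ((4 : ℕ) : ℝ) * K₁ ^ 4 := ⟨_, rfl⟩
  have hK₁N : K₁ ≤ N ^ (min τ11 τo) := by rw [hK₁]; exact h0 N K hN2 hN0' hK1 hKN0
  have hKpow : K ≤ K ^ (Ca + 2) := by
    calc K = K ^ 1 := (pow_one _).symm
      _ ≤ K ^ (Ca + 2) := pow_le_pow_right₀ hK1 (by omega)
  have hCa2 : (2 : ℝ) ≤ ((Ca + 2 : ℕ) : ℝ) := by push_cast; linarith [(Nat.cast_nonneg Ca : (0 : ℝ) ≤ Ca)]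
  have h2KK₁ : 2 * K ≤ K₁ := by
    rw [hK₁]
    exact mul_le_mul hCa2 hKpow hK0.le (by positivity)
  have hKaK₁ : (Ca : ℝ) * K ^ Ca ≤ K₁ := by
    rw [hK₁]
    exact mul_le_mul (by push_cast; linarith) (pow_le_pow_right₀ hK1 (by omega)) (by positivity) (by positivity)
  have h1K₁ : 1 ≤ K₁ := by linarith
  have hKpN : Kp ≤ N ^ (min τp1 τp2) := by
    rw [hKp]
    exact h11 N K₁ hN2 hN11 h1K₁ (hK₁N.trans (Real.rpow_le_rpow_of_exponent_le hN1 (min_le_left _ _)))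
  have hKp' : Kp = 4 * K₁ ^ 4 := by rw [hKp]; norm_num
  have hK₁2 : K₁ ^ 2 ≤ K₁ ^ 4 := pow_le_pow_right₀ h1K₁ (by norm_num)
  have hK₁1 : K₁ ≤ K₁ ^ 2 := by
    calc K₁ = K₁ ^ 1 := (pow_one _).symm
      _ ≤ K₁ ^ 2 := pow_le_pow_right₀ h1K₁ (by norm_num)
  have hK₁4 : 0 ≤ K₁ ^ 4 := by positivity
  have hKp2 : 2 * K₁ ^ 2 ≤ Kp := by linarith
  have hK₁Kp : K₁ ≤ Kp := by linarith
  have h4KKp : 4 * K ≤ Kp := by linarith
  have h1Kp : 1 ≤ Kp := by linarith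
  have hKqN : (Cp : ℝ) * Kp ^ Cp ≤ N ^ θq :=
    hp1 N Kp hN2 hNp1 h1Kp (hKpN.trans (Real.rpow_le_rpow_of_exponent_le hN1 (min_le_left _ _)))
  have hKp2N : 2 * Kp ^ 2 ≤ N := by
    have := hp2 N Kp hN2 hNp2 h1Kp (hKpN.trans (Real.rpow_le_rpow_of_exponent_le hN1 (min_le_right _ _)))
    rw [Real.rpow_one] at this
    exact_mod_cast this
  have h1Kq : 1 ≤ (Cp : ℝ) * Kp ^ Cp := by
    have h1 : (1 : ℝ) ≤ Cp := by exact_mod_cast hCp1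
    have h2 : 1 ≤ Kp ^ Cp := one_le_pow₀ h1Kp
    calc (1 : ℝ) = 1 * 1 := (one_mul 1).symm
      _ ≤ (Cp : ℝ) * Kp ^ Cp := mul_le_mul h1 h2 zero_le_one (by linarith)
  exact ⟨hN2, hNξ, K₁, Kp, hK1, h2KK₁, hKaK₁, hKp2, hK₁Kp, h4KKp, h1Kq, hKqN, hKp2N,
    hK₁N.trans (Real.rpow_le_rpow_of_exponent_le hN1 (min_le_right _ _))⟩

/-- **CORE A** (hub; leaf L-252-S7h-A4 = assembly + exponents).   `Mξ` = exponent of the mesh of the row list, `Mc` = exponent of the mesh of the normalised cells and velocity bins, `Ds` = the depths kept in the exit ceiling.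
PLAN.  `D := (B + 1) / ℓ`, `Ds⁺ := Ds ∪ {r, D}`, `n := #Ds + 2`, `G := ⟨Ds⁺, {0}, {k r + Mc + 2}, 0, Mc⟩`.   `K := N^τ`.   `k7h_append` (`E₁`), `k7h_cond` (`E₂`), `k7h_heavy` for `E₂` (`Q`; `prior E₂ ≥ 1/(4K)`),
`F := E₂ ∩ inc Q`, `k7h_ceil_rules` (restriction to `inc Q`), `k7h_cond_inc`, row list is monotone in the selection, `k7h_pre`, `k7h_abs_fit p.S (τo / (4 Mc))` with `ξ = kbDy (N^-Mc) ∈ [N^-Mc, 2 N^-Mc)`, `k7h_fit_back`,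
`k7h_ceil_rules` (fewer depths).   All slacks are `C K^C = C N^{Cτ} ≤ N^{min(τo, Mc τ_abs)/2}` for `τ` small and `N ≥ N₁`. -/
theorem k7h_rowfit (p : KpPrm) (hp : p.Ok) (hell : 0 < p.ell) (B r : ℝ) (hr : 0 < r) (hB : p.ell * r < B) (Mξ : ℝ) (hMξ : 0 ≤ Mξ) (Ds : Finset ℝ) (hDs : ∀ s ∈ Ds, 0 < s)
    (Mc : ℝ) (hMc : max Mξ B + 1 ≤ Mc) (τo : ℝ) (hτo : 0 < τo) :
    ∃ G : KsReq, G.Ok ∧ ∃ τ : ℝ, 0 < τ ∧ ∃ N₁ : ℝ, ∀ (R : KsRef KbVer.two) (A : R.Par) (E : Set (R.L × ℝ)), K7hStd p G τ N₁ R A E →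
      K7bRowList R E (R.N ^ τ) (R.N ^ (-B)) r (R.N ^ (-Mξ)) →
      ∃ (Q : R.Lab) (ρ0 ρ1 μ : ℝ) (Cn : Set (R.L × ℝ)), R.dep Q = r ∧ K7hFit R A E Ds (kbDy (R.N ^ (-Mc))) (R.N ^ τo) (R.N ^ (τo - B)) Q ρ0 ρ1 μ Cn := by
  classical
  have hB0 : 0 < B := lt_of_le_of_lt (mul_nonneg hell.le hr.le) hB
  obtain ⟨D, hD⟩ : ∃ D : ℝ, D = (B + 1) / p.ell := ⟨_, rfl⟩
  have hD0 : 0 < D := by rw [hD]; positivity
  have hℓD : p.ell * D = B + 1 := by rw [hD]; field_simp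
  obtain ⟨Dp, hDp⟩ : ∃ Dp : Finset ℝ, Dp = insert r (insert D Ds) := ⟨_, rfl⟩
  have hrDp : r ∈ Dp := by rw [hDp]; simp
  have hDDp : D ∈ Dp := by rw [hDp]; simp
  have hDsDp : Ds ⊆ Dp := by
    rw [hDp]
    intro s hs
    simp [hs]
  obtain ⟨M, hM⟩ : ∃ M : ℝ, M = p.k * r + Mc + 2 := ⟨_, rfl⟩
  have hMcB : B + 1 ≤ Mc := by linarith [le_max_right Mξ B]
  have hMcξ : Mξ + 1 ≤ Mc := by linarith [le_max_left Mξ B]
  have hMc1 : 1 ≤ Mc := by linarith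
  obtain ⟨Ca, happ⟩ := k7h_append Dp.card
  obtain ⟨Cp, hCp1, hpre⟩ := k7h_pre p.S
  obtain ⟨τ', hτ'⟩ : ∃ τ' : ℝ, τ' = τo / (2 * Mc) := ⟨_, rfl⟩
  have hτ'0 : 0 < τ' := by rw [hτ']; positivity
  obtain ⟨τa, ξ₀, hτa, hξ₀, habs⟩ := k7h_abs_fit p.S τ' hp.S_pos hτ'0
  have hθq : 0 < (Mc - 1) * τa := mul_pos (by linarith) hτa
  obtain ⟨τ, hτpos, hτle1, N₁, hchain⟩ := k7hA_chain Ca Cp hCp1 ((Mc - 1) * τa) τo ξ₀ hθq hτo
  refine ⟨⟨insert 1 Dp, {0}, {M}, 1, Mc⟩, ⟨⟨1, Finset.mem_insert_self _ _⟩, ?_, ?_, ?_, ?_, ?_, le_rfl⟩, τ, hτpos, N₁, ?_⟩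
  · intro s hs
    have hs' : s ∈ insert 1 Dp := hs
    rw [hDp, Finset.mem_insert, Finset.mem_insert, Finset.mem_insert] at hs'
    rcases hs' with rfl | rfl | rfl | hs'
    · exact one_pos
    · exact hr
    · exact hD0
    · exact hDs s hs'
  · intro s hs
    have hs' : s ∈ ({0} : Finset ℝ) := hs
    rw [Finset.mem_singleton] at hs'
    exact hs'.ge
  · intro s hs
    have hs' : s ∈ ({M} : Finset ℝ) := hs
    rw [Finset.mem_singleton] at hs'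
    rw [hs', hM]
    have := mul_nonneg hp.k_pos.le hr.le
    linarith
  · show (0 : ℝ) ≤ Mc
    linarith
  · intro s hs
    have hs' : s ∈ ({0} : Finset ℝ) := hs
    rw [Finset.mem_singleton] at hs'
    exact ⟨1, Finset.mem_insert_self _ _, by rw [hs']; norm_num⟩
  intro R A E hstd hlist
  obtain ⟨N, hNdef⟩ : ∃ N : ℝ, N = R.N := ⟨_, rfl⟩
  have hNbig := hstd.N
  rw [← hNdef] at hNbig
  obtain ⟨hN2, hNξ, K₁, Kp, hK1', h2KK₁', hKaK₁', hKp2, hK₁Kp, h4KKp', h1Kq', hKqN', hKp2N, hK₁τo⟩ := hchain N hNbig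
  have hNpos : 0 < N := by linarith
  have hN1 : 1 ≤ N := by linarith
  obtain ⟨K, hKdef⟩ : ∃ K : ℝ, K = N ^ τ := ⟨_, rfl⟩
  rw [← hKdef] at hK1' h2KK₁' hKaK₁' h4KKp'
  have hK1 : 1 ≤ K := hK1'
  have hK0 : 0 < K := by linarith
  have hR : R.Ok K := by rw [hKdef, hNdef]; exact hstd.ok
  have hT : R.Tilt K := by rw [hKdef, hNdef]; exact hstd.tilt
  have hO := hstd.one
  have hcur : KsCur R E K := by rw [hKdef, hNdef]; exact hstd.cur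
  have hk : R.k = p.k := congrArg KpPrm.k hstd.prm
  have hl : R.ell = p.ell := congrArg KpPrm.ell hstd.prm
  have hS : R.S = p.S := congrArg KpPrm.S hstd.prm
  have hdepths : Dp ⊆ R.depths := (Finset.subset_insert _ _).trans hstd.depths
  have hwid : (0 : ℝ) ∈ R.widths := hstd.widths (Finset.mem_singleton_self _)
  have hmes : M ∈ R.meshes := hstd.meshes (Finset.mem_singleton_self _)
  have hχ : R.χ ≤ N ^ (-Mc) := by rw [hNdef]; exact hstd.χ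
  have hra : ∀ x : ℝ, R.a x = N ^ (-x) := fun x => by rw [hNdef]; rfl
  -- slacks
  obtain ⟨Kq, hKq⟩ : ∃ Kq : ℝ, Kq = (Cp : ℝ) * Kp ^ Cp := ⟨_, rfl⟩
  rw [← hKq] at h1Kq' hKqN'
  have h1K₁ : 1 ≤ K₁ := by linarith
  have hKKp : K ≤ Kp := by linarith
  have h1Kp : 1 ≤ Kp := by linarith
  -- meshes
  obtain ⟨m, hm⟩ : ∃ m : ℝ, m = N ^ (-Mc) := ⟨_, rfl⟩
  have hm0 : 0 < m := hm ▸ Real.rpow_pos_of_pos hNpos _
  obtain ⟨ξ, hξ⟩ : ∃ ξ : ℝ, ξ = kbDy m := ⟨_, rfl⟩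
  have hξ0 : 0 < ξ := hξ ▸ ksl17_dy_pos m
  have hξge : m ≤ ξ := hξ ▸ k7hA_dy_ge hm0
  have hξlt : ξ < 2 * m := hξ ▸ ksl17_dy_lt hm0
  have hξN : ξ ≤ N ^ (-(Mc - 1)) := by
    have e : N ^ (-(Mc - 1)) = N * m := by
      rw [hm, ← Real.rpow_one_add' hNpos.le (by linarith)]
      congr 1
      ring
    rw [e]
    nlinarith
  obtain ⟨β, hβ⟩ : ∃ β : ℝ, β = N ^ (-B) := ⟨_, rfl⟩
  have hβ0 : 0 < β := hβ ▸ Real.rpow_pos_of_pos hNpos _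
  -- (s1) the fine tangent mesh
  have hs1 : ∀ Q : R.Lab, R.dep Q = r → 2 * R.a M ≤ R.q Q * ξ := by
    intro Q hQ
    have h1 := hR.q_lo Q
    rw [hQ, hk, hra] at h1
    have h2 : 2 * N ^ (-M) * K ≤ N ^ (-(p.k * r)) * m := by
      rw [hKdef, hm, ← Real.rpow_add hNpos, mul_assoc, ← Real.rpow_add hNpos]
      calc 2 * N ^ (-M + τ) ≤ N ^ (1 : ℝ) * N ^ (-M + τ) := by
            rw [Real.rpow_one]
            exact mul_le_mul_of_nonneg_right hN2 (Real.rpow_nonneg hNpos.le _)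
        _ = N ^ (1 + (-M + τ)) := (Real.rpow_add hNpos _ _).symm
        _ ≤ N ^ (-(p.k * r) + -Mc) := Real.rpow_le_rpow_of_exponent_le hN1 (by rw [hM]; linarith)
    have h3 : N ^ (-(p.k * r)) * m ≤ K * R.q Q * ξ :=
      mul_le_mul h1 hξge hm0.le (mul_nonneg hK0.le (ksl8_q_pos R Q).le)
    rw [hra]
    have h4 : K * (2 * N ^ (-M)) ≤ K * (R.q Q * ξ) := by linarith
    exact le_of_mul_le_mul_left h4 hK0
  -- step 1: the global append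
  obtain ⟨E₁, hE₁s, mE₁, hE₁m, hceil₁⟩ := happ R A K E Dp r ξ M 0 hR hO hcur hdepths le_rfl (hdepths hrDp) hmes hwid hξ0 hs1
  have hceil₁' : K7hCeil R A E E₁ K₁ Dp r ξ :=
    ks_dom_mono hceil₁ le_rfl (fun _ _ => le_rfl) (fun _ => le_rfl) (ENNReal.ofReal_le_ofReal hKaK₁')
  -- step 2: denominator pruning
  have e2K₁ : (2 : ℝ≥0∞) ≤ ENNReal.ofReal K₁ := by
    rw [show (2 : ℝ≥0∞) = ENNReal.ofReal 2 by norm_num]
    exact ENNReal.ofReal_le_ofReal (by linarith)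
  obtain ⟨E₂, hE₂s, mE₂, hE₂m, hcond₂⟩ := k7h_cond hR h1K₁ hceil₁' hcur.meas mE₁ (hE₁m.trans (mul_le_mul' e2K₁ le_rfl))
  have hE₂E : E₂ ⊆ E := hE₂s.trans hE₁s
  have hE₂0 : E₂ ⊆ R.Ev0 := hE₂E.trans hcur.sub
  have hE4 : R.prior E ≤ 4 * R.prior E₂ := by
    calc R.prior E ≤ 2 * R.prior E₁ := hE₁m
      _ ≤ 2 * (2 * R.prior E₂) := mul_le_mul' le_rfl hE₂m
      _ = 4 * R.prior E₂ := by rw [← mul_assoc]; norm_num
  have hE₂ne : R.prior E₂ ≠ 0 := by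
    intro h0
    have h1 := hcur.mass
    rw [h0, mul_zero] at hE4
    rw [le_antisymm hE4 zero_le, mul_zero] at h1
    exact absurd h1 (by norm_num)
  -- step 3: a heavy label
  obtain ⟨Q, hQr, hν, hheavy⟩ := k7h_heavy hR mE₂ hE₂0 hE₂ne (hdepths hrDp)
  obtain ⟨i1, -, -, i4, -⟩ := k7h_inc_mass hR Q
  obtain ⟨F, hF⟩ : ∃ F : Set (R.L × ℝ), F = E₂ ∩ R.inc Q := ⟨_, rfl⟩
  have mF : MeasurableSet F := hF ▸ mE₂.inter i4
  have hFE : F ⊆ E ∩ R.inc Q := by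
    rw [hF]
    exact Set.inter_subset_inter_left _ hE₂E
  have hmass : ENNReal.ofReal (R.q Q) * R.νQ Q ≤ ENNReal.ofReal Kp * R.prior F := by
    have e4 : ENNReal.ofReal K * 4 ≤ ENNReal.ofReal Kp := by
      rw [show (4 : ℝ≥0∞) = ENNReal.ofReal 4 by norm_num, ← ENNReal.ofReal_mul hK0.le]
      exact ENNReal.ofReal_le_ofReal (by linarith)
    calc ENNReal.ofReal (R.q Q) * R.νQ Q = ENNReal.ofReal (R.q Q) * R.νQ Q * 1 := (mul_one _).symm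
      _ ≤ ENNReal.ofReal (R.q Q) * R.νQ Q * (ENNReal.ofReal K * (4 * R.prior E₂)) :=
          mul_le_mul' le_rfl (hcur.mass.trans (mul_le_mul' le_rfl hE4))
      _ = ENNReal.ofReal K * 4 * (ENNReal.ofReal (R.q Q) * R.νQ Q * R.prior E₂) := by ring
      _ ≤ ENNReal.ofReal Kp * R.prior F := mul_le_mul' e4 (hF ▸ hheavy)
  -- step 4: ceilings inside `Q`
  have hc₂ : K7hCeil R A E E₂ K₁ Dp r ξ := (k7h_ceil_rules hR hceil₁' hcur.sub hE₁s hcur.meas).1 E₂ K₁ hE₂s le_rfl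
  have hcQ : K7hCeil R A (E ∩ R.inc Q) F K₁ Dp r ξ := hF ▸ (k7h_ceil_rules hR hc₂ hcur.sub hE₂E hcur.meas).2.1 hrDp Q hQr
  have hcondQ : K7hCond R A F (2 * K₁ ^ 2) Dp r ξ := hF ▸ k7h_cond_inc hR hcond₂ hE₂0 mE₂ hrDp hdepths Q hQr
  have hE0Q : E ∩ R.inc Q ⊆ R.Ev0 ∩ R.inc Q := Set.inter_subset_inter_left _ hcur.sub
  have mE0Q : MeasurableSet (E ∩ R.inc Q) := hcur.meas.inter i4
  -- step 5: the hypotheses of the abstract row fit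
  have hg : 0 < R.g Q := ksl8_a_pos hR _
  have hgQ : R.g Q = N ^ (-(p.ell * r)) := by
    show R.a (R.ell * R.dep Q) = _
    rw [hra, hl, hQr]
  have hg1 : R.g Q ≤ 1 := by
    rw [hgQ]
    exact Real.rpow_le_one_of_one_le_of_nonpos hN1 (by have := mul_nonneg hell.le hr.le; linarith)
  have hβg : β ≤ R.g Q := by
    rw [hβ, hgQ]
    exact Real.rpow_le_rpow_of_exponent_le hN1 (by linarith)
  have hξT : ξ ≤ N ^ (-Mξ) := hξN.trans (Real.rpow_le_rpow_of_exponent_le hN1 (by linarith))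
  have hKξ : Kp ^ 2 * ξ ≤ β := by
    have h1 : Kp ^ 2 * ξ ≤ Kp ^ 2 * (2 * m) := mul_le_mul_of_nonneg_left hξlt.le (by positivity)
    have h2 : Kp ^ 2 * (2 * m) = 2 * Kp ^ 2 * m := by ring
    have h3 : 2 * Kp ^ 2 * m ≤ N * m := mul_le_mul_of_nonneg_right hKp2N hm0.le
    have h4 : N * m ≤ β := by
      rw [hm, hβ]
      calc N * N ^ (-Mc) = N ^ (1 : ℝ) * N ^ (-Mc) := by rw [Real.rpow_one]
        _ = N ^ (1 + -Mc) := (Real.rpow_add hNpos _ _).symm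
        _ ≤ N ^ (-B) := Real.rpow_le_rpow_of_exponent_le hN1 (by linarith)
    linarith
  have haD : R.a (R.ell * D) ≤ β := by
    rw [hra, hl, hℓD, hβ]
    exact Real.rpow_le_rpow_of_exponent_le hN1 (by linarith)
  have hlistF : K7bRowList R F Kp β (R.dep Q) (N ^ (-Mξ)) := by
    obtain ⟨Lst, h1, h2⟩ := hlist
    rw [hQr, hβ, hNdef]
    refine ⟨Lst, fun Q' C => (h1 Q' C).trans ?_, fun x hx => h2 x (hFE hx).1⟩
    rw [← hNdef, ← hKdef]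
    exact hKKp
  have hcQp : K7hCeil R A (E ∩ R.inc Q) F Kp Dp (R.dep Q) (kbDy m) := by
    rw [hQr, ← hξ]
    exact ks_dom_mono hcQ le_rfl (fun _ _ => le_rfl) (fun _ => le_rfl) (ENNReal.ofReal_le_ofReal hK₁Kp)
  have hcondQp : K7hCond R A F Kp Dp (R.dep Q) (kbDy m) := by
    rw [hQr, ← hξ]
    exact ⟨ks_dom_mono hcondQ.1 le_rfl (fun _ _ => le_rfl) (fun _ => le_rfl) (ENNReal.ofReal_le_ofReal hKp2), hcondQ.2⟩
  have hP := hpre R A Kp β (N ^ (-Mξ)) m D (E ∩ R.inc Q) F Dp Q hDDp hS.le (ks_ok_mono hR hKKp) (k7hA_tilt_mono hT hKKp) hν hdepths mE0Q mF hE0Q hFE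
    hmass hcQp hcondQp hlistF hm0 (hm ▸ hχ) (hξ ▸ hξT) (hξ ▸ hKξ) haD hβg
  rw [← hKq, ← hξ, hS] at hP
  -- step 6: the abstract row fit
  have hξβ : ξ ≤ β := by
    have h1 : 1 * ξ ≤ Kp ^ 2 * ξ := mul_le_mul_of_nonneg_right (one_le_pow₀ h1Kp) hξ0.le
    linarith
  have hξE : ξ ≤ β / R.g Q := by
    rw [le_div_iff₀ hg]
    calc ξ * R.g Q ≤ ξ * 1 := mul_le_mul_of_nonneg_left hg1 hξ0.le
      _ = ξ := mul_one _
      _ ≤ β := hξβ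
  have hE1 : β / R.g Q ≤ 1 := by
    rw [div_le_one hg]
    exact hβg
  have hξξ₀ : ξ < ξ₀ := by
    have h1 : m ≤ N ^ (-1 : ℝ) := hm ▸ Real.rpow_le_rpow_of_exponent_le hN1 (by linarith)
    rw [Real.rpow_neg_one] at h1
    have h2 : 2 / ξ₀ < N := by linarith
    have h3 : 2 / N < ξ₀ := by
      rw [div_lt_iff₀ hNpos]
      rw [div_lt_iff₀ hξ₀] at h2
      linarith
    have h4 : 2 * m ≤ 2 / N := by
      rw [div_eq_mul_inv]
      linarith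
    linarith
  have hKqξ : Kq ≤ ξ ^ (-τa) := by
    have h1 : (N ^ (-(Mc - 1))) ^ (-τa) ≤ ξ ^ (-τa) := Real.rpow_le_rpow_of_nonpos hξ0 hξN (by linarith)
    rw [← Real.rpow_mul hNpos.le] at h1
    have e : -(Mc - 1) * -τa = (Mc - 1) * τa := by ring
    rw [e] at h1
    exact hKqN'.trans h1
  obtain ⟨B₁, B₂, lam, hB₁, hB₂, hlam, hgood⟩ := habs hξ0 hξξ₀ hξE hE1 h1Kq' hKqξ hP
  -- step 7: back to tangent coordinates
  obtain ⟨K', hK'⟩ : ∃ K' : ℝ, K' = N ^ τo := ⟨_, rfl⟩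
  have hξK' : ξ ^ (-τ') ≤ K' := by
    have h1 : ξ ^ (-τ') ≤ m ^ (-τ') := Real.rpow_le_rpow_of_nonpos hm0 hξge (by linarith)
    rw [hm, ← Real.rpow_mul hNpos.le] at h1
    rw [hK']
    refine h1.trans (Real.rpow_le_rpow_of_exponent_le hN1 ?_)
    have e : -Mc * -τ' = τo / 2 := by
      rw [hτ']
      field_simp
    rw [e]
    linarith
  have hcfin : K7hCeil R A (E ∩ R.inc Q) F K' Ds (R.dep Q) ξ := by
    rw [hQr]
    have h1 := (k7h_ceil_rules hR hcQ (hE0Q.trans Set.inter_subset_left) hFE mE0Q).2.2 Ds hDsDp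
    exact ks_dom_mono h1 le_rfl (fun _ _ => le_rfl) (fun _ => le_rfl) (ENNReal.ofReal_le_ofReal (hK' ▸ hK₁τo))
  have hη : 0 < ξ ^ τ' := Real.rpow_pos_of_pos hξ0 _
  have hη' : 1 / ξ ^ τ' ≤ K' := by
    rw [one_div, ← Real.rpow_neg hξ0.le]
    exact hξK'
  have hE0 : 0 ≤ β / R.g Q := (div_pos hβ0 hg).le
  have hgood' : ENNReal.ofReal (ξ ^ τ') ≤ k7hLaw R Q F {ω | ω ∈ k7hInc R Q ⁻¹' F ∧
      |k7hCst R Q ω.1 - (B₁ + B₂ * k7hVel R ω.1 - lam * k7hZ0 R Q ω.1)| ≤ K' * (β / R.g Q)} := by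
    refine hgood.trans (measure_mono ?_)
    rintro ω ⟨h1, h2⟩
    exact ⟨h1, h2.trans (mul_le_mul_of_nonneg_right hξK' hE0)⟩
  obtain ⟨Cn, hCn⟩ := k7h_fit_back hR hν mF hFE hcfin (hB₁.trans hξK') (hB₂.trans hξK') (hlam.trans hξK') hη hη' hgood'
  refine ⟨Q, R.row Q 0 + R.g Q * B₁, R.row Q 1 + R.g Q * B₂, -(lam * R.g Q / R.q Q), Cn, hQr, ?_⟩
  have e1 : R.N ^ (τo - B) = K' * β := by
    rw [hK', hβ, ← Real.rpow_add hNpos, hNdef]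
    congr 1
  rw [e1, ← hNdef, ← hm, ← hξ, ← hK']
  exact hCn

end coreA

/-! ## 4. CORES B, C : strip candidates, comparison of `k` and `ℓ` -/

section coreBC

variable {R : KsRef KbVer.two}

theorem k7h_bc_t0_mem (R : KsRef KbVer.two) (Q : R.Lab) : R.t0 Q ∈ R.blk Q := by
  have hq : 0 < kbQ (R.lev Q) := by unfold kbQ; positivity
  unfold KsRef.t0 KsRef.blk kbI
  constructor
  · exact le_rfl
  · nlinarith

/-- **CORE B** (leaf L-252-S7h-B1): `λ` power-small ⟹ strip candidate at `Q` (07 l.1003-1005).   `|Z(t_Q) - Z_Q| ≤ K² q` (`ks_tilt_box` at `t_Q ∈ blk Q`). -/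
theorem k7h_strip {A : R.Par} {E : Set (R.L × ℝ)} {Ds : Finset ℝ} {ξ K ε : ℝ} {Q : R.Lab} {ρ0 ρ1 μ : ℝ} {Cn : Set (R.L × ℝ)} (hR : R.Ok K) (hT : R.Tilt K)
    (h : K7hFit R A E Ds ξ K ε Q ρ0 ρ1 μ Cn) {c : ℝ} (h1 : ε ≤ K * R.a (R.ell * R.dep Q + c)) (h2 : |μ| * R.q Q ≤ K * R.a (R.ell * R.dep Q + c)) :
    KsStripCand R E (2 * K ^ 3) c Q ![ρ0, ρ1] Cn := by
  have hK := hR.K_ge
  have hK0 : 0 < K := by linarith
  have hK3 : K ≤ K ^ 3 := by nlinarith [mul_pos hK0 hK0]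
  refine ⟨h.pos, h.meas, h.sub, ?_, ?_⟩
  · intro p hp
    have hl : p.1 ∈ R.asg Q := (h.sub hp).2.1
    have hb := ((ks_tilt_box hR hT Q p.1 hl).1 (R.t0 Q) (k7h_bc_t0_mem R Q)).1
    have hf := h.fit p hp
    unfold k7hZc at hf
    obtain ⟨a', ha'⟩ : ∃ a' : ℝ, a' = R.a (R.ell * R.dep Q + c) := ⟨_, rfl⟩
    rw [← ha'] at h1 h2 ⊢
    obtain ⟨z, hz⟩ : ∃ z : ℝ, z = ksZ (R.y p.1 (R.t0 Q)) - ksZ ((R.ch Q).yc (R.t0 Q)) := ⟨_, rfl⟩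
    rw [← hz] at hb hf
    have h3 : |μ * z| ≤ K ^ 3 * a' := by
      rw [abs_mul]
      calc |μ| * |z| ≤ |μ| * (K ^ 2 * R.q Q) := mul_le_mul_of_nonneg_left hb (abs_nonneg _)
        _ = K ^ 2 * (|μ| * R.q Q) := by ring
        _ ≤ K ^ 2 * (K * a') := mul_le_mul_of_nonneg_left h2 (by positivity)
        _ = K ^ 3 * a' := by ring
    have ha0 : 0 ≤ a' := by
      have : 0 ≤ K * a' := (mul_nonneg (abs_nonneg _) (ksl8_q_pos R Q).le).trans h2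
      by_contra hcon
      push Not at hcon
      nlinarith
    show |ksY (R.V p.1) - (ρ0 + ρ1 * ksZ (R.V p.1))| ≤ _
    have e : ksY (R.V p.1) - (ρ0 + ρ1 * ksZ (R.V p.1)) = (ksY (R.V p.1) - (ρ0 + ρ1 * ksZ (R.V p.1) + μ * z)) + μ * z := by ring
    rw [e]
    refine (abs_add_le _ _).trans ?_
    have : K * a' ≤ K ^ 3 * a' := mul_le_mul_of_nonneg_right hK3 ha0
    linarith
  · refine h.mass.trans (mul_le_mul' (ENNReal.ofReal_le_ofReal ?_) le_rfl)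
    linarith

theorem k7h_bc_aff (R : KsRef KbVer.two) (l : R.L) (t t0 : ℝ) : ksZ (R.y l t0) = ksZ (R.y l t) - (t - t0) * ksZ (R.V l) := by
  show ksZ (R.co l).1 + t0 * ksZ (R.co l).2.1 = ksZ (R.co l).1 + t * ksZ (R.co l).2.1 - (t - t0) * ksZ (R.co l).2.1
  ring

theorem k7h_bc_vel {R : KsRef KbVer.two} {K : ℝ} (hR : R.Ok K) (Q : R.Lab) (l : R.L) (hl : l ∈ R.asg Q) : |ksZ (R.V l)| ≤ K := by
  have h1 := hR.V_bd l (hR.asg_Sp Q hl)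
  have h2 := norm_le_pi_norm (R.V l) (0 : Fin 2)
  rw [Real.norm_eq_abs] at h2
  exact h2.trans h1

/-- **L-252-S7h-C1** the row of a label from two incidences with the affine velocity law, nearby positions and separated velocities (07 l.1017-1024).
`d := A_{Q'} - (ρ0 + μ (Z₁ - Zc), ρ1 - μ (t₁ - t0))`;  `d · (1, v_i) = O(4 K^6 g') + O(ε) + μ ((Z_i - Z₁) - (t_i - t₁) v_i)`; `k7b_row_interp`. -/
theorem k7h_child_row : ∃ C : ℕ, ∀ (R : KsRef KbVer.two) (K ε δ t0 Zc ρ0 ρ1 μ : ℝ) (Q' : R.Lab) (p₁ p₂ : R.L × ℝ), R.Ok K → R.Tilt K → p₁ ∈ R.inc Q' → p₂ ∈ R.inc Q' →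
    (∀ p ∈ ({p₁, p₂} : Set (R.L × ℝ)), |ksY (R.V p.1) - (ρ0 + ρ1 * ksZ (R.V p.1) + μ * (ksZ (R.y p.1 t0) - Zc))| ≤ ε) →
    1 ≤ K * |ksZ (R.V p₁.1) - ksZ (R.V p₂.1)| → |p₁.2 - p₂.2| ≤ δ → |ksZ (R.y p₁.1 p₁.2) - ksZ (R.y p₂.1 p₂.2)| ≤ δ →
    |R.row Q' 0 - (ρ0 + μ * (ksZ (R.y p₁.1 p₁.2) - Zc))| ≤ (C : ℝ) * K ^ C * (R.g Q' + ε + |μ| * δ) ∧
    |R.row Q' 1 - (ρ1 - μ * (p₁.2 - t0))| ≤ (C : ℝ) * K ^ C * (R.g Q' + ε + |μ| * δ) := by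
  refine ⟨12, ?_⟩
  intro R K ε δ t0 Zc ρ0 ρ1 μ Q' p₁ p₂ hR hT hp₁ hp₂ hfit hsep ht hZ
  have hK := hR.K_ge
  have hK0 : 0 < K := by linarith
  have hg : 0 < R.g Q' := ksl8_a_pos hR _
  have hv1 := k7h_bc_vel hR Q' p₁.1 hp₁.1
  have hv2 := k7h_bc_vel hR Q' p₂.1 hp₂.1
  have ht1 := (ks_tilt_box hR hT Q' p₁.1 hp₁.1).2
  have ht2 := (ks_tilt_box hR hT Q' p₂.1 hp₂.1).2
  have hf1 := hfit p₁ (by simp)
  have hf2 := hfit p₂ (by simp)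
  rw [k7h_bc_aff R p₁.1 p₁.2 t0] at hf1
  rw [k7h_bc_aff R p₂.1 p₂.2 t0] at hf2
  have hδ : 0 ≤ δ := (abs_nonneg _).trans ht
  have hε : 0 ≤ ε := (abs_nonneg _).trans hf1
  generalize ksZ (R.V p₁.1) = v1 at *
  generalize ksZ (R.V p₂.1) = v2 at *
  generalize ksY (R.V p₁.1) = y1 at *
  generalize ksY (R.V p₂.1) = y2 at *
  generalize ksZ (R.y p₁.1 p₁.2) = Z1 at *
  generalize ksZ (R.y p₂.1 p₂.2) = Z2 at *
  generalize R.row Q' 0 = a0 at *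
  generalize R.row Q' 1 = a1 at *
  generalize R.g Q' = g at *
  generalize p₁.2 = t1 at *
  generalize p₂.2 = t2 at *
  obtain ⟨E, hE⟩ : ∃ E : ℝ, E = 4 * K ^ 6 * g + ε + |μ| * δ * (1 + K) := ⟨_, rfl⟩
  have hμ := abs_nonneg μ
  have b1 : |(a0 - (ρ0 + μ * (Z1 - Zc))) + (a1 - (ρ1 - μ * (t1 - t0))) * v1| ≤ E := by
    have e : (a0 - (ρ0 + μ * (Z1 - Zc))) + (a1 - (ρ1 - μ * (t1 - t0))) * v1
        = -(y1 - (a0 + a1 * v1)) + (y1 - (ρ0 + ρ1 * v1 + μ * (Z1 - (t1 - t0) * v1 - Zc))) := by ring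
    rw [e]
    refine (abs_add_le _ _).trans ?_
    rw [abs_neg, hE]
    have : 0 ≤ |μ| * δ * (1 + K) := by positivity
    linarith
  have b2 : |(a0 - (ρ0 + μ * (Z1 - Zc))) + (a1 - (ρ1 - μ * (t1 - t0))) * v2| ≤ E := by
    have e : (a0 - (ρ0 + μ * (Z1 - Zc))) + (a1 - (ρ1 - μ * (t1 - t0))) * v2
        = -(y2 - (a0 + a1 * v2)) + (y2 - (ρ0 + ρ1 * v2 + μ * (Z2 - (t2 - t0) * v2 - Zc))) + (-(μ * (Z1 - Z2)) + μ * ((t1 - t2) * v2)) := by ring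
    rw [e]
    refine (abs_add_le _ _).trans ?_
    have c1 := abs_add_le (-(y2 - (a0 + a1 * v2))) (y2 - (ρ0 + ρ1 * v2 + μ * (Z2 - (t2 - t0) * v2 - Zc)))
    have c2 := abs_add_le (-(μ * (Z1 - Z2))) (μ * ((t1 - t2) * v2))
    rw [abs_neg] at c1 c2
    have c3 : |μ * (Z1 - Z2)| ≤ |μ| * δ := by rw [abs_mul]; exact mul_le_mul_of_nonneg_left hZ hμ
    have c4 : |μ * ((t1 - t2) * v2)| ≤ |μ| * (δ * K) := by
      rw [abs_mul, abs_mul]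
      exact mul_le_mul_of_nonneg_left (mul_le_mul ht hv2 (abs_nonneg _) hδ) hμ
    rw [hE]
    linarith
  obtain ⟨r2, r1⟩ := k7b_row_interp hK hv1 (by rw [div_le_iff₀ hK0, mul_comm]; exact hsep) b1 b2
  have hK6 : 1 ≤ K ^ 6 := one_le_pow₀ hK
  have hKK6 : K ≤ K ^ 6 := by
    calc K = K ^ 1 := (pow_one K).symm
      _ ≤ K ^ 6 := pow_le_pow_right₀ hK (by norm_num)
  have hEle : E ≤ 4 * K ^ 6 * (g + ε + |μ| * δ) := by
    rw [hE]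
    have c5 : 0 ≤ |μ| * δ := by positivity
    nlinarith
  have hS : 0 ≤ g + ε + |μ| * δ := by positivity
  have hE0 : 0 ≤ E := (abs_nonneg _).trans b1
  have hK2 : 1 ≤ K ^ 2 := one_le_pow₀ hK
  have hKK2 : K ≤ K ^ 2 := by nlinarith
  have hfin : 3 * K ^ 2 * E ≤ ((12 : ℕ) : ℝ) * K ^ 12 * (g + ε + |μ| * δ) := by
    calc 3 * K ^ 2 * E ≤ 3 * K ^ 2 * (4 * K ^ 6 * (g + ε + |μ| * δ)) := mul_le_mul_of_nonneg_left hEle (by positivity)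
      _ = 12 * K ^ 8 * (g + ε + |μ| * δ) := by ring
      _ ≤ 12 * K ^ 12 * (g + ε + |μ| * δ) := by
          refine mul_le_mul_of_nonneg_right ?_ hS
          exact mul_le_mul_of_nonneg_left (pow_le_pow_right₀ hK (by norm_num)) (by norm_num)
      _ = _ := by norm_num
  constructor
  · refine (r1.trans ?_).trans hfin
    exact mul_le_mul_of_nonneg_right (by linarith) hE0
  · refine (r2.trans ?_).trans hfin
    exact mul_le_mul_of_nonneg_right (by nlinarith) hE0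

/-- **L-252-S7h-C2** active time extent (07 l.1030-1032): a selection of mass `≥ q' ν_{Q'} / K` inside `Q'` contains two incidences with `|t - t'| ≥ q' / (2K)`  (`F ⊆ asg Q' ×ˢ [inf, sup]`, `k7b_time_extent`). -/
theorem k7h_time_ext {K K₁ : ℝ} (hR : R.Ok K) (hK₁ : 1 ≤ K₁) (Q' : R.Lab) (hν : R.νQ Q' ≠ 0) {F : Set (R.L × ℝ)} (hF : F ⊆ R.inc Q')
    (hm : ENNReal.ofReal (R.q Q') * R.νQ Q' ≤ ENNReal.ofReal K₁ * R.prior F) : ∃ p ∈ F, ∃ p' ∈ F, R.q Q' ≤ 2 * K₁ * |p.2 - p'.2| := by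
  have := hR.prob
  have hq := ksl8_q_pos R Q'
  have hK0 : 0 < K₁ := by linarith
  by_contra hcon
  push Not at hcon
  have hne : F.Nonempty := by
    by_contra h
    rw [Set.not_nonempty_iff_eq_empty] at h
    rw [h, measure_empty, mul_zero, nonpos_iff_eq_zero, mul_eq_zero, ENNReal.ofReal_eq_zero] at hm
    rcases hm with hm | hm
    · linarith
    · exact hν hm
  obtain ⟨p0, hp0⟩ := hne
  obtain ⟨δ, hδ⟩ : ∃ δ : ℝ, δ = R.q Q' / (2 * K₁) := ⟨_, rfl⟩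
  have hd : ∀ p ∈ F, ∀ p' ∈ F, p.2 - p'.2 ≤ δ := by
    intro p hp p' hp'
    have h1 := hcon p hp p' hp'
    have h2 : |p.2 - p'.2| < δ := by
      rw [hδ, lt_div_iff₀ (by positivity)]
      linarith
    exact (le_abs_self _).trans h2.le
  obtain ⟨T, hT⟩ : ∃ T : Set ℝ, T = Prod.snd '' F := ⟨_, rfl⟩
  have hTne : T.Nonempty := ⟨p0.2, by rw [hT]; exact ⟨p0, hp0, rfl⟩⟩
  have hTd : ∀ t ∈ T, ∀ t' ∈ T, t - t' ≤ δ := by
    intro t ht t' ht'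
    rw [hT] at ht ht'
    obtain ⟨p, hp, rfl⟩ := ht
    obtain ⟨p', hp', rfl⟩ := ht'
    exact hd p hp p' hp'
  have hba : BddAbove T := ⟨p0.2 + δ, fun t ht => by linarith [hTd t ht p0.2 (by rw [hT]; exact ⟨p0, hp0, rfl⟩)]⟩
  have hbb : BddBelow T := ⟨p0.2 - δ, fun t ht => by linarith [hTd p0.2 (by rw [hT]; exact ⟨p0, hp0, rfl⟩) t ht]⟩
  have hlen : sSup T - sInf T ≤ δ := by
    have h1 : sSup T - δ ≤ sInf T := by
      refine le_csInf hTne fun t' ht' => ?_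
      have : sSup T ≤ t' + δ := csSup_le hTne fun t ht => by linarith [hTd t ht t' ht']
      linarith
    linarith
  have hsub : F ⊆ R.asg Q' ×ˢ Set.Icc (sInf T) (sSup T) := by
    intro p hp
    have hpT : p.2 ∈ T := by rw [hT]; exact ⟨p, hp, rfl⟩
    exact ⟨(hF hp).1, csInf_le hbb hpT, le_csSup hba hpT⟩
  have hpr : R.prior F ≤ R.νQ Q' * ENNReal.ofReal δ := by
    refine (measure_mono hsub).trans ?_
    unfold KsRef.prior KsRef.νQ KbPb.tm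
    rw [Measure.prod_prod]
    refine mul_le_mul' le_rfl ?_
    refine (Measure.restrict_apply_le _ _).trans ?_
    rw [Real.volume_Icc]
    exact ENNReal.ofReal_le_ofReal hlen
  have hfin : R.νQ Q' ≠ ⊤ := measure_ne_top _ _
  have h2 : ENNReal.ofReal (R.q Q') * R.νQ Q' ≤ ENNReal.ofReal (R.q Q' / 2) * R.νQ Q' := by
    calc ENNReal.ofReal (R.q Q') * R.νQ Q' ≤ ENNReal.ofReal K₁ * R.prior F := hm
      _ ≤ ENNReal.ofReal K₁ * (R.νQ Q' * ENNReal.ofReal δ) := mul_le_mul' le_rfl hpr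
      _ = ENNReal.ofReal (K₁ * δ) * R.νQ Q' := by
          rw [ENNReal.ofReal_mul hK0.le]
          ring
      _ = ENNReal.ofReal (R.q Q' / 2) * R.νQ Q' := by
          congr 2
          rw [hδ]
          field_simp
  rw [ENNReal.mul_le_mul_iff_left hν hfin, ENNReal.ofReal_le_ofReal_iff (by positivity)] at h2
  linarith

theorem k7h_mu_floor {x y ξ : ℝ} (hξ : 0 < ξ) (h : ⌊x / ξ⌋ = ⌊y / ξ⌋) : |x - y| ≤ ξ := by
  have h1 := Int.floor_le (x / ξ)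
  have h2 := Int.lt_floor_add_one (x / ξ)
  have h3 := Int.floor_le (y / ξ)
  have h4 := Int.lt_floor_add_one (y / ξ)
  rw [h] at h1 h2
  rw [le_div_iff₀ hξ] at h1 h3
  rw [div_lt_iff₀ hξ] at h2 h4
  rw [abs_le]
  constructor <;> nlinarith

theorem k7h_mu_poly {A e C : ℕ} {K : ℝ} (hK : 1 ≤ K) (hA : A ≤ C) (he : e ≤ C) : (A : ℝ) * K ^ e ≤ (C : ℝ) * K ^ C := by
  have h1 : (A : ℝ) ≤ C := Nat.cast_le.2 hA
  have h2 : K ^ e ≤ K ^ C := pow_le_pow_right₀ hK he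
  exact mul_le_mul h1 h2 (by positivity) (by positivity)

/-- partners with the same datum: same child, nearby time and major position -/
theorem k7h_mu_pair {K : ℝ} (hR : R.Ok K) {Ds : Finset ℝ} {ξ : ℝ} (hξ : 0 < ξ) (Q Q' : R.Lab) (hDs : Ds ⊆ R.depths) (hs : R.dep Q' ∈ Ds)
    {p p' : R.L × ℝ} (hp : p ∈ R.Ev0 ∩ R.inc Q) (hp' : p' ∈ R.Ev0 ∩ R.inc Q) (hpQ' : p ∈ R.inc Q')
    (hd : k7hDat R Ds (R.dep Q) ξ p' = k7hDat R Ds (R.dep Q) ξ p) :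
    p' ∈ R.inc Q' ∧ |p.2 - p'.2| ≤ R.q Q * ξ ∧ |ksZ (R.y p.1 p.2) - ksZ (R.y p'.1 p'.2)| ≤ R.q Q * ξ := by
  have hl := (k7h_dat_lab hR Ds (R.dep Q) ξ).2.2
  have hq := ksl8_q_pos R Q
  have l1 : R.labAt (R.dep Q') p = Q' := hl Q' p ⟨hp.1, hpQ'⟩
  have l2 : R.labAt (R.dep Q') p' = R.labAt (R.dep Q') p := congrFun (congrArg Prod.fst hd) ⟨R.dep Q', hs⟩
  have l3 : p' ∈ R.inc (R.labAt (R.dep Q') p') := (hR.lab (R.dep Q') (hDs hs) p' hp'.1).2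
  rw [l2, l1] at l3
  have c0 : k7hCell R (R.labAt (R.dep Q) p') ξ p' = k7hCell R (R.labAt (R.dep Q) p) ξ p := congrArg Prod.snd hd
  rw [hl Q p hp, hl Q p' hp'] at c0
  have c1 : ⌊(p'.2 - R.t0 Q) / R.q Q / ξ⌋ = ⌊(p.2 - R.t0 Q) / R.q Q / ξ⌋ := congrArg Prod.fst c0
  have c2 : ⌊(ksZ (R.y p'.1 p'.2) - k7hZc R Q) / R.q Q / ξ⌋ = ⌊(ksZ (R.y p.1 p.2) - k7hZc R Q) / R.q Q / ξ⌋ := congrArg Prod.snd c0
  have d1 := k7h_mu_floor hξ c1.symm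
  have d2 := k7h_mu_floor hξ c2.symm
  rw [← sub_div, abs_div, abs_of_pos hq, div_le_iff₀ hq] at d1 d2
  refine ⟨l3, ?_, ?_⟩
  · calc |p.2 - p'.2| = |p.2 - R.t0 Q - (p'.2 - R.t0 Q)| := by congr 1; ring
      _ ≤ ξ * R.q Q := d1
      _ = R.q Q * ξ := mul_comm _ _
  · calc |ksZ (R.y p.1 p.2) - ksZ (R.y p'.1 p'.2)| = |ksZ (R.y p.1 p.2) - k7hZc R Q - (ksZ (R.y p'.1 p'.2) - k7hZc R Q)| := by congr 1; ring
      _ ≤ ξ * R.q Q := d2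
      _ = R.q Q * ξ := mul_comm _ _

/-- the measure part of CORE C1: a separated dense part of `Cn`, a heavy child, two incidences far apart in time -/
theorem k7h_mu_sel {A : R.Par} {E : Set (R.L × ℝ)} {Ds : Finset ℝ} {ξ K ε : ℝ} {Q : R.Lab} {ρ0 ρ1 μ : ℝ} {Cn : Set (R.L × ℝ)} {s K₃ : ℝ} (hR : R.Ok K)
    (mE : MeasurableSet E) (hE : E ⊆ R.Ev0) (h : K7hFit R A E Ds ξ K ε Q ρ0 ρ1 μ Cn) (hs : s ∈ R.depths) (hsQ : R.dep Q ≤ s)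
    (hsep : ∀ F : Set (R.L × ℝ), MeasurableSet F → K7hCond R A F (2 * K ^ 2) Ds (R.dep Q) ξ → K7hSep R F K₃ Ds (R.dep Q) ξ) :
    ∃ (F : Set (R.L × ℝ)) (Q' : R.Lab), F ⊆ Cn ∧ K7hSep R F K₃ Ds (R.dep Q) ξ ∧ R.dep Q' = s ∧
      ∃ p ∈ F ∩ R.inc Q', ∃ p' ∈ F ∩ R.inc Q', R.q Q' ≤ 2 * (2 * K) * |p.2 - p'.2| := by
  have hK := hR.K_ge
  have hK0 : 0 < K := lt_of_lt_of_le one_pos hK
  have hq := ksl8_q_pos R Q
  obtain ⟨i1, -, i3, i4, -⟩ := k7h_inc_mass hR Q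
  have hX0 : ENNReal.ofReal (R.q Q) * R.νQ Q ≠ 0 := mul_ne_zero (ENNReal.ofReal_pos.2 hq).ne' h.pos
  have hXt : ENNReal.ofReal (R.q Q) * R.νQ Q ≠ ⊤ := ENNReal.mul_ne_top ENNReal.ofReal_ne_top i3
  have hm : R.prior (E ∩ R.inc Q) ≤ ENNReal.ofReal K * R.prior Cn :=
    (measure_mono Set.inter_subset_right).trans (i1.le.trans h.mass)
  obtain ⟨F, hFC, mF, hF2, hFc⟩ := k7h_cond hR hK h.ceil (mE.inter i4) h.meas hm
  have hX2 : ENNReal.ofReal (R.q Q) * R.νQ Q ≤ ENNReal.ofReal (2 * K) * R.prior F := by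
    calc ENNReal.ofReal (R.q Q) * R.νQ Q ≤ ENNReal.ofReal K * R.prior Cn := h.mass
      _ ≤ ENNReal.ofReal K * (2 * R.prior F) := mul_le_mul_right hF2 _
      _ = ENNReal.ofReal (2 * K) * R.prior F := by
          rw [ENNReal.ofReal_mul (by norm_num), ENNReal.ofReal_ofNat, ← mul_assoc, mul_comm (ENNReal.ofReal K)]
  have hF0 : R.prior F ≠ 0 := by
    intro h0
    rw [h0, mul_zero] at hX2
    exact hX0 (le_antisymm hX2 zero_le)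
  have hFsub : F ⊆ R.Ev0 ∩ R.inc Q := fun x hx => ⟨hE (h.sub (hFC hx)).1, (h.sub (hFC hx)).2⟩
  obtain ⟨Q', hd', -, hν', hh⟩ := k7h_heavy_in hR Q mF hFsub hF0 hs hsQ
  have hY : ENNReal.ofReal (R.q Q') * R.νQ Q' ≤ ENNReal.ofReal (2 * K) * R.prior (F ∩ R.inc Q') := by
    refine (ENNReal.mul_le_mul_iff_right hX0 hXt).1 ?_
    calc ENNReal.ofReal (R.q Q) * R.νQ Q * (ENNReal.ofReal (R.q Q') * R.νQ Q')
        ≤ ENNReal.ofReal (2 * K) * R.prior F * (ENNReal.ofReal (R.q Q') * R.νQ Q') := mul_le_mul_left hX2 _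
      _ = ENNReal.ofReal (2 * K) * (ENNReal.ofReal (R.q Q') * R.νQ Q' * R.prior F) := by ring
      _ ≤ ENNReal.ofReal (2 * K) * (ENNReal.ofReal (R.q Q) * R.νQ Q * R.prior (F ∩ R.inc Q')) := mul_le_mul_right hh _
      _ = _ := by ring
  obtain ⟨p, hp, p', hp', hpp⟩ := k7h_time_ext hR (by linarith : (1 : ℝ) ≤ 2 * K) Q' hν' Set.inter_subset_right hY
  exact ⟨F, Q', hFC, hsep F mF hFc, hd', p, hp, p', hp', hpp⟩

/-- the analytic part of CORE C1, with abstract constants -/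
theorem k7h_mu_core {A : R.Par} {E : Set (R.L × ℝ)} {Ds : Finset ℝ} {ξ K ε : ℝ} {Q : R.Lab} {ρ0 ρ1 μ : ℝ} {Cn : Set (R.L × ℝ)} {s' K₃ K₄ B Cc : ℝ}
    (hR : R.Ok K) (hT : R.Tilt K) (mE : MeasurableSet E) (hE : E ⊆ R.Ev0) (h : K7hFit R A E Ds ξ K ε Q ρ0 ρ1 μ Cn) (hDs : Ds ⊆ R.depths) (hs' : 0 ≤ s')
    (hsD : R.dep Q + s' ∈ Ds) (hξ : 0 < ξ) (hK34 : K₃ ≤ K₄) (hKK4 : K ≤ K₄)
    (hsep : ∀ F : Set (R.L × ℝ), MeasurableSet F → K7hCond R A F (2 * K ^ 2) Ds (R.dep Q) ξ → K7hSep R F K₃ Ds (R.dep Q) ξ) (hB0 : 0 ≤ B)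
    (hrl : ∀ (Q' : R.Lab) (p₁ p₂ : R.L × ℝ), R.Ok K₄ → R.Tilt K₄ → p₁ ∈ R.inc Q' → p₂ ∈ R.inc Q' →
      (∀ p ∈ ({p₁, p₂} : Set (R.L × ℝ)), |ksY (R.V p.1) - (ρ0 + ρ1 * ksZ (R.V p.1) + μ * (ksZ (R.y p.1 (R.t0 Q)) - k7hZc R Q))| ≤ ε) →
      1 ≤ K₄ * |ksZ (R.V p₁.1) - ksZ (R.V p₂.1)| → |p₁.2 - p₂.2| ≤ R.q Q * ξ → |ksZ (R.y p₁.1 p₁.2) - ksZ (R.y p₂.1 p₂.2)| ≤ R.q Q * ξ →
      |R.row Q' 0 - (ρ0 + μ * (ksZ (R.y p₁.1 p₁.2) - k7hZc R Q))| ≤ B * (R.g Q' + ε + |μ| * (R.q Q * ξ)) ∧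
      |R.row Q' 1 - (ρ1 - μ * (p₁.2 - R.t0 Q))| ≤ B * (R.g Q' + ε + |μ| * (R.q Q * ξ)))
    (hBC : 32 * K ^ 3 * B ≤ Cc) (hξa : Cc * ξ ≤ R.a (R.k * s')) :
    |μ| * R.a (R.k * (R.dep Q + s')) ≤ Cc * (R.a (R.ell * (R.dep Q + s')) + ε) := by
  have hK := hR.K_ge
  have hK0 : 0 < K := lt_of_lt_of_le one_pos hK
  have hN0 : 0 < R.N := by linarith [hR.N_ge]
  have hR4 : R.Ok K₄ := ks_ok_mono hR hKK4
  have hT4 : R.Tilt K₄ :=
    ⟨hT.ell_pos, hT.tri, fun Q => (hT.full Q).trans (mul_le_mul_of_nonneg_right hKK4 (abs_nonneg _)), fun Q => (hT.cen Q).trans hKK4⟩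
  obtain ⟨F, Q', hFC, hFs, hd', p, hp, pt, hpt, hpp⟩ := k7h_mu_sel hR mE hE h (hDs hsD) (by linarith) hsep
  have hsD' : R.dep Q' ∈ Ds := by rw [hd']; exact hsD
  have hsub : ∀ x ∈ F, x ∈ R.Ev0 ∩ R.inc Q := fun x hx => ⟨hE (h.sub (hFC hx)).1, (h.sub (hFC hx)).2⟩
  obtain ⟨M, hM⟩ : ∃ M : ℝ, M = B * (R.g Q' + ε + |μ| * (R.q Q * ξ)) := ⟨_, rfl⟩
  have hrow : ∀ x ∈ F ∩ R.inc Q', |R.row Q' 1 - (ρ1 - μ * (x.2 - R.t0 Q))| ≤ M := by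
    intro x hx
    obtain ⟨x', hx', hdx, hvx⟩ := hFs x hx.1
    obtain ⟨a1, a2, a3⟩ := k7h_mu_pair hR hξ Q Q' hDs hsD' (hsub x hx.1) (hsub x' hx') hx.2 hdx
    rw [hM]
    refine (hrl Q' x x' hR4 hT4 hx.2 a1 ?_ ?_ a2 a3).2
    · intro y hy
      rcases hy with hy | hy
      · rw [hy]; exact h.fit x (hFC hx.1)
      · rw [Set.mem_singleton_iff] at hy
        rw [hy]; exact h.fit x' (hFC hx')
    · exact hvx.trans (mul_le_mul_of_nonneg_right hK34 (abs_nonneg _))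
  have r1 := hrow p hp
  have r2 := hrow pt hpt
  have hμt : |μ| * |p.2 - pt.2| ≤ 2 * M := by
    rw [← abs_mul]
    have e1 : μ * (p.2 - pt.2) = (R.row Q' 1 - (ρ1 - μ * (p.2 - R.t0 Q))) - (R.row Q' 1 - (ρ1 - μ * (pt.2 - R.t0 Q))) := by ring
    rw [e1]
    calc _ ≤ |R.row Q' 1 - (ρ1 - μ * (p.2 - R.t0 Q))| + |R.row Q' 1 - (ρ1 - μ * (pt.2 - R.t0 Q))| := abs_sub _ _
      _ ≤ 2 * M := by linarith
  have hq' := ksl8_q_pos R Q'
  have hq := ksl8_q_pos R Q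
  have hμ0 := abs_nonneg μ
  have hμq : |μ| * R.q Q' ≤ 8 * K * M := by
    calc |μ| * R.q Q' ≤ |μ| * (2 * (2 * K) * |p.2 - pt.2|) := mul_le_mul_of_nonneg_left hpp hμ0
      _ = 4 * K * (|μ| * |p.2 - pt.2|) := by ring
      _ ≤ 4 * K * (2 * M) := mul_le_mul_of_nonneg_left hμt (by positivity)
      _ = 8 * K * M := by ring
  have hak : R.a (R.k * (R.dep Q + s')) = R.a (R.k * R.dep Q) * R.a (R.k * s') := by
    unfold KsRef.a
    rw [← Real.rpow_add hN0]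
    congr 1
    ring
  have hqlo : R.a (R.k * (R.dep Q + s')) ≤ K * R.q Q' := by
    have := hR.q_lo Q'
    rwa [hd'] at this
  have ha1 : 0 < R.a (R.k * R.dep Q) := ksl8_a_pos hR _
  have hCc0 : 0 ≤ Cc := le_trans (by positivity) hBC
  have hmesh : Cc * (R.q Q * ξ) ≤ K ^ 2 * R.q Q' := by
    calc Cc * (R.q Q * ξ) = R.q Q * (Cc * ξ) := by ring
      _ ≤ (K * R.a (R.k * R.dep Q)) * R.a (R.k * s') := mul_le_mul (hR.q_hi Q) hξa (by positivity) (by positivity)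
      _ = K * R.a (R.k * (R.dep Q + s')) := by rw [hak]; ring
      _ ≤ K * (K * R.q Q') := mul_le_mul_of_nonneg_left hqlo hK0.le
      _ = K ^ 2 * R.q Q' := by ring
  have hmesh2 : 16 * K * B * (R.q Q * ξ) ≤ R.q Q' := by
    have e0 : 0 ≤ R.q Q * ξ := by positivity
    have e1 : 32 * K ^ 3 * B * (R.q Q * ξ) ≤ K ^ 2 * R.q Q' := (mul_le_mul_of_nonneg_right hBC e0).trans hmesh
    have e2 : K ^ 2 * (16 * K * B * (R.q Q * ξ)) ≤ K ^ 2 * R.q Q' := by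
      have : 0 ≤ K ^ 3 * B * (R.q Q * ξ) := by positivity
      nlinarith
    exact le_of_mul_le_mul_left e2 (by positivity)
  have hfin : |μ| * R.q Q' ≤ 16 * K * B * (R.g Q' + ε) := by
    rw [hM] at hμq
    have e1 : |μ| * (16 * K * B * (R.q Q * ξ)) ≤ |μ| * R.q Q' := mul_le_mul_of_nonneg_left hmesh2 hμ0
    nlinarith
  have hε : 0 ≤ ε := (abs_nonneg _).trans (h.fit p (hFC hp.1))
  have hg' : R.g Q' = R.a (R.ell * (R.dep Q + s')) := by unfold KsRef.g; rw [hd']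
  have hg0 : 0 < R.g Q' := ksl8_a_pos hR _
  rw [← hg']
  calc |μ| * R.a (R.k * (R.dep Q + s')) ≤ |μ| * (K * R.q Q') := mul_le_mul_of_nonneg_left hqlo hμ0
    _ = K * (|μ| * R.q Q') := by ring
    _ ≤ K * (16 * K * B * (R.g Q' + ε)) := mul_le_mul_of_nonneg_left hfin hK0.le
    _ = 16 * K ^ 2 * B * (R.g Q' + ε) := by ring
    _ ≤ Cc * (R.g Q' + ε) := by
        refine mul_le_mul_of_nonneg_right ?_ (by positivity)
        refine le_trans ?_ hBC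
        have : 0 ≤ K ^ 2 * B := by positivity
        nlinarith

/-- **CORE C1** (leaf L-252-S7h-C3): `|μ| h_{r+s'} ≤ C K^C (g_{r+s'} + ε)` (07 l.1014-1035).
PLAN: `k7h_cond` for `(E ∩ inc Q, Cn)` (`prior (E ∩ inc Q) ≤ q ν_Q ≤ K prior Cn`), `k7h_sep` : `F`; `k7h_heavy_in` : `Q'` with `q' ν' ≤ 2K prior (F ∩ inc Q')`; `k7h_time_ext` : `p, p̃`; their partners have the same label of depth `r + s' ∈ Ds`
(`= Q'`) and the same normalised cell (`|t - t'|, |Z - Z'| ≤ q ξ`); `k7h_child_row` twice: `|μ| |t - t̃| ≤ 2 C K^C (g' + ε + |μ| q ξ)`; absorb `|μ| q ξ` by `hξ`; `q_lo`. -/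
theorem k7h_mu_le (S0 : ℝ) (hS0 : 0 < S0) : ∃ C : ℕ, ∀ (R : KsRef KbVer.two) (A : R.Par) (E : Set (R.L × ℝ)) (Ds : Finset ℝ) (ξ K ε : ℝ) (Q : R.Lab) (ρ0 ρ1 μ : ℝ) (Cn : Set (R.L × ℝ)) (s' : ℝ),
    R.S = S0 → R.Ok K → R.Tilt K → R.One A → MeasurableSet E → E ⊆ R.Ev0 → K7hFit R A E Ds ξ K ε Q ρ0 ρ1 μ Cn → Ds ⊆ R.depths → 0 ≤ s' → R.dep Q + s' ∈ Ds → 0 < ξ →
    (C : ℝ) * K ^ C * ξ ≤ R.a (R.k * s') → (C : ℝ) * K ^ C * R.χ ≤ 1 →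
    |μ| * R.a (R.k * (R.dep Q + s')) ≤ (C : ℝ) * K ^ C * (R.a (R.ell * (R.dep Q + s')) + ε) := by
  obtain ⟨C1, hC1⟩ := k7h_sep S0 hS0
  obtain ⟨C2, hC2⟩ := k7h_child_row
  obtain ⟨c1, hc1⟩ : ∃ c1 : ℕ, c1 = C1 * 2 ^ C1 + 1 := ⟨_, rfl⟩
  obtain ⟨C, hC⟩ : ∃ C : ℕ, C = 32 * C2 * c1 ^ C2 + (3 + (2 * C1 + 1) * C2) + c1 + (2 * C1 + 1) := ⟨_, rfl⟩
  refine ⟨C, ?_⟩
  intro R A E Ds ξ K ε Q ρ0 ρ1 μ Cn s' hS hR hT _ mE hE h hDs hs' hsD hξ hξa hχ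
  have hK := hR.K_ge
  have hK0 : 0 < K := lt_of_lt_of_le one_pos hK
  obtain ⟨K₃, hK₃⟩ : ∃ K₃ : ℝ, K₃ = (C1 : ℝ) * (2 * K ^ 2) ^ C1 := ⟨_, rfl⟩
  obtain ⟨K₄, hK₄⟩ : ∃ K₄ : ℝ, K₄ = (c1 : ℝ) * K ^ (2 * C1 + 1) := ⟨_, rfl⟩
  have hK34 : K₃ ≤ K₄ := by
    rw [hK₃, hK₄, mul_pow, ← pow_mul, ← mul_assoc]
    have e1 : (C1 : ℝ) * 2 ^ C1 ≤ (c1 : ℝ) := by rw [hc1]; push_cast; linarith
    exact mul_le_mul e1 (pow_le_pow_right₀ hK (by omega)) (by positivity) (by positivity)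
  have hKK4 : K ≤ K₄ := by
    rw [hK₄]
    have e1 : (1 : ℝ) ≤ (c1 : ℝ) := by rw [hc1]; push_cast; nlinarith [show (0 : ℝ) ≤ (C1 : ℝ) * 2 ^ C1 by positivity]
    calc K = 1 * K ^ 1 := by ring
      _ ≤ (c1 : ℝ) * K ^ (2 * C1 + 1) := mul_le_mul e1 (pow_le_pow_right₀ hK (by omega)) (by positivity) (by positivity)
  have hc1C : c1 ≤ C := by rw [hC]; omega
  have he1C : 2 * C1 + 1 ≤ C := by rw [hC]; omega
  have hK4C : K₄ ≤ (C : ℝ) * K ^ C := by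
    rw [hK₄]
    exact k7h_mu_poly hK hc1C he1C
  have hsep : ∀ F : Set (R.L × ℝ), MeasurableSet F → K7hCond R A F (2 * K ^ 2) Ds (R.dep Q) ξ → K7hSep R F K₃ Ds (R.dep Q) ξ := by
    intro F mF hF
    rw [hK₃]
    refine hC1 R A (2 * K ^ 2) F Ds (R.dep Q) ξ hS hT.ell_pos (ks_ok_mono hR (by nlinarith)) mF hF ?_
    rw [← hK₃]
    exact (mul_le_mul_of_nonneg_right (hK34.trans hK4C) hR.χ_pos.le).trans hχ
  have hA2 : 32 * C2 * c1 ^ C2 ≤ C := by rw [hC]; omega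
  have he2 : 3 + (2 * C1 + 1) * C2 ≤ C := by rw [hC]; omega
  have hBC : 32 * K ^ 3 * ((C2 : ℝ) * K₄ ^ C2) ≤ (C : ℝ) * K ^ C := by
    have e1 : 32 * K ^ 3 * ((C2 : ℝ) * K₄ ^ C2) = ((32 * C2 * c1 ^ C2 : ℕ) : ℝ) * K ^ (3 + (2 * C1 + 1) * C2) := by
      rw [hK₄, mul_pow, ← pow_mul, pow_add]
      push_cast
      ring
    rw [e1]
    exact k7h_mu_poly hK hA2 he2
  have hK40 : 0 ≤ K₄ := hK0.le.trans hKK4
  have hB0 : 0 ≤ (C2 : ℝ) * K₄ ^ C2 := by positivity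
  exact k7h_mu_core hR hT mE hE h hDs hs' hsD hξ hK34 hKK4 hsep hB0 (hC2 R K₄ ε (R.q Q * ξ) (R.t0 Q) (k7hZc R Q) ρ0 ρ1 μ) hBC hξa

/-- **CORE C2** (leaf L-252-S7h-C4): strip candidate at a heavy child (07 l.1035-1041).   `k7h_heavy_in` for `Cn`; on `Cn ∩ inc Q'` replace `(t, Z(t))` by the centre `(t_{Q'}, Z_{Q'})` : error `3 K² |μ| q'`;
`ρ' = (ρ0 + μ (Z_{Q'} - Z_Q), ρ1 - μ (t_{Q'} - t_Q))`. -/
theorem k7h_child_strip : ∃ C : ℕ, ∀ (R : KsRef KbVer.two) (A : R.Par) (E : Set (R.L × ℝ)) (Ds : Finset ℝ) (ξ K ε : ℝ) (Q : R.Lab) (ρ0 ρ1 μ : ℝ) (Cn : Set (R.L × ℝ)) (s' c : ℝ),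
    R.Ok K → R.Tilt K → E ⊆ R.Ev0 → K7hFit R A E Ds ξ K ε Q ρ0 ρ1 μ Cn → 0 ≤ s' → R.dep Q + s' ∈ R.depths →
    ε ≤ K * R.a (R.ell * (R.dep Q + s') + c) → |μ| * R.a (R.k * (R.dep Q + s')) ≤ K * R.a (R.ell * (R.dep Q + s') + c) →
    ∃ (Q' : R.Lab) (ρ : Fin 2 → ℝ) (Cn' : Set (R.L × ℝ)), R.dep Q' = R.dep Q + s' ∧ KsStripCand R E ((C : ℝ) * K ^ C) c Q' ρ Cn' := by
  refine ⟨4, ?_⟩
  intro R A E Ds ξ K ε Q ρ0 ρ1 μ Cn s' c hR hT hE hF hs' hdep hε hμ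
  have hK := hR.K_ge
  have hK0 : 0 < K := by linarith
  have hq : 0 < R.q Q := ksl8_q_pos R Q
  obtain ⟨hinc, -, hνt, -, -⟩ := k7h_inc_mass hR Q
  have hsub : Cn ⊆ R.Ev0 ∩ R.inc Q := fun p hp => ⟨hE (hF.sub hp).1, (hF.sub hp).2⟩
  have hqν0 : ENNReal.ofReal (R.q Q) * R.νQ Q ≠ 0 := mul_ne_zero (ENNReal.ofReal_pos.2 hq).ne' hF.pos
  have h0 : R.prior Cn ≠ 0 := by
    intro h0
    have := hF.mass
    rw [h0, mul_zero] at this
    exact hqν0 (le_antisymm this zero_le)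
  have ht : R.prior Cn ≠ ⊤ := by
    refine ne_top_of_le_ne_top ?_ (measure_mono (fun p hp => (hF.sub hp).2 : Cn ⊆ R.inc Q))
    rw [hinc]
    exact ENNReal.mul_ne_top ENNReal.ofReal_ne_top hνt
  obtain ⟨Q', hd', -, hν', hm'⟩ := k7h_heavy_in hR Q hF.meas hsub h0 hdep (by linarith)
  obtain ⟨-, -, -, hmi', -⟩ := k7h_inc_mass hR Q'
  have hq' : 0 < R.q Q' := ksl8_q_pos R Q'
  have ha : 0 < R.a (R.ell * (R.dep Q + s') + c) := ksl8_a_pos hR _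
  have hK4 : K ≤ K ^ 4 := le_self_pow₀ hK (by norm_num)
  refine ⟨Q', ![ρ0 + μ * (k7hZc R Q' - k7hZc R Q), ρ1 - μ * (R.t0 Q' - R.t0 Q)], Cn ∩ R.inc Q', hd', hν', hF.meas.inter hmi',
    fun p hp => ⟨(hF.sub hp.1).1, hp.2⟩, ?_, ?_⟩
  · intro p hp
    have h1 := hF.fit p hp.1
    have hl : p.1 ∈ R.asg Q' := hp.2.1
    have m1 : R.t0 Q' ∈ R.blk Q' := by
      refine ⟨le_refl _, ?_⟩
      show (R.iv Q' : ℝ) * R.q Q' < ((R.iv Q' : ℝ) + 1) * R.q Q'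
      nlinarith
    have h2 := ((ks_tilt_box hR hT Q' p.1 hl).1 _ m1).1
    have y2 : ∀ s, ksZ (R.y p.1 s) = ksZ (R.co p.1).1 + s * ksZ (R.V p.1) := fun _ => rfl
    have e0 : (![ρ0 + μ * (k7hZc R Q' - k7hZc R Q), ρ1 - μ * (R.t0 Q' - R.t0 Q)] : Fin 2 → ℝ) 0 = ρ0 + μ * (k7hZc R Q' - k7hZc R Q) := rfl
    have e1 : (![ρ0 + μ * (k7hZc R Q' - k7hZc R Q), ρ1 - μ * (R.t0 Q' - R.t0 Q)] : Fin 2 → ℝ) 1 = ρ1 - μ * (R.t0 Q' - R.t0 Q) := rfl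
    rw [e0, e1, hd']
    have e : ksY (R.V p.1) - (ρ0 + μ * (k7hZc R Q' - k7hZc R Q) + (ρ1 - μ * (R.t0 Q' - R.t0 Q)) * ksZ (R.V p.1))
        = (ksY (R.V p.1) - (ρ0 + ρ1 * ksZ (R.V p.1) + μ * (ksZ (R.y p.1 (R.t0 Q)) - k7hZc R Q)))
          + μ * (ksZ (R.y p.1 (R.t0 Q')) - k7hZc R Q') := by
      rw [y2, y2]
      ring
    rw [e]
    have h3 : |μ * (ksZ (R.y p.1 (R.t0 Q')) - k7hZc R Q')| ≤ K ^ 4 * R.a (R.ell * (R.dep Q + s') + c) := by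
      rw [abs_mul]
      have h4 : R.q Q' ≤ K * R.a (R.k * (R.dep Q + s')) := by
        have := hR.q_hi Q'
        rwa [hd'] at this
      calc |μ| * |ksZ (R.y p.1 (R.t0 Q')) - k7hZc R Q'| ≤ |μ| * (K ^ 2 * R.q Q') := by
            gcongr
            exact h2
        _ ≤ |μ| * (K ^ 2 * (K * R.a (R.k * (R.dep Q + s')))) := by gcongr
        _ = K ^ 3 * (|μ| * R.a (R.k * (R.dep Q + s'))) := by ring
        _ ≤ K ^ 3 * (K * R.a (R.ell * (R.dep Q + s') + c)) := by gcongr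
        _ = K ^ 4 * R.a (R.ell * (R.dep Q + s') + c) := by ring
    calc |_ + _| ≤ _ := abs_add_le _ _
      _ ≤ K * R.a (R.ell * (R.dep Q + s') + c) + K ^ 4 * R.a (R.ell * (R.dep Q + s') + c) := add_le_add (h1.trans hε) h3
      _ ≤ ((4 : ℕ) : ℝ) * K ^ 4 * R.a (R.ell * (R.dep Q + s') + c) := by
          push_cast
          nlinarith
  · have h5 : ENNReal.ofReal (R.q Q') * R.νQ Q' * R.prior Cn ≤ ENNReal.ofReal K * R.prior (Cn ∩ R.inc Q') * R.prior Cn := by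
      calc ENNReal.ofReal (R.q Q') * R.νQ Q' * R.prior Cn ≤ ENNReal.ofReal (R.q Q) * R.νQ Q * R.prior (Cn ∩ R.inc Q') := hm'
        _ ≤ ENNReal.ofReal K * R.prior Cn * R.prior (Cn ∩ R.inc Q') := mul_le_mul_left hF.mass _
        _ = _ := by ring
    have h6 := (ENNReal.mul_le_mul_iff_left h0 ht).1 h5
    refine h6.trans ?_
    gcongr
    push_cast
    nlinarith

end coreBC

end

end Claimed.Agent.R252
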