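-- KEEP
import Claimed.Agent.R252.S7b.S1FitContract

/-!
# Row 252, Sec. 7.4, `prop:horizontal-model` (07 l.927-1075), unit S7b-S1 (sub-architect helper77; prefix `k7h_` / `K7h`), file 5: CORE D (the horizontal model) AND THE CORES IN THE `τ`-LANGUAGE.
CONTRACT file: the `sorry`s are the leaves L-252-S7h-*.   Overview, definitions and conventions: header of `S7b/S1NormContract.lean`.   Prove IN PLACE (splice only your theorem, helper lemmas directly above it).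
-/

set_option autoImplicit false

namespace Claimed.Agent.R252

open MeasureTheory
open scoped ENNReal BigOperators

noncomputable section

/-! ## 5. CORE D : the horizontal model (`k = ℓ`, `|λ| ≥ 1/K`) -/

section coreD

/-- the normalised base point: `τ = (t - t_Q)/q`, `Ẑ = (Z - Z_Q)/q`, `Ŷ = κ (Y - Y_Q(t_Q, Z_Q) - ρ0 (t - t_Q) - ρ1 (Z - Z_Q))`, `κ = -1/(μ q²)` -/
def k7hNb (R : KsRef KbVer.two) (Q : R.Lab) (ρ0 ρ1 μ : ℝ) (u : ℝ × KbB KbVer.two) : ℝ × ℝ × ℝ :=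
  ((u.1 - R.t0 Q) / R.q Q, (ksZ u.2 - k7hZc R Q) / R.q Q,
    -1 / (μ * R.q Q ^ 2) * (ksY u.2 - (R.YQ Q (R.t0 Q) (k7hZc R Q) - ρ0 * R.t0 Q - ρ1 * k7hZc R Q + ρ0 * u.1 + ρ1 * ksZ u.2)))

open Classical in
/-- the occupied centre of a used child: the normalised base point of a chosen incidence of `F` with this true label -/
def k7hCtr (R : KsRef KbVer.two) (Q : R.Lab) (ρ0 ρ1 μ : ℝ) (F : Set (R.L × ℝ)) (Q' : R.Lab) : ℝ × ℝ × ℝ :=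
  if h : ∃ p ∈ F, R.labAt (R.dep Q') p = Q' then k7hNb R Q ρ0 ρ1 μ (R.base h.choose) else (0, 0, 0)

/-- **the explicit free data of the horizontal model** -/
def k7hX (R : KsRef KbVer.two) (A : R.Par) (E : Set (R.L × ℝ)) (Ds : Finset ℝ) (Q : R.Lab) (ρ0 ρ1 μ : ℝ) (F : Set (R.L × ℝ)) : K7bDat R where
  Qr := Q
  Z0 := k7hZc R Q
  κ := -1 / (μ * R.q Q ^ 2)
  y0 := R.YQ Q (R.t0 Q) (k7hZc R Q) - ρ0 * R.t0 Q - ρ1 * k7hZc R Q
  y1 := ρ0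
  y2 := ρ1
  L := 0
  Sp := F
  pal := k7hPal R A
  Eh := R.Hist × ({s // s ∈ Ds} → R.Lab)
  fE := Fintype.ofFinite _
  eh := k7hEh R Ds
  Ref := fun e => (ENNReal.ofReal (R.q Q) * R.νQ Q)⁻¹ * R.prior (E ∩ R.inc Q ∩ k7hEh R Ds ⁻¹' {e})
  ct := fun Q' => (k7hCtr R Q ρ0 ρ1 μ F Q').1
  cZ := fun Q' => (k7hCtr R Q ρ0 ρ1 μ F Q').2.1
  cY := fun Q' => (k7hCtr R Q ρ0 ρ1 μ F Q').2.2
  ent := fun _ => ∅
  entOf := fun _ _ => 0

/-- **the hypotheses of CORE D**, one slack `K` -/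
structure K7hIn (R : KsRef KbVer.two) (A : R.Par) (E : Set (R.L × ℝ)) (Ds : Finset ℝ) (ξ K ε : ℝ) (Q : R.Lab) (ρ0 ρ1 μ : ℝ) (Cn F : Set (R.L × ℝ)) (G' : Finset ℝ) : Prop where
  ok : R.Ok K
  tilt : R.Tilt K
  one : R.One A
  kl : R.k = R.ell
  mE : MeasurableSet E
  hE : E ⊆ R.Ev0
  fit : K7hFit R A E Ds ξ K ε Q ρ0 ρ1 μ Cn
  /-- `|λ| ≥ 1/K` -/
  lam : R.g Q ≤ K * (|μ| * R.q Q)
  hDs : Ds ⊆ R.depths
  hG : ∀ s ∈ G', 0 ≤ s ∧ R.dep Q + s ∈ Ds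
  /-- `E = ε / g_r ≤ K h_s`, `ξ ≤ h_s` at the prepared relative depths -/
  eps : ∀ s ∈ G', ε ≤ K * (R.g Q * R.a (R.k * s))
  ξ_pos : 0 < ξ
  xi : ∀ s ∈ G', ξ ≤ R.a (R.k * s)
  mF : MeasurableSet F
  hF : F ⊆ Cn
  sep : K7hSep R F K Ds (R.dep Q) ξ

theorem k7h_model_eqns_cite : True := by
  have := @k7hNb.eq_1
  have := @k7hCtr.eq_1
  have := @k7hX.eq_1
  trivial

variable {R : KsRef KbVer.two} {A : R.Par} {E : Set (R.L × ℝ)} {Ds : Finset ℝ} {ξ K ε : ℝ} {Q : R.Lab} {ρ0 ρ1 μ : ℝ} {Cn F : Set (R.L × ℝ)} {G' : Finset ℝ}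

/-- aux of L-252-S7h-D0: the coordinates of a trajectory are affine in time -/
theorem k7h_D0_Z (R : KsRef KbVer.two) (l : R.L) (s : ℝ) : ksZ (R.y l s) = ksZ (R.co l).1 + s * ksZ (R.V l) := rfl

theorem k7h_D0_Y (R : KsRef KbVer.two) (l : R.L) (s : ℝ) : ksY (R.y l s) = ksY (R.co l).1 + s * ksY (R.V l) := rfl

/-- **L-252-S7h-D0** the coordinates of the record: base point, horizontal defect -/
theorem k7h_X_coord (R : KsRef KbVer.two) (A : R.Par) (E : Set (R.L × ℝ)) (Ds : Finset ℝ) (Q : R.Lab) (ρ0 ρ1 μ : ℝ) (F : Set (R.L × ℝ)) (hμ : μ ≠ 0) (l : R.L) (τ : ℝ) :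
    (k7hX R A E Ds Q ρ0 ρ1 μ F).hor.bs l τ = k7hNb R Q ρ0 ρ1 μ (R.base (k7hInc R Q (l, τ))) ∧
    (k7hX R A E Ds Q ρ0 ρ1 μ F).hor.p l = k7hZ0 R Q l ∧ (k7hX R A E Ds Q ρ0 ρ1 μ F).hor.v l = k7hVel R l ∧
    (k7hX R A E Ds Q ρ0 ρ1 μ F).hor.y1 l + (k7hX R A E Ds Q ρ0 ρ1 μ F).hor.p l
      = -(ksY (R.V l) - (ρ0 + ρ1 * ksZ (R.V l) + μ * (ksZ (R.y l (R.t0 Q)) - k7hZc R Q))) / (μ * R.q Q) := by
  have hq : R.q Q ≠ 0 := ksl_q_ne Q
  refine ⟨?_, ?_, rfl, ?_⟩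
  · have e1 : R.base (k7hInc R Q (l, τ)) = (R.t0 Q + R.q Q * τ, R.y l (R.t0 Q + R.q Q * τ)) := rfl
    rw [e1]
    simp only [K7bHor.bs, K7bHor.Zt, K7bHor.Yt, K7bDat.hor, K7bDat.nbs, K7bDat.nb, K7bDat.tOf, K7bDat.t0, K7bDat.q, k7hX, k7hNb,
      k7h_D0_Z, k7h_D0_Y]
    refine Prod.ext ?_ (Prod.ext ?_ ?_)
    · simp only
      field_simp
      ring
    · simp only
      field_simp
      ring
    · simp only
      ring
  · simp only [K7bDat.hor, K7bDat.nbs, K7bDat.nb, K7bDat.tOf, K7bDat.t0, K7bDat.q, k7hX, k7hZ0, mul_zero, add_zero]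
  · simp only [K7bDat.hor, K7bDat.nbs, K7bDat.nb, K7bDat.tOf, K7bDat.t0, K7bDat.q, k7hX, k7h_D0_Z, k7h_D0_Y]
    field_simp
    ring

/-- aux of L-252-S7h-D1: measurability of the coordinates -/
theorem k7h_D1_coord {R : KsRef KbVer.two} {K : ℝ} (hR : R.Ok K) :
    (Measurable fun l : R.L => ksZ (R.V l)) ∧ (Measurable fun l : R.L => ksY (R.V l)) ∧
      (∀ t, Measurable fun l : R.L => ksZ (R.y l t)) ∧ ∀ t, Measurable fun l : R.L => ksY (R.y l t) := by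
  have hco := hR.m_co
  have m1 : Measurable fun l : R.L => (R.co l).1 := measurable_fst.comp hco
  have m2 : Measurable fun l : R.L => R.V l := (measurable_fst.comp measurable_snd).comp hco
  have z1 : Measurable fun l : R.L => ksZ (R.co l).1 := (measurable_pi_apply (0 : Fin 2)).comp m1
  have y1 : Measurable fun l : R.L => ksY (R.co l).1 := (measurable_pi_apply (1 : Fin 2)).comp m1
  have z2 : Measurable fun l : R.L => ksZ (R.V l) := (measurable_pi_apply (0 : Fin 2)).comp m2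
  have y2 : Measurable fun l : R.L => ksY (R.V l) := (measurable_pi_apply (1 : Fin 2)).comp m2
  refine ⟨z2, y2, fun t => ?_, fun t => ?_⟩
  · simp only [k7h_D0_Z]
    exact z1.add (z2.const_mul t)
  · simp only [k7h_D0_Y]
    exact y1.add (y2.const_mul t)

theorem k7h_D1_nbs {R : KsRef KbVer.two} {K : ℝ} (hR : R.Ok K) (X : K7bDat R) (τ : ℝ) : Measurable fun l : R.L => X.nbs l τ := by
  obtain ⟨-, -, mZ, mY⟩ := k7h_D1_coord hR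
  unfold K7bDat.nbs K7bDat.nb
  dsimp only
  refine measurable_const.prodMk ((((mZ _).sub_const _).div_const _).prodMk ?_)
  exact ((mY _).sub (((mZ _).const_mul _).const_add _)).const_mul _

/-- aux of L-252-S7h-D*: what an admitted incidence knows -/
theorem k7h_D_mem (h : K7hIn R A E Ds ξ K ε Q ρ0 ρ1 μ Cn F G') {z : R.L × ℝ} (hz : k7hInc R Q z ∈ F) :
    k7hInc R Q z ∈ Cn ∧ k7hInc R Q z ∈ E ∧ k7hInc R Q z ∈ R.Ev0 ∧ k7hInc R Q z ∈ R.inc Q ∧ z.1 ∈ R.asg Q ∧ z.2 ∈ Set.Ico (0 : ℝ) 1 := by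
  have h1 := h.hF hz
  have h2 := h.fit.sub h1
  refine ⟨h1, h2.1, h.hE h2.1, h2.2, h2.2.1, ?_⟩
  have h3 : R.t0 Q + R.q Q * z.2 ∈ Set.Ico ((R.iv Q : ℝ) * kbQ (R.lev Q)) (((R.iv Q : ℝ) + 1) * kbQ (R.lev Q)) := h2.2.2
  have hq : 0 < kbQ (R.lev Q) := ksl_kbQ_pos _
  simp only [KsRef.t0, KsRef.q, Set.mem_Ico] at h3
  constructor
  · have : 0 ≤ kbQ (R.lev Q) * z.2 := by linarith [h3.1]
    exact nonneg_of_mul_nonneg_right this hq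
  · have : kbQ (R.lev Q) * z.2 < kbQ (R.lev Q) * 1 := by linarith [h3.2]
    exact lt_of_mul_lt_mul_left this hq.le

/-- aux of L-252-S7h-D*: signs -/
theorem k7h_D_pos (h : K7hIn R A E Ds ξ K ε Q ρ0 ρ1 μ Cn F G') : μ ≠ 0 ∧ 0 < R.g Q ∧ 0 < R.q Q ∧ 1 ≤ K ∧ R.t0 Q ∈ R.blk Q := by
  have hg : 0 < R.g Q := ksl8_a_pos h.ok _
  have hq : 0 < R.q Q := ksl8_q_pos R Q
  refine ⟨?_, hg, hq, h.ok.K_ge, ?_⟩
  · rintro rfl
    have := h.lam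
    simp at this
    linarith
  · show (R.iv Q : ℝ) * kbQ (R.lev Q) ∈ Set.Ico ((R.iv Q : ℝ) * kbQ (R.lev Q)) (((R.iv Q : ℝ) + 1) * kbQ (R.lev Q))
    have : 0 < kbQ (R.lev Q) := ksl_kbQ_pos _
    constructor <;> nlinarith

/-- **L-252-S7h-D1** measurability, laws, time -/
theorem k7h_X_meas (h : K7hIn R A E Ds ξ K ε Q ρ0 ρ1 μ Cn F G') (H : K7bHor) (hH : H = (k7hX R A E Ds Q ρ0 ρ1 μ F).hor) :
    Measurable H.p ∧ Measurable H.v ∧ Measurable H.q0 ∧ Measurable H.y1 ∧ MeasurableSet H.Sp ∧ KsLab H.eh ∧ (∀ s ∈ G', KsLab (H.lab s)) ∧ (∀ q, MeasurableSet (H.asg q)) ∧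
      H.ν Set.univ = 1 ∧ H.pal Set.univ ≤ 1 ∧ (∃ Ev0 : Set (H.Lam × ℝ), MeasurableSet Ev0 ∧ H.lam = (H.ν.prod k7bTime).restrict Ev0) ∧ (∀ z ∈ H.Sp, z.2 ∈ Set.Icc (0 : ℝ) 1) := by
  subst hH
  have hR := h.ok
  have n0 := k7h_D1_nbs hR (k7hX R A E Ds Q ρ0 ρ1 μ F) 0
  have n1 := k7h_D1_nbs hR (k7hX R A E Ds Q ρ0 ρ1 μ F) 1
  have minc : Measurable (k7hInc R Q) := (k7h_inc_mass hR Q).2.2.2.2
  have mSp : MeasurableSet (k7hInc R Q ⁻¹' F) := minc h.mF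
  refine ⟨(measurable_fst.comp measurable_snd).comp n0, (k7h_D1_coord hR).1, (measurable_snd.comp measurable_snd).comp n0,
    ((measurable_snd.comp measurable_snd).comp n1).sub ((measurable_snd.comp measurable_snd).comp n0), mSp, ?_, ?_, hR.m_asg, ?_,
    (k7h_pal_cap hR A).1, ⟨_, mSp, rfl⟩, ?_⟩
  · intro e
    exact minc ((k7h_dat_lab hR Ds 0 1).2.1 e)
  · intro s _ q
    exact minc (ks_labAt_meas hR _ q)
  · exact (k7h_inc_mass hR Q).2.1 h.fit.pos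
  · intro z hz
    have := (k7h_D_mem h (z := z) hz).2.2.2.2.2
    exact ⟨this.1, this.2.le⟩

/-- **L-252-S7h-D2** bounded coordinates and the horizontal equation (07 l.1006-1013): `|y1 + p| ≤ ε / (|μ| q) ≤ K ε / g_r`;
`|q0| ≤ |κ| (K^5 b_r + K g_r K² q) ≤ 2 K^8` (`|κ| ≤ K / (g q)`, `b_r ≤ K q g_r`). -/
theorem k7h_X_bdd : ∃ C : ℕ, ∀ {R : KsRef KbVer.two} {A : R.Par} {E : Set (R.L × ℝ)} {Ds : Finset ℝ} {ξ K ε : ℝ} {Q : R.Lab} {ρ0 ρ1 μ : ℝ} {Cn F : Set (R.L × ℝ)} {G' : Finset ℝ},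
    K7hIn R A E Ds ξ K ε Q ρ0 ρ1 μ Cn F G' → ε ≤ R.g Q → ∀ H : K7bHor, H = (k7hX R A E Ds Q ρ0 ρ1 μ F).hor →
    (∀ z ∈ H.Sp, |H.p z.1| ≤ (C : ℝ) * K ^ C ∧ |H.v z.1| ≤ (C : ℝ) * K ^ C ∧ |H.q0 z.1| ≤ (C : ℝ) * K ^ C ∧ |H.y1 z.1| ≤ (C : ℝ) * K ^ C) ∧
    ∀ z ∈ H.Sp, |H.y1 z.1 + H.p z.1| ≤ K * ε / R.g Q := by
  refine ⟨8, ?_⟩
  intro R A E Ds ξ K ε Q ρ0 ρ1 μ Cn F G' h hεg H hH
  subst hH
  obtain ⟨hμ, hg, hq, hK, ht0⟩ := k7h_D_pos h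
  have hR := h.ok
  have hT := h.tilt
  have hK0 : 0 ≤ K := by linarith
  have hm : 0 < |μ| := abs_pos.2 hμ
  have heq : ∀ z ∈ (k7hX R A E Ds Q ρ0 ρ1 μ F).hor.Sp,
      |(k7hX R A E Ds Q ρ0 ρ1 μ F).hor.y1 z.1 + (k7hX R A E Ds Q ρ0 ρ1 μ F).hor.p z.1| ≤ K * ε / R.g Q := by
    intro z hz
    obtain ⟨zC, -, -, -, -, -⟩ := k7h_D_mem h (z := z) hz
    have hfit := h.fit.fit _ zC
    rw [(k7h_X_coord R A E Ds Q ρ0 ρ1 μ F hμ z.1 0).2.2.2, abs_div, abs_neg, abs_mul, abs_of_pos hq]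
    have hε : 0 ≤ ε := (abs_nonneg _).trans hfit
    calc _ ≤ ε / (|μ| * R.q Q) := by
          gcongr
          exact hfit
      _ ≤ K * ε / R.g Q := by
          rw [div_le_div_iff₀ (by positivity) hg]
          have := mul_le_mul_of_nonneg_left h.lam hε
          nlinarith
  refine ⟨?_, heq⟩
  intro z hz
  obtain ⟨zC, -, -, -, zA, -⟩ := k7h_D_mem h (z := z) hz
  obtain ⟨g1, g2, -, -, -⟩ := k7h_geom hR hT Q z.1 zA
  obtain ⟨-, c2, c3, -⟩ := k7h_X_coord R A E Ds Q ρ0 ρ1 μ F hμ z.1 0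
  have p2 : K ^ 2 ≤ K ^ 8 := pow_le_pow_right₀ hK (by norm_num)
  have p1 : K ≤ K ^ 8 := by
    calc K = K ^ 1 := (pow_one K).symm
      _ ≤ K ^ 8 := pow_le_pow_right₀ hK (by norm_num)
  have p7 : K ^ 7 ≤ K ^ 8 := pow_le_pow_right₀ hK (by norm_num)
  have p4 : K ^ 4 ≤ K ^ 7 := pow_le_pow_right₀ hK (by norm_num)
  have p8 : 0 ≤ K ^ 8 := by positivity
  have hp : |(k7hX R A E Ds Q ρ0 ρ1 μ F).hor.p z.1| ≤ K ^ 2 := by rw [c2]; exact g1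
  push_cast
  refine ⟨by linarith, by rw [c3]; linarith, ?_, ?_⟩
  · -- `q0`
    obtain ⟨tb, -⟩ := ks_tilt_box hR hT Q z.1 zA
    obtain ⟨b1, b2⟩ := tb _ ht0
    have e : (k7hX R A E Ds Q ρ0 ρ1 μ F).hor.q0 z.1 = -1 / (μ * R.q Q ^ 2) *
        ((ksY (R.y z.1 (R.t0 Q)) - R.YQ Q (R.t0 Q) (ksZ (R.y z.1 (R.t0 Q)))) + (R.row Q 1 - ρ1) * (ksZ (R.y z.1 (R.t0 Q)) - ksZ ((R.ch Q).yc (R.t0 Q)))) := by
      have r1 : R.row Q 1 = R.tl Q := rfl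
      rw [r1]
      simp only [K7bDat.hor, K7bDat.nbs, K7bDat.nb, K7bDat.tOf, K7bDat.t0, K7bDat.q, k7hX, KsRef.YQ, k7hZc, mul_zero, add_zero]
      ring
    have hb : R.b Q ≤ K * R.q Q * R.g Q := by
      rw [ksl8_b_eq hR Q]
      exact mul_le_mul_of_nonneg_right (hR.q_lo Q) hg.le
    have hrow : |R.row Q 1 - ρ1| ≤ K * R.g Q := by rw [abs_sub_comm]; exact h.fit.row1
    have n1 : |(R.row Q 1 - ρ1) * (ksZ (R.y z.1 (R.t0 Q)) - ksZ ((R.ch Q).yc (R.t0 Q)))| ≤ (K * R.g Q) * (K ^ 2 * R.q Q) := by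
      rw [abs_mul]
      exact mul_le_mul hrow b1 (abs_nonneg _) (by positivity)
    have n2 : |(ksY (R.y z.1 (R.t0 Q)) - R.YQ Q (R.t0 Q) (ksZ (R.y z.1 (R.t0 Q)))) + (R.row Q 1 - ρ1) * (ksZ (R.y z.1 (R.t0 Q)) - ksZ ((R.ch Q).yc (R.t0 Q)))|
        ≤ (K ^ 6 + K ^ 3) * (R.q Q * R.g Q) := by
      refine (abs_add_le _ _).trans ?_
      have : K ^ 5 * R.b Q ≤ K ^ 5 * (K * R.q Q * R.g Q) := mul_le_mul_of_nonneg_left hb (by positivity)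
      nlinarith
    have n3 : R.q Q * R.g Q ≤ K * (|μ| * R.q Q ^ 2) := by
      have := mul_le_mul_of_nonneg_left h.lam hq.le
      nlinarith
    rw [e, abs_mul, abs_div, abs_neg, abs_one, abs_mul, abs_of_pos (pow_pos hq 2), one_div, inv_mul_le_iff₀ (by positivity)]
    calc _ ≤ (K ^ 6 + K ^ 3) * (R.q Q * R.g Q) := n2
      _ ≤ (K ^ 6 + K ^ 3) * (K * (|μ| * R.q Q ^ 2)) := mul_le_mul_of_nonneg_left n3 (by positivity)
      _ = (|μ| * R.q Q ^ 2) * (K ^ 7 + K ^ 4) := by ring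
      _ ≤ (|μ| * R.q Q ^ 2) * (8 * K ^ 8) := mul_le_mul_of_nonneg_left (by linarith) (by positivity)
  · have h1 := heq z hz
    have h2 : K * ε / R.g Q ≤ K := by
      rw [div_le_iff₀ hg]
      exact mul_le_mul_of_nonneg_left hεg hK0
    have h3 : |(k7hX R A E Ds Q ρ0 ρ1 μ F).hor.y1 z.1| ≤ |(k7hX R A E Ds Q ρ0 ρ1 μ F).hor.y1 z.1 + (k7hX R A E Ds Q ρ0 ρ1 μ F).hor.p z.1|
        + |(k7hX R A E Ds Q ρ0 ρ1 μ F).hor.p z.1| := by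
      have := abs_sub_le ((k7hX R A E Ds Q ρ0 ρ1 μ F).hor.y1 z.1 + (k7hX R A E Ds Q ρ0 ρ1 μ F).hor.p z.1) 0 ((k7hX R A E Ds Q ρ0 ρ1 μ F).hor.p z.1)
      simp only [add_sub_cancel_right, sub_zero, zero_sub, abs_neg] at this
      exact this
    linarith

/-- aux of L-252-S7h-D5: the used children -/
theorem k7h_D5_Qat (R : KsRef KbVer.two) (A : R.Par) (E : Set (R.L × ℝ)) (Ds : Finset ℝ) (Q : R.Lab) (ρ0 ρ1 μ : ℝ) (F : Set (R.L × ℝ)) (s : ℝ)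
    (q : (k7hX R A E Ds Q ρ0 ρ1 μ F).hor.Q) :
    q ∈ (k7hX R A E Ds Q ρ0 ρ1 μ F).hor.Qat s ↔ (R.dep q = R.dep Q + s ∧ R.Desc q Q ∧ ∃ p ∈ F, R.labAt (R.dep Q + s) p = q) := by
  classical
  constructor
  · intro hq
    exact (Finset.mem_filter.1 hq).2
  · intro hq
    exact Finset.mem_filter.2 ⟨Finset.mem_univ _, hq⟩

/-- aux of L-252-S7h-D6: the conditioned prior of a descendant -/
theorem k7h_D6_nu {K : ℝ} (hR : R.Ok K) (A : R.Par) (E : Set (R.L × ℝ)) (Ds : Finset ℝ) (Q : R.Lab) (ρ0 ρ1 μ : ℝ) (F : Set (R.L × ℝ)) (q' : R.Lab)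
    (hsub : R.asg q' ⊆ R.asg Q) : (k7hX R A E Ds Q ρ0 ρ1 μ F).hor.ν (R.asg q') = (R.νQ Q)⁻¹ * R.νQ q' := by
  show ((R.νQ Q)⁻¹ • R.ν.restrict (R.asg Q)) (R.asg q') = _
  rw [Measure.smul_apply, smul_eq_mul, Measure.restrict_apply (hR.m_asg q'), Set.inter_eq_left.2 hsub]
  rfl

/-- aux of L-252-S7h-D3: the ceiling of `F` for the appended end history at a coarse dyadic mesh, tangent coordinates -/
theorem k7h_D3_dom (h : K7hIn R A E Ds ξ K ε Q ρ0 ρ1 μ Cn F G') (m : ℝ) (hm : R.χ ≤ m) (e : R.Hist × ({s // s ∈ Ds} → R.Lab)) (k : ℤ) :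
    R.prior (k7hEh R Ds ⁻¹' {e} ∩ {p : R.L × ℝ | kbBin m (ksZ (R.V p.1)) = k} ∩ F)
      ≤ ENNReal.ofReal K * k7hPal R A (k7bIv (kbDy m) k) * R.prior (E ∩ R.inc Q ∩ k7hEh R Ds ⁻¹' {e}) := by
  have hR := h.ok
  have c0 : KsDom (R.law Cn) (ksPair R.hist (k7hDat R Ds (R.dep Q) ξ)) R.vT (fun _ b => R.pi A b)
      (ksMass (R.law (E ∩ R.inc Q)) (ksPair R.hist (k7hDat R Ds (R.dep Q) ξ))) (ENNReal.ofReal K) := h.fit.ceil
  have c1 := ks_dom_mono c0 (Measure.restrict_mono h.hF le_rfl : R.law F ≤ R.law Cn) (fun _ _ => le_rfl) (fun _ => le_rfl) le_rfl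
  obtain ⟨C, hC⟩ : ∃ C : R.Hist × (({s // s ∈ Ds} → R.Lab) × (ℤ × ℤ)) → R.Hist × ({s // s ∈ Ds} → R.Lab), C = fun x => (x.1, x.2.1) := ⟨_, rfl⟩
  have c2 := ksc_coarsen c1 C (fun _ b => R.pi A b) (fun _ _ => le_rfl)
  have hlab : KsLab (ksPair R.hist (k7hDat R Ds (R.dep Q) ξ)) := ks_lab_pair hR.m_hist (k7h_dat_lab hR Ds (R.dep Q) ξ).1
  have eC : C ∘ ksPair R.hist (k7hDat R Ds (R.dep Q) ξ) = k7hEh R Ds := by
    subst hC
    rfl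
  have c3 := k7h_dom_coarse hR h.tilt.ell_pos A c2 m hm e k
  simp only [] at c3
  rw [ksc_push_mass (R.law (E ∩ R.inc Q)) hlab C e, eC] at c3
  have mEh : MeasurableSet (k7hEh R Ds ⁻¹' {e}) := (k7h_dat_lab hR Ds (R.dep Q) ξ).2.1 e
  have e1 : R.prior.restrict F (k7hEh R Ds ⁻¹' {e} ∩ {p : R.L × ℝ | kbBin m (ksZ (R.V p.1)) = k})
      = R.prior (k7hEh R Ds ⁻¹' {e} ∩ {p : R.L × ℝ | kbBin m (ksZ (R.V p.1)) = k} ∩ F) := Measure.restrict_apply' h.mF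
  have e2 : ksMass (R.law (E ∩ R.inc Q)) (k7hEh R Ds) e = R.prior (E ∩ R.inc Q ∩ k7hEh R Ds ⁻¹' {e}) := by
    show R.prior.restrict (E ∩ R.inc Q) (k7hEh R Ds ⁻¹' {e}) = _
    rw [Measure.restrict_apply mEh, Set.inter_comm]
  rw [e1, e2] at c3
  exact c3

/-- aux of L-252-S7h-D3: the masses of finitely many appended histories add up -/
theorem k7h_D3_sum {K : ℝ} (hR : R.Ok K) (Ds : Finset ℝ) {B U : Set (R.L × ℝ)} (mB : MeasurableSet B) (T : Finset (R.Hist × ({s // s ∈ Ds} → R.Lab)))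
    (hU : ∀ e ∈ T, B ∩ k7hEh R Ds ⁻¹' {e} ⊆ U) : ∑ e ∈ T, R.prior (B ∩ k7hEh R Ds ⁻¹' {e}) ≤ R.prior U := by
  rw [← measure_biUnion_finset]
  · exact measure_mono (Set.iUnion₂_subset hU)
  · intro a _ b _ hab
    refine Set.disjoint_left.2 ?_
    rintro p ⟨-, h1⟩ ⟨-, h2⟩
    exact hab (by rw [← (h1 : k7hEh R Ds p = a), ← (h2 : k7hEh R Ds p = b)])
  · intro e _
    exact mB.inter ((k7h_dat_lab hR Ds 0 1).2.1 e)

/-- **L-252-S7h-D3** palette, appended end histories, reference weights.   `ehdom`: `K7hFit.ceil`, `k7h_ceil_rules`, forget the cell (`ksc_coarsen`), `k7h_dom_coarse` at `m = N^-Mχ`, `k7h_link_mass`.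
`refsum`, `refQ`: the reference weights are the masses of `E ∩ inc Q` divided by `q ν_Q`; `prior (inc Q') = q' ν_{Q'}`. -/
theorem k7h_X_state (S0 : ℝ) : ∃ C : ℕ, ∀ {R : KsRef KbVer.two} {A : R.Par} {E : Set (R.L × ℝ)} {Ds : Finset ℝ} {ξ K ε : ℝ} {Q : R.Lab} {ρ0 ρ1 μ : ℝ} {Cn F : Set (R.L × ℝ)} {G' : Finset ℝ},
    K7hIn R A E Ds ξ K ε Q ρ0 ρ1 μ Cn F G' → R.S ≤ S0 → ∀ Mχ : ℝ, R.χ ≤ R.N ^ (-Mχ) → ∀ H : K7bHor, H = (k7hX R A E Ds Q ρ0 ρ1 μ F).hor →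
    (∀ x r : ℝ, kbDy (R.N ^ (-Mχ)) ≤ r → r ≤ 1 → H.pal (Set.Icc (x - r) (x + r)) ≤ ENNReal.ofReal ((C : ℝ) * K ^ C * r ^ R.S)) ∧
    KsDom (H.lam.restrict H.Sp) H.eh (H.vT (kbDy (R.N ^ (-Mχ)))) (fun _ b => H.pal (k7bIv (kbDy (R.N ^ (-Mχ))) b)) H.Ref (ENNReal.ofReal ((C : ℝ) * K ^ C)) ∧
    ∑ e, H.Ref e ≤ 1 ∧
    (∀ s ∈ G', ∀ q ∈ H.Qat s, ∀ T : Finset H.Eh, (∀ e ∈ T, ∃ z ∈ H.Sp, H.eh z = e ∧ H.lab s z = q) → ∑ e ∈ T, H.Ref e ≤ H.mQ q) ∧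
    (∀ s ∈ G', ∀ z ∈ H.Sp, ∀ z' ∈ H.Sp, H.eh z = H.eh z' → H.lab s z = H.lab s z') := by
  refine ⟨⌈(2 : ℝ) ^ S0⌉₊ + 1, ?_⟩
  intro R A E Ds ξ K ε Q ρ0 ρ1 μ Cn F G' h hS Mχ hχ H hH
  subst hH
  have hR := h.ok
  have hK := hR.K_ge
  have hK0 : 0 < K := by linarith
  have hq : 0 < R.q Q := ksl8_q_pos R Q
  have hν0 : R.νQ Q ≠ 0 := h.fit.pos
  have hνt : R.νQ Q ≠ ⊤ := (k7h_inc_mass hR Q).2.2.1
  have hχ0 := hR.χ_pos
  have hm0 : 0 < R.N ^ (-Mχ) := lt_of_lt_of_le hχ0 hχ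
  obtain ⟨C, hC⟩ : ∃ C : ℕ, C = ⌈(2 : ℝ) ^ S0⌉₊ + 1 := ⟨_, rfl⟩
  rw [← hC]
  have hC1 : 1 ≤ C := by omega
  have hC2 : (2 : ℝ) ^ S0 ≤ (C : ℝ) := by
    rw [hC]
    push_cast
    linarith [Nat.le_ceil ((2 : ℝ) ^ S0)]
  have hC1' : (1 : ℝ) ≤ (C : ℝ) := by exact_mod_cast hC1
  have hKC : K ≤ K ^ C := by
    calc K = K ^ 1 := (pow_one K).symm
      _ ≤ K ^ C := pow_le_pow_right₀ hK hC1
  have hKC' : K ≤ (C : ℝ) * K ^ C := by nlinarith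
  obtain ⟨w, hw⟩ : ∃ w : ℝ≥0∞, w = ENNReal.ofReal (R.q Q) * R.νQ Q := ⟨_, rfl⟩
  have hw0 : w ≠ 0 := by
    rw [hw]
    exact mul_ne_zero (by simpa using hq) hν0
  have hwt : w ≠ ⊤ := by
    rw [hw]
    exact ENNReal.mul_ne_top ENNReal.ofReal_ne_top hνt
  have hRef : ∀ e : R.Hist × ({s // s ∈ Ds} → R.Lab), (k7hX R A E Ds Q ρ0 ρ1 μ F).hor.Ref e = w⁻¹ * R.prior (E ∩ R.inc Q ∩ k7hEh R Ds ⁻¹' {e}) := by
    intro e
    rw [hw]
    rfl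
  have mB : MeasurableSet (E ∩ R.inc Q) := h.mE.inter (k7h_inc_mass hR Q).2.2.2.1
  have minc : Measurable (k7hInc R Q) := (k7h_inc_mass hR Q).2.2.2.2
  refine ⟨?_, ?_, ?_, ?_, ?_⟩
  · intro x r hr hr1
    have hr0 : 0 < r := lt_of_lt_of_le (ksl17_dy_pos _) hr
    have h1 := (k7h_pal_cap hR A).2 x r (hχ.trans ((k7h_ab_dy_ge hm0).trans hr))
    refine le_trans h1 (ENNReal.ofReal_le_ofReal ?_)
    rw [Real.mul_rpow (by norm_num) hr0.le]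
    have h2 : (2 : ℝ) ^ R.S ≤ (C : ℝ) := (Real.rpow_le_rpow_of_exponent_le (by norm_num) hS).trans hC2
    have h3 : 0 ≤ r ^ R.S := Real.rpow_nonneg hr0.le _
    have h4 : 0 ≤ (2 : ℝ) ^ R.S := Real.rpow_nonneg (by norm_num) _
    calc K * ((2 : ℝ) ^ R.S * r ^ R.S) = ((2 : ℝ) ^ R.S * K) * r ^ R.S := by ring
      _ ≤ ((C : ℝ) * K ^ C) * r ^ R.S := by gcongr
  · intro (e : R.Hist × ({s // s ∈ Ds} → R.Lab)) b
    have mSp : MeasurableSet (k7hInc R Q ⁻¹' F) := minc h.mF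
    obtain ⟨G, hG⟩ : ∃ G : Set (R.L × ℝ), G = k7hEh R Ds ⁻¹' {e} ∩ {p : R.L × ℝ | kbBin (R.N ^ (-Mχ)) (ksZ (R.V p.1)) = b} ∩ F := ⟨_, rfl⟩
    have mbin : Measurable fun p : R.L × ℝ => kbBin (R.N ^ (-Mχ)) (ksZ (R.V p.1)) :=
      (((k7h_D1_coord hR).1.comp measurable_fst).div_const _).floor
    have mG : MeasurableSet G := by
      rw [hG]
      exact (((k7h_dat_lab hR Ds 0 1).2.1 e).inter (mbin (measurableSet_singleton b))).inter h.mF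
    have hGi : G ∩ R.inc Q = G := Set.inter_eq_left.2 (fun p hp => by
      rw [hG] at hp
      exact (h.fit.sub (h.hF hp.2)).2)
    have e1 : ((k7hX R A E Ds Q ρ0 ρ1 μ F).hor.lam.restrict (k7hX R A E Ds Q ρ0 ρ1 μ F).hor.Sp)
        ((k7hX R A E Ds Q ρ0 ρ1 μ F).hor.eh ⁻¹' {e} ∩ (k7hX R A E Ds Q ρ0 ρ1 μ F).hor.vT (kbDy (R.N ^ (-Mχ))) b)
        = ((k7hPr R Q).prod k7bTime) (k7hInc R Q ⁻¹' G) := by
      show ((((k7hPr R Q).prod k7bTime).restrict (k7hInc R Q ⁻¹' F)).restrict (k7hInc R Q ⁻¹' F))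
        (k7hInc R Q ⁻¹' (k7hEh R Ds ⁻¹' {e}) ∩ {z : R.L × ℝ | kbBin (R.N ^ (-Mχ)) (ksZ (R.V z.1)) = b}) = _
      rw [Measure.restrict_restrict mSp, Set.inter_self, Measure.restrict_apply' mSp, hG]
      rfl
    have e2 := k7h_link_mass hR Q hν0 G mG
    rw [hGi, ← hw] at e2
    have e3 : ((k7hPr R Q).prod k7bTime) (k7hInc R Q ⁻¹' G) = w⁻¹ * R.prior G := by
      rw [← e2, ← mul_assoc, ENNReal.inv_mul_cancel hw0 hwt, one_mul]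
    have e4 := k7h_D3_dom h _ hχ e b
    rw [← hG] at e4
    have key : w⁻¹ * R.prior G ≤ ENNReal.ofReal ((C : ℝ) * K ^ C) * k7hPal R A (k7bIv (kbDy (R.N ^ (-Mχ))) b) * (w⁻¹ * R.prior (E ∩ R.inc Q ∩ k7hEh R Ds ⁻¹' {e})) := by
      calc w⁻¹ * R.prior G ≤ w⁻¹ * (ENNReal.ofReal K * k7hPal R A (k7bIv (kbDy (R.N ^ (-Mχ))) b) * R.prior (E ∩ R.inc Q ∩ k7hEh R Ds ⁻¹' {e})) :=
            mul_le_mul' le_rfl e4
        _ = ENNReal.ofReal K * k7hPal R A (k7bIv (kbDy (R.N ^ (-Mχ))) b) * (w⁻¹ * R.prior (E ∩ R.inc Q ∩ k7hEh R Ds ⁻¹' {e})) := by ring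
        _ ≤ ENNReal.ofReal ((C : ℝ) * K ^ C) * k7hPal R A (k7bIv (kbDy (R.N ^ (-Mχ))) b) * (w⁻¹ * R.prior (E ∩ R.inc Q ∩ k7hEh R Ds ⁻¹' {e})) :=
            mul_le_mul' (mul_le_mul' (ENNReal.ofReal_le_ofReal hKC') le_rfl) le_rfl
    rw [← hRef e] at key
    exact (le_of_eq (e1.trans e3)).trans key
  · have e0 : ∑ e, (k7hX R A E Ds Q ρ0 ρ1 μ F).hor.Ref e
        = ∑ e ∈ (@Finset.univ _ (k7hX R A E Ds Q ρ0 ρ1 μ F).hor.fE : Finset (R.Hist × ({s // s ∈ Ds} → R.Lab))), w⁻¹ * R.prior (E ∩ R.inc Q ∩ k7hEh R Ds ⁻¹' {e}) :=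
      Finset.sum_congr rfl (fun e _ => hRef e)
    rw [e0, ← Finset.mul_sum]
    have h1 := k7h_D3_sum hR Ds mB (U := R.inc Q) (@Finset.univ _ (k7hX R A E Ds Q ρ0 ρ1 μ F).hor.fE) (fun e _ p hp => hp.1.2)
    rw [(k7h_inc_mass hR Q).1, ← hw] at h1
    calc _ ≤ w⁻¹ * w := mul_le_mul' le_rfl h1
      _ = 1 := ENNReal.inv_mul_cancel hw0 hwt
  · intro s hs q' hq' (T : Finset (R.Hist × ({s // s ∈ Ds} → R.Lab))) hT
    rw [k7h_D5_Qat] at hq'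
    obtain ⟨hd, hD, -⟩ := hq'
    have e0 : ∑ e ∈ T, (k7hX R A E Ds Q ρ0 ρ1 μ F).hor.Ref e = ∑ e ∈ T, w⁻¹ * R.prior (E ∩ R.inc Q ∩ k7hEh R Ds ⁻¹' {e}) :=
      Finset.sum_congr rfl (fun e _ => hRef e)
    refine (le_of_eq e0).trans ?_
    rw [← Finset.mul_sum]
    have h1 := k7h_D3_sum hR Ds mB (U := R.inc q') T (by
      intro e he p hp
      obtain ⟨z, hz, hze, hzl⟩ := hT e he
      have hp0 : p ∈ R.Ev0 := h.hE hp.1.1
      have hpe : k7hEh R Ds p = e := hp.2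
      have hze' : k7hEh R Ds (k7hInc R Q z) = e := hze
      have hzl' : R.labAt (R.dep Q + s) (k7hInc R Q z) = q' := hzl
      have h2 := congrFun (congrArg Prod.snd (hpe.trans hze'.symm)) ⟨R.dep Q + s, (h.hG s hs).2⟩
      have h3 : R.labAt (R.dep Q + s) p = q' := by
        rw [← hzl']
        exact h2
      have h4 := (hR.lab _ (h.hDs (h.hG s hs).2) p hp0).2
      rwa [h3] at h4)
    rw [(k7h_inc_mass hR q').1] at h1
    have e : (k7hX R A E Ds Q ρ0 ρ1 μ F).hor.mQ q' = ENNReal.ofReal (R.q q' / R.q Q) * ((R.νQ Q)⁻¹ * R.νQ q') := by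
      rw [← k7h_D6_nu hR A E Ds Q ρ0 ρ1 μ F q' hD.2.1]
      rfl
    rw [e]
    refine (mul_le_mul' le_rfl h1).trans (le_of_eq ?_)
    rw [hw, ENNReal.mul_inv (Or.inr hνt) (Or.inr hν0), ENNReal.ofReal_div_of_pos hq, div_eq_mul_inv]
    ring
  · intro s hs z _ z' _ he
    exact congrFun (congrArg Prod.snd he) ⟨R.dep Q + s, (h.hG s hs).2⟩

/-- aux of L-252-S7h-D5: nested dyadic blocks -/
theorem k7h_D5_dy {n n' i i' : ℕ} (h : kbI n' i' ⊆ kbI n i) : n ≤ n' ∧ i * 2 ^ (n' - n) ≤ i' ∧ kbQ n = 2 ^ (n' - n) * kbQ n' := by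
  have q : 0 < kbQ n := ksl_kbQ_pos n
  have q' : 0 < kbQ n' := ksl_kbQ_pos n'
  have ha : (i' : ℝ) * kbQ n' ∈ kbI n' i' := ⟨le_rfl, by nlinarith⟩
  have ha' := h ha
  have hn : n ≤ n' := by
    by_contra hcon
    push Not at hcon
    have hlt : kbQ n < kbQ n' := pow_lt_pow_right_of_lt_one₀ (by norm_num) (by norm_num) hcon
    have hb : (i' : ℝ) * kbQ n' + kbQ n ∈ kbI n' i' := ⟨by linarith, by nlinarith⟩
    have hb' := h hb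
    have h1 := ha'.1
    have h2 := hb'.2
    nlinarith
  obtain ⟨m, rfl⟩ := Nat.exists_eq_add_of_le hn
  have e : kbQ n = 2 ^ (n + m - n) * kbQ (n + m) := by
    rw [Nat.add_sub_cancel_left]
    unfold kbQ
    rw [pow_add, mul_comm ((1 / 2 : ℝ) ^ n), ← mul_assoc, ← mul_pow]
    norm_num
  refine ⟨hn, ?_, e⟩
  have h1 := ha'.1
  rw [e] at h1
  have h2 : ((i : ℝ) * 2 ^ (n + m - n)) * kbQ (n + m) ≤ (i' : ℝ) * kbQ (n + m) := by linarith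
  have h3 := le_of_mul_le_mul_right h2 q'
  exact_mod_cast h3

/-- aux of L-252-S7h-D5: the normalised blocks -/
theorem k7h_D5_blk (R : KsRef KbVer.two) (A : R.Par) (E : Set (R.L × ℝ)) (Ds : Finset ℝ) (Q : R.Lab) (ρ0 ρ1 μ : ℝ) (F : Set (R.L × ℝ))
    (q : (k7hX R A E Ds Q ρ0 ρ1 μ F).hor.Q) (τ : ℝ) :
    τ ∈ (k7hX R A E Ds Q ρ0 ρ1 μ F).hor.blk q ↔ R.t0 Q + R.q Q * τ ∈ R.blk q := by
  have hq : 0 < R.q Q := ksl8_q_pos R Q
  have e1 : (k7hX R A E Ds Q ρ0 ρ1 μ F).hor.blk q = Set.Ico ((R.t0 q - R.t0 Q) / R.q Q) ((R.t0 q - R.t0 Q) / R.q Q + R.q q / R.q Q) := rfl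
  have e2 : R.blk q = Set.Ico (R.t0 q) (((R.iv q : ℝ) + 1) * R.q q) := rfl
  have e3 : ((R.iv q : ℝ) + 1) * R.q q = R.t0 q + R.q q := by
    unfold KsRef.t0 KsRef.q
    ring
  rw [e1, e2, e3, Set.mem_Ico, Set.mem_Ico, div_le_iff₀ hq, ← add_div, lt_div_iff₀ hq]
  constructor
  · rintro ⟨h1, h2⟩
    constructor <;> linarith
  · rintro ⟨h1, h2⟩
    constructor <;> linarith

/-- aux of L-252-S7h-D5: the true labels of an incidence are nested -/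
theorem k7h_D5_desc {R : KsRef KbVer.two} {K : ℝ} (hR : R.Ok K) {p : R.L × ℝ} (hp : p ∈ R.Ev0) {s s' : ℝ} (hs : s ∈ R.depths) (hs' : s' ∈ R.depths) (hss : s ≤ s') :
    R.Desc (R.labAt s' p) (R.labAt s p) := by
  have h1 := hR.lab s' hs' p hp
  obtain ⟨Q₂, d2, hD⟩ := hR.nested (R.labAt s' p) s hs (by rw [h1.1]; exact hss)
  have h2 : R.IsLab s p Q₂ := ⟨d2, hD.2.1 h1.2.1, hD.2.2 h1.2.2⟩
  rw [ks_lab_unique hR (hR.lab s hs p hp) h2]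
  exact hD

theorem k7h_D5_self {R : KsRef KbVer.two} {K : ℝ} (hR : R.Ok K) {p : R.L × ℝ} (hp : p ∈ R.Ev0) {Q : R.Lab} (hQ : p ∈ R.inc Q) : R.labAt (R.dep Q) p = Q :=
  ks_lab_unique hR (hR.lab _ (hR.dep_mem Q) p hp) ⟨rfl, hQ⟩

theorem k7h_D5_a_add {R : KsRef KbVer.two} {K : ℝ} (hR : R.Ok K) (x y : ℝ) : R.a (x + y) = R.a x * R.a y := by
  unfold KsRef.a
  rw [neg_add, Real.rpow_add (by linarith [hR.N_ge])]

/-- aux of L-252-S7h-D6: two-sided bounds of the mass of a label which carries an incidence of `Ev0` (one parent) -/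
theorem k7h_D6_mass {K : ℝ} (hR : R.Ok K) {A : R.Par} (h1 : R.One A) (q : R.Lab) {p : R.L × ℝ} (hp : p ∈ R.Ev0) (hq : p ∈ R.inc q) :
    ENNReal.ofReal (R.a (R.dep q) ^ R.d * (R.q q ^ 2 * R.a (R.ell * R.dep q)) / K ^ 2) ≤ R.νQ q ∧
      R.νQ q ≤ ENNReal.ofReal (K ^ 2 * (R.a (R.dep q) ^ R.d * (R.q q ^ 2 * R.a (R.ell * R.dep q)))) := by
  have hK := hR.K_ge
  have hK0 : 0 < K := by linarith
  have hA : R.lpar q = A := by
    have e1 : R.par p.1 = R.lpar q := hR.asg_par q hq.1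
    rw [← e1, h1.par p hp]
  have hpA : R.pA (R.lpar q) = 1 := by rw [hA, h1.pA]
  have lo := hR.ν_lo q
  have hi := hR.ν_hi q
  rw [hpA, one_mul] at lo hi
  have Jlo : R.q q ^ 2 * R.a (R.ell * R.dep q) ≤ K * R.J q := hR.J_lo q
  have Jhi : R.J q ≤ K * (R.q q ^ 2 * R.a (R.ell * R.dep q)) := hR.J_hi q
  have pa : 0 ≤ R.a (R.dep q) ^ R.d := Real.rpow_nonneg (ksl8_a_pos hR _).le _
  constructor
  · have e : ENNReal.ofReal (R.a (R.dep q) ^ R.d * R.J q / K) ≤ R.νQ q := by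
      rw [ENNReal.ofReal_div_of_pos hK0]
      exact ENNReal.div_le_of_le_mul' lo
    refine le_trans (ENNReal.ofReal_le_ofReal ?_) e
    rw [div_le_div_iff₀ (by positivity) hK0]
    calc R.a (R.dep q) ^ R.d * (R.q q ^ 2 * R.a (R.ell * R.dep q)) * K ≤ R.a (R.dep q) ^ R.d * (K * R.J q) * K := by gcongr
      _ = R.a (R.dep q) ^ R.d * R.J q * K ^ 2 := by ring
  · refine hi.trans ?_
    rw [← ENNReal.ofReal_mul hK0.le]
    refine ENNReal.ofReal_le_ofReal ?_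
    calc K * (R.a (R.dep q) ^ R.d * R.J q) ≤ K * (R.a (R.dep q) ^ R.d * (K * (R.q q ^ 2 * R.a (R.ell * R.dep q)))) := by gcongr
      _ = K ^ 2 * (R.a (R.dep q) ^ R.d * (R.q q ^ 2 * R.a (R.ell * R.dep q))) := by ring

/-- aux of L-252-S7h-D4: affine change of variables on the line -/
theorem k7h_D4_one {a : ℝ} (ha : a ≠ 0) (b : ℝ) (f : ℝ → ℝ≥0∞) (hf : Measurable f) :
    ∫⁻ x, f (a * x + b) = ENNReal.ofReal |a⁻¹| * ∫⁻ y, f y := by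
  have h1 : Measure.map (fun x : ℝ => a * x + b) volume = ENNReal.ofReal |a⁻¹| • volume := by
    have : (fun x : ℝ => a * x + b) = (fun y => y + b) ∘ (fun x => a * x) := rfl
    rw [this, ← Measure.map_map (measurable_add_const b) (measurable_const_mul a), Real.map_volume_mul_left ha, Measure.map_smul,
      map_add_right_eq_self]
  have hm : Measurable (fun x : ℝ => a * x + b) := (measurable_const_mul a).add_const b
  rw [← lintegral_map hf hm, h1, lintegral_smul_measure, smul_eq_mul]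

/-- aux of L-252-S7h-D4: triangular affine maps of the plane -/
theorem k7h_D4_two {a a' : ℝ} (ha : a ≠ 0) (ha' : a' ≠ 0) (b' : ℝ) (c : ℝ → ℝ) (hc : Measurable c) (B : Set (ℝ × ℝ)) (hB : MeasurableSet B) :
    volume ((fun o : ℝ × ℝ => (a' * o.1 + b', a * o.2 + c o.1)) ⁻¹' B) = ENNReal.ofReal |a'⁻¹| * (ENNReal.ofReal |a⁻¹| * volume B) := by
  have hm : Measurable (fun o : ℝ × ℝ => (a' * o.1 + b', a * o.2 + c o.1)) :=
    ((measurable_fst.const_mul a').add_const b').prodMk ((measurable_snd.const_mul a).add (hc.comp measurable_fst))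
  rw [Measure.volume_eq_prod, Measure.prod_apply (hm hB), Measure.prod_apply hB]
  have h1 : ∀ Z : ℝ, volume (Prod.mk Z ⁻¹' ((fun o : ℝ × ℝ => (a' * o.1 + b', a * o.2 + c o.1)) ⁻¹' B))
      = ENNReal.ofReal |a⁻¹| * volume (Prod.mk (a' * Z + b') ⁻¹' B) := by
    intro Z
    have : Prod.mk Z ⁻¹' ((fun o : ℝ × ℝ => (a' * o.1 + b', a * o.2 + c o.1)) ⁻¹' B)
        = (a * ·) ⁻¹' ((fun y => y + c Z) ⁻¹' (Prod.mk (a' * Z + b') ⁻¹' B)) := rfl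
    rw [this, Real.volume_preimage_mul_left ha, measure_preimage_add_right]
  simp_rw [h1]
  rw [lintegral_const_mul' _ _ ENNReal.ofReal_ne_top,
    k7h_D4_one ha' b' (fun ζ => volume (Prod.mk ζ ⁻¹' B)) (measurable_measure_prodMk_left hB)]
  ring

/-- aux of L-252-S7h-D4: triangular affine maps of the space -/
theorem k7h_D4_three {a a' a'' : ℝ} (ha : a ≠ 0) (ha' : a' ≠ 0) (ha'' : a'' ≠ 0) (b' b'' : ℝ) (c : ℝ × ℝ → ℝ) (hc : Measurable c)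
    (U : Set (ℝ × ℝ × ℝ)) (hU : MeasurableSet U) :
    MeasurableSet ((fun o : ℝ × ℝ × ℝ => (a'' * o.1 + b'', a' * o.2.1 + b', a * o.2.2 + c (o.1, o.2.1))) ⁻¹' U) ∧
    volume ((fun o : ℝ × ℝ × ℝ => (a'' * o.1 + b'', a' * o.2.1 + b', a * o.2.2 + c (o.1, o.2.1))) ⁻¹' U)
      = ENNReal.ofReal |a''⁻¹| * (ENNReal.ofReal |a'⁻¹| * (ENNReal.ofReal |a⁻¹| * volume U)) := by
  have hm : Measurable (fun o : ℝ × ℝ × ℝ => (a'' * o.1 + b'', a' * o.2.1 + b', a * o.2.2 + c (o.1, o.2.1))) :=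
    ((measurable_fst.const_mul a'').add_const b'').prodMk ((((measurable_fst.comp measurable_snd).const_mul a').add_const b').prodMk
      (((measurable_snd.comp measurable_snd).const_mul a).add (hc.comp (measurable_fst.prodMk (measurable_fst.comp measurable_snd)))))
  refine ⟨hm hU, ?_⟩
  rw [Measure.volume_eq_prod, Measure.prod_apply (hm hU), Measure.prod_apply hU]
  have h1 : ∀ t : ℝ, volume (Prod.mk t ⁻¹' ((fun o : ℝ × ℝ × ℝ => (a'' * o.1 + b'', a' * o.2.1 + b', a * o.2.2 + c (o.1, o.2.1))) ⁻¹' U))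
      = ENNReal.ofReal |a'⁻¹| * (ENNReal.ofReal |a⁻¹| * volume (Prod.mk (a'' * t + b'') ⁻¹' U)) := by
    intro t
    have : Prod.mk t ⁻¹' ((fun o : ℝ × ℝ × ℝ => (a'' * o.1 + b'', a' * o.2.1 + b', a * o.2.2 + c (o.1, o.2.1))) ⁻¹' U)
        = (fun o : ℝ × ℝ => (a' * o.1 + b', a * o.2 + (fun Z => c (t, Z)) o.1)) ⁻¹' (Prod.mk (a'' * t + b'') ⁻¹' U) := rfl
    rw [this, k7h_D4_two ha ha' b' (fun Z => c (t, Z)) (hc.comp measurable_prodMk_left) _ (measurable_prodMk_left hU)]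
  simp_rw [h1]
  rw [lintegral_const_mul' _ _ ENNReal.ofReal_ne_top, lintegral_const_mul' _ _ ENNReal.ofReal_ne_top,
    k7h_D4_one ha'' b'' (fun τ => volume (Prod.mk τ ⁻¹' U)) (measurable_measure_prodMk_left hU)]
  ring

/-- aux of L-252-S7h-D4: the volume of the preimage under the normalisation of the base -/
theorem k7h_D4_vol (R : KsRef KbVer.two) (Q : R.Lab) (ρ0 ρ1 μ : ℝ) (hμ : μ ≠ 0) (U : Set (ℝ × ℝ × ℝ)) (hU : MeasurableSet U) :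
    MeasurableSet (k7hNb R Q ρ0 ρ1 μ ⁻¹' U) ∧
      volume (k7hNb R Q ρ0 ρ1 μ ⁻¹' U) = ENNReal.ofReal (|μ| * R.q Q ^ 4) * volume U := by
  have hq : 0 < R.q Q := ksl8_q_pos R Q
  have hκ : -1 / (μ * R.q Q ^ 2) ≠ 0 := div_ne_zero (by norm_num) (mul_ne_zero hμ (pow_pos hq 2).ne')
  obtain ⟨c0, hc0⟩ : ∃ c0 : ℝ, c0 = R.YQ Q (R.t0 Q) (k7hZc R Q) - ρ0 * R.t0 Q - ρ1 * k7hZc R Q := ⟨_, rfl⟩
  have hc : Measurable (fun x : ℝ × ℝ => -(-1 / (μ * R.q Q ^ 2)) * (c0 + ρ0 * x.1 + ρ1 * x.2)) :=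
    (((measurable_fst.const_mul ρ0).const_add c0).add (measurable_snd.const_mul ρ1)).const_mul _
  obtain ⟨m3, v3⟩ := k7h_D4_three hκ (inv_ne_zero hq.ne') (inv_ne_zero hq.ne') (-(k7hZc R Q) / R.q Q) (-(R.t0 Q) / R.q Q) _ hc U hU
  have hmp : MeasurePreserving (Prod.map (id : ℝ → ℝ) (MeasurableEquiv.finTwoArrow : (Fin 2 → ℝ) ≃ᵐ ℝ × ℝ)) volume volume :=
    (MeasurePreserving.id volume).prod (volume_preserving_finTwoArrow ℝ)
  have e : k7hNb R Q ρ0 ρ1 μ ⁻¹' U = (Prod.map (id : ℝ → ℝ) (MeasurableEquiv.finTwoArrow : (Fin 2 → ℝ) ≃ᵐ ℝ × ℝ)) ⁻¹'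
      ((fun o : ℝ × ℝ × ℝ => ((R.q Q)⁻¹ * o.1 + -(R.t0 Q) / R.q Q, (R.q Q)⁻¹ * o.2.1 + -(k7hZc R Q) / R.q Q,
        -1 / (μ * R.q Q ^ 2) * o.2.2 + -(-1 / (μ * R.q Q ^ 2)) * (c0 + ρ0 * (o.1, o.2.1).1 + ρ1 * (o.1, o.2.1).2))) ⁻¹' U) := by
    ext u
    simp only [Set.mem_preimage]
    have : k7hNb R Q ρ0 ρ1 μ u = ((R.q Q)⁻¹ * u.1 + -(R.t0 Q) / R.q Q, (R.q Q)⁻¹ * ksZ u.2 + -(k7hZc R Q) / R.q Q,
        -1 / (μ * R.q Q ^ 2) * ksY u.2 + -(-1 / (μ * R.q Q ^ 2)) * (c0 + ρ0 * u.1 + ρ1 * ksZ u.2)) := by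
      unfold k7hNb
      rw [← hc0]
      refine Prod.ext ?_ (Prod.ext ?_ ?_)
      · simp only
        field_simp
        ring
      · simp only
        field_simp
        ring
      · simp only
        ring
    rw [this]
    rfl
  constructor
  · rw [e]
    exact hmp.measurable m3
  · rw [e]
    have := hmp.measure_preimage m3.nullMeasurableSet
    refine (this.trans v3).trans ?_
    rw [inv_inv, abs_of_pos hq, ← mul_assoc, ← mul_assoc, ← ENNReal.ofReal_mul hq.le, ← ENNReal.ofReal_mul (by positivity)]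
    congr 2
    rw [inv_div, abs_div, abs_neg, abs_one, div_one, abs_mul, abs_of_pos (pow_pos hq 2)]
    ring

theorem k7h_D4_base {R : KsRef KbVer.two} {K : ℝ} (hR : R.Ok K) : Measurable R.base := by
  have h1 : Measurable fun p : R.L × ℝ => R.co p.1 := hR.m_co.comp measurable_fst
  unfold KsRef.base kbY
  refine measurable_snd.prodMk ?_
  exact h1.fst.add (measurable_snd.smul h1.snd.fst)

/-- **L-252-S7h-D4** the base cap of a true child.   `R.capQ` for `U = k7hNb ⁻¹' C`, `volume U = |μ| q⁴ volume C` (affine map with determinant `|κ| / q²`), `|μ| q ≤ K g`, `ν_hi` for `Q'`, `ν_lo`, `J_lo` for `Q`, `pA = 1`. -/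
theorem k7h_X_capQ : ∃ C : ℕ, ∀ {R : KsRef KbVer.two} {A : R.Par} {E : Set (R.L × ℝ)} {Ds : Finset ℝ} {ξ K ε : ℝ} {Q : R.Lab} {ρ0 ρ1 μ : ℝ} {Cn F : Set (R.L × ℝ)} {G' : Finset ℝ},
    K7hIn R A E Ds ξ K ε Q ρ0 ρ1 μ Cn F G' → ∀ H : K7bHor, H = (k7hX R A E Ds Q ρ0 ρ1 μ F).hor →
    ∀ s ∈ G', ∀ q ∈ H.Qat s, ∀ U : Set (ℝ × ℝ × ℝ), MeasurableSet U →
      H.lam (H.Sp ∩ {z | H.base z ∈ U ∧ H.lab s z = q}) ≤ ENNReal.ofReal ((C : ℝ) * K ^ C * R.a s ^ R.d) * volume U := by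
  refine ⟨7, ?_⟩
  intro R A E Ds ξ K ε Q ρ0 ρ1 μ Cn F G' h H hH s hs q hq1 U hU
  subst hH
  obtain ⟨hμ, hg, hq, hK, -⟩ := k7h_D_pos h
  have hR := h.ok
  have hK0 : 0 < K := by linarith
  have hν0 : R.νQ Q ≠ 0 := h.fit.pos
  rw [k7h_D5_Qat] at hq1
  obtain ⟨hd, hD, p, hpF, hpl⟩ := hq1
  have hpE := h.fit.sub (h.hF hpF)
  have hp0 : p ∈ R.Ev0 := h.hE hpE.1
  have hdep : R.dep Q + s ∈ R.depths := h.hDs (h.hG s hs).2
  have hpq : p ∈ R.inc q := by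
    have := (hR.lab _ hdep p hp0).2
    rwa [hpl] at this
  obtain ⟨-, m2⟩ := k7h_D6_mass hR h.one q hp0 hpq
  obtain ⟨M1, -⟩ := k7h_D6_mass hR h.one Q hp0 hpE.2
  obtain ⟨mV, vV⟩ := k7h_D4_vol R Q ρ0 ρ1 μ hμ U hU
  -- the tangent set
  obtain ⟨G, hG⟩ : ∃ G : Set (R.L × ℝ), G = F ∩ (R.base ⁻¹' (k7hNb R Q ρ0 ρ1 μ ⁻¹' U) ∩ R.labAt (R.dep Q + s) ⁻¹' {q}) := ⟨_, rfl⟩
  have mG : MeasurableSet G := by
    rw [hG]
    exact h.mF.inter ((k7h_D4_base hR mV).inter (ks_labAt_meas hR _ q))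
  have s1 : (k7hX R A E Ds Q ρ0 ρ1 μ F).hor.lam ((k7hX R A E Ds Q ρ0 ρ1 μ F).hor.Sp ∩
      {z | (k7hX R A E Ds Q ρ0 ρ1 μ F).hor.base z ∈ U ∧ (k7hX R A E Ds Q ρ0 ρ1 μ F).hor.lab s z = q})
      ≤ ((k7hPr R Q).prod k7bTime) (k7hInc R Q ⁻¹' (G ∩ R.inc Q)) := by
    refine (Measure.restrict_le_self _).trans (measure_mono ?_)
    rintro z ⟨hz, hzU, hzl⟩
    obtain ⟨-, -, -, zQ, -, -⟩ := k7h_D_mem h (z := z) hz
    refine ⟨?_, zQ⟩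
    rw [hG]
    refine ⟨hz, ?_, hzl⟩
    have := (k7h_X_coord R A E Ds Q ρ0 ρ1 μ F hμ z.1 z.2).1
    show k7hNb R Q ρ0 ρ1 μ (R.base (k7hInc R Q z)) ∈ U
    rw [← this]
    exact hzU
  have s2 := k7h_link_mass hR Q hν0 G mG
  have s3 : R.prior (G ∩ R.inc Q) ≤ R.lam0 (R.inc q ∩ R.base ⁻¹' (k7hNb R Q ρ0 ρ1 μ ⁻¹' U)) := by
    show _ ≤ (R.prior.restrict R.Ev0) _
    rw [Measure.restrict_apply' hR.m_Ev0]
    refine measure_mono ?_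
    rintro x ⟨hx, -⟩
    rw [hG] at hx
    obtain ⟨xF, xU, xl⟩ := hx
    have x0 : x ∈ R.Ev0 := h.hE (h.fit.sub (h.hF xF)).1
    refine ⟨⟨?_, xU⟩, x0⟩
    have := (hR.lab _ hdep x x0).2
    have xl' : R.labAt (R.dep Q + s) x = q := xl
    rwa [xl'] at this
  have s4 := hR.capQ q _ mV
  -- abbreviations
  obtain ⟨α, hα⟩ : ∃ α : ℝ, α = R.a (R.dep Q) ^ R.d := ⟨_, rfl⟩
  obtain ⟨β, hβ⟩ : ∃ β : ℝ, β = R.a s ^ R.d := ⟨_, rfl⟩
  have pα : 0 < α := by rw [hα]; exact Real.rpow_pos_of_pos (ksl8_a_pos hR _) _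
  have pβ : 0 < β := by rw [hβ]; exact Real.rpow_pos_of_pos (ksl8_a_pos hR _) _
  have e1 : R.a (R.dep q) ^ R.d = α * β := by
    rw [hd, k7h_D5_a_add hR, Real.mul_rpow (ksl8_a_pos hR _).le (ksl8_a_pos hR _).le, hα, hβ]
  have Jlo : R.q q ^ 2 * R.a (R.ell * R.dep q) ≤ K * R.J q := hR.J_lo q
  have pJ : 0 < R.J q := by
    have : 0 < R.q q ^ 2 * R.a (R.ell * R.dep q) := mul_pos (pow_pos (ksl8_q_pos R q) 2) (ksl8_a_pos hR _)
    by_contra hcon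
    push Not at hcon
    nlinarith
  rw [e1] at m2
  rw [← hα] at M1
  have hgg : R.a (R.ell * R.dep Q) = R.g Q := rfl
  rw [hgg] at M1
  rw [← hβ]
  obtain ⟨y, hy⟩ : ∃ y : ℝ≥0∞, y = R.lam0 (R.inc q ∩ R.base ⁻¹' (k7hNb R Q ρ0 ρ1 μ ⁻¹' U)) := ⟨_, rfl⟩
  rw [← hy] at s3 s4
  have s5 : y ≤ ENNReal.ofReal (K ^ 4 * (α * β)) * volume (k7hNb R Q ρ0 ρ1 μ ⁻¹' U) := by
    have t1 : ENNReal.ofReal (R.J q) * y ≤ ENNReal.ofReal (R.J q) * (ENNReal.ofReal (K ^ 4 * (α * β)) * volume (k7hNb R Q ρ0 ρ1 μ ⁻¹' U)) := by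
      refine s4.trans ?_
      rw [← mul_assoc]
      refine mul_le_mul' ?_ le_rfl
      refine (mul_le_mul' le_rfl m2).trans ?_
      rw [← ENNReal.ofReal_mul hK0.le, ← ENNReal.ofReal_mul pJ.le]
      refine ENNReal.ofReal_le_ofReal ?_
      calc K * (K ^ 2 * (α * β * (R.q q ^ 2 * R.a (R.ell * R.dep q)))) ≤ K * (K ^ 2 * (α * β * (K * R.J q))) := by gcongr
        _ = R.J q * (K ^ 4 * (α * β)) := by ring
    exact (ENNReal.mul_le_mul_iff_right (ENNReal.ofReal_pos.2 pJ).ne' ENNReal.ofReal_ne_top).1 t1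
  obtain ⟨x, hx⟩ : ∃ x : ℝ≥0∞, x = ((k7hPr R Q).prod k7bTime) (k7hInc R Q ⁻¹' (G ∩ R.inc Q)) := ⟨_, rfl⟩
  rw [← hx] at s1 s2
  refine s1.trans ?_
  obtain ⟨w, hw⟩ : ∃ w : ℝ, w = R.q Q * (α * (R.q Q ^ 2 * R.g Q) / K ^ 2) := ⟨_, rfl⟩
  have pw : 0 < w := by rw [hw]; positivity
  have t2 : ENNReal.ofReal w * x ≤ ENNReal.ofReal w * (ENNReal.ofReal ((7 : ℕ) * K ^ 7 * β) * volume U) := by
    calc ENNReal.ofReal w * x = ENNReal.ofReal (R.q Q) * ENNReal.ofReal (α * (R.q Q ^ 2 * R.g Q) / K ^ 2) * x := by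
          rw [hw, ENNReal.ofReal_mul hq.le]
      _ ≤ ENNReal.ofReal (R.q Q) * R.νQ Q * x := mul_le_mul' (mul_le_mul' le_rfl M1) le_rfl
      _ = R.prior (G ∩ R.inc Q) := s2
      _ ≤ y := s3
      _ ≤ ENNReal.ofReal (K ^ 4 * (α * β)) * volume (k7hNb R Q ρ0 ρ1 μ ⁻¹' U) := s5
      _ = ENNReal.ofReal (K ^ 4 * (α * β) * (|μ| * R.q Q ^ 4)) * volume U := by
          rw [vV, ← mul_assoc, ← ENNReal.ofReal_mul (by positivity)]
      _ ≤ ENNReal.ofReal (w * ((7 : ℕ) * K ^ 7 * β)) * volume U := by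
          refine mul_le_mul' (ENNReal.ofReal_le_ofReal ?_) le_rfl
          have hmu := h.fit.mu
          have : w * ((7 : ℕ) * K ^ 7 * β) = 7 * (K ^ 4 * (α * β) * R.q Q ^ 3 * (K * R.g Q)) := by
            rw [hw]
            push_cast
            field_simp
          rw [this]
          calc K ^ 4 * (α * β) * (|μ| * R.q Q ^ 4) = K ^ 4 * (α * β) * R.q Q ^ 3 * (|μ| * R.q Q) := by ring
            _ ≤ K ^ 4 * (α * β) * R.q Q ^ 3 * (K * R.g Q) := by gcongr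
            _ ≤ 7 * (K ^ 4 * (α * β) * R.q Q ^ 3 * (K * R.g Q)) := by
                have : 0 ≤ K ^ 4 * (α * β) * R.q Q ^ 3 * (K * R.g Q) := by positivity
                linarith
      _ = ENNReal.ofReal w * (ENNReal.ofReal ((7 : ℕ) * K ^ 7 * β) * volume U) := by
          rw [ENNReal.ofReal_mul pw.le, mul_assoc]
  exact (ENNReal.mul_le_mul_iff_right (ENNReal.ofReal_pos.2 pw).ne' ENNReal.ofReal_ne_top).1 t2

/-- **L-252-S7h-D5** combinatorics of the true children (`R.lab`, `nested`, `ks_lab_unique`, `lev_dep`, `disj`, `q_lo`, `q_hi`; dyadic blocks) -/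
theorem k7h_X_lab (h : K7hIn R A E Ds ξ K ε Q ρ0 ρ1 μ Cn F G') (H : K7bHor) (hH : H = (k7hX R A E Ds Q ρ0 ρ1 μ F).hor) :
    (∀ s ∈ G', ∀ z ∈ H.Sp, H.lab s z ∈ H.Qat s ∧ z.2 ∈ H.blk (H.lab s z) ∧ z.1 ∈ H.asg (H.lab s z)) ∧
    (∀ s ∈ G', ∀ q ∈ H.Qat s, R.a (R.k * s) / K ^ 2 ≤ H.bl q ∧ H.bl q ≤ K ^ 2 * R.a (R.k * s)) ∧
    (∀ s ∈ G', ∀ q ∈ H.Qat s, ∀ q' ∈ H.Qat s, H.blk q = H.blk q' ∨ Disjoint (H.blk q) (H.blk q')) ∧
    (∀ s ∈ G', ∃ lev : ℕ, ∀ q ∈ H.Qat s, H.bl q = (1 / 2 : ℝ) ^ lev ∧ ∃ i : ℕ, H.bt q = (i : ℝ) * (1 / 2 : ℝ) ^ lev) ∧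
    (∀ s ∈ G', ∀ q ∈ H.Qat s, ∀ q' ∈ H.Qat s, q ≠ q' → H.blk q = H.blk q' → Disjoint (H.asg q) (H.asg q')) ∧
    (∀ s ∈ G', ∀ s' ∈ G', s ≤ s' → ∀ z ∈ H.Sp, ∀ z' ∈ H.Sp, H.lab s' z = H.lab s' z' → H.lab s z = H.lab s z') ∧
    (∀ s ∈ G', ∀ s' ∈ G', s ≤ s' → ∀ z ∈ H.Sp, H.asg (H.lab s' z) ⊆ H.asg (H.lab s z) ∧ H.blk (H.lab s' z) ⊆ H.blk (H.lab s z)) := by
  subst hH
  have hR := h.ok
  have hK := hR.K_ge
  have hK0 : 0 < K := by linarith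
  have hq : 0 < R.q Q := ksl8_q_pos R Q
  have hdep : ∀ s ∈ G', R.dep Q + s ∈ R.depths := fun s hs => h.hDs (h.hG s hs).2
  refine ⟨?_, ?_, ?_, ?_, ?_, ?_, ?_⟩
  · intro s hs z hz
    obtain ⟨-, -, z0, zQ, -, -⟩ := k7h_D_mem h (z := z) hz
    have hl := hR.lab _ (hdep s hs) _ z0
    refine ⟨?_, ?_, hl.2.1⟩
    · rw [k7h_D5_Qat]
      refine ⟨hl.1, ?_, _, hz, rfl⟩
      have := k7h_D5_desc hR z0 (hR.dep_mem Q) (hdep s hs) (by linarith [(h.hG s hs).1])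
      rwa [k7h_D5_self hR z0 zQ] at this
    · rw [k7h_D5_blk]
      exact hl.2.2
  · intro s hs q hq'
    rw [k7h_D5_Qat] at hq'
    have a1 := hR.q_lo q
    have a2 := hR.q_hi q
    have b1 := hR.q_lo Q
    have b2 := hR.q_hi Q
    rw [hq'.1, mul_add, k7h_D5_a_add hR] at a1 a2
    have pr : 0 < R.a (R.k * R.dep Q) := ksl8_a_pos hR _
    have ps : 0 < R.a (R.k * s) := ksl8_a_pos hR _
    have pq : 0 < R.q q := ksl8_q_pos R q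
    show R.a (R.k * s) / K ^ 2 ≤ R.q q / R.q Q ∧ R.q q / R.q Q ≤ K ^ 2 * R.a (R.k * s)
    constructor
    · rw [div_le_div_iff₀ (by positivity) hq]
      calc R.a (R.k * s) * R.q Q ≤ R.a (R.k * s) * (K * R.a (R.k * R.dep Q)) := mul_le_mul_of_nonneg_left b2 ps.le
        _ = K * (R.a (R.k * R.dep Q) * R.a (R.k * s)) := by ring
        _ ≤ K * (K * R.q q) := mul_le_mul_of_nonneg_left a1 hK0.le
        _ = R.q q * K ^ 2 := by ring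
    · rw [div_le_iff₀ hq]
      calc R.q q ≤ K * (R.a (R.k * R.dep Q) * R.a (R.k * s)) := a2
        _ = K * R.a (R.k * s) * R.a (R.k * R.dep Q) := by ring
        _ ≤ K * R.a (R.k * s) * (K * R.q Q) := mul_le_mul_of_nonneg_left b1 (by positivity)
        _ = K ^ 2 * R.a (R.k * s) * R.q Q := by ring
  · intro s hs q hq1 q' hq2
    rw [k7h_D5_Qat] at hq1 hq2
    have hlev : R.lev q = R.lev q' := hR.lev_dep q q' (hq1.1.trans hq2.1.symm)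
    by_cases hiv : R.iv q = R.iv q'
    · left
      ext τ
      rw [k7h_D5_blk, k7h_D5_blk]
      have : R.blk q = R.blk q' := by unfold KsRef.blk; rw [hlev, hiv]
      rw [this]
    · right
      rw [Set.disjoint_left]
      intro τ h1 h2
      rw [k7h_D5_blk] at h1 h2
      apply hiv
      have h2' : R.t0 Q + R.q Q * τ ∈ kbI (R.lev q) (R.iv q') := by rw [hlev]; exact h2
      exact ksl_kbI_inj h1 h2'
  · intro s hs
    rcases ((k7hX R A E Ds Q ρ0 ρ1 μ F).hor.Qat s).eq_empty_or_nonempty with he | ⟨q₀, hq₀⟩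
    · exact ⟨0, fun q hq' => by rw [he] at hq'; simp at hq'⟩
    refine ⟨R.lev q₀ - R.lev Q, ?_⟩
    intro q hq1
    rw [k7h_D5_Qat] at hq1 hq₀
    have hlev : R.lev q = R.lev q₀ := hR.lev_dep q q₀ (hq1.1.trans hq₀.1.symm)
    obtain ⟨d1, d2, d3⟩ := k7h_D5_dy (n := R.lev Q) (n' := R.lev q) (i := R.iv Q) (i' := R.iv q) hq1.2.1.2.2
    rw [← hlev]
    have pq : 0 < kbQ (R.lev q) := ksl_kbQ_pos _
    have p2 : (0 : ℝ) < 2 ^ (R.lev q - R.lev Q) := by positivity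
    have e0 : ((1 / 2 : ℝ)) ^ (R.lev q - R.lev Q) = 1 / 2 ^ (R.lev q - R.lev Q) := by
      rw [one_div, inv_pow, one_div]
    constructor
    · show kbQ (R.lev q) / kbQ (R.lev Q) = _
      rw [d3, e0]
      field_simp
    · refine ⟨R.iv q - R.iv Q * 2 ^ (R.lev q - R.lev Q), ?_⟩
      show ((R.iv q : ℝ) * kbQ (R.lev q) - (R.iv Q : ℝ) * kbQ (R.lev Q)) / kbQ (R.lev Q) = _
      rw [Nat.cast_sub d2, d3, e0]
      push_cast
      field_simp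
  · intro s hs q hq1 q' hq2 hne hblk
    rw [k7h_D5_Qat] at hq1 hq2
    have hd : R.dep q = R.dep q' := hq1.1.trans hq2.1.symm
    have hlev : R.lev q = R.lev q' := hR.lev_dep q q' hd
    refine hR.disj q q' hd ?_ hne
    -- the left end point of `blk q` lies in both blocks
    have pq : 0 < R.q q := ksl8_q_pos R q
    have m1 : (R.t0 q - R.t0 Q) / R.q Q ∈ (k7hX R A E Ds Q ρ0 ρ1 μ F).hor.blk q := by
      rw [k7h_D5_blk]
      have : R.t0 Q + R.q Q * ((R.t0 q - R.t0 Q) / R.q Q) = R.t0 q := by field_simp; ring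
      rw [this]
      show (R.iv q : ℝ) * kbQ (R.lev q) ∈ Set.Ico ((R.iv q : ℝ) * kbQ (R.lev q)) (((R.iv q : ℝ) + 1) * kbQ (R.lev q))
      have : 0 < kbQ (R.lev q) := ksl_kbQ_pos _
      constructor <;> nlinarith
    have m2 := m1
    rw [hblk] at m2
    rw [k7h_D5_blk] at m1 m2
    have m2' : R.t0 Q + R.q Q * ((R.t0 q - R.t0 Q) / R.q Q) ∈ kbI (R.lev q) (R.iv q') := by rw [hlev]; exact m2
    exact ksl_kbI_inj m1 m2'
  · intro s hs s' hs' hss z hz z' hz' hl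
    obtain ⟨-, -, z0, -, -, -⟩ := k7h_D_mem h (z := z) hz
    obtain ⟨-, -, z0', -, -, -⟩ := k7h_D_mem h (z := z') hz'
    have hl' : R.labAt (R.dep Q + s') (k7hInc R Q z) = R.labAt (R.dep Q + s') (k7hInc R Q z') := hl
    show R.labAt (R.dep Q + s) (k7hInc R Q z) = R.labAt (R.dep Q + s) (k7hInc R Q z')
    have d1 := k7h_D5_desc hR z0 (hdep s hs) (hdep s' hs') (by linarith)
    have l1 := hR.lab _ (hdep s hs) _ z0
    have l2 := hR.lab _ (hdep s' hs') _ z0'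
    rw [hl'] at d1
    exact (ks_lab_unique hR (hR.lab _ (hdep s hs) _ z0') ⟨l1.1, d1.2.1 l2.2.1, d1.2.2 l2.2.2⟩).symm
  · intro s hs s' hs' hss z hz
    obtain ⟨-, -, z0, -, -, -⟩ := k7h_D_mem h (z := z) hz
    have d1 := k7h_D5_desc hR z0 (hdep s hs) (hdep s' hs') (by linarith)
    refine ⟨d1.2.1, ?_⟩
    intro τ hτ
    rw [k7h_D5_blk] at hτ ⊢
    exact d1.2.2 hτ

/-- **L-252-S7h-D6** budgets (`a06:horizontal-budgets`): `ν^♭ (Q') = ν_{Q'} / ν_Q ∼ a_s^d (q'/q)² N^{-ℓ s} ∼ a_s^d h_s³` (here `k = ℓ`); `∑ m_Q ≤ 1` (`k7h_budget_in`). -/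
theorem k7h_X_budget : ∃ C : ℕ, 1 ≤ C ∧ ∀ {R : KsRef KbVer.two} {A : R.Par} {E : Set (R.L × ℝ)} {Ds : Finset ℝ} {ξ K ε : ℝ} {Q : R.Lab} {ρ0 ρ1 μ : ℝ} {Cn F : Set (R.L × ℝ)} {G' : Finset ℝ},
    K7hIn R A E Ds ξ K ε Q ρ0 ρ1 μ Cn F G' → ∀ H : K7bHor, H = (k7hX R A E Ds Q ρ0 ρ1 μ F).hor →
    (∀ s ∈ G', ∀ q ∈ H.Qat s, ENNReal.ofReal (R.a s ^ R.d * R.a (R.k * s) ^ 3 / ((C : ℝ) * K ^ C)) ≤ H.ν (H.asg q) ∧
      H.ν (H.asg q) ≤ ENNReal.ofReal ((C : ℝ) * K ^ C * R.a s ^ R.d * R.a (R.k * s) ^ 3)) ∧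
    ∀ s ∈ G', ∑ q ∈ H.Qat s, H.mQ q ≤ 1 := by
  refine ⟨8, by norm_num, ?_⟩
  intro R A E Ds ξ K ε Q ρ0 ρ1 μ Cn F G' h H hH
  have hlab := (k7h_X_lab h H hH).2.1
  subst hH
  have hR := h.ok
  have hK := hR.K_ge
  have hK0 : 0 < K := by linarith
  have hq : 0 < R.q Q := ksl8_q_pos R Q
  have hν0 : R.νQ Q ≠ 0 := h.fit.pos
  have hνt : R.νQ Q ≠ ⊤ := (k7h_inc_mass hR Q).2.2.1
  constructor
  · intro s hs q hq1
    obtain ⟨l1, l2⟩ := hlab s hs q hq1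
    rw [k7h_D5_Qat] at hq1
    obtain ⟨hd, hD, p, hpF, hpl⟩ := hq1
    have hpC := h.hF hpF
    have hpE := h.fit.sub hpC
    have hp0 : p ∈ R.Ev0 := h.hE hpE.1
    have hpq : p ∈ R.inc q := by
      have := (hR.lab _ (h.hDs (h.hG s hs).2) p hp0).2
      rwa [hpl] at this
    obtain ⟨m1, m2⟩ := k7h_D6_mass hR h.one q hp0 hpq
    obtain ⟨M1, M2⟩ := k7h_D6_mass hR h.one Q hp0 hpE.2
    have e : (k7hX R A E Ds Q ρ0 ρ1 μ F).hor.ν ((k7hX R A E Ds Q ρ0 ρ1 μ F).hor.asg q) = (R.νQ Q)⁻¹ * R.νQ q :=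
      k7h_D6_nu hR A E Ds Q ρ0 ρ1 μ F q hD.2.1
    rw [e]
    have l1' : R.a (R.k * s) / K ^ 2 ≤ R.q q / R.q Q := l1
    have l2' : R.q q / R.q Q ≤ K ^ 2 * R.a (R.k * s) := l2
    rw [div_le_div_iff₀ (by positivity) hq] at l1'
    rw [div_le_iff₀ hq] at l2'
    -- abbreviations
    obtain ⟨α, hα⟩ : ∃ α : ℝ, α = R.a (R.dep Q) ^ R.d := ⟨_, rfl⟩
    obtain ⟨β, hβ⟩ : ∃ β : ℝ, β = R.a s ^ R.d := ⟨_, rfl⟩
    obtain ⟨g, hg⟩ : ∃ g : ℝ, g = R.a (R.ell * R.dep Q) := ⟨_, rfl⟩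
    obtain ⟨hh, hhh⟩ : ∃ hh : ℝ, hh = R.a (R.k * s) := ⟨_, rfl⟩
    have pα : 0 < α := by rw [hα]; exact Real.rpow_pos_of_pos (ksl8_a_pos hR _) _
    have pβ : 0 < β := by rw [hβ]; exact Real.rpow_pos_of_pos (ksl8_a_pos hR _) _
    have pg : 0 < g := by rw [hg]; exact ksl8_a_pos hR _
    have ph : 0 < hh := by rw [hhh]; exact ksl8_a_pos hR _
    have pq' : 0 < R.q q := ksl8_q_pos R q
    have e1 : R.a (R.dep q) ^ R.d = α * β := by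
      rw [hd, k7h_D5_a_add hR, Real.mul_rpow (ksl8_a_pos hR _).le (ksl8_a_pos hR _).le, hα, hβ]
    have e2 : R.a (R.ell * R.dep q) = g * hh := by
      rw [hd, mul_add, k7h_D5_a_add hR, hg, hhh, h.kl]
    rw [e1, e2] at m1 m2
    rw [← hα, ← hg] at M1 M2
    rw [← hhh] at l1' l2'
    rw [← hβ, ← hhh]
    have sq1 : (hh * R.q Q) ^ 2 ≤ (R.q q * K ^ 2) ^ 2 := pow_le_pow_left₀ (by positivity) l1' 2
    have sq2 : R.q q ^ 2 ≤ (K ^ 2 * hh * R.q Q) ^ 2 := pow_le_pow_left₀ pq'.le l2' 2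
    push_cast
    constructor
    · rw [← ENNReal.mul_le_iff_le_inv hν0 hνt]
      refine le_trans ?_ m1
      refine (mul_le_mul' M2 le_rfl).trans ?_
      rw [← ENNReal.ofReal_mul (by positivity)]
      refine ENNReal.ofReal_le_ofReal ?_
      rw [le_div_iff₀ (by positivity)]
      have : K ^ 2 * (α * (R.q Q ^ 2 * g)) * (β * hh ^ 3 / (8 * K ^ 8)) * K ^ 2 = α * β * g * hh * ((hh * R.q Q) ^ 2) / (8 * K ^ 4) := by
        field_simp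
      rw [this, div_le_iff₀ (by positivity)]
      calc α * β * g * hh * (hh * R.q Q) ^ 2 ≤ α * β * g * hh * (R.q q * K ^ 2) ^ 2 := by gcongr
        _ = α * β * (R.q q ^ 2 * (g * hh)) * K ^ 4 := by ring
        _ ≤ α * β * (R.q q ^ 2 * (g * hh)) * (8 * K ^ 4) := by
            gcongr
            nlinarith [pow_pos hK0 4]
    · rw [ENNReal.inv_mul_le_iff hν0 hνt]
      refine m2.trans ?_
      refine le_trans ?_ (mul_le_mul' M1 le_rfl)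
      rw [← ENNReal.ofReal_mul (by positivity)]
      refine ENNReal.ofReal_le_ofReal ?_
      have : α * (R.q Q ^ 2 * g) / K ^ 2 * (8 * K ^ 8 * β * hh ^ 3) = 8 * (K ^ 2 * (α * β * ((K ^ 2 * hh * R.q Q) ^ 2 * (g * hh)))) := by
        field_simp
      rw [this]
      calc K ^ 2 * (α * β * (R.q q ^ 2 * (g * hh))) ≤ K ^ 2 * (α * β * ((K ^ 2 * hh * R.q Q) ^ 2 * (g * hh))) := by gcongr
        _ ≤ 8 * (K ^ 2 * (α * β * ((K ^ 2 * hh * R.q Q) ^ 2 * (g * hh)))) := by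
            have : 0 ≤ K ^ 2 * (α * β * ((K ^ 2 * hh * R.q Q) ^ 2 * (g * hh))) := by positivity
            linarith
  · intro s hs
    classical
    have hb := k7h_budget_in hR Q (R.dep Q + s)
    have hoq : ENNReal.ofReal (R.q Q) ≠ 0 := (ENNReal.ofReal_pos.2 hq).ne'
    have e : ∀ q ∈ (k7hX R A E Ds Q ρ0 ρ1 μ F).hor.Qat s, (k7hX R A E Ds Q ρ0 ρ1 μ F).hor.mQ q
        = (ENNReal.ofReal (R.q Q) * R.νQ Q)⁻¹ * (ENNReal.ofReal (R.q q) * R.νQ q) := by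
      intro q hq1
      rw [k7h_D5_Qat] at hq1
      have e1 : (k7hX R A E Ds Q ρ0 ρ1 μ F).hor.mQ q = ENNReal.ofReal (R.q q / R.q Q) * (k7hX R A E Ds Q ρ0 ρ1 μ F).hor.ν (R.asg q) := rfl
      rw [e1, k7h_D6_nu hR A E Ds Q ρ0 ρ1 μ F q hq1.2.1.2.1, ENNReal.ofReal_div_of_pos hq, ENNReal.mul_inv (Or.inl hoq) (Or.inl ENNReal.ofReal_ne_top),
        div_eq_mul_inv]
      ring
    rw [Finset.sum_congr rfl e, ← Finset.mul_sum]
    rw [ENNReal.inv_mul_le_iff (mul_ne_zero hoq hν0) (ENNReal.mul_ne_top ENNReal.ofReal_ne_top hνt), mul_one]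
    refine le_trans ?_ hb
    refine le_trans (le_of_eq ?_) (Finset.sum_le_sum_of_subset (s := (k7hX R A E Ds Q ρ0 ρ1 μ F).hor.Qat s) ?_)
    · rfl
    · intro q hq1
      rw [k7h_D5_Qat] at hq1
      exact Finset.mem_filter.2 ⟨Finset.mem_univ _, hq1.1, hq1.2.1⟩

/-- the arithmetic core of the whole horizontal boxes -/
theorem k7h_bx_core {K M q q' g h b' Er μ t Z Y tc Zc Yc tQ ZQ y0 ρ0 ρ1 A0 A1 : ℝ} (hK : 1 ≤ K) (hM : 0 ≤ M) (hq : 0 < q) (hq' : 0 ≤ q') (hg : 0 < g) (hh : 0 < h)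
    (h1 : |t - tc| ≤ q') (h2 : |Z - Zc| ≤ 3 * K ^ 2 * q') (h3 : |Y - Yc - (A0 * (t - tc) + A1 * (Z - Zc))| ≤ 2 * K ^ 5 * b')
    (h4 : |A0 - (ρ0 + μ * (Zc - ZQ))| ≤ Er) (h4' : |A1 - (ρ1 - μ * (tc - tQ))| ≤ Er)
    (h5 : q' ≤ K ^ 2 * h * q) (h6 : Er ≤ M * (1 + 2 * K) * (g * h)) (h7 : b' ≤ K * q * h * (g * h)) (h8 : g ≤ K * (|μ| * q)) :
    |(t - tQ) / q - (tc - tQ) / q| ≤ K ^ 2 * h ∧ |(Z - ZQ) / q - (Zc - ZQ) / q| ≤ 3 * K ^ 4 * h ∧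
    |-1 / (μ * q ^ 2) * (Y - (y0 + ρ0 * t + ρ1 * Z)) - -1 / (μ * q ^ 2) * (Yc - (y0 + ρ0 * tc + ρ1 * Zc))
        - (-((Zc - ZQ) / q) * ((t - tQ) / q - (tc - tQ) / q) + (tc - tQ) / q * ((Z - ZQ) / q - (Zc - ZQ) / q))|
      ≤ (2 * K ^ 7 + 4 * K ^ 5 * (M * (1 + 2 * K))) * h ^ 2 := by
  have hK0 : 0 < K := by linarith
  have hμ : μ ≠ 0 := by
    intro h0
    rw [h0] at h8
    simp at h8
    linarith
  have hμ0 : 0 < |μ| := abs_pos.2 hμ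
  have hEr : 0 ≤ Er := (abs_nonneg _).trans h4
  refine ⟨?_, ?_, ?_⟩
  · have e : (t - tQ) / q - (tc - tQ) / q = (t - tc) / q := by field_simp; ring
    rw [e, abs_div, abs_of_pos hq, div_le_iff₀ hq]
    exact h1.trans h5
  · have e : (Z - ZQ) / q - (Zc - ZQ) / q = (Z - Zc) / q := by field_simp; ring
    rw [e, abs_div, abs_of_pos hq, div_le_iff₀ hq]
    refine h2.trans ?_
    calc 3 * K ^ 2 * q' ≤ 3 * K ^ 2 * (K ^ 2 * h * q) := by gcongr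
      _ = 3 * K ^ 4 * h * q := by ring
  · set W : ℝ := (Y - Yc - (A0 * (t - tc) + A1 * (Z - Zc))) + (A0 - (ρ0 + μ * (Zc - ZQ))) * (t - tc) + (A1 - (ρ1 - μ * (tc - tQ))) * (Z - Zc) with hW
    have e : -1 / (μ * q ^ 2) * (Y - (y0 + ρ0 * t + ρ1 * Z)) - -1 / (μ * q ^ 2) * (Yc - (y0 + ρ0 * tc + ρ1 * Zc))
        - (-((Zc - ZQ) / q) * ((t - tQ) / q - (tc - tQ) / q) + (tc - tQ) / q * ((Z - ZQ) / q - (Zc - ZQ) / q)) = -W / (μ * q ^ 2) := by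
      rw [hW]
      field_simp
      ring
    have hWb : |W| ≤ 2 * K ^ 5 * b' + 4 * K ^ 2 * (Er * q') := by
      have m1 : |(A0 - (ρ0 + μ * (Zc - ZQ))) * (t - tc)| ≤ Er * q' := by
        rw [abs_mul]; exact mul_le_mul h4 h1 (abs_nonneg _) hEr
      have m2 : |(A1 - (ρ1 - μ * (tc - tQ))) * (Z - Zc)| ≤ Er * (3 * K ^ 2 * q') := by
        rw [abs_mul]; exact mul_le_mul h4' h2 (abs_nonneg _) hEr
      have m3 : Er * q' ≤ K ^ 2 * (Er * q') := by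
        have : 1 ≤ K ^ 2 := one_le_pow₀ hK
        have h0 : 0 ≤ Er * q' := mul_nonneg hEr hq'
        nlinarith
      rw [hW]
      refine (abs_add_le _ _).trans ?_
      refine (add_le_add (abs_add_le _ _) le_rfl).trans ?_
      nlinarith
    rw [e, abs_div, abs_neg, abs_mul, abs_of_pos (by positivity : 0 < q ^ 2), div_le_iff₀ (by positivity)]
    have s1 : 2 * K ^ 5 * b' ≤ 2 * K ^ 6 * h ^ 2 * (g * q) := by
      calc 2 * K ^ 5 * b' ≤ 2 * K ^ 5 * (K * q * h * (g * h)) := by gcongr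
        _ = _ := by ring
    have s2 : 4 * K ^ 2 * (Er * q') ≤ 4 * K ^ 4 * (M * (1 + 2 * K)) * h ^ 2 * (g * q) := by
      calc 4 * K ^ 2 * (Er * q') ≤ 4 * K ^ 2 * ((M * (1 + 2 * K) * (g * h)) * (K ^ 2 * h * q)) := by gcongr
        _ = _ := by ring
    have s3 : g * q ≤ K * (|μ| * q ^ 2) := by
      calc g * q ≤ K * (|μ| * q) * q := by gcongr
        _ = _ := by ring
    calc |W| ≤ 2 * K ^ 5 * b' + 4 * K ^ 2 * (Er * q') := hWb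
      _ ≤ (2 * K ^ 6 + 4 * K ^ 4 * (M * (1 + 2 * K))) * h ^ 2 * (g * q) := by nlinarith
      _ ≤ (2 * K ^ 6 + 4 * K ^ 4 * (M * (1 + 2 * K))) * h ^ 2 * (K * (|μ| * q ^ 2)) := by gcongr
      _ = _ := by ring

theorem k7h_bx_floor {ξ x x' : ℝ} (hξ : 0 < ξ) (h : ⌊x / ξ⌋ = ⌊x' / ξ⌋) : |x - x'| ≤ ξ := by
  have h1 := Int.abs_sub_lt_one_of_floor_eq_floor h
  have e : x / ξ - x' / ξ = (x - x') / ξ := by ring
  rw [e, abs_div, abs_of_pos hξ, div_lt_one hξ] at h1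
  exact h1.le

theorem k7h_bx_a_add {R : KsRef KbVer.two} {K : ℝ} (hR : R.Ok K) (x y : ℝ) : R.a (x + y) = R.a x * R.a y := by
  unfold KsRef.a
  rw [← Real.rpow_add (by linarith [hR.N_ge])]
  congr 1
  ring

theorem k7h_bx_YQ (R : KsRef KbVer.two) (Q : R.Lab) (t Z t' Z' : ℝ) :
    R.YQ Q t Z - R.YQ Q t' Z' = R.row Q 0 * (t - t') + R.row Q 1 * (Z - Z') := by
  have c1 : ∀ s, ksY ((R.ch Q).yc s) = ksY (R.ch Q).y0 + s * ksY (R.ch Q).y1 := fun _ => rfl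
  have c2 : ∀ s, ksZ ((R.ch Q).yc s) = ksZ (R.ch Q).y0 + s * ksZ (R.ch Q).y1 := fun _ => rfl
  have r0 : R.row Q 0 = ksY (R.ch Q).y1 - R.tl Q * ksZ (R.ch Q).y1 := rfl
  have r1 : R.row Q 1 = R.tl Q := rfl
  unfold KsRef.YQ
  rw [c1, c1, c2, c2, r0, r1]
  ring

theorem k7h_bx_const (C : ℕ) {K : ℝ} (hK : 1 ≤ K) :
    K ^ 2 ≤ ((12 * C + 9 : ℕ) : ℝ) * K ^ (12 * C + 9) ∧ 3 * K ^ 4 ≤ ((12 * C + 9 : ℕ) : ℝ) * K ^ (12 * C + 9) ∧
    2 * K ^ 7 + 4 * K ^ 5 * ((C : ℝ) * K ^ C * (1 + 2 * K)) ≤ ((12 * C + 9 : ℕ) : ℝ) * K ^ (12 * C + 9) := by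
  have hK0 : 0 < K := by linarith
  have hC0 : (0 : ℝ) ≤ C := Nat.cast_nonneg _
  have key : ∀ (c : ℝ) (m : ℕ), 0 ≤ c → c ≤ 12 * (C : ℝ) + 9 → m ≤ 12 * C + 9 → c * K ^ m ≤ ((12 * C + 9 : ℕ) : ℝ) * K ^ (12 * C + 9) := by
    intro c m h0 hc hm
    push_cast
    exact mul_le_mul hc (pow_le_pow_right₀ hK hm) (by positivity) (by positivity)
  refine ⟨?_, key 3 4 (by norm_num) (by linarith) (by omega), ?_⟩
  · have := key 1 2 (by norm_num) (by linarith) (by omega)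
    rwa [one_mul] at this
  · have a3 : 4 * K ^ 5 * ((C : ℝ) * K ^ C * (1 + 2 * K)) ≤ 12 * C * K ^ (C + 7) := by
      have h1 : 1 + 2 * K ≤ 3 * K := by linarith
      have h2 : K ^ (C + 6) ≤ K ^ (C + 7) := pow_le_pow_right₀ hK (by omega)
      calc 4 * K ^ 5 * ((C : ℝ) * K ^ C * (1 + 2 * K)) ≤ 4 * K ^ 5 * ((C : ℝ) * K ^ C * (3 * K)) := by gcongr
        _ = 12 * C * K ^ (C + 6) := by ring
        _ ≤ _ := by gcongr
    have a4 : 2 * K ^ 7 ≤ 2 * K ^ (C + 7) := by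
      have : K ^ 7 ≤ K ^ (C + 7) := pow_le_pow_right₀ hK (by omega)
      linarith
    have a5 := key (2 + 12 * C) (C + 7) (by positivity) (by linarith) (by omega)
    calc 2 * K ^ 7 + 4 * K ^ 5 * ((C : ℝ) * K ^ C * (1 + 2 * K)) ≤ 2 * K ^ (C + 7) + 12 * C * K ^ (C + 7) := add_le_add a4 a3
      _ = (2 + 12 * C) * K ^ (C + 7) := by ring
      _ ≤ _ := a5

/-- **L-252-S7h-D7** WHOLE HORIZONTAL BOXES (07 l.1043-1062, `a06:centered-horizontal-box`).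
PLAN.  `q' ∈ Qat s` is used: `p_c := ` the chosen incidence of `F` with label `q'`, centre `= k7hNb (base p_c)`; its partner (`sep`) has the same label of depth `r + s ∈ Ds` and the same normalised cell; `k7h_child_row` with `δ = q ξ` :
`A_{q'} = (ρ0 + μ (Z_c - Z_Q), ρ1 - μ (t_c - t_Q)) ± C K^C (g' + ε + |μ| q ξ)`.   In normalised coordinates the centre plane of the tilted box of `q'` has the row `κ q (A_{q'} - ρ) = J ẑ_c ± C K^{C+1} (N^{-ℓ s} + ε/g + K ξ) = J ẑ_c ± K' h_s`;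
the tilted box (`ks_tilt_box`): horizontal size `≤ 3 K² q' / q ≤ K' h_s`, transverse width `|κ| K^5 b' ≤ K^7 h_s²` (`k = ℓ`); `k7b_box_tilt`. -/
theorem k7h_X_box : ∃ C : ℕ, ∀ {R : KsRef KbVer.two} {A : R.Par} {E : Set (R.L × ℝ)} {Ds : Finset ℝ} {ξ K ε : ℝ} {Q : R.Lab} {ρ0 ρ1 μ : ℝ} {Cn F : Set (R.L × ℝ)} {G' : Finset ℝ},
    K7hIn R A E Ds ξ K ε Q ρ0 ρ1 μ Cn F G' → ∀ H : K7bHor, H = (k7hX R A E Ds Q ρ0 ρ1 μ F).hor →
    ∀ s ∈ G', ∀ q ∈ H.Qat s, ∀ l ∈ H.asg q, ∀ t ∈ H.blk q, H.bs l t ∈ k7bBox (H.ct q) (H.cZ q) (H.cY q) (R.a (R.k * s)) ((C : ℝ) * K ^ C) := by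
  obtain ⟨C, hC⟩ := k7h_child_row
  refine ⟨12 * C + 9, ?_⟩
  intro R A E Ds ξ K ε Q ρ0 ρ1 μ Cn F G' h H hH s hs q'' hq'' l'' hl'' τ'' hτ''
  subst hH
  classical
  suffices key : ∀ (q' : R.Lab) (l : R.L) (τ : ℝ), q' ∈ (k7hX R A E Ds Q ρ0 ρ1 μ F).hor.Qat s → l ∈ R.asg q' → τ ∈ (k7hX R A E Ds Q ρ0 ρ1 μ F).hor.blk q' →
      (k7hX R A E Ds Q ρ0 ρ1 μ F).hor.bs l τ ∈ k7bBox (k7hCtr R Q ρ0 ρ1 μ F q').1 (k7hCtr R Q ρ0 ρ1 μ F q').2.1 (k7hCtr R Q ρ0 ρ1 μ F q').2.2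
        (R.a (R.k * s)) (((12 * C + 9 : ℕ) : ℝ) * K ^ (12 * C + 9)) from key q'' l'' τ'' hq'' hl'' hτ''
  intro q' l τ hq' hl hτ
  have hR := h.ok
  have hT := h.tilt
  have hK := hR.K_ge
  have hK0 : 0 < K := by linarith
  obtain ⟨hdep0, hdesc, p, hpF, hlab0⟩ := (Finset.mem_filter.1 hq').2
  have hdep : R.dep q' = R.dep Q + s := hdep0
  have hpF' : p ∈ F := hpF
  have hlab : R.labAt (R.dep Q + s) p = q' := hlab0
  have hl' : l ∈ R.asg q' := hl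
  have hq : 0 < R.q Q := ksl8_q_pos R Q
  have hqq : 0 < R.q q' := ksl8_q_pos R q'
  have hg : 0 < R.g Q := ksl8_a_pos hR _
  have hh : 0 < R.a (R.k * s) := ksl8_a_pos hR _
  have hμ : μ ≠ 0 := by
    intro h0
    have := h.lam
    rw [h0] at this
    simp at this
    linarith
  -- the tangent time
  obtain ⟨t, ht⟩ : ∃ t, t = R.t0 Q + R.q Q * τ := ⟨_, rfl⟩
  have hτ' : (R.t0 q' - R.t0 Q) / R.q Q ≤ τ ∧ τ < (R.t0 q' - R.t0 Q) / R.q Q + R.q q' / R.q Q := hτ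
  have hblk : ∀ x, x ∈ R.blk q' ↔ R.t0 q' ≤ x ∧ x < R.t0 q' + R.q q' := by
    intro x
    have e : (((R.iv q' : ℝ) + 1) * kbQ (R.lev q')) = R.t0 q' + R.q q' := by
      unfold KsRef.t0 KsRef.q
      ring
    show (R.iv q' : ℝ) * kbQ (R.lev q') ≤ x ∧ x < ((R.iv q' : ℝ) + 1) * kbQ (R.lev q') ↔ _
    rw [e]
    rfl
  have htb : t ∈ R.blk q' := by
    rw [hblk, ht]
    constructor
    · have := (div_le_iff₀ hq).1 hτ'.1
      linarith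
    · have h2 : τ < (R.t0 q' - R.t0 Q + R.q q') / R.q Q := by
        rw [add_div]; exact hτ'.2
      have := (lt_div_iff₀ hq).1 h2
      linarith
  -- the centre
  have hex : ∃ p ∈ F, R.labAt (R.dep q') p = q' := ⟨p, hpF', by rw [hdep]; exact hlab⟩
  obtain ⟨pc, hpc⟩ : ∃ pc, pc = hex.choose := ⟨_, rfl⟩
  have hpcs : pc ∈ F ∧ R.labAt (R.dep q') pc = q' := by rw [hpc]; exact hex.choose_spec
  have hctr : k7hCtr R Q ρ0 ρ1 μ F q' = k7hNb R Q ρ0 ρ1 μ (R.base pc) := by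
    unfold k7hCtr
    rw [dif_pos hex, hpc]
  have hFin : ∀ x ∈ F, x ∈ R.Ev0 ∧ x ∈ R.inc Q ∧ x ∈ Cn := fun x hx =>
    ⟨h.hE (h.fit.sub (h.hF hx)).1, (h.fit.sub (h.hF hx)).2, h.hF hx⟩
  have hinc : ∀ x ∈ F, R.labAt (R.dep q') x = q' → x ∈ R.inc q' := by
    intro x hx hxl
    have := (hR.lab (R.dep q') (hR.dep_mem q') x (hFin x hx).1).2
    rwa [hxl] at this
  have hpci := hinc pc hpcs.1 hpcs.2
  obtain ⟨p2, hp2F, hdat, hsep⟩ := h.sep pc hpcs.1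
  have hl2 : R.labAt (R.dep q') p2 = q' := by
    have := congrFun (congrArg Prod.fst hdat) ⟨R.dep Q + s, (h.hG s hs).2⟩
    have e : R.labAt (R.dep Q + s) p2 = R.labAt (R.dep Q + s) pc := this
    rw [hdep, e, ← hdep]
    exact hpcs.2
  have hp2i := hinc p2 hp2F hl2
  have hlQ : ∀ x ∈ F, R.labAt (R.dep Q) x = Q := fun x hx =>
    (k7h_dat_lab hR Ds (R.dep Q) ξ).2.2 Q x ⟨(hFin x hx).1, (hFin x hx).2.1⟩
  have hcell : k7hCell R Q ξ p2 = k7hCell R Q ξ pc := by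
    have e : k7hCell R (R.labAt (R.dep Q) p2) ξ p2 = k7hCell R (R.labAt (R.dep Q) pc) ξ pc := congrArg Prod.snd hdat
    rwa [hlQ p2 hp2F, hlQ pc hpcs.1] at e
  have hc1 : |pc.2 - p2.2| ≤ R.q Q * ξ := by
    have e1 : ⌊(p2.2 - R.t0 Q) / R.q Q / ξ⌋ = ⌊(pc.2 - R.t0 Q) / R.q Q / ξ⌋ := congrArg Prod.fst hcell
    have e2 := k7h_bx_floor h.ξ_pos e1
    have e3 : (p2.2 - R.t0 Q) / R.q Q - (pc.2 - R.t0 Q) / R.q Q = (p2.2 - pc.2) / R.q Q := by ring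
    rw [e3, abs_div, abs_of_pos hq, div_le_iff₀ hq] at e2
    rw [abs_sub_comm]
    linarith
  have hc2 : |ksZ (R.y pc.1 pc.2) - ksZ (R.y p2.1 p2.2)| ≤ R.q Q * ξ := by
    have e1 : ⌊(ksZ (R.y p2.1 p2.2) - k7hZc R Q) / R.q Q / ξ⌋ = ⌊(ksZ (R.y pc.1 pc.2) - k7hZc R Q) / R.q Q / ξ⌋ := congrArg Prod.snd hcell
    have e2 := k7h_bx_floor h.ξ_pos e1
    have e3 : (ksZ (R.y p2.1 p2.2) - k7hZc R Q) / R.q Q - (ksZ (R.y pc.1 pc.2) - k7hZc R Q) / R.q Q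
        = (ksZ (R.y p2.1 p2.2) - ksZ (R.y pc.1 pc.2)) / R.q Q := by ring
    rw [e3, abs_div, abs_of_pos hq, div_le_iff₀ hq] at e2
    rw [abs_sub_comm]
    linarith
  obtain ⟨hr0, hr1⟩ := hC R K ε (R.q Q * ξ) (R.t0 Q) (k7hZc R Q) ρ0 ρ1 μ q' pc p2 hR hT hpci hp2i
    (by
      intro x hx
      rcases hx with rfl | hx
      · exact h.fit.fit _ (hFin _ hpcs.1).2.2
      · rw [Set.mem_singleton_iff.1 hx]
        exact h.fit.fit _ (hFin _ hp2F).2.2) hsep hc1 hc2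
  -- the tilted box of the child
  obtain ⟨hbl, -⟩ := ks_tilt_box hR hT q' l hl'
  obtain ⟨hbc, -⟩ := ks_tilt_box hR hT q' pc.1 hpci.1
  obtain ⟨bl1, bl2⟩ := hbl t htb
  obtain ⟨bc1, bc2⟩ := hbc pc.2 hpci.2
  have htc := (hblk pc.2).1 hpci.2
  have htt := (hblk t).1 htb
  have h1 : |t - pc.2| ≤ R.q q' := by
    rw [abs_le]; constructor <;> linarith [htc.1, htc.2, htt.1, htt.2]
  have h2 : |ksZ (R.y l t) - ksZ (R.y pc.1 pc.2)| ≤ 3 * K ^ 2 * R.q q' := by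
    have c2 : ∀ s, ksZ ((R.ch q').yc s) = ksZ (R.ch q').y0 + s * ksZ (R.ch q').y1 := fun _ => rfl
    have e : ksZ (R.y l t) - ksZ (R.y pc.1 pc.2) = (ksZ (R.y l t) - ksZ ((R.ch q').yc t)) - (ksZ (R.y pc.1 pc.2) - ksZ ((R.ch q').yc pc.2))
        + (t - pc.2) * ksZ (R.ch q').y1 := by
      rw [c2, c2]; ring
    have n1 : |ksZ (R.ch q').y1| ≤ K := by
      have := hT.cen q'
      have n0 := norm_nonneg (R.ch q').y0
      exact (ksl8_abs_le_norm _).1.trans (by linarith)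
    have n2 : |(t - pc.2) * ksZ (R.ch q').y1| ≤ R.q q' * K := by
      rw [abs_mul]; exact mul_le_mul h1 n1 (abs_nonneg _) hqq.le
    have n3 : K ≤ K ^ 2 := by nlinarith
    rw [e]
    refine (abs_add_le _ _).trans ((add_le_add (abs_sub _ _) n2).trans ?_)
    nlinarith
  have h3 : |ksY (R.y l t) - ksY (R.y pc.1 pc.2) - (R.row q' 0 * (t - pc.2) + R.row q' 1 * (ksZ (R.y l t) - ksZ (R.y pc.1 pc.2)))| ≤ 2 * K ^ 5 * R.b q' := by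
    rw [← k7h_bx_YQ]
    have e : ksY (R.y l t) - ksY (R.y pc.1 pc.2) - (R.YQ q' t (ksZ (R.y l t)) - R.YQ q' pc.2 (ksZ (R.y pc.1 pc.2)))
        = (ksY (R.y l t) - R.YQ q' t (ksZ (R.y l t))) - (ksY (R.y pc.1 pc.2) - R.YQ q' pc.2 (ksZ (R.y pc.1 pc.2))) := by ring
    rw [e]
    refine (abs_sub _ _).trans ?_
    linarith
  -- the scales
  have ea : R.a (R.k * R.dep q') = R.a (R.k * R.dep Q) * R.a (R.k * s) := by
    rw [hdep, mul_add, k7h_bx_a_add hR]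
  have eg : R.g q' = R.g Q * R.a (R.k * s) := by
    unfold KsRef.g
    rw [hdep, mul_add, k7h_bx_a_add hR, h.kl]
  have h5 : R.q q' ≤ K ^ 2 * R.a (R.k * s) * R.q Q := by
    calc R.q q' ≤ K * R.a (R.k * R.dep q') := hR.q_hi q'
      _ = K * (R.a (R.k * R.dep Q) * R.a (R.k * s)) := by rw [ea]
      _ ≤ K * ((K * R.q Q) * R.a (R.k * s)) := by
          have := hR.q_lo Q
          gcongr
      _ = _ := by ring
  have h7 : R.b q' ≤ K * R.q Q * R.a (R.k * s) * (R.g Q * R.a (R.k * s)) := by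
    rw [ksl8_b_eq hR q', ea, eg]
    have := hR.q_lo Q
    gcongr
  have hM : (0 : ℝ) ≤ (C : ℝ) * K ^ C := by positivity
  have h6 : (C : ℝ) * K ^ C * (R.g q' + ε + |μ| * (R.q Q * ξ)) ≤ (C : ℝ) * K ^ C * (1 + 2 * K) * (R.g Q * R.a (R.k * s)) := by
    rw [mul_assoc ((C : ℝ) * K ^ C)]
    refine mul_le_mul_of_nonneg_left ?_ hM
    have e1 := h.eps s hs
    have e2 : |μ| * (R.q Q * ξ) ≤ K * (R.g Q * R.a (R.k * s)) := by
      calc |μ| * (R.q Q * ξ) = (|μ| * R.q Q) * ξ := by ring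
        _ ≤ (K * R.g Q) * R.a (R.k * s) := mul_le_mul h.fit.mu (h.xi s hs) h.ξ_pos.le (by positivity)
        _ = _ := by ring
    rw [eg]
    linarith
  obtain ⟨g1, g2, g3⟩ := k7h_bx_core (y0 := R.YQ Q (R.t0 Q) (k7hZc R Q) - ρ0 * R.t0 Q - ρ1 * k7hZc R Q) hK hM hq hqq.le hg hh h1 h2 h3 hr0 hr1 h5 h6 h7 h.lam
  obtain ⟨k1, k2, k3⟩ := k7h_bx_const C hK
  rw [(k7h_X_coord R A E Ds Q ρ0 ρ1 μ F hμ l τ).1]
  rw [hctr]
  have eb : R.base (k7hInc R Q (l, τ)) = (t, R.y l t) := by rw [ht]; rfl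
  rw [eb]
  refine ⟨g1.trans ?_, g2.trans ?_, g3.trans ?_⟩
  · exact mul_le_mul_of_nonneg_right k1 hh.le
  · exact mul_le_mul_of_nonneg_right k2 hh.le
  · exact mul_le_mul_of_nonneg_right k3 (by positivity)

/-- **L-252-S7h-D8** `Ok0` from the fields (assembly; `c.a s = R.a s`, `c.h s = R.a (R.k * s)`, `c.χ = kbDy (N^-Mχ)` by `rfl`; monotonicity in the slack) -/
theorem k7h_X_ok0 (S0 : ℝ) : ∃ C : ℕ, 1 ≤ C ∧ ∀ {R : KsRef KbVer.two} {A : R.Par} {E : Set (R.L × ℝ)} {Ds : Finset ℝ} {ξ K ε : ℝ} {Q : R.Lab} {ρ0 ρ1 μ : ℝ} {Cn F : Set (R.L × ℝ)} {G' : Finset ℝ},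
    K7hIn R A E Ds ξ K ε Q ρ0 ρ1 μ Cn F G' → R.S ≤ S0 → ∀ e0 Mξ Mχ Mϱ : ℝ, R.χ ≤ R.N ^ (-Mχ) → K * ε ≤ R.g Q * R.N ^ (-e0) → 0 ≤ e0 →
    (k7hX R A E Ds Q ρ0 ρ1 μ F).hor.Ok0 (K7bDat.par R e0 G' Mξ Mχ Mϱ) ((C : ℝ) * K ^ C) := by
  obtain ⟨C2, h2⟩ := k7h_X_bdd
  obtain ⟨C3, h3⟩ := k7h_X_state S0
  obtain ⟨C4, h4⟩ := k7h_X_capQ
  obtain ⟨C6, hC6, h6⟩ := k7h_X_budget
  obtain ⟨C7, h7⟩ := k7h_X_box
  refine ⟨C2 + C3 + C4 + C6 + C7 + 2, by omega, ?_⟩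
  intro R A E Ds ξ K ε Q ρ0 ρ1 μ Cn F G' h hS e0 Mξ Mχ Mϱ hχ he he0
  obtain ⟨C, hC⟩ : ∃ C : ℕ, C = C2 + C3 + C4 + C6 + C7 + 2 := ⟨_, rfl⟩
  rw [← hC]
  have hK : 1 ≤ K := h.ok.K_ge
  have hK0 : 0 < K := by linarith
  have mono : ∀ a : ℕ, a ≤ C → (a : ℝ) * K ^ a ≤ (C : ℝ) * K ^ C := fun a ha =>
    mul_le_mul (by exact_mod_cast ha) (pow_le_pow_right₀ hK ha) (by positivity) (by positivity)
  have hC2 : (2 : ℝ) ≤ C := by
    rw [hC]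
    push_cast
    have : (0 : ℝ) ≤ (C2 : ℝ) + C3 + C4 + C6 + C7 := by positivity
    linarith
  have hKC : K ^ 2 ≤ (C : ℝ) * K ^ C := by
    have h1 : K ^ 2 ≤ K ^ C := pow_le_pow_right₀ hK (by omega)
    have h2 : 0 ≤ K ^ C := by positivity
    nlinarith
  have hK' : 1 ≤ (C : ℝ) * K ^ C := (one_le_pow₀ hK).trans hKC
  have hK'0 : 0 < (C : ℝ) * K ^ C := by linarith
  have eK' : (1 : ℝ≥0∞) ≤ ENNReal.ofReal ((C : ℝ) * K ^ C) := by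
    rw [← ENNReal.ofReal_one]
    exact ENNReal.ofReal_le_ofReal hK'
  have hN : 1 ≤ R.N := by linarith [h.ok.N_ge]
  have hg : 0 < R.g Q := ksl8_a_pos h.ok _
  have hNe : R.N ^ (-e0) ≤ 1 := Real.rpow_le_one_of_one_le_of_nonpos hN (by linarith)
  have hεg : ε ≤ R.g Q := by
    rcases le_total ε 0 with h0 | h0
    · linarith
    · have h1 : ε ≤ K * ε := le_mul_of_one_le_left h0 hK
      have h2 : R.g Q * R.N ^ (-e0) ≤ R.g Q := mul_le_of_le_one_right hg.le hNe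
      linarith
  have ha : ∀ x : ℝ, 0 ≤ R.a x := fun x => (ksl8_a_pos h.ok x).le
  obtain ⟨m1, m2, m3, m4, m5, m6, m7, m8, m9, m10, m11, m12⟩ := k7h_X_meas h _ rfl
  obtain ⟨b1, b2⟩ := h2 h hεg _ rfl
  obtain ⟨s1, s2, s3, s4, s5⟩ := h3 h hS Mχ hχ _ rfl
  have c1 := h4 h _ rfl
  obtain ⟨l1, l2, l3, l4, l5, l6, l7⟩ := k7h_X_lab h _ rfl
  obtain ⟨u1, u2⟩ := h6 h _ rfl
  have x1 := h7 h _ rfl
  have M2 := mono C2 (by omega)
  have M3 := mono C3 (by omega)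
  have M4 := mono C4 (by omega)
  have M6 := mono C6 (by omega)
  have M7 := mono C7 (by omega)
  exact
  { mp := m1
    mv := m2
    mq0 := m3
    my1 := m4
    mSp := m5
    meh := m6
    mlab := m7
    masg := m8
    νle := m9.le
    νprob := m9
    palle := m10
    dom := by
      obtain ⟨Ev0, -, e⟩ := m11
      rw [e]
      refine Measure.restrict_le_self.trans ?_
      intro S
      rw [Measure.smul_apply, smul_eq_mul]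
      exact le_mul_of_one_le_left zero_le eK'
    lamres := m11
    time := m12
    bdd := fun z hz => ⟨(b1 z hz).1.trans M2, (b1 z hz).2.1.trans M2, (b1 z hz).2.2.1.trans M2, (b1 z hz).2.2.2.trans M2⟩
    heq := fun z hz => (b2 z hz).trans (by
      rw [div_le_iff₀ hg]
      show K * ε ≤ R.N ^ (-e0) * R.g Q
      linarith)
    palcap := fun x r hr hr1 => (s1 x r hr hr1).trans (ENNReal.ofReal_le_ofReal (mul_le_mul_of_nonneg_right M3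
      (Real.rpow_nonneg ((ksl17_dy_pos _).le.trans hr) _)))
    ehdom := ks_dom_mono s2 le_rfl (fun _ _ => le_rfl) (fun _ => le_rfl) (ENNReal.ofReal_le_ofReal M3)
    refsum := s3.trans eK'
    refQ := fun s hs q hq T hT => (s4 s hs q hq T hT).trans (le_mul_of_one_le_left zero_le eK')
    capQ := fun s hs q hq U hU => (c1 s hs q hq U hU).trans (mul_le_mul' (ENNReal.ofReal_le_ofReal (mul_le_mul_of_nonneg_right M4
      (Real.rpow_nonneg (ha s) _))) le_rfl)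
    ehlab := s5
    labmem := l1
    bllen := fun s hs q hq => ⟨(div_le_div_of_nonneg_left (ha _) (by positivity) hKC).trans (l2 s hs q hq).1,
      (l2 s hs q hq).2.trans (mul_le_mul_of_nonneg_right hKC (ha _))⟩
    blkdisj := l3
    dyad := l4
    asgdisj := l5
    νQ := fun s hs q hq => ⟨(ENNReal.ofReal_le_ofReal (div_le_div_of_nonneg_left
        (mul_nonneg (Real.rpow_nonneg (ha s) _) (pow_nonneg (ha _) _)) (by
          have : (1 : ℝ) ≤ C6 := by exact_mod_cast hC6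
          positivity) M6)).trans (u1 s hs q hq).1,
      (u1 s hs q hq).2.trans (ENNReal.ofReal_le_ofReal (by
        have e1 : 0 ≤ R.a s ^ R.d := Real.rpow_nonneg (ha s) _
        have e2 : 0 ≤ R.a (R.k * s) ^ 3 := pow_nonneg (ha _) _
        exact mul_le_mul_of_nonneg_right (mul_le_mul_of_nonneg_right M6 e1) e2))⟩
    budget := u2
    box := fun s hs q hq l hl t ht => by
      obtain ⟨y1, y2, y3⟩ := x1 s hs q hq l hl t ht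
      have e1 : 0 ≤ R.a (R.k * s) := ha _
      exact ⟨y1.trans (mul_le_mul_of_nonneg_right M7 e1), y2.trans (mul_le_mul_of_nonneg_right M7 e1),
        y3.trans (mul_le_mul_of_nonneg_right M7 (pow_nonneg e1 _))⟩
    nest := l6
    anc := l7 }

/-- monotonicity of `Tilt` in the slack -/
theorem k7h_tilt_mono {R : KsRef KbVer.two} {K K' : ℝ} (h : R.Tilt K) (hK : K ≤ K') : R.Tilt K' where
  ell_pos := h.ell_pos
  tri := h.tri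
  full := fun Q => (h.full Q).trans (mul_le_mul_of_nonneg_right hK (abs_nonneg _))
  cen := fun Q => (h.cen Q).trans hK

/-- monotonicity of the interface in the slack -/
theorem k7h_fit_mono {R : KsRef KbVer.two} {A : R.Par} {E : Set (R.L × ℝ)} {Ds : Finset ℝ} {ξ K K' K₀ ε : ℝ} {Q : R.Lab} {ρ0 ρ1 μ : ℝ} {Cn : Set (R.L × ℝ)} (hR : R.Ok K₀)
    (h : K7hFit R A E Ds ξ K ε Q ρ0 ρ1 μ Cn) (hK : K ≤ K') : K7hFit R A E Ds ξ K' ε Q ρ0 ρ1 μ Cn where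
  pos := h.pos
  meas := h.meas
  sub := h.sub
  mass := h.mass.trans (mul_le_mul' (ENNReal.ofReal_le_ofReal hK) le_rfl)
  fit := h.fit
  row0 := h.row0.trans (mul_le_mul_of_nonneg_right hK (ksl8_a_pos hR _).le)
  row1 := h.row1.trans (mul_le_mul_of_nonneg_right hK (ksl8_a_pos hR _).le)
  mu := h.mu.trans (mul_le_mul_of_nonneg_right hK (ksl8_a_pos hR _).le)
  ceil := ks_dom_mono h.ceil le_rfl (fun _ _ => le_rfl) (fun _ => le_rfl) (ENNReal.ofReal_le_ofReal hK)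

/-- monotonicity of `Ok0` in the slack -/
theorem k7h_ok0_mono {H : K7bHor} {c : K7bPar} {K K' : ℝ} (h : H.Ok0 c K) (hK0 : 0 < K) (hK : K ≤ K') (hN : 0 ≤ c.N) (hχ : 0 ≤ c.χ) : H.Ok0 c K' := by
  have eK : ENNReal.ofReal K ≤ ENNReal.ofReal K' := ENNReal.ofReal_le_ofReal hK
  have ha : ∀ s, 0 ≤ c.a s := fun s => Real.rpow_nonneg hN _
  have hh : ∀ s, 0 ≤ c.h s := fun s => Real.rpow_nonneg hN _
  exact
  { mp := h.mp
    mv := h.mv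
    mq0 := h.mq0
    my1 := h.my1
    mSp := h.mSp
    meh := h.meh
    mlab := h.mlab
    masg := h.masg
    νle := h.νle
    νprob := h.νprob
    palle := h.palle
    dom := h.dom.trans (by
      intro S
      rw [Measure.smul_apply, Measure.smul_apply, smul_eq_mul, smul_eq_mul]
      exact mul_le_mul' eK le_rfl)
    lamres := h.lamres
    time := h.time
    bdd := fun z hz => ⟨(h.bdd z hz).1.trans hK, (h.bdd z hz).2.1.trans hK, (h.bdd z hz).2.2.1.trans hK, (h.bdd z hz).2.2.2.trans hK⟩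
    heq := h.heq
    palcap := fun x r hr hr1 => (h.palcap x r hr hr1).trans (ENNReal.ofReal_le_ofReal (mul_le_mul_of_nonneg_right hK (Real.rpow_nonneg (hχ.trans hr) _)))
    ehdom := ks_dom_mono h.ehdom le_rfl (fun _ _ => le_rfl) (fun _ => le_rfl) eK
    refsum := h.refsum.trans eK
    refQ := fun s hs q hq T hT => (h.refQ s hs q hq T hT).trans (mul_le_mul' eK le_rfl)
    capQ := fun s hs q hq U hU => (h.capQ s hs q hq U hU).trans (mul_le_mul' (ENNReal.ofReal_le_ofReal (mul_le_mul_of_nonneg_right hK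
      (Real.rpow_nonneg (ha s) _))) le_rfl)
    ehlab := h.ehlab
    labmem := h.labmem
    bllen := fun s hs q hq => ⟨(div_le_div_of_nonneg_left (hh s) hK0 hK).trans (h.bllen s hs q hq).1,
      (h.bllen s hs q hq).2.trans (mul_le_mul_of_nonneg_right hK (hh s))⟩
    blkdisj := h.blkdisj
    dyad := h.dyad
    asgdisj := h.asgdisj
    νQ := fun s hs q hq => ⟨(ENNReal.ofReal_le_ofReal (div_le_div_of_nonneg_left
        (mul_nonneg (Real.rpow_nonneg (ha s) _) (pow_nonneg (hh s) _)) hK0 hK)).trans (h.νQ s hs q hq).1,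
      (h.νQ s hs q hq).2.trans (ENNReal.ofReal_le_ofReal (by
        have e1 : 0 ≤ c.a s ^ c.d := Real.rpow_nonneg (ha s) _
        have e2 : 0 ≤ c.h s ^ 3 := pow_nonneg (hh s) _
        exact mul_le_mul_of_nonneg_right (mul_le_mul_of_nonneg_right hK e1) e2))⟩
    budget := h.budget
    box := fun s hs q hq l hl t ht => by
      obtain ⟨y1, y2, y3⟩ := h.box s hs q hq l hl t ht
      exact ⟨y1.trans (mul_le_mul_of_nonneg_right hK (hh s)), y2.trans (mul_le_mul_of_nonneg_right hK (hh s)),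
        y3.trans (mul_le_mul_of_nonneg_right hK (pow_nonneg (hh s) _))⟩
    nest := h.nest
    anc := h.anc }

/-- **CORE D** (hub; leaf L-252-S7h-D9): `k7h_cond` + `k7h_sep` for `(E ∩ inc Q, Cn)` give `F`; `K7hIn` with the slack `C K^C`; `k7h_X_ok0`. -/
theorem k7h_model (S0 : ℝ) (hS0 : 0 < S0) : ∃ C : ℕ, ∀ (R : KsRef KbVer.two) (A : R.Par) (E : Set (R.L × ℝ)) (Ds : Finset ℝ) (ξ K ε : ℝ) (Q : R.Lab) (ρ0 ρ1 μ : ℝ) (Cn : Set (R.L × ℝ)) (G' : Finset ℝ)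
    (e0 Mξ Mχ Mϱ : ℝ), R.S = S0 → R.Ok K → R.Tilt K → R.One A → R.k = R.ell → MeasurableSet E → E ⊆ R.Ev0 → K7hFit R A E Ds ξ K ε Q ρ0 ρ1 μ Cn → R.g Q ≤ K * (|μ| * R.q Q) →
    Ds ⊆ R.depths → (∀ s ∈ G', 0 ≤ s ∧ R.dep Q + s ∈ Ds) → (∀ s ∈ G', ε ≤ K * (R.g Q * R.a (R.k * s))) → 0 < ξ → (∀ s ∈ G', ξ ≤ R.a (R.k * s)) →
    R.χ ≤ R.N ^ (-Mχ) → (C : ℝ) * K ^ C * R.χ ≤ 1 → (C : ℝ) * K ^ C * ε ≤ R.g Q * R.N ^ (-e0) → 0 ≤ e0 →
    ∃ F ⊆ Cn, MeasurableSet F ∧ R.prior Cn ≤ 2 * R.prior F ∧ (k7hX R A E Ds Q ρ0 ρ1 μ F).hor.Ok0 (K7bDat.par R e0 G' Mξ Mχ Mϱ) ((C : ℝ) * K ^ C) := by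
  obtain ⟨C₁, hsep⟩ := k7h_sep S0 hS0
  obtain ⟨C₂, hC₂1, hok⟩ := k7h_X_ok0 S0
  obtain ⟨a, ha⟩ : ∃ a : ℕ, a = C₁ + 1 := ⟨_, rfl⟩
  obtain ⟨b, hb⟩ : ∃ b : ℕ, b = C₂ + 1 := ⟨_, rfl⟩
  refine ⟨b * a ^ b * 2 ^ (a * b) + 2 * a * b, ?_⟩
  intro R A E Ds ξ K ε Q ρ0 ρ1 μ Cn G' e0 Mξ Mχ Mϱ hS hR hT hO hkl mE hE hfit hlam hDs hG heps hξ hxi hχ hχ1 hε he0
  obtain ⟨C, hC⟩ : ∃ C : ℕ, C = b * a ^ b * 2 ^ (a * b) + 2 * a * b := ⟨_, rfl⟩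
  rw [← hC] at hχ1 hε ⊢
  have hK : 1 ≤ K := hR.K_ge
  have hK0 : 0 < K := by linarith
  -- the slacks
  obtain ⟨K₁, hK₁⟩ : ∃ K₁ : ℝ, K₁ = 2 * K ^ 2 := ⟨_, rfl⟩
  obtain ⟨K', hK'⟩ : ∃ K' : ℝ, K' = (a : ℝ) * K₁ ^ a := ⟨_, rfl⟩
  have hKK₁ : K ≤ K₁ := by rw [hK₁]; nlinarith
  have h1K₁ : 1 ≤ K₁ := hK.trans hKK₁
  have ha1 : (1 : ℝ) ≤ a := by rw [ha]; push_cast; linarith [(Nat.cast_nonneg C₁ : (0 : ℝ) ≤ C₁)]
  have hb1 : (1 : ℝ) ≤ b := by rw [hb]; push_cast; linarith [(Nat.cast_nonneg C₂ : (0 : ℝ) ≤ C₂)]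
  have hK₁K' : K₁ ≤ K' := by
    rw [hK']
    have h1 : K₁ ≤ K₁ ^ a := by
      calc K₁ = K₁ ^ 1 := (pow_one _).symm
        _ ≤ K₁ ^ a := pow_le_pow_right₀ h1K₁ (by omega)
    have h2 : 0 ≤ K₁ ^ a := by positivity
    nlinarith
  have hsepK' : (C₁ : ℝ) * K₁ ^ C₁ ≤ K' := by
    rw [hK']
    exact mul_le_mul (by rw [ha]; push_cast; linarith) (pow_le_pow_right₀ h1K₁ (by omega)) (by positivity) (by positivity)
  have h1K' : 1 ≤ K' := h1K₁.trans hK₁K'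
  have hKK' : K ≤ K' := hKK₁.trans hK₁K'
  have hK'b : (b : ℝ) * K' ^ b ≤ (C : ℝ) * K ^ C := by
    have e1 : (b : ℝ) * K' ^ b = ((b * a ^ b * 2 ^ (a * b) : ℕ) : ℝ) * K ^ (2 * a * b) := by
      rw [hK', hK₁]
      push_cast
      rw [mul_pow, ← pow_mul, mul_pow, ← pow_mul, show 2 * a * b = 2 * (a * b) by ring]
      ring
    rw [e1]
    exact mul_le_mul (by exact_mod_cast (by omega : b * a ^ b * 2 ^ (a * b) ≤ C)) (pow_le_pow_right₀ hK (by omega)) (by positivity) (by positivity)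
  have hK'C : K' ≤ (C : ℝ) * K ^ C := by
    refine le_trans ?_ hK'b
    have h1 : K' ≤ K' ^ b := by
      calc K' = K' ^ 1 := (pow_one _).symm
        _ ≤ K' ^ b := pow_le_pow_right₀ h1K' (by omega)
    have h2 : 0 ≤ K' ^ b := by positivity
    nlinarith
  have hC₂ : (C₂ : ℝ) * K' ^ C₂ ≤ (C : ℝ) * K ^ C := by
    refine le_trans ?_ hK'b
    exact mul_le_mul (by rw [hb]; push_cast; linarith) (pow_le_pow_right₀ h1K' (by omega)) (by positivity) (by positivity)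
  -- pruning
  obtain ⟨i1, -, -, i4, -⟩ := k7h_inc_mass hR Q
  have hm : R.prior (E ∩ R.inc Q) ≤ ENNReal.ofReal K * R.prior Cn :=
    (measure_mono Set.inter_subset_right).trans (i1.le.trans hfit.mass)
  obtain ⟨F, hFs, mF, hFm, hcond⟩ := k7h_cond hR hK hfit.ceil (mE.inter i4) hfit.meas hm
  rw [← hK₁] at hcond
  have hχ0 : 0 ≤ R.χ := hR.χ_pos.le
  have hsm : (C₁ : ℝ) * K₁ ^ C₁ * R.χ ≤ 1 := (mul_le_mul_of_nonneg_right (hsepK'.trans hK'C) hχ0).trans hχ1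
  have hs := hsep R A K₁ F Ds (R.dep Q) ξ hS hT.ell_pos (ks_ok_mono hR hKK₁) mF hcond hsm
  have hg : 0 < R.g Q := ksl8_a_pos hR _
  have hN0 : 0 < R.N := by linarith [hR.N_ge]
  have hin : K7hIn R A E Ds ξ K' ε Q ρ0 ρ1 μ Cn F G' :=
    { ok := ks_ok_mono hR hKK'
      tilt := k7h_tilt_mono hT hKK'
      one := hO
      kl := hkl
      mE := mE
      hE := hE
      fit := k7h_fit_mono hR hfit hKK'
      lam := hlam.trans (mul_le_mul_of_nonneg_right hKK' (mul_nonneg (abs_nonneg _) (ksl8_q_pos R Q).le))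
      hDs := hDs
      hG := hG
      eps := fun s hs => (heps s hs).trans (mul_le_mul_of_nonneg_right hKK' (mul_nonneg hg.le (ksl8_a_pos hR _).le))
      ξ_pos := hξ
      xi := hxi
      mF := mF
      hF := hFs
      sep := fun p hp => by
        obtain ⟨p', hp', e1, e2⟩ := hs p hp
        exact ⟨p', hp', e1, e2.trans (mul_le_mul_of_nonneg_right hsepK' (abs_nonneg _))⟩ }
  have hε' : K' * ε ≤ R.g Q * R.N ^ (-e0) := by
    rcases le_total ε 0 with h0 | h0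
    · have h1 : K' * ε ≤ 0 := mul_nonpos_of_nonneg_of_nonpos (by linarith) h0
      have h2 : 0 ≤ R.g Q * R.N ^ (-e0) := mul_nonneg hg.le (Real.rpow_nonneg hN0.le _)
      linarith
    · exact (mul_le_mul_of_nonneg_right hK'C h0).trans hε
  have hfin := hok hin hS.le e0 Mξ Mχ Mϱ hχ hε' he0
  have hpos : 0 < (C₂ : ℝ) * K' ^ C₂ := by
    have : 0 < (C₂ : ℝ) := by exact_mod_cast hC₂1
    positivity
  exact ⟨F, hFs, mF, hFm, k7h_ok0_mono hfin hpos hC₂ hN0.le (ksl17_dy_pos _).le⟩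

end coreD

/-! ## 6. The cores in the `τ`-language (ruling #29518: exponents `B, r, x, s'` are parameters pinned in the hypotheses; `∀ τo ∃ τ N₁`).      Leaves L-252-S7h-T* = exponent bookkeeping only:
`K := N^τ`, `C K^C = C N^{Cτ} ≤ N^{τo}` for `τ ≤ τo/(2C)`, `N ≥ N₁ := max 2 (C^{2/τo})`; `R.a x = N^{-x}`, `R.g Q = N^{-ℓ r}`; `Real.rpow_add`, `Real.rpow_le_rpow_of_exponent_le`. -/

section tau

/-- the hypotheses on the record and on the fit, slack `N^τ`, accuracy `N^(τ - B)` -/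
structure K7hFitT (p : KpPrm) (B r Mc U τ N₁ : ℝ) (Ds : Finset ℝ) (R : KsRef KbVer.two) (A : R.Par) (E : Set (R.L × ℝ)) (Q : R.Lab) (ρ0 ρ1 μ : ℝ) (Cn : Set (R.L × ℝ)) : Prop where
  N : N₁ ≤ R.N
  prm : R.prm = p
  ok : R.Ok (R.N ^ τ)
  tilt : R.Tilt (R.N ^ τ)
  one : R.One A
  mE : MeasurableSet E
  hE : E ⊆ R.Ev0
  hDs : Ds ⊆ R.depths
  χ : R.χ ≤ R.N ^ (-U)
  dep : R.dep Q = r
  fit : K7hFit R A E Ds (kbDy (R.N ^ (-Mc))) (R.N ^ τ) (R.N ^ (τ - B)) Q ρ0 ρ1 μ Cn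

/-- `C K^C ≤ N^τo` for `K = N^τ`, `τ` small, `N` large -/
theorem k7h_tau_slack (C : ℕ) (τo : ℝ) (hτo : 0 < τo) :
    ∃ τ : ℝ, 0 < τ ∧ ∃ N₁ : ℝ, ∀ N : ℝ, 2 ≤ N → N₁ ≤ N → (C : ℝ) * (N ^ τ) ^ C ≤ N ^ τo := by
  refine ⟨τo / (2 * (C + 1)), by positivity, ((C : ℝ) + 1) ^ (2 / τo), ?_⟩
  intro N hN hN1
  have hN0 : 0 < N := by linarith
  have h1 : (C : ℝ) ≤ N ^ (τo / 2) := by
    have h3 : (((C : ℝ) + 1) ^ (2 / τo)) ^ (τo / 2) ≤ N ^ (τo / 2) := Real.rpow_le_rpow (by positivity) hN1 (by positivity)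
    rw [← Real.rpow_mul (by positivity)] at h3
    have e : 2 / τo * (τo / 2) = 1 := by field_simp
    rw [e, Real.rpow_one] at h3
    linarith
  have h2 : (N ^ (τo / (2 * (C + 1)))) ^ C ≤ N ^ (τo / 2) := by
    rw [← Real.rpow_natCast, ← Real.rpow_mul hN0.le]
    apply Real.rpow_le_rpow_of_exponent_le (by linarith)
    rw [div_mul_eq_mul_div, div_le_div_iff₀ (by positivity) (by positivity)]
    nlinarith
  calc (C : ℝ) * (N ^ (τo / (2 * (C + 1)))) ^ C ≤ N ^ (τo / 2) * N ^ (τo / 2) := by gcongr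
    _ = N ^ τo := by rw [← Real.rpow_add hN0]; congr 1; ring

theorem k7h_tau_le {K X : ℝ} {C' : ℕ} (hK : 1 ≤ K) (h : (C' : ℝ) * K ^ C' ≤ X) (m : ℝ) (n : ℕ) (hm : m ≤ C') (hn : n ≤ C') : m * K ^ n ≤ X :=
  (mul_le_mul hm (pow_le_pow_right₀ hK hn) (by positivity) (by positivity)).trans h

theorem k7h_rp_le {N : ℝ} (hN : 1 ≤ N) {a b c : ℝ} (h : a ≤ b + c) : N ^ a ≤ N ^ b * N ^ c := by
  rw [← Real.rpow_add (by linarith)]
  exact Real.rpow_le_rpow_of_exponent_le hN h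

theorem k7h_rp_le2 {N : ℝ} (hN : 1 ≤ N) {a a' b c : ℝ} (h : a + a' ≤ b + c) : N ^ a * N ^ a' ≤ N ^ b * N ^ c := by
  rw [← Real.rpow_add (by linarith), ← Real.rpow_add (by linarith)]
  exact Real.rpow_le_rpow_of_exponent_le hN h

theorem k7h_strip_mono {R : KsRef KbVer.two} {E : Set (R.L × ℝ)} {K K' c : ℝ} {Q : R.Lab} {ρ : Fin 2 → ℝ} {Cn : Set (R.L × ℝ)} (hN : 0 ≤ R.N) (hK : K ≤ K')
    (h : KsStripCand R E K c Q ρ Cn) : KsStripCand R E K' c Q ρ Cn :=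
  { pos := h.pos
    meas := h.meas
    sub := h.sub
    row := fun p hp => (h.row p hp).trans (mul_le_mul_of_nonneg_right hK (Real.rpow_nonneg hN _))
    mass := h.mass.trans (mul_le_mul' (ENNReal.ofReal_le_ofReal hK) le_rfl) }

theorem k7h_tilt_monoT {R : KsRef KbVer.two} {K K' : ℝ} (h : R.Tilt K) (hK : K ≤ K') : R.Tilt K' :=
  ⟨h.ell_pos, h.tri, fun Q => (h.full Q).trans (mul_le_mul_of_nonneg_right hK (abs_nonneg _)), fun Q => (h.cen Q).trans hK⟩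

theorem k7h_fit_monoT {R : KsRef KbVer.two} {A : R.Par} {E : Set (R.L × ℝ)} {Ds : Finset ℝ} {ξ K K' ε : ℝ} {Q : R.Lab} {ρ0 ρ1 μ : ℝ} {Cn : Set (R.L × ℝ)} (hN : 0 ≤ R.N) (hK : K ≤ K')
    (h : K7hFit R A E Ds ξ K ε Q ρ0 ρ1 μ Cn) : K7hFit R A E Ds ξ K' ε Q ρ0 ρ1 μ Cn :=
  have hg : 0 ≤ R.g Q := Real.rpow_nonneg hN _
  { pos := h.pos
    meas := h.meas
    sub := h.sub
    mass := h.mass.trans (mul_le_mul' (ENNReal.ofReal_le_ofReal hK) le_rfl)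
    fit := h.fit
    row0 := h.row0.trans (mul_le_mul_of_nonneg_right hK hg)
    row1 := h.row1.trans (mul_le_mul_of_nonneg_right hK hg)
    mu := h.mu.trans (mul_le_mul_of_nonneg_right hK hg)
    ceil := ks_dom_mono h.ceil le_rfl (fun _ _ => le_rfl) (fun _ => le_rfl) (ENNReal.ofReal_le_ofReal hK) }

/-- `Ok0` is monotone in the slack (no condition on the meshes `ξ, ϱ`; positivity of the slack follows from `dyad` + `bllen`) -/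
theorem k7h_ok0_monoT {H : K7bHor} {c : K7bPar} {K K' : ℝ} (hN : 0 < c.N) (hχ : 0 ≤ c.χ) (hKK : K ≤ K') (h : H.Ok0 c K) : H.Ok0 c K' := by
  have hoK : ENNReal.ofReal K ≤ ENNReal.ofReal K' := ENNReal.ofReal_le_ofReal hKK
  have ha : ∀ s, 0 < c.a s := fun s => Real.rpow_pos_of_pos hN _
  have hh : ∀ s, 0 < c.h s := fun s => Real.rpow_pos_of_pos hN _
  have hK0 : ∀ s ∈ c.G, ∀ q ∈ H.Qat s, 0 < K := by
    intro s hs q hq
    obtain ⟨lev, hl⟩ := h.dyad s hs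
    have h1 : 0 < H.bl q := by rw [(hl q hq).1]; positivity
    have h2 := (h.bllen s hs q hq).2
    by_contra hneg
    have h3 : K * c.h s ≤ 0 := mul_nonpos_of_nonpos_of_nonneg (not_lt.1 hneg) (hh s).le
    linarith
  exact
  { mp := h.mp
    mv := h.mv
    mq0 := h.mq0
    my1 := h.my1
    mSp := h.mSp
    meh := h.meh
    mlab := h.mlab
    masg := h.masg
    νle := h.νle
    νprob := h.νprob
    palle := h.palle
    dom := h.dom.trans (by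
      intro A
      simp only [Measure.smul_apply, smul_eq_mul]
      exact mul_le_mul' hoK le_rfl)
    lamres := h.lamres
    time := h.time
    bdd := fun z hz => by
      obtain ⟨h1, h2, h3, h4⟩ := h.bdd z hz
      exact ⟨h1.trans hKK, h2.trans hKK, h3.trans hKK, h4.trans hKK⟩
    heq := h.heq
    palcap := fun x r h1 h2 => (h.palcap x r h1 h2).trans (ENNReal.ofReal_le_ofReal
      (mul_le_mul_of_nonneg_right hKK (Real.rpow_nonneg (hχ.trans h1) _)))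
    ehdom := ks_dom_mono h.ehdom le_rfl (fun _ _ => le_rfl) (fun _ => le_rfl) hoK
    refsum := h.refsum.trans hoK
    refQ := fun s hs q hq F hF => (h.refQ s hs q hq F hF).trans (mul_le_mul' hoK le_rfl)
    capQ := fun s hs q hq C hC => (h.capQ s hs q hq C hC).trans (mul_le_mul' (ENNReal.ofReal_le_ofReal
      (mul_le_mul_of_nonneg_right hKK (Real.rpow_nonneg (ha s).le _))) le_rfl)
    ehlab := h.ehlab
    labmem := h.labmem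
    bllen := fun s hs q hq => by
      obtain ⟨h1, h2⟩ := h.bllen s hs q hq
      exact ⟨(div_le_div_of_nonneg_left (hh s).le (hK0 s hs q hq) hKK).trans h1, h2.trans (mul_le_mul_of_nonneg_right hKK (hh s).le)⟩
    blkdisj := h.blkdisj
    dyad := h.dyad
    asgdisj := h.asgdisj
    νQ := fun s hs q hq => by
      obtain ⟨h1, h2⟩ := h.νQ s hs q hq
      have hp : 0 ≤ c.a s ^ c.d * c.h s ^ 3 := mul_nonneg (Real.rpow_nonneg (ha s).le _) (pow_nonneg (hh s).le 3)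
      refine ⟨le_trans (ENNReal.ofReal_le_ofReal (div_le_div_of_nonneg_left hp (hK0 s hs q hq) hKK)) h1,
        h2.trans (ENNReal.ofReal_le_ofReal ?_)⟩
      rw [mul_assoc, mul_assoc]
      exact mul_le_mul_of_nonneg_right hKK hp
    budget := h.budget
    box := fun s hs q hq l hl t ht => by
      obtain ⟨h1, h2, h3⟩ := h.box s hs q hq l hl t ht
      exact ⟨h1.trans (mul_le_mul_of_nonneg_right hKK (hh s).le), h2.trans (mul_le_mul_of_nonneg_right hKK (hh s).le),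
        h3.trans (mul_le_mul_of_nonneg_right hKK (pow_nonneg (hh s).le 2))⟩
    nest := h.nest
    anc := h.anc }

/-- numerics of (C1) -/
theorem k7h_mu_num {N K CK m q τ τo B r s' k l : ℝ} (hN : 1 ≤ N) (hK : K = N ^ τ) (hCK : 0 ≤ CK) (hm : 0 ≤ m) (hq : q ≤ K * N ^ (-(k * r)))
    (h : m * N ^ (-(k * (r + s'))) ≤ CK * (N ^ (-(l * (r + s'))) + N ^ (τ - B))) (hB : l * (r + s') ≤ B) (hτ : 0 ≤ τ) (hsl : 2 * CK * K ^ 2 ≤ N ^ τo) :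
    m * q ≤ N ^ (-((l - k) * s') + τo) * N ^ (-(l * r)) := by
  have hN0 : 0 < N := by linarith
  have hK1 : 1 ≤ K := by rw [hK]; exact Real.one_le_rpow hN hτ
  have hK0 : 0 < K := by linarith
  obtain ⟨u, hu⟩ : ∃ u : ℝ, u = N ^ (-(l * (r + s'))) := ⟨_, rfl⟩
  have hu0 : 0 < u := by rw [hu]; exact Real.rpow_pos_of_pos hN0 _
  have e1 : N ^ (τ - B) ≤ K * u := by
    rw [hK, hu]
    exact k7h_rp_le hN (by linarith)
  have e2 : N ^ (-(k * r)) = N ^ (k * s') * N ^ (-(k * (r + s'))) := by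
    rw [← Real.rpow_add hN0]; congr 1; ring
  have hv0 : 0 < N ^ (k * s') := Real.rpow_pos_of_pos hN0 _
  rw [← hu] at h
  calc m * q ≤ m * (K * N ^ (-(k * r))) := by gcongr
    _ = K * N ^ (k * s') * (m * N ^ (-(k * (r + s')))) := by rw [e2]; ring
    _ ≤ K * N ^ (k * s') * (CK * (u + N ^ (τ - B))) := by gcongr
    _ ≤ K * N ^ (k * s') * (CK * (K * u + K * u)) := by
        have : u ≤ K * u := by nlinarith
        gcongr
    _ = (2 * CK * K ^ 2) * (N ^ (k * s') * u) := by ring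
    _ ≤ N ^ τo * (N ^ (k * s') * u) := by gcongr
    _ = N ^ (-((l - k) * s') + τo) * N ^ (-(l * r)) := by
        rw [hu, ← Real.rpow_add hN0, ← Real.rpow_add hN0, ← Real.rpow_add hN0]; congr 1; ring

/-- **L-252-S7h-T1** (B) `|λ| ≤ N^(-x + τ)`, `x > 0` ⟹ strip candidate of gain `min x (B - ℓ r)` at `Q` -/
theorem k7h_strip_tau (p : KpPrm) (hp : p.Ok) (hell : 0 < p.ell) (B r x Mc U : ℝ) (hB : p.ell * r < B) (hx : 0 < x) (Ds : Finset ℝ) (τo : ℝ) (hτo : 0 < τo) :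
    ∃ τ : ℝ, 0 < τ ∧ ∃ N₁ : ℝ, ∀ (R : KsRef KbVer.two) (A : R.Par) (E : Set (R.L × ℝ)) (Q : R.Lab) (ρ0 ρ1 μ : ℝ) (Cn : Set (R.L × ℝ)),
      K7hFitT p B r Mc U τ N₁ Ds R A E Q ρ0 ρ1 μ Cn → |μ| * R.q Q ≤ R.N ^ (-x + τ) * R.g Q →
      KsStripCand R E (R.N ^ τo) (min x (B - p.ell * r)) Q ![ρ0, ρ1] Cn := by
  obtain ⟨τ, hτ, N₁, hsl⟩ := k7h_tau_slack 3 τo hτo
  refine ⟨τ, hτ, N₁, ?_⟩
  intro R A E Q ρ0 ρ1 μ Cn h hμ
  have hN2 := h.ok.N_ge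
  have hN1 : (1 : ℝ) ≤ R.N := by linarith
  have hN0 : 0 < R.N := by linarith
  have hl : R.ell = p.ell := congrArg KpPrm.ell h.prm
  have hK1 : 1 ≤ R.N ^ τ := h.ok.K_ge
  have key := k7h_strip h.ok h.tilt h.fit (c := min x (B - p.ell * r)) ?_ ?_
  · exact k7h_strip_mono hN0.le (k7h_tau_le hK1 (hsl R.N hN2 h.N) 2 3 (by norm_num) le_rfl) key
  · rw [hl, h.dep]
    unfold KsRef.a
    exact k7h_rp_le hN1 (by have := min_le_right x (B - p.ell * r); linarith)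
  · refine hμ.trans ?_
    unfold KsRef.g
    rw [hl, h.dep]
    unfold KsRef.a
    exact k7h_rp_le2 hN1 (by have := min_le_left x (B - p.ell * r); linarith)

/-- **L-252-S7h-T2** (C1) `|λ| ≤ N^(-(ℓ - k) s' + τo)` for `0 < s'`, `ℓ s' ≤ B - ℓ r`      (so for `k < ℓ` the exponent of `λ` is positive) -/
theorem k7h_mu_le_tau (p : KpPrm) (hp : p.Ok) (hell : 0 < p.ell) (B r s' Mc : ℝ) (hB : p.ell * r < B) (hs' : 0 < s') (hs'B : p.ell * s' ≤ B - p.ell * r) (hMc : p.k * s' + 1 ≤ Mc)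
    (Ds : Finset ℝ) (hDs : r + s' ∈ Ds) (τo : ℝ) (hτo : 0 < τo) :
    ∃ τ : ℝ, 0 < τ ∧ ∃ N₁ : ℝ, ∀ (R : KsRef KbVer.two) (A : R.Par) (E : Set (R.L × ℝ)) (Q : R.Lab) (ρ0 ρ1 μ : ℝ) (Cn : Set (R.L × ℝ)),
      K7hFitT p B r Mc 1 τ N₁ Ds R A E Q ρ0 ρ1 μ Cn → |μ| * R.q Q ≤ R.N ^ (-((p.ell - p.k) * s') + τo) * R.g Q := by
  obtain ⟨C, hC⟩ := k7h_mu_le p.S hp.S_pos
  obtain ⟨τ, hτ, N₁, hsl⟩ := k7h_tau_slack (2 * C + 2) (min τo 1) (lt_min hτo one_pos)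
  refine ⟨τ, hτ, N₁, ?_⟩
  intro R A E Q ρ0 ρ1 μ Cn h
  have hN2 := h.ok.N_ge
  have hN1 : (1 : ℝ) ≤ R.N := by linarith
  have hN0 : 0 < R.N := by linarith
  have hl : R.ell = p.ell := congrArg KpPrm.ell h.prm
  have hk : R.k = p.k := congrArg KpPrm.k h.prm
  have hK1 : 1 ≤ R.N ^ τ := h.ok.K_ge
  have hs := hsl R.N hN2 h.N
  have hX1 : R.N ^ (min τo 1) ≤ R.N := by
    calc R.N ^ (min τo 1) ≤ R.N ^ (1 : ℝ) := Real.rpow_le_rpow_of_exponent_le hN1 (min_le_right _ _)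
      _ = R.N := Real.rpow_one _
  have hX2 : R.N ^ (min τo 1) ≤ R.N ^ τo := Real.rpow_le_rpow_of_exponent_le hN1 (min_le_left _ _)
  obtain ⟨K, hK⟩ : ∃ K : ℝ, K = R.N ^ τ := ⟨_, rfl⟩
  rw [← hK] at hs hK1
  have hCK0 : 0 ≤ (C : ℝ) * K ^ C := by positivity
  have s1 : 2 * ((C : ℝ) * K ^ C) ≤ R.N := by
    have := k7h_tau_le hK1 hs (2 * C) C (by push_cast; linarith) (by omega)
    linarith
  have s2 : 2 * ((C : ℝ) * K ^ C) * K ^ 2 ≤ R.N ^ τo := by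
    have := k7h_tau_le hK1 hs (2 * C) (C + 2) (by push_cast; linarith) (by omega)
    calc 2 * ((C : ℝ) * K ^ C) * K ^ 2 = 2 * C * K ^ (C + 2) := by ring
      _ ≤ _ := this.trans hX2
  have hinv : R.N * R.N ^ (-(1 : ℝ)) = 1 := by
    rw [Real.rpow_neg_one]; exact mul_inv_cancel₀ hN0.ne'
  have hi0 : 0 < R.N ^ (-(1 : ℝ)) := Real.rpow_pos_of_pos hN0 _
  have hξ0 : 0 < kbDy (R.N ^ (-Mc)) := ksl17_dy_pos _
  have c1 : (C : ℝ) * K ^ C * kbDy (R.N ^ (-Mc)) ≤ R.a (R.k * s') := by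
    have h1 : kbDy (R.N ^ (-Mc)) ≤ 2 * R.N ^ (-Mc) := (ksl17_dy_lt (Real.rpow_pos_of_pos hN0 _)).le
    have h2 : R.N ^ (-Mc) ≤ R.N ^ (-(1 : ℝ)) * R.N ^ (-(p.k * s')) := k7h_rp_le hN1 (by linarith)
    have h3 : 0 < R.N ^ (-(p.k * s')) := Real.rpow_pos_of_pos hN0 _
    rw [hk]
    unfold KsRef.a
    calc (C : ℝ) * K ^ C * kbDy (R.N ^ (-Mc)) ≤ (C : ℝ) * K ^ C * (2 * (R.N ^ (-(1 : ℝ)) * R.N ^ (-(p.k * s')))) := by
          gcongr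
          exact h1.trans (by linarith)
      _ = (2 * ((C : ℝ) * K ^ C)) * R.N ^ (-(1 : ℝ)) * R.N ^ (-(p.k * s')) := by ring
      _ ≤ R.N * R.N ^ (-(1 : ℝ)) * R.N ^ (-(p.k * s')) := by gcongr
      _ = R.N ^ (-(p.k * s')) := by rw [hinv, one_mul]
  have c2 : (C : ℝ) * K ^ C * R.χ ≤ 1 := by
    calc (C : ℝ) * K ^ C * R.χ ≤ (C : ℝ) * K ^ C * R.N ^ (-(1 : ℝ)) := by gcongr; exact h.χ
      _ ≤ R.N * R.N ^ (-(1 : ℝ)) := by gcongr; linarith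
      _ = 1 := hinv
  have key := hC R A E Ds (kbDy (R.N ^ (-Mc))) K (R.N ^ (τ - B)) Q ρ0 ρ1 μ Cn s' (congrArg KpPrm.S h.prm) (hK ▸ h.ok) (hK ▸ h.tilt) h.one h.mE h.hE
    (hK ▸ h.fit) h.hDs hs'.le (by rw [h.dep]; exact hDs) hξ0 c1 c2
  have hq := h.ok.q_hi Q
  rw [← hK] at hq
  rw [hl, hk, h.dep] at key
  rw [hk, h.dep] at hq
  unfold KsRef.g
  rw [hl, h.dep]
  unfold KsRef.a at key hq ⊢
  exact k7h_mu_num hN1 hK hCK0 (abs_nonneg μ) hq key (by linarith) hτ.le s2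

/-- **L-252-S7h-T3** (C2) `ℓ < k`, `0 < s'`, `k s' ≤ B - ℓ r` ⟹ strip candidate of gain `(k - ℓ) s'` at a child of depth `r + s'` -/
theorem k7h_child_strip_tau (p : KpPrm) (hp : p.Ok) (hell : 0 < p.ell) (hkl : p.ell < p.k) (B r s' Mc U : ℝ) (hB : p.ell * r < B) (hs' : 0 < s') (hs'B : p.k * s' ≤ B - p.ell * r)
    (Ds : Finset ℝ) (hDs : r + s' ∈ Ds) (τo : ℝ) (hτo : 0 < τo) :
    ∃ τ : ℝ, 0 < τ ∧ ∃ N₁ : ℝ, ∀ (R : KsRef KbVer.two) (A : R.Par) (E : Set (R.L × ℝ)) (Q : R.Lab) (ρ0 ρ1 μ : ℝ) (Cn : Set (R.L × ℝ)),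
      K7hFitT p B r Mc U τ N₁ Ds R A E Q ρ0 ρ1 μ Cn →
      ∃ (Q' : R.Lab) (ρ : Fin 2 → ℝ) (Cn' : Set (R.L × ℝ)), R.dep Q' = r + s' ∧ KsStripCand R E (R.N ^ τo) ((p.k - p.ell) * s') Q' ρ Cn' := by
  obtain ⟨C, hC⟩ := k7h_child_strip
  obtain ⟨τ, hτ, N₁, hsl⟩ := k7h_tau_slack (2 * C) τo hτo
  refine ⟨τ, hτ, N₁, ?_⟩
  intro R A E Q ρ0 ρ1 μ Cn h
  have hN2 := h.ok.N_ge
  have hN1 : (1 : ℝ) ≤ R.N := by linarith
  have hN0 : 0 < R.N := by linarith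
  have hl : R.ell = p.ell := congrArg KpPrm.ell h.prm
  have hk : R.k = p.k := congrArg KpPrm.k h.prm
  have hK1 : 1 ≤ R.N ^ τ := h.ok.K_ge
  have hs := hsl R.N hN2 h.N
  obtain ⟨K, hK⟩ : ∃ K : ℝ, K = R.N ^ τ := ⟨_, rfl⟩
  rw [← hK] at hs hK1
  have hK0 : 0 < K := by linarith
  have hKK : K ≤ K ^ 2 := by nlinarith
  have hok : R.Ok K := hK ▸ h.ok
  have hfit : K7hFit R A E Ds (kbDy (R.N ^ (-Mc))) K (R.N ^ (τ - B)) Q ρ0 ρ1 μ Cn := hK ▸ h.fit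
  have e0 : p.ell * (r + s') + (p.k - p.ell) * s' = p.ell * r + p.k * s' := by ring
  have c1 : R.N ^ (τ - B) ≤ K ^ 2 * R.a (R.ell * (R.dep Q + s') + (p.k - p.ell) * s') := by
    rw [hl, h.dep, e0]
    unfold KsRef.a
    have h3 : 0 < R.N ^ (-(p.ell * r + p.k * s')) := Real.rpow_pos_of_pos hN0 _
    calc R.N ^ (τ - B) ≤ R.N ^ τ * R.N ^ (-(p.ell * r + p.k * s')) := k7h_rp_le hN1 (by linarith)
      _ = K * R.N ^ (-(p.ell * r + p.k * s')) := by rw [hK]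
      _ ≤ K ^ 2 * R.N ^ (-(p.ell * r + p.k * s')) := by gcongr
  have c2 : |μ| * R.a (R.k * (R.dep Q + s')) ≤ K ^ 2 * R.a (R.ell * (R.dep Q + s') + (p.k - p.ell) * s') := by
    have hq := hok.q_lo Q
    have hmu := hfit.mu
    unfold KsRef.g at hmu
    rw [hl, h.dep] at hmu
    rw [hk, h.dep] at hq
    rw [hl, hk, h.dep, e0]
    unfold KsRef.a at hq hmu ⊢
    have h3 : 0 < R.N ^ (-(p.k * s')) := Real.rpow_pos_of_pos hN0 _
    have e1 : R.N ^ (-(p.k * (r + s'))) = R.N ^ (-(p.k * r)) * R.N ^ (-(p.k * s')) := by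
      rw [← Real.rpow_add hN0]; congr 1; ring
    have e2 : R.N ^ (-(p.ell * r + p.k * s')) = R.N ^ (-(p.ell * r)) * R.N ^ (-(p.k * s')) := by
      rw [← Real.rpow_add hN0]; congr 1; ring
    rw [e1, e2]
    calc |μ| * (R.N ^ (-(p.k * r)) * R.N ^ (-(p.k * s'))) ≤ |μ| * (K * R.q Q * R.N ^ (-(p.k * s'))) := by gcongr
      _ = K * (|μ| * R.q Q) * R.N ^ (-(p.k * s')) := by ring
      _ ≤ K * (K * R.N ^ (-(p.ell * r))) * R.N ^ (-(p.k * s')) := by gcongr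
      _ = K ^ 2 * (R.N ^ (-(p.ell * r)) * R.N ^ (-(p.k * s'))) := by ring
  obtain ⟨Q', ρ, Cn', hd, hc⟩ := hC R A E Ds (kbDy (R.N ^ (-Mc))) (K ^ 2) (R.N ^ (τ - B)) Q ρ0 ρ1 μ Cn s' ((p.k - p.ell) * s') (ks_ok_mono hok hKK)
    (k7h_tilt_monoT (hK ▸ h.tilt) hKK) h.hE (k7h_fit_monoT hN0.le hKK hfit) hs'.le (h.hDs (by rw [h.dep]; exact hDs)) c1 c2
  refine ⟨Q', ρ, Cn', by rw [hd, h.dep], k7h_strip_mono hN0.le ?_ hc⟩
  have := k7h_tau_le hK1 hs C (2 * C) (by push_cast; linarith [(Nat.cast_nonneg C : (0 : ℝ) ≤ C)]) le_rfl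
  rw [← pow_mul]
  exact this

/-- **L-252-S7h-T4** (D) `k = ℓ`, `|λ| ≥ N^-τ` ⟹ the horizontal model: `e₀ = (B - ℓ r)/2`, relative depths in `[0, (B - ℓ r)/k]`, slack `N^τo`, on half of `Cn` -/
theorem k7h_model_tau (p : KpPrm) (hp : p.Ok) (hell : 0 < p.ell) (hkl : p.k = p.ell) (B r Mc : ℝ) (hB : p.ell * r < B) (hMc : B + 1 ≤ Mc) (G' : Finset ℝ)
    (hG' : ∀ s ∈ G', 0 ≤ s ∧ p.k * s ≤ B - p.ell * r) (Ds : Finset ℝ) (hDs : ∀ s ∈ G', r + s ∈ Ds) (Mξ Mχ Mϱ : ℝ) (hMχ : 0 ≤ Mχ) (τo : ℝ) (hτo : 0 < τo) :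
    ∃ τ : ℝ, 0 < τ ∧ ∃ N₁ : ℝ, ∀ (R : KsRef KbVer.two) (A : R.Par) (E : Set (R.L × ℝ)) (Q : R.Lab) (ρ0 ρ1 μ : ℝ) (Cn : Set (R.L × ℝ)),
      K7hFitT p B r Mc (Mχ + 1) τ N₁ Ds R A E Q ρ0 ρ1 μ Cn → R.g Q ≤ R.N ^ τ * (|μ| * R.q Q) →
      ∃ F ⊆ Cn, MeasurableSet F ∧ R.prior Cn ≤ 2 * R.prior F ∧
        (k7hX R A E Ds Q ρ0 ρ1 μ F).hor.Ok0 (K7bDat.par R ((B - p.ell * r) / 2) G' Mξ Mχ Mϱ) (R.N ^ τo) := by
  obtain ⟨C, hC⟩ := k7h_model p.S hp.S_pos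
  have hgap : 0 < (B - p.ell * r) / 2 := by linarith
  obtain ⟨τ, hτ, N₁, hsl⟩ := k7h_tau_slack (C + 1) (min τo (min 1 ((B - p.ell * r) / 2))) (lt_min hτo (lt_min one_pos hgap))
  refine ⟨τ, hτ, N₁, ?_⟩
  intro R A E Q ρ0 ρ1 μ Cn h hlam
  have hN2 := h.ok.N_ge
  have hN1 : (1 : ℝ) ≤ R.N := by linarith
  have hN0 : 0 < R.N := by linarith
  have hl : R.ell = p.ell := congrArg KpPrm.ell h.prm
  have hk : R.k = p.k := congrArg KpPrm.k h.prm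
  have hK1 : 1 ≤ R.N ^ τ := h.ok.K_ge
  have hs := hsl R.N hN2 h.N
  have hr0 : 0 ≤ r := by rw [← h.dep]; exact h.ok.dep_nonneg Q
  have hX1 : R.N ^ (min τo (min 1 ((B - p.ell * r) / 2))) ≤ R.N := by
    calc R.N ^ (min τo (min 1 ((B - p.ell * r) / 2))) ≤ R.N ^ (1 : ℝ) :=
          Real.rpow_le_rpow_of_exponent_le hN1 ((min_le_right _ _).trans (min_le_left _ _))
      _ = R.N := Real.rpow_one _
  have hX2 : R.N ^ (min τo (min 1 ((B - p.ell * r) / 2))) ≤ R.N ^ τo := Real.rpow_le_rpow_of_exponent_le hN1 (min_le_left _ _)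
  have hX3 : R.N ^ (min τo (min 1 ((B - p.ell * r) / 2))) ≤ R.N ^ ((B - p.ell * r) / 2) :=
    Real.rpow_le_rpow_of_exponent_le hN1 ((min_le_right _ _).trans (min_le_right _ _))
  obtain ⟨K, hK⟩ : ∃ K : ℝ, K = R.N ^ τ := ⟨_, rfl⟩
  rw [← hK] at hs hK1 hlam
  have hCK0 : 0 ≤ (C : ℝ) * K ^ C := by positivity
  have s0 : (C : ℝ) * K ^ C ≤ R.N ^ (min τo (min 1 ((B - p.ell * r) / 2))) :=
    k7h_tau_le hK1 hs C C (by push_cast; linarith) (by omega)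
  have s3 : (C : ℝ) * K ^ (C + 1) ≤ R.N ^ ((B - p.ell * r) / 2) :=
    (k7h_tau_le hK1 hs C (C + 1) (by push_cast; linarith) le_rfl).trans hX3
  have hinv : R.N * R.N ^ (-(1 : ℝ)) = 1 := by
    rw [Real.rpow_neg_one]; exact mul_inv_cancel₀ hN0.ne'
  have hi0 : 0 < R.N ^ (-(1 : ℝ)) := Real.rpow_pos_of_pos hN0 _
  have hξ0 : 0 < kbDy (R.N ^ (-Mc)) := ksl17_dy_pos _
  have c1 : ∀ s ∈ G', R.N ^ (τ - B) ≤ K * (R.g Q * R.a (R.k * s)) := by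
    intro s hs
    unfold KsRef.g
    rw [hl, hk, h.dep, hK]
    unfold KsRef.a
    rw [← Real.rpow_add hN0]
    exact k7h_rp_le hN1 (by linarith [(hG' s hs).2])
  have c2 : ∀ s ∈ G', kbDy (R.N ^ (-Mc)) ≤ R.a (R.k * s) := by
    intro s hs
    have h1 : kbDy (R.N ^ (-Mc)) ≤ 2 * R.N ^ (-Mc) := (ksl17_dy_lt (Real.rpow_pos_of_pos hN0 _)).le
    have h2 : R.N ^ (-Mc) ≤ R.N ^ (-(1 : ℝ)) * R.N ^ (-(p.k * s)) :=
      k7h_rp_le hN1 (by nlinarith [(hG' s hs).2, mul_nonneg hell.le hr0])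
    have h3 : 0 < R.N ^ (-(p.k * s)) := Real.rpow_pos_of_pos hN0 _
    rw [hk]
    unfold KsRef.a
    calc kbDy (R.N ^ (-Mc)) ≤ 2 * (R.N ^ (-(1 : ℝ)) * R.N ^ (-(p.k * s))) := h1.trans (by linarith)
      _ = 2 * R.N ^ (-(1 : ℝ)) * R.N ^ (-(p.k * s)) := by ring
      _ ≤ R.N * R.N ^ (-(1 : ℝ)) * R.N ^ (-(p.k * s)) := by gcongr
      _ = R.N ^ (-(p.k * s)) := by rw [hinv, one_mul]
  have c3 : R.χ ≤ R.N ^ (-Mχ) := h.χ.trans (Real.rpow_le_rpow_of_exponent_le hN1 (by linarith))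
  have c4 : (C : ℝ) * K ^ C * R.χ ≤ 1 := by
    calc (C : ℝ) * K ^ C * R.χ ≤ (C : ℝ) * K ^ C * R.N ^ (-(1 : ℝ)) := by
          gcongr
          exact h.χ.trans (Real.rpow_le_rpow_of_exponent_le hN1 (by linarith))
      _ ≤ R.N * R.N ^ (-(1 : ℝ)) := by gcongr; exact s0.trans hX1
      _ = 1 := hinv
  have c5 : (C : ℝ) * K ^ C * R.N ^ (τ - B) ≤ R.g Q * R.N ^ (-((B - p.ell * r) / 2)) := by
    unfold KsRef.g
    rw [hl, h.dep]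
    unfold KsRef.a
    have e1 : R.N ^ (τ - B) = K * R.N ^ (-B) := by
      rw [hK, ← Real.rpow_add hN0]; congr 1
    have h3 : 0 < R.N ^ (-B) := Real.rpow_pos_of_pos hN0 _
    calc (C : ℝ) * K ^ C * R.N ^ (τ - B) = (C : ℝ) * K ^ (C + 1) * R.N ^ (-B) := by rw [e1]; ring
      _ ≤ R.N ^ ((B - p.ell * r) / 2) * R.N ^ (-B) := by gcongr
      _ = R.N ^ (-(p.ell * r)) * R.N ^ (-((B - p.ell * r) / 2)) := by
          rw [← Real.rpow_add hN0, ← Real.rpow_add hN0]; congr 1; ring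
  obtain ⟨F, hF, mF, hm, hok⟩ := hC R A E Ds (kbDy (R.N ^ (-Mc))) K (R.N ^ (τ - B)) Q ρ0 ρ1 μ Cn G' ((B - p.ell * r) / 2) Mξ Mχ Mϱ
    (congrArg KpPrm.S h.prm) (hK ▸ h.ok) (hK ▸ h.tilt) h.one (by rw [hk, hl, hkl]) h.mE h.hE (hK ▸ h.fit) hlam h.hDs
    (fun s hs => ⟨(hG' s hs).1, by rw [h.dep]; exact hDs s hs⟩) c1 hξ0 c2 c3 c4 c5 hgap.le
  exact ⟨F, hF, mF, hm, k7h_ok0_monoT hN0 (ksl17_dy_pos _).le (s0.trans hX2) hok⟩

end tau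

end

end Claimed.Agent.R252
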