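-- KEEP
import Claimed.Agent.R252.S7b.Lift

/-!
# Row 252, S7b, S3 = `lem:horizontal-affine` (07 l.1242-1330), PART 1: the ABSTRACT half (records `K7bHor`, `K7bDat` only)      (architect helper95; prefix `k7c`)      CONTRACT: the `sorry`s are the leaves L-252-S7c-*
PAPER-FREE.   Prove IN PLACE, helper lemmas directly above the leaf, prefix `k7c<leaf>_`.   Statements are frozen (false / unprovable? one line to helper95).

S3 turns the exit of S2 (`X.hor.OkE c K` : everything except bounded residual, residual caps, fine point states) into `X'.hor.Ok c K'`.   FOUR OPERATIONS on a horizontal record, each with its twin on `K7bDat R`: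
* `H.shrink E`        (HorDefs)  smaller set of admitted incidences, SAME reference law;         `X.res Sp'`   (there the law is tied to `Sp`; bridge `k7c_res`)
* `H.subL L₀`         subtract the affine function `L₀` of the base from the residual and from all entries;      `X.sub L₀`   (bridge `k7c_sub_hor`)
* `H.app D d Ref`     append a finite datum `d` to the end histories, new reference weights `Ref`;               `X.app D d Ref`   (bridge `k7c_app_hor`)
ROUTE (assembly = `k7c_hub` in `S7b/HubH.lean`):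
  `OkE`  --T1 `k7c_parent`-->  `L₀`, `E₁` : `OkE` + bounded residual   --`k7c_capP` (S3Tan)-->  pure cap   --`k7c_options` (S3Tan)-->  `E₂`, `KsOpt` for the fine point state
         --T2 `k7c_append`-->  `D, d, Ref, E₃` : `Ok`   --bridges-->  `X₄ := ((X.sub L₀).app D d' Ref).res (up E₃)`, `X₄.hor.Ok c K'`.
LEAVES of this file:  SHR (`Ok0.shrink`, `OkE.shrink`, `Ok0.mono`, `OkE.mono`), T1 (`k7c_parent`), T2A (`k7c_app_dom`), T2B (`k7c_app_ref`), T2C (`k7c_app_capJ`), T2 (`k7c_append`, assembly), BR1 (`k7c_sub_hor`, `k7c_app_hor`), BR2 (`k7c_res`).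
-/

set_option autoImplicit false

namespace Claimed.Agent.R252

open MeasureTheory
open scoped ENNReal BigOperators

noncomputable section

/-! ## 1. The operations -/

namespace K7bHor

variable (H : K7bHor)

open Classical in
/-- subtract the affine function `L₀` of the base from the residual and from all entries -/
def subL (L₀ : ℝ × ℝ × ℝ × ℝ) : K7bHor :=
  { H with
    x0 := fun l => H.x0 l - k7bAff L₀ (H.bs l 0)
    x1 := fun l => H.x1 l - (k7bAff L₀ (H.bs l 1) - k7bAff L₀ (H.bs l 0))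
    ent := fun q => (H.ent q).image fun L => L - L₀
    entOf := fun s z => H.entOf s z - L₀ }

/-- append the finite datum `d` to the end histories; new reference weights -/
def app (D : Type) [Fintype D] (d : H.Lam × ℝ → D) (Ref : H.Eh × D → ℝ≥0∞) : K7bHor :=
  { H with
    Eh := H.Eh × D
    fE := inferInstance
    eh := fun z => (H.eh z, d z)
    Ref := Ref }

/-- the pre-omission masses of the appended states -/
def appRef {D : Type} (d : H.Lam × ℝ → D) (e : H.Eh × D) : ℝ≥0∞ := H.lam (H.Sp ∩ {z | (H.eh z, d z) = e})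

end K7bHor

namespace K7bDat

variable {R : KsRef KbVer.two} (X : K7bDat R)

/-- smaller set of admitted incidences (TANGENT coordinates) -/
def res (Sp' : Set (R.L × ℝ)) : K7bDat R := { X with Sp := Sp' }

open Classical in
/-- add `a_r L₀` to the parent fit -/
def sub (L₀ : ℝ × ℝ × ℝ × ℝ) : K7bDat R :=
  { X with
    L := X.L + R.a X.r • L₀
    ent := fun Q => (X.ent Q).image fun L => L - L₀
    entOf := fun s p => X.entOf s p - L₀ }

/-- append a finite datum of the NORMALISED incidences -/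
def app (D : Type) [Fintype D] (d : R.L × ℝ → D) (Ref : X.Eh × D → ℝ≥0∞) : K7bDat R :=
  { X with
    Eh := X.Eh × D
    fE := letI := X.fE; inferInstance
    eh := fun p => (X.eh p, d (p.1, (p.2 - X.t0) / X.q))
    Ref := Ref }

end K7bDat

theorem k7c_abs_eqns_cite : True := by
  have := @K7bHor.subL.eq_1
  have := @K7bHor.app.eq_1
  have := @K7bHor.appRef.eq_1
  have := @K7bDat.res.eq_1
  have := @K7bDat.sub.eq_1
  have := @K7bDat.app.eq_1
  trivial

/-! ## 2. Leaf SHR: restriction -/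

/-- **SHR** copy of `K7bHor.Ok.shrink` (HorDefs) -/
theorem K7bHor.Ok0.shrink {H : K7bHor} {c : K7bPar} {K : ℝ} (h : H.Ok0 c K) {E : Set (H.Lam × ℝ)} (hE : E ⊆ H.Sp)
    (hm : MeasurableSet E) : (H.shrink E).Ok0 c K := by
  exact
  { mp := h.mp
    mv := h.mv
    mq0 := h.mq0
    my1 := h.my1
    mSp := hm
    meh := h.meh
    mlab := h.mlab
    masg := h.masg
    νle := h.νle
    νprob := h.νprob
    palle := h.palle
    dom := h.dom
    lamres := h.lamres
    time := fun z hz => h.time z (hE hz)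
    bdd := fun z hz => h.bdd z (hE hz)
    heq := fun z hz => h.heq z (hE hz)
    palcap := h.palcap
    ehdom := by
      have h1 : H.lam.restrict E ≤ H.lam.restrict H.Sp := Measure.restrict_mono hE (le_refl H.lam)
      exact ks_dom_mono h.ehdom h1 (fun _ _ => le_rfl) (fun _ => le_rfl) le_rfl
    refsum := h.refsum
    refQ := fun s hs q hq F hF => h.refQ s hs q hq F fun e he => by
      obtain ⟨z, hz, h1, h2⟩ := hF e he
      exact ⟨z, hE hz, h1, h2⟩
    capQ := fun s hs q hq C hC => (measure_mono (Set.inter_subset_inter_left _ hE)).trans (h.capQ s hs q hq C hC)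
    ehlab := fun s hs z hz z' hz' => h.ehlab s hs z (hE hz) z' (hE hz')
    labmem := fun s hs z hz => h.labmem s hs z (hE hz)
    bllen := h.bllen
    blkdisj := h.blkdisj
    dyad := h.dyad
    asgdisj := h.asgdisj
    νQ := h.νQ
    budget := h.budget
    box := h.box
    nest := fun s hs s' hs' hss z hz z' hz' => h.nest s hs s' hs' hss z (hE hz) z' (hE hz')
    anc := fun s hs s' hs' hss z hz => h.anc s hs s' hs' hss z (hE hz) }

/-- **SHR** -/
theorem K7bHor.OkE.shrink {H : K7bHor} {c : K7bPar} {K : ℝ} (h : H.OkE c K) {E : Set (H.Lam × ℝ)} (hE : E ⊆ H.Sp)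
    (hm : MeasurableSet E) : (H.shrink E).OkE c K := by
  exact
  { toOk0 := h.toOk0.shrink hE hm
    mx0 := h.mx0
    mx1 := h.mx1
    ment := h.ment
    entcard := h.entcard
    entmem := fun s hs z hz => h.entmem s hs z (hE hz)
    entfit := fun s hs z hz => h.entfit s hs z (hE hz) }

/-- **SHR** monotone in the slack: copy of `k8_ok_mono` (`S8/Glue.lean`; that file is NOT imported here) -/
theorem K7bHor.Ok0.mono {H : K7bHor} {c : K7bPar} {K K' : ℝ} (hc : c.WF) (hK0 : 0 < K) (hK : K ≤ K') (h : H.Ok0 c K) : H.Ok0 c K' := by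
  have hN : 0 < c.N := lt_of_lt_of_le one_pos hc.N1
  have ha : ∀ s, 0 < c.a s := fun s => Real.rpow_pos_of_pos hN _
  have hh : ∀ s, 0 < c.h s := fun s => Real.rpow_pos_of_pos hN _
  have hoK : ENNReal.ofReal K ≤ ENNReal.ofReal K' := ENNReal.ofReal_le_ofReal hK
  have hK'0 : 0 < K' := hK0.trans_le hK
  exact
  { mp := h.mp, mv := h.mv, mq0 := h.mq0, my1 := h.my1, mSp := h.mSp, meh := h.meh, mlab := h.mlab
    masg := h.masg, νle := h.νle, νprob := h.νprob, palle := h.palle, lamres := h.lamres, dyad := h.dyad, anc := h.anc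
    refQ := fun s hs q hq F hF => (h.refQ s hs q hq F hF).trans (mul_le_mul' hoK le_rfl)
    dom := h.dom.trans (Measure.le_iff.2 fun s _ => by
      simp only [Measure.smul_apply, smul_eq_mul]
      exact mul_le_mul' hoK le_rfl)
    time := h.time
    bdd := fun z hz => ⟨(h.bdd z hz).1.trans hK, (h.bdd z hz).2.1.trans hK, (h.bdd z hz).2.2.1.trans hK, (h.bdd z hz).2.2.2.trans hK⟩
    heq := h.heq
    palcap := fun x r h1 h2 => (h.palcap x r h1 h2).trans (ENNReal.ofReal_le_ofReal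
      (mul_le_mul_of_nonneg_right hK (Real.rpow_nonneg (hc.χ0.le.trans h1) _)))
    ehdom := ks_dom_mono h.ehdom le_rfl (fun _ _ => le_rfl) (fun _ => le_rfl) hoK
    refsum := h.refsum.trans hoK
    capQ := fun s hs q hq C hC => (h.capQ s hs q hq C hC).trans (mul_le_mul' (ENNReal.ofReal_le_ofReal
      (mul_le_mul_of_nonneg_right hK (Real.rpow_nonneg (ha s).le _))) le_rfl)
    ehlab := h.ehlab
    labmem := h.labmem
    bllen := fun s hs q hq => ⟨(div_le_div_of_nonneg_left (hh s).le hK0 hK).trans (h.bllen s hs q hq).1,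
      (h.bllen s hs q hq).2.trans (mul_le_mul_of_nonneg_right hK (hh s).le)⟩
    blkdisj := h.blkdisj
    asgdisj := h.asgdisj
    νQ := fun s hs q hq => by
      have h3 : 0 ≤ c.a s ^ c.d * c.h s ^ 3 := mul_nonneg (Real.rpow_nonneg (ha s).le _) (pow_nonneg (hh s).le 3)
      refine ⟨(ENNReal.ofReal_le_ofReal (div_le_div_of_nonneg_left h3 hK0 hK)).trans (h.νQ s hs q hq).1,
        (h.νQ s hs q hq).2.trans (ENNReal.ofReal_le_ofReal ?_)⟩
      rw [mul_assoc, mul_assoc]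
      exact mul_le_mul_of_nonneg_right hK h3
    budget := h.budget
    box := fun s hs q hq l hl t ht => by
      obtain ⟨a, b, e⟩ := h.box s hs q hq l hl t ht
      exact ⟨a.trans (mul_le_mul_of_nonneg_right hK (hh s).le), b.trans (mul_le_mul_of_nonneg_right hK (hh s).le),
        e.trans (mul_le_mul_of_nonneg_right hK (pow_nonneg (hh s).le 2))⟩
    nest := h.nest }

/-- **SHR** -/
theorem K7bHor.OkE.mono {H : K7bHor} {c : K7bPar} {K K' : ℝ} (hc : c.WF) (hK0 : 0 < K) (hK : K ≤ K') (h : H.OkE c K) : H.OkE c K' := by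
  have hN : 0 < c.N := lt_of_lt_of_le one_pos hc.N1
  have ha : ∀ s, 0 < c.a s := fun s => Real.rpow_pos_of_pos hN _
  exact
  { toOk0 := h.toOk0.mono hc hK0 hK
    mx0 := h.mx0
    mx1 := h.mx1
    ment := h.ment
    entcard := fun q => (h.entcard q).trans hK
    entmem := h.entmem
    entfit := fun s hs z hz t ht => (h.entfit s hs z hz t ht).trans (mul_le_mul_of_nonneg_right hK (ha s).le) }

/-! ## 3. Leaf T1: the parent fit -/

theorem k7cT1_aff_sub (L L₀ : ℝ × ℝ × ℝ × ℝ) (u : ℝ × ℝ × ℝ) : k7bAff (L - L₀) u = k7bAff L u - k7bAff L₀ u := by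
  simp only [k7bAff, Prod.fst_sub, Prod.snd_sub]
  ring

theorem k7cT1_Xt (H : K7bHor) (L₀ : ℝ × ℝ × ℝ × ℝ) (l : H.Lam) (t : ℝ) :
    (H.subL L₀).Xt l t = H.Xt l t - k7bAff L₀ (H.bs l t) := by
  show (H.x0 l - k7bAff L₀ (H.bs l 0)) + t * (H.x1 l - (k7bAff L₀ (H.bs l 1) - k7bAff L₀ (H.bs l 0))) = _
  simp only [k7bAff, K7bHor.bs, K7bHor.Xt, K7bHor.Zt, K7bHor.Yt]
  ring

theorem k7cT1_fit (H : K7bHor) (L₀ L : ℝ × ℝ × ℝ × ℝ) (l : H.Lam) (t : ℝ) :
    (H.subL L₀).Xt l t - k7bAff (L - L₀) (H.bs l t) = H.Xt l t - k7bAff L (H.bs l t) := by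
  rw [k7cT1_Xt, k7cT1_aff_sub]
  ring

theorem k7cT1_ok0 {H : K7bHor} {c : K7bPar} {K : ℝ} (h : H.Ok0 c K) (L₀ : ℝ × ℝ × ℝ × ℝ) : (H.subL L₀).Ok0 c K :=
  { mp := h.mp, mv := h.mv, mq0 := h.mq0, my1 := h.my1, mSp := h.mSp, meh := h.meh, mlab := h.mlab
    masg := h.masg, νle := h.νle, νprob := h.νprob, palle := h.palle, lamres := h.lamres, dyad := h.dyad, anc := h.anc
    refQ := h.refQ, dom := h.dom, time := h.time, bdd := h.bdd, heq := h.heq, palcap := h.palcap, ehdom := h.ehdom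
    refsum := h.refsum, capQ := h.capQ, ehlab := h.ehlab, labmem := h.labmem, bllen := h.bllen, blkdisj := h.blkdisj
    asgdisj := h.asgdisj, νQ := h.νQ, budget := h.budget, box := h.box, nest := h.nest }

theorem k7cT1_okE {H : K7bHor} {c : K7bPar} {K : ℝ} (h : H.OkE c K) (L₀ : ℝ × ℝ × ℝ × ℝ) : (H.subL L₀).OkE c K := by
  classical
  have maff : ∀ t : ℝ, Measurable (fun l => k7bAff L₀ (H.bs l t)) := by
    intro t
    simp only [k7bAff, K7bHor.bs, K7bHor.Zt, K7bHor.Yt]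
    have m1 := h.mp
    have m2 := h.mv
    have m3 := h.mq0
    have m4 := h.my1
    fun_prop
  exact
  { toOk0 := k7cT1_ok0 h.toOk0 L₀
    mx0 := h.mx0.sub (maff 0)
    mx1 := h.mx1.sub ((maff 1).sub (maff 0))
    ment := fun s hs s0 => by
      have : (fun z => H.entOf s z - L₀) ⁻¹' {s0} = H.entOf s ⁻¹' {s0 + L₀} := by
        ext z
        simp only [Set.mem_preimage, Set.mem_singleton_iff]
        exact sub_eq_iff_eq_add
      exact this ▸ h.ment s hs (s0 + L₀)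
    entcard := fun q => le_trans (by exact_mod_cast Finset.card_image_le) (h.entcard q)
    entmem := fun s hs z hz => Finset.mem_image_of_mem _ (h.entmem s hs z hz)
    entfit := fun s hs (z : H.Lam × ℝ) hz t ht =>
      (congrArg abs (k7cT1_fit H L₀ (H.entOf s z) z.1 t)).le.trans (h.entfit s hs z hz t ht) }

/-- **T1** (07 l.1283-1287).   PLAN.  `Sp = ⋃_{L ∈ ent q₀} Sp ∩ {entOf 0 = L}` (`entmem`, `hq`), measurable pieces (`ment 0`), `#ent q₀ ≤ K` : some piece `E` has mass `≥ (1/K)/K` (the list is not empty because `lam Sp > 0`).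
`(H.subL L₀).bs = H.bs` (rfl);  `(H.subL L₀).Xt l t = H.Xt l t - k7bAff L₀ (H.bs l t)` (unfold, `ring`).   `OkE` : `Ok0` does not see `x, ent` (fields of `h.toOk0.shrink`), `mx0, mx1` from `mp, mv, mq0, my1`;
`entcard` : `Finset.card_image_le`; `entmem` : `Finset.mem_image_of_mem`; `entfit` : the two `L₀` cancel (`k7bAff (L - L₀) u = k7bAff L u - k7bAff L₀ u`).
Bounds: on `E`, `entfit` at `s = 0` : `|x'(t)| ≤ K * c.a 0 = K` for `t ∈ [0,1)` (`c.a 0 = N^(-0) = 1`); `t = 0` gives `|x0'| ≤ K`; `t → 1` (or `t = 1/2` : `x1' = 2 (x'(1/2) - x'(0))`, which gives `4 K`; use continuity, or `t = 1 - ε`) gives `|x0' + x1'| ≤ K`. -/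
theorem k7c_parent {H : K7bHor} {c : K7bPar} {K : ℝ} (hK : 1 ≤ K) (h : H.OkE c K) (h0 : (0 : ℝ) ∈ c.G) (q₀ : H.Q)
    (hq : ∀ z ∈ H.Sp, H.lab 0 z = q₀) (hb : H.blk q₀ = Set.Ico 0 1) (hm : ENNReal.ofReal (1 / K) ≤ H.lam H.Sp) :
    ∃ (L₀ : ℝ × ℝ × ℝ × ℝ) (E : Set (H.Lam × ℝ)), E ⊆ H.Sp ∧ MeasurableSet E ∧ ENNReal.ofReal (1 / K ^ 2) ≤ H.lam E ∧
      ((H.subL L₀).shrink E).OkE c K ∧ ∀ z ∈ E, |(H.subL L₀).x0 z.1| ≤ K ∧ |(H.subL L₀).x1 z.1| ≤ 2 * K := by
  have hK0 : 0 < K := by linarith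
  -- pigeonhole
  have hpig : ∃ L₀ ∈ H.ent q₀, ENNReal.ofReal (1 / K ^ 2) ≤ H.lam (H.Sp ∩ H.entOf 0 ⁻¹' {L₀}) := by
    by_contra hcon
    push Not at hcon
    have hsub : H.Sp ⊆ ⋃ L ∈ H.ent q₀, H.Sp ∩ H.entOf 0 ⁻¹' {L} := by
      intro z hz
      simp only [Set.mem_iUnion]
      refine ⟨H.entOf 0 z, ?_, hz, rfl⟩
      have := h.entmem 0 h0 z hz
      rwa [hq z hz] at this
    have h1 : H.lam H.Sp ≤ ∑ L ∈ H.ent q₀, H.lam (H.Sp ∩ H.entOf 0 ⁻¹' {L}) :=
      (measure_mono hsub).trans (measure_biUnion_finset_le _ _)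
    have hpos : 0 < ENNReal.ofReal (1 / K) := ENNReal.ofReal_pos.2 (by positivity)
    rcases (H.ent q₀).eq_empty_or_nonempty with he | hne
    · rw [he, Finset.sum_empty] at h1
      exact absurd (hm.trans h1) (not_le.2 hpos)
    · have h2 := ENNReal.sum_lt_sum_of_nonempty hne hcon
      rw [Finset.sum_const, nsmul_eq_mul] at h2
      have h3 : ((H.ent q₀).card : ℝ≥0∞) * ENNReal.ofReal (1 / K ^ 2) ≤ ENNReal.ofReal (1 / K) := by
        have e1 : ((H.ent q₀).card : ℝ≥0∞) = ENNReal.ofReal ((H.ent q₀).card : ℝ) := (ENNReal.ofReal_natCast _).symm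
        rw [e1, ← ENNReal.ofReal_mul (Nat.cast_nonneg _)]
        refine ENNReal.ofReal_le_ofReal ?_
        calc ((H.ent q₀).card : ℝ) * (1 / K ^ 2) ≤ K * (1 / K ^ 2) :=
              mul_le_mul_of_nonneg_right (h.entcard q₀) (by positivity)
          _ = 1 / K := by field_simp
      exact absurd (hm.trans (h1.trans (h2.le.trans h3))) (by
        intro _
        exact absurd (lt_of_le_of_lt (hm.trans h1) (lt_of_lt_of_le h2 h3)) (lt_irrefl _))
  obtain ⟨L₀, hL₀, hmass⟩ := hpig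
  have hE : H.Sp ∩ H.entOf 0 ⁻¹' {L₀} ⊆ H.Sp := Set.inter_subset_left
  have hEm : MeasurableSet (H.Sp ∩ H.entOf 0 ⁻¹' {L₀}) := h.mSp.inter (h.ment 0 h0 L₀)
  refine ⟨L₀, H.Sp ∩ H.entOf 0 ⁻¹' {L₀}, hE, hEm, hmass, (k7cT1_okE h L₀).shrink hE hEm, ?_⟩
  rintro z ⟨hz, hzL⟩
  have hzL' : H.entOf 0 z = L₀ := hzL
  have ha0 : c.a 0 = 1 := by
    unfold K7bPar.a
    simp
  have hfit : ∀ t ∈ Set.Ico (0 : ℝ) 1, |(H.subL L₀).x0 z.1 + t * (H.subL L₀).x1 z.1| ≤ K := by
    intro t ht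
    have h1 := h.entfit 0 h0 z hz t (by rw [hq z hz, hb]; exact ht)
    rw [hzL', ha0, mul_one, ← k7cT1_Xt] at h1
    exact h1
  have hcl : IsClosed {t : ℝ | |(H.subL L₀).x0 z.1 + t * (H.subL L₀).x1 z.1| ≤ K} :=
    isClosed_le (by fun_prop) continuous_const
  have hIcc : Set.Icc (0 : ℝ) 1 ⊆ {t : ℝ | |(H.subL L₀).x0 z.1 + t * (H.subL L₀).x1 z.1| ≤ K} := by
    rw [← closure_Ico (by norm_num : (0 : ℝ) ≠ 1)]
    exact closure_minimal hfit hcl
  have f0 : |(H.subL L₀).x0 z.1 + 0 * (H.subL L₀).x1 z.1| ≤ K := hIcc ⟨le_rfl, zero_le_one⟩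
  have f1 : |(H.subL L₀).x0 z.1 + 1 * (H.subL L₀).x1 z.1| ≤ K := hIcc ⟨zero_le_one, le_rfl⟩
  rw [zero_mul, add_zero] at f0
  rw [one_mul] at f1
  refine ⟨f0, ?_⟩
  have g0 := abs_le.1 f0
  have g1 := abs_le.1 f1
  rw [abs_le]
  constructor <;> linarith [g0.1, g0.2, g1.1, g1.2]

/-! ## 4. Leaves T2A, T2B, T2C, T2: appended point states -/

/-- the hypotheses of T2: exit of S2 + bounded residual + pure cap -/
structure K7cIn (H : K7bHor) (c : K7bPar) (K : ℝ) : Prop where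
  K1 : 1 ≤ K
  wf : c.WF
  okE : H.OkE c K
  bddx : ∀ z ∈ H.Sp, |H.x0 z.1| ≤ K ∧ |H.x1 z.1| ≤ K
  capP : ∀ (C : Set (ℝ × ℝ × ℝ)) (f : ℝ × ℝ × ℝ → ℝ) (r : ℝ), MeasurableSet C → Measurable f → c.ϱ ≤ r → r ≤ 1 →
    H.lam (H.Sp ∩ {z | H.base z ∈ C ∧ |H.X z - f (H.base z)| ≤ r}) ≤ ENNReal.ofReal (K * r ^ c.d) * volume C
  mass : ENNReal.ofReal (1 / K) ≤ H.lam H.Sp

theorem k7cT2A_bin_meas (m : ℝ) : Measurable (k7bBin m) :=
  Int.measurable_floor.comp (measurable_id.div_const _)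

theorem k7cT2A_base_meas {c : K7bPar} {H : K7bHor} {K : ℝ} (h : H.Ok0 c K) : Measurable H.base := by
  have hp : Measurable fun z : H.Lam × ℝ => H.p z.1 + z.2 * H.v z.1 :=
    (h.mp.comp measurable_fst).add (measurable_snd.mul (h.mv.comp measurable_fst))
  have hy : Measurable fun z : H.Lam × ℝ => H.q0 z.1 + z.2 * H.y1 z.1 :=
    (h.mq0.comp measurable_fst).add (measurable_snd.mul (h.my1.comp measurable_fst))
  exact measurable_snd.prodMk (hp.prodMk hy)

theorem k7cT2A_X_meas {c : K7bPar} {H : K7bHor} {K : ℝ} (h : H.OkE c K) : Measurable H.X :=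
  (h.mx0.comp measurable_fst).add (measurable_snd.mul (h.mx1.comp measurable_fst))

theorem k7cT2A_pt_meas {c : K7bPar} {H : K7bHor} {K : ℝ} (h : H.OkE c K) (ξ ϱ : ℝ) : Measurable (H.pt ξ ϱ) := by
  have hb := k7cT2A_base_meas h.toOk0
  have h1 : Measurable fun z => k7bBin ξ (H.base z).1 := (k7cT2A_bin_meas ξ).comp (measurable_fst.comp hb)
  have h2 : Measurable fun z => k7bBin ξ (H.base z).2.1 := (k7cT2A_bin_meas ξ).comp ((measurable_fst.comp measurable_snd).comp hb)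
  have h3 : Measurable fun z => k7bBin ξ (H.base z).2.2 := (k7cT2A_bin_meas ξ).comp ((measurable_snd.comp measurable_snd).comp hb)
  have h4 : Measurable fun z => k7bBin ϱ (H.X z) := (k7cT2A_bin_meas ϱ).comp (k7cT2A_X_meas h)
  exact (h1.prodMk (h2.prodMk h3)).prodMk h4

theorem k7cT2A_bin_bd {m x A : ℝ} (hm : 0 < m) (hx : |x| ≤ A) : k7bBin m x ∈ Finset.Icc (-⌈A / m⌉) ⌈A / m⌉ := by
  obtain ⟨h1, h2⟩ := abs_le.1 hx
  rw [Finset.mem_Icc]
  unfold k7bBin
  constructor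
  · rw [Int.le_floor]
    push_cast
    have : A / m ≤ ⌈A / m⌉ := Int.le_ceil _
    have e : -(A / m) ≤ x / m := by
      rw [← neg_div]
      exact div_le_div_of_nonneg_right h1 hm.le
    linarith
  · have a1 : (⌊x / m⌋ : ℝ) ≤ x / m := Int.floor_le _
    have a2 : x / m ≤ A / m := div_le_div_of_nonneg_right h2 hm.le
    have a3 : A / m ≤ ⌈A / m⌉ := Int.le_ceil _
    exact_mod_cast a1.trans (a2.trans a3)

theorem k7cT2A_fin {H : K7bHor} {c : K7bPar} {K : ℝ} (h : H.Ok0 c K) : IsFiniteMeasure H.lam := by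
  have : IsFiniteMeasure H.ν := ⟨lt_of_le_of_lt h.νle ENNReal.one_lt_top⟩
  have ht : IsFiniteMeasure k7bTime := by
    unfold k7bTime
    exact ⟨by rw [Measure.restrict_apply_univ, Real.volume_Icc]; exact ENNReal.ofReal_lt_top⟩
  refine ⟨lt_of_le_of_lt (h.dom _) ?_⟩
  rw [Measure.smul_apply, smul_eq_mul]
  exact ENNReal.mul_lt_top ENNReal.ofReal_lt_top (measure_lt_top _ _)

/-- **T2A** (07 l.1310-1321; `State/KsState.lean` : `ks_app_dom`, `ks_prune_half`).
PLAN.  On `Sp` the point state is bounded: `|base| ≤ 2 K` (`bdd`, `time`), `|X| ≤ 2 K` (`bddx`), so `H.pt c.ξ c.ϱ z ∈ F`, `F` = a product of four `Finset.Icc (-B) B`, `B = ⌈2 K / min ξ ϱ⌉ + 1`.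
`D := Option F`, `d z := if h : pt z ∈ F then some ⟨pt z, h⟩ else none`; `KsLab d` from the measurability of `p, v, q0, y1, x0, x1` (`Int.measurable_floor`/`measurable_from_top`..).   `KsOpt` passes from `pt` to `d` (image of the list under the coding, plus nothing: `{d = none} ∩ Sp = ∅`).
`μ := H.lam.restrict H.Sp`, `s := H.eh`, `Ref := H.Ref`, `K₁ := ofReal (2 K³)`;  `E := Sp ∩ ksPair eh d ⁻¹' ksKeep μ (ksPair eh d) (fun x => Ref x.1) K₁`;  `ksApp μ .. = H.lam.restrict E` (`Measure.restrict_restrict`).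
`ks_prune_half` with `M = 1`, `K⁽⁰⁾ = K⁽²⁾ = ofReal K` (`refsum`, `mass`), `2 n K K ≤ 2 K³`.   `ks_app_dom` from `ehdom`; `ksMass μ (ksPair eh d) e = H.appRef d e` (`Measure.restrict_apply`, `Set.inter_comm`). -/
theorem k7c_app_dom {H : K7bHor} {c : K7bPar} {K : ℝ} (h : K7cIn H c K) (n : ℕ) (hn : (n : ℝ) ≤ K)
    (hopt : KsOpt (H.lam.restrict H.Sp) H.eh (H.pt c.ξ c.ϱ) n) :
    ∃ (D : Type) (_ : Fintype D) (d : H.Lam × ℝ → D) (E : Set (H.Lam × ℝ)), KsLab d ∧ E ⊆ H.Sp ∧ MeasurableSet E ∧ H.lam H.Sp ≤ 2 * H.lam E ∧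
      (∀ z ∈ H.Sp, ∀ z' ∈ H.Sp, d z = d z' → H.pt c.ξ c.ϱ z = H.pt c.ξ c.ϱ z') ∧
      KsDom (H.lam.restrict E) (fun z => (H.eh z, d z)) (H.vT c.χ) (fun _ b => H.pal (k7bIv c.χ b)) (H.appRef d) (ENNReal.ofReal (2 * K ^ 4)) := by
  classical
  have hK := h.K1
  have hK0 : 0 < K := by linarith
  have h0 := h.okE.toOk0
  have hfin := k7cT2A_fin h0
  obtain ⟨F, hF⟩ : ∃ F : Finset ((ℤ × ℤ × ℤ) × ℤ), ∀ z ∈ H.Sp, H.pt c.ξ c.ϱ z ∈ F := by
    refine ⟨(Finset.Icc (-⌈2 * K / c.ξ⌉) ⌈2 * K / c.ξ⌉ ×ˢ Finset.Icc (-⌈2 * K / c.ξ⌉) ⌈2 * K / c.ξ⌉ ×ˢ Finset.Icc (-⌈2 * K / c.ξ⌉) ⌈2 * K / c.ξ⌉)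
      ×ˢ Finset.Icc (-⌈2 * K / c.ϱ⌉) ⌈2 * K / c.ϱ⌉, fun z hz => ?_⟩
    obtain ⟨t0, t1⟩ := h0.time z hz
    obtain ⟨b1, b2, b3, b4⟩ := h0.bdd z hz
    obtain ⟨b5, b6⟩ := h.bddx z hz
    have lin : ∀ a b : ℝ, |a| ≤ K → |b| ≤ K → |a + z.2 * b| ≤ 2 * K := by
      intro a b ha hb
      have e1 : |z.2 * b| ≤ K := by
        rw [abs_mul, abs_of_nonneg t0]
        calc z.2 * |b| ≤ 1 * K := mul_le_mul t1 hb (abs_nonneg _) zero_le_one
          _ = K := one_mul _
      have := abs_add_le a (z.2 * b)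
      linarith
    have ht : |z.2| ≤ 2 * K := by
      rw [abs_of_nonneg t0]
      linarith
    rw [Finset.mem_product, Finset.mem_product, Finset.mem_product]
    exact ⟨⟨k7cT2A_bin_bd h.wf.ξ0 ht, k7cT2A_bin_bd h.wf.ξ0 (lin _ _ b1 b2), k7cT2A_bin_bd h.wf.ξ0 (lin _ _ b3 b4)⟩,
      k7cT2A_bin_bd h.wf.ϱ0 (lin _ _ b5 b6)⟩
  have hptm := k7cT2A_pt_meas h.okE c.ξ c.ϱ
  obtain ⟨d, hd⟩ : ∃ d : H.Lam × ℝ → Option F, d = fun z => if hz : H.pt c.ξ c.ϱ z ∈ F then some ⟨H.pt c.ξ c.ϱ z, hz⟩ else none := ⟨_, rfl⟩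
  have hd_some : ∀ z (y : F), d z = some y ↔ H.pt c.ξ c.ϱ z = y.1 := by
    intro z y
    rw [hd]
    by_cases hz : H.pt c.ξ c.ϱ z ∈ F
    · simp only [dif_pos hz, Option.some.injEq]
      exact ⟨fun e => by rw [← e], fun e => Subtype.ext e⟩
    · simp only [dif_neg hz]
      refine ⟨fun e => absurd e (by simp), fun e => ?_⟩
      exact absurd (e ▸ y.2) hz
  have hd_none : ∀ z, d z = none ↔ H.pt c.ξ c.ϱ z ∉ F := by
    intro z
    rw [hd]
    by_cases hz : H.pt c.ξ c.ϱ z ∈ F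
    · simp [dif_pos hz, hz]
    · simp [dif_neg hz, hz]
  have hlab : KsLab d := by
    intro d0
    cases d0 with
    | none =>
      have e : d ⁻¹' {none} = (H.pt c.ξ c.ϱ ⁻¹' (F : Set ((ℤ × ℤ × ℤ) × ℤ)))ᶜ := by
        ext z
        simp only [Set.mem_preimage, Set.mem_singleton_iff, Set.mem_compl_iff, Finset.mem_coe]
        exact hd_none z
      rw [e]
      exact (hptm (Finset.measurableSet F)).compl
    | some y =>
      have e : d ⁻¹' {some y} = H.pt c.ξ c.ϱ ⁻¹' {y.1} := by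
        ext z
        simp only [Set.mem_preimage, Set.mem_singleton_iff]
        exact hd_some z y
      rw [e]
      exact hptm (measurableSet_singleton _)
  have hoptd : KsOpt (H.lam.restrict H.Sp) H.eh d n := by
    intro e
    obtain ⟨L, hL, hL0⟩ := hopt e
    refine ⟨(L.subtype (· ∈ F)).map ⟨some, Option.some_injective _⟩, ?_, ?_⟩
    · rw [Finset.card_map, Finset.card_subtype]
      exact (Finset.card_filter_le _ _).trans hL
    · intro d0 hd0
      cases d0 with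
      | none =>
        unfold ksMass
        rw [Measure.restrict_apply' h0.mSp]
        have : ksPair H.eh d ⁻¹' {(e, none)} ∩ H.Sp = ∅ := by
          apply Set.eq_empty_of_forall_notMem
          rintro z ⟨hz1, hz2⟩
          have : d z = none := congrArg Prod.snd hz1
          exact (hd_none z).1 this (hF z hz2)
        rw [this, measure_empty]
      | some y =>
        have hy : y.1 ∉ L := by
          intro hy
          apply hd0
          rw [Finset.mem_map]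
          exact ⟨y, Finset.mem_subtype.2 hy, rfl⟩
        refine le_antisymm (le_trans (measure_mono ?_) (hL0 _ hy).le) bot_le
        intro z hz
        have h1 : H.eh z = e := congrArg Prod.fst hz
        have h2 : d z = some y := congrArg Prod.snd hz
        exact Prod.ext h1 ((hd_some z y).1 h2)
  obtain ⟨P, hP⟩ : ∃ P : Set (H.Lam × ℝ), P = ksPair H.eh d ⁻¹' ksKeep (H.lam.restrict H.Sp) (ksPair H.eh d) (fun x => H.Ref x.1) (ENNReal.ofReal (2 * K ^ 3)) := ⟨_, rfl⟩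
  have hPm : MeasurableSet P := by
    rw [hP]
    exact ks_lab_preimage (ks_lab_pair h0.meh hlab) _
  have happ : ksApp (H.lam.restrict H.Sp) H.eh d H.Ref (ENNReal.ofReal (2 * K ^ 3)) = H.lam.restrict (H.Sp ∩ P) := by
    unfold ksApp ksPrune
    rw [← hP, Measure.restrict_restrict hPm, Set.inter_comm]
  refine ⟨Option F, inferInstance, d, H.Sp ∩ P, hlab, Set.inter_subset_left, h0.mSp.inter hPm, ?_, ?_, ?_⟩
  · have hh := ks_prune_half (H.lam.restrict H.Sp) h0.meh hlab H.Ref (ENNReal.ofReal K) (ENNReal.ofReal (2 * K ^ 3)) (ENNReal.ofReal K) 1 n hoptd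
      (by rw [mul_one]; exact h0.refsum)
      (by
        rw [Measure.restrict_apply_univ]
        calc (1 : ℝ≥0∞) = ENNReal.ofReal K * ENNReal.ofReal (1 / K) := by
              rw [← ENNReal.ofReal_mul hK0.le, mul_one_div_cancel hK0.ne', ENNReal.ofReal_one]
          _ ≤ _ := mul_le_mul' le_rfl h.mass)
      (by
        have e1 : (n : ℝ≥0∞) = ENNReal.ofReal n := (ENNReal.ofReal_natCast n).symm
        have e2 : (2 : ℝ≥0∞) = ENNReal.ofReal 2 := by simp
        rw [e1, e2, ← ENNReal.ofReal_mul (by norm_num), ← ENNReal.ofReal_mul (by positivity), ← ENNReal.ofReal_mul (by positivity)]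
        apply ENNReal.ofReal_le_ofReal
        have : (2 : ℝ) * n * K * K ≤ 2 * K * K * K := by
          have : (0 : ℝ) ≤ K * K := by positivity
          nlinarith
        calc (2 : ℝ) * n * K * K ≤ 2 * K * K * K := this
          _ = 2 * K ^ 3 := by ring)
      ENNReal.ofReal_ne_top
    rw [happ, Measure.restrict_apply_univ, Measure.restrict_apply_univ] at hh
    exact hh
  · intro z hz z' hz' he
    have h1 : d z = some ⟨H.pt c.ξ c.ϱ z, hF z hz⟩ := (hd_some z _).2 rfl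
    rw [he] at h1
    exact ((hd_some z' _).1 h1).symm
  · have hdm := ks_app_dom h0.meh hlab h0.ehdom (ENNReal.ofReal (2 * K ^ 3))
    rw [happ] at hdm
    intro x b
    have h1 := hdm x b
    have e1 : ksMass (H.lam.restrict H.Sp) (ksPair H.eh d) x = H.appRef d x := by
      unfold ksMass K7bHor.appRef
      rw [Measure.restrict_apply' h0.mSp, Set.inter_comm]
      rfl
    have e2 : ENNReal.ofReal K * ENNReal.ofReal (2 * K ^ 3) = ENNReal.ofReal (2 * K ^ 4) := by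
      rw [← ENNReal.ofReal_mul hK0.le]
      congr 1
      ring
    rw [e1, e2] at h1
    exact h1

theorem k7cT2B_sum {H : K7bHor} {c : K7bPar} {K : ℝ} (h : K7cIn H c K) {D : Type} [Fintype D] (d : H.Lam × ℝ → D) (hd : KsLab d)
    (F : Finset (H.Eh × D)) : ∑ e ∈ F, H.appRef d e = H.lam (⋃ e ∈ F, H.Sp ∩ {z | (H.eh z, d z) = e}) := by
  rw [measure_biUnion_finset]
  · rfl
  · intro e _ e' _ hee
    refine Set.disjoint_left.2 ?_
    rintro z ⟨-, h1⟩ ⟨-, h2⟩
    exact hee (h1.symm.trans h2)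
  · intro e _
    refine h.okE.mSp.inter ?_
    have : {z | (H.eh z, d z) = e} = H.eh ⁻¹' {e.1} ∩ d ⁻¹' {e.2} := by
      ext z
      simp [Prod.ext_iff]
    rw [this]
    exact (h.okE.meh e.1).inter (hd e.2)

/-- **T2B** the new reference weights.   PLAN.  The sets `Sp ∩ {(eh, d) = e}` are measurable and pairwise disjoint.   (1) their union is `⊆ Sp`; `lam Sp ≤ K (ν × time) univ ≤ K` (`dom`, `νle`).
(2) if `e ∈ F` occurs at `z ∈ Sp` with `lab s z = q`, then every `z' ∈ Sp` with `(eh, d) z' = e` has `lab s z' = q` (`ehlab`), hence `z' ∈ asg q ×ˢ blk q` (`labmem`);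
`lam (asg q ×ˢ blk q) ≤ K ν (asg q) * volume (blk q) = K * mQ q` (`dom`, `Measure.prod_prod`, `Real.volume_Ico`, `k7bTime ≤ volume`). -/
theorem k7c_app_ref {H : K7bHor} {c : K7bPar} {K : ℝ} (h : K7cIn H c K) {D : Type} [Fintype D] (d : H.Lam × ℝ → D) (hd : KsLab d) :
    ∑ e, H.appRef d e ≤ ENNReal.ofReal K ∧
    ∀ s ∈ c.G, ∀ q ∈ H.Qat s, ∀ F : Finset (H.Eh × D), (∀ e ∈ F, ∃ z ∈ H.Sp, (H.eh z, d z) = e ∧ H.lab s z = q) →
      ∑ e ∈ F, H.appRef d e ≤ ENNReal.ofReal K * H.mQ q := by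
  have : SFinite k7bTime := by unfold k7bTime; infer_instance
  have hdom : ∀ (A : Set H.Lam) (B : Set ℝ), H.lam (A ×ˢ B) ≤ ENNReal.ofReal K * (H.ν A * volume B) := by
    intro A B
    have h1 := h.okE.dom (A ×ˢ B)
    simp only [Measure.smul_apply, smul_eq_mul, Measure.prod_prod] at h1
    refine h1.trans (mul_le_mul' le_rfl (mul_le_mul' le_rfl ?_))
    unfold k7bTime
    exact Measure.restrict_apply_le _ _
  constructor
  · rw [k7cT2B_sum h d hd]
    have h1 := h.okE.dom Set.univ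
    simp only [Measure.smul_apply, smul_eq_mul] at h1
    rw [← Set.univ_prod_univ, Measure.prod_prod] at h1
    have h2 : k7bTime Set.univ = 1 := by
      unfold k7bTime
      simp
    rw [h2, mul_one] at h1
    calc H.lam (⋃ e ∈ Finset.univ, H.Sp ∩ {z | (H.eh z, d z) = e}) ≤ H.lam (Set.univ ×ˢ Set.univ) := measure_mono (by
          rw [Set.univ_prod_univ]; exact Set.subset_univ _)
      _ ≤ ENNReal.ofReal K * H.ν Set.univ := h1
      _ ≤ ENNReal.ofReal K * 1 := mul_le_mul' le_rfl h.okE.νle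
      _ = ENNReal.ofReal K := mul_one _
  · intro s hs q hq F hF
    rw [k7cT2B_sum h d hd]
    have hsub : (⋃ e ∈ F, H.Sp ∩ {z | (H.eh z, d z) = e}) ⊆ H.asg q ×ˢ H.blk q := by
      intro z' hz'
      simp only [Set.mem_iUnion] at hz'
      obtain ⟨e, he, hz'S, hz'e⟩ := hz'
      obtain ⟨z, hz, hze, hzq⟩ := hF e he
      have h1 : H.eh z' = H.eh z := by
        have : (H.eh z', d z') = (H.eh z, d z) := hz'e.trans hze.symm
        exact (Prod.ext_iff.1 this).1
      have h2 : H.lab s z' = q := (h.okE.ehlab s hs z' hz'S z hz h1).trans hzq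
      obtain ⟨-, h3, h4⟩ := h.okE.labmem s hs z' hz'S
      rw [h2] at h3 h4
      exact ⟨h4, h3⟩
    refine (measure_mono hsub).trans ((hdom _ _).trans (le_of_eq ?_))
    unfold K7bHor.mQ K7bHor.blk
    rw [Real.volume_Ico, add_sub_cancel_left, mul_comm (H.ν (H.asg q))]

theorem k7cT2C_bin_iff {m : ℝ} (hm : 0 < m) (x : ℝ) (b : ℤ) : k7bBin m x = b ↔ x ∈ Set.Ico ((b : ℝ) * m) (((b : ℝ) + 1) * m) := by
  unfold k7bBin
  rw [Int.floor_eq_iff, Set.mem_Ico, le_div_iff₀ hm, div_lt_iff₀ hm]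

theorem k7cT2C_cell_eq {m : ℝ} (hm : 0 < m) (C : ℤ × ℤ × ℤ) :
    {u : ℝ × ℝ × ℝ | k7bCell m u = C} = Set.Ico ((C.1 : ℝ) * m) (((C.1 : ℝ) + 1) * m) ×ˢ
      (Set.Ico ((C.2.1 : ℝ) * m) (((C.2.1 : ℝ) + 1) * m) ×ˢ Set.Ico ((C.2.2 : ℝ) * m) (((C.2.2 : ℝ) + 1) * m)) := by
  ext u
  obtain ⟨C1, C2, C3⟩ := C
  simp only [Set.mem_ofPred_eq, k7bCell, Prod.mk.injEq, Set.mem_prod, k7cT2C_bin_iff hm]

theorem k7cT2C_cell_vol {m : ℝ} (hm : 0 < m) (C : ℤ × ℤ × ℤ) : volume {u : ℝ × ℝ × ℝ | k7bCell m u = C} = ENNReal.ofReal (m ^ 3) := by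
  rw [k7cT2C_cell_eq hm, Measure.volume_eq_prod, Measure.prod_prod, Measure.volume_eq_prod, Measure.prod_prod, Real.volume_Ico, Real.volume_Ico, Real.volume_Ico]
  have e : ∀ a : ℝ, (a + 1) * m - a * m = m := fun a => by ring
  rw [e, e, e, ← ENNReal.ofReal_mul hm.le, ← ENNReal.ofReal_mul hm.le]
  congr 1
  ring

theorem k7cT2C_cell_meas {m : ℝ} (hm : 0 < m) (C : ℤ × ℤ × ℤ) : MeasurableSet {u : ℝ × ℝ × ℝ | k7bCell m u = C} := by
  rw [k7cT2C_cell_eq hm]
  exact measurableSet_Ico.prod (measurableSet_Ico.prod measurableSet_Ico)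

theorem k7cT2C_bin_close {m a b : ℝ} (hm : 0 < m) (h : k7bBin m a = k7bBin m b) : |a - b| < m := by
  have h1 := Int.abs_sub_lt_one_of_floor_eq_floor h
  rw [← sub_div, abs_div, abs_of_pos hm, div_lt_one hm] at h1
  exact h1

/-- **T2C** the joint cap (07 l.1322-1330).   PLAN.  `A := E ∩ {cell = C, |X - x| ≤ r, vbin = b}`, `𝓕 := {e | ∃ z ∈ A, (eh z, d z) = e}` (a `Finset` by `Finset.univ.filter`, classical).
`lam A ≤ ∑_{e ∈ 𝓕} (lam.restrict E) ({(eh, d) = e} ∩ vT b) ≤ K₂ π(b) ∑_{e ∈ 𝓕} appRef e` (`measure_biUnion_finset_le`, `hdom`).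
`∑_{e ∈ 𝓕} appRef e = lam (Sp ∩ {(eh, d) ∈ 𝓕})` (disjoint measurable pieces) and `z' ∈ Sp`, `(eh, d) z' = (eh, d) z`, `z ∈ A` give `pt z' = pt z` (`hpt`): `cell z' = C`, same `ϱ`-bin: `|X z' - X z| < ϱ ≤ r`, so `|X z' - x| ≤ 2 r`,
i.e. `|X z' - (x - r)| ≤ r` or `|X z' - (x + r)| ≤ r` : two calls of `capP` with the constant centres, base set `{u | k7bCell ξ u = C}` = product of three `Ico` of length `ξ`, volume `ξ³` (`Measure.volume_eq_prod`, `Measure.prod_prod`, `Real.volume_Ico`). -/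
theorem k7c_app_capJ {H : K7bHor} {c : K7bPar} {K K₂ : ℝ} (h : K7cIn H c K) (hK₂ : 1 ≤ K₂) {D : Type} [Fintype D] (d : H.Lam × ℝ → D) (hd : KsLab d)
    {E : Set (H.Lam × ℝ)} (hE : E ⊆ H.Sp) (hm : MeasurableSet E)
    (hpt : ∀ z ∈ H.Sp, ∀ z' ∈ H.Sp, d z = d z' → H.pt c.ξ c.ϱ z = H.pt c.ξ c.ϱ z')
    (hdom : KsDom (H.lam.restrict E) (fun z => (H.eh z, d z)) (H.vT c.χ) (fun _ b => H.pal (k7bIv c.χ b)) (H.appRef d) (ENNReal.ofReal K₂)) :
    ∀ (C : ℤ × ℤ × ℤ) (x r : ℝ) (b : ℤ), c.ϱ ≤ r → r ≤ 1 →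
      H.lam (E ∩ {z | k7bCell c.ξ (H.base z) = C ∧ |H.X z - x| ≤ r ∧ k7bBin c.χ (H.v z.1) = b})
        ≤ ENNReal.ofReal (2 * K * K₂ * c.ξ ^ 3 * r ^ c.d) * H.pal (k7bIv c.χ b) := by
  classical
  intro C x r b hr hr1
  have hK0 : 0 < K := by linarith [h.K1]
  have hK20 : 0 < K₂ := by linarith
  have hr0 : 0 < r := lt_of_lt_of_le h.wf.ϱ0 hr
  have hrd : 0 < r ^ c.d := Real.rpow_pos_of_pos hr0 _
  have hξ := h.wf.ξ0
  have h0 := h.okE.toOk0
  obtain ⟨A, hA⟩ : ∃ A : Set (H.Lam × ℝ), A = E ∩ {z | k7bCell c.ξ (H.base z) = C ∧ |H.X z - x| ≤ r ∧ k7bBin c.χ (H.v z.1) = b} := ⟨_, rfl⟩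
  obtain ⟨𝓕, h𝓕⟩ : ∃ 𝓕 : Finset (H.Eh × D), 𝓕 = Finset.univ.filter fun e => ∃ z ∈ A, (H.eh z, d z) = e := ⟨_, rfl⟩
  have hlab : KsLab (ksPair H.eh d) := ks_lab_pair h0.meh hd
  -- first step: the domination
  have s1 : H.lam A ≤ ∑ e ∈ 𝓕, ENNReal.ofReal K₂ * H.pal (k7bIv c.χ b) * H.appRef d e := by
    have hsub : A ⊆ ⋃ e ∈ 𝓕, ((fun z => (H.eh z, d z)) ⁻¹' {e} ∩ H.vT c.χ b) ∩ E := by
      intro z hz
      have hz' := hz
      rw [hA] at hz'
      simp only [Set.mem_iUnion]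
      refine ⟨(H.eh z, d z), ?_, ⟨rfl, hz'.2.2.2⟩, hz'.1⟩
      rw [h𝓕, Finset.mem_filter]
      exact ⟨Finset.mem_univ _, z, hz, rfl⟩
    refine (measure_mono hsub).trans ((measure_biUnion_finset_le _ _).trans (Finset.sum_le_sum fun e _ => ?_))
    have := hdom e b
    rwa [Measure.restrict_apply' hm] at this
  -- second step: the reference weights
  have s2 : ∑ e ∈ 𝓕, H.appRef d e ≤ 2 * (ENNReal.ofReal (K * r ^ c.d) * ENNReal.ofReal (c.ξ ^ 3)) := by
    have e1 : ∑ e ∈ 𝓕, H.appRef d e = H.lam (⋃ e ∈ 𝓕, H.Sp ∩ {z | (H.eh z, d z) = e}) := by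
      rw [measure_biUnion_finset]
      · rfl
      · intro e _ e' _ hne
        exact Set.disjoint_left.2 fun z hz hz' => hne (by
          have a1 : (H.eh z, d z) = e := hz.2
          have a2 : (H.eh z, d z) = e' := hz'.2
          rw [← a1, ← a2])
      · exact fun e _ => h0.mSp.inter (hlab e)
    rw [e1]
    have hsub : (⋃ e ∈ 𝓕, H.Sp ∩ {z | (H.eh z, d z) = e}) ⊆
        (H.Sp ∩ {z | H.base z ∈ {u | k7bCell c.ξ u = C} ∧ |H.X z - (fun _ => x - r) (H.base z)| ≤ r}) ∪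
        (H.Sp ∩ {z | H.base z ∈ {u | k7bCell c.ξ u = C} ∧ |H.X z - (fun _ => x + r) (H.base z)| ≤ r}) := by
      intro z' hz'
      simp only [Set.mem_iUnion] at hz'
      obtain ⟨e, he, hzS, hze⟩ := hz'
      rw [h𝓕, Finset.mem_filter] at he
      obtain ⟨-, z, hz, hze'⟩ := he
      rw [hA] at hz
      have hze2 : (H.eh z', d z') = e := hze
      have hdd : d z = d z' := by
        have := hze'.trans hze2.symm
        exact congrArg Prod.snd this
      have hp := hpt z (hE hz.1) z' hzS hdd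
      have hp1 : k7bCell c.ξ (H.base z) = k7bCell c.ξ (H.base z') := congrArg Prod.fst hp
      have hp2 : k7bBin c.ϱ (H.X z) = k7bBin c.ϱ (H.X z') := congrArg Prod.snd hp
      have hcl := k7cT2C_bin_close h.wf.ϱ0 hp2
      have hcell : k7bCell c.ξ (H.base z') = C := hp1.symm.trans hz.2.1
      have hx := hz.2.2.1
      rw [abs_lt] at hcl
      rw [abs_le] at hx
      by_cases hc : H.X z' ≤ x
      · left
        refine ⟨hzS, hcell, ?_⟩
        show |H.X z' - (x - r)| ≤ r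
        rw [abs_le]
        constructor <;> linarith
      · right
        refine ⟨hzS, hcell, ?_⟩
        show |H.X z' - (x + r)| ≤ r
        rw [abs_le]
        push Not at hc
        constructor <;> linarith
    refine (measure_mono hsub).trans ((measure_union_le _ _).trans ?_)
    have c1 := h.capP {u | k7bCell c.ξ u = C} (fun _ => x - r) r (k7cT2C_cell_meas hξ C) measurable_const hr hr1
    have c2 := h.capP {u | k7bCell c.ξ u = C} (fun _ => x + r) r (k7cT2C_cell_meas hξ C) measurable_const hr hr1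
    rw [k7cT2C_cell_vol hξ] at c1 c2
    rw [two_mul]
    exact add_le_add c1 c2
  rw [← hA]
  calc H.lam A ≤ ∑ e ∈ 𝓕, ENNReal.ofReal K₂ * H.pal (k7bIv c.χ b) * H.appRef d e := s1
    _ = ENNReal.ofReal K₂ * H.pal (k7bIv c.χ b) * ∑ e ∈ 𝓕, H.appRef d e := by rw [Finset.mul_sum]
    _ ≤ ENNReal.ofReal K₂ * H.pal (k7bIv c.χ b) * (2 * (ENNReal.ofReal (K * r ^ c.d) * ENNReal.ofReal (c.ξ ^ 3))) := mul_le_mul' le_rfl s2
    _ = (ENNReal.ofReal 2 * ENNReal.ofReal K₂ * ENNReal.ofReal (K * r ^ c.d) * ENNReal.ofReal (c.ξ ^ 3)) * H.pal (k7bIv c.χ b) := by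
        have : (2 : ℝ≥0∞) = ENNReal.ofReal 2 := by simp
        rw [this]
        ring
    _ = ENNReal.ofReal (2 * K * K₂ * c.ξ ^ 3 * r ^ c.d) * H.pal (k7bIv c.χ b) := by
        rw [← ENNReal.ofReal_mul (by norm_num), ← ENNReal.ofReal_mul (by positivity), ← ENNReal.ofReal_mul (by positivity)]
        congr 2
        ring

/-- **T2** assembly.   PLAN.  `D, d, E` from T2A, `Ref := H.appRef d`.   `((H.app D d Ref).shrink E).Ok c (4 K⁵)` through `K7bHor.Ok.ofE` :
`OkE` : all fields of `h.okE.shrink` which do not mention `Eh, eh, Ref` are the same terms (monotone in the slack: write a lemma `OkE.mono` or prove each field with `K ≤ 4 K⁵`); `meh` : `ks_lab_pair`; `ehdom` : T2A (`restrict` of `restrict`); `refsum`, `refQ` : T2B (`E ⊆ Sp`);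
`ehlab` : first components.   `bddx`, `capP` : from `h`, restricted.   `capJ` : T2C with `K₂ = 2 K⁴`.   `ehpt` : the list `{pt z₀}` for one `z₀ ∈ E` with history `e` (empty list if there is none), by `hpt`. -/
theorem k7c_append {H : K7bHor} {c : K7bPar} {K : ℝ} (h : K7cIn H c K) (n : ℕ) (hn : (n : ℝ) ≤ K)
    (hopt : KsOpt (H.lam.restrict H.Sp) H.eh (H.pt c.ξ c.ϱ) n) :
    ∃ (D : Type) (_ : Fintype D) (d : H.Lam × ℝ → D) (Ref : H.Eh × D → ℝ≥0∞) (E : Set (H.Lam × ℝ)), E ⊆ H.Sp ∧ MeasurableSet E ∧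
      H.lam H.Sp ≤ 2 * H.lam E ∧ ((H.app D d Ref).shrink E).Ok c (4 * K ^ 5) := by
  classical
  obtain ⟨D, iD, d, E, hlab, hE, hm, hmass, hpt, hdom⟩ := k7c_app_dom h n hn hopt
  have hK := h.K1
  have hK0 : 0 < K := by linarith
  have hp4 : 1 ≤ K ^ 4 := one_le_pow₀ hK
  have hKK : K ≤ 4 * K ^ 5 := by
    have : K ^ 5 = K * K ^ 4 := by ring
    nlinarith
  have hKK4 : 2 * K ^ 4 ≤ 4 * K ^ 5 := by
    have : K ^ 5 = K * K ^ 4 := by ring
    nlinarith
  have hoK : ENNReal.ofReal K ≤ ENNReal.ofReal (4 * K ^ 5) := ENNReal.ofReal_le_ofReal hKK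
  have g : (H.shrink E).OkE c (4 * K ^ 5) := (h.okE.shrink hE hm).mono h.wf hK0 hKK
  obtain ⟨r1, r2⟩ := k7c_app_ref h d hlab
  have hJ := k7c_app_capJ h (show (1 : ℝ) ≤ 2 * K ^ 4 by linarith) d hlab hE hm hpt hdom
  refine ⟨D, iD, d, H.appRef d, E, hE, hm, hmass, ?_⟩
  exact
  { mp := g.mp, mv := g.mv, mq0 := g.mq0, my1 := g.my1, mx0 := g.mx0, mx1 := g.mx1, mSp := g.mSp
    meh := ks_lab_pair h.okE.meh hlab
    mlab := g.mlab, ment := g.ment, masg := g.masg, νle := g.νle, νprob := g.νprob, palle := g.palle, dom := g.dom, lamres := g.lamres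
    time := g.time, bdd := g.bdd
    bddx := fun z hz => ⟨(h.bddx z (hE hz)).1.trans hKK, (h.bddx z (hE hz)).2.trans hKK⟩
    heq := g.heq, palcap := g.palcap
    ehdom := ks_dom_mono hdom le_rfl (fun _ _ => le_rfl) (fun _ => le_rfl) (ENNReal.ofReal_le_ofReal hKK4)
    refsum := r1.trans hoK
    refQ := fun s hs q hq F hF => (r2 s hs q hq F fun e he => by
      obtain ⟨z, hz, h1, h2⟩ := hF e he
      exact ⟨z, hE hz, h1, h2⟩).trans (mul_le_mul' hoK le_rfl)
    capJ := fun C x r b h1 h2 => by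
      have := hJ C x r b h1 h2
      have e : 2 * K * (2 * K ^ 4) * c.ξ ^ 3 * r ^ c.d = 4 * K ^ 5 * c.ξ ^ 3 * r ^ c.d := by ring
      rw [e] at this
      exact this
    capP := fun C f r h1 h2 h3 h4 => (measure_mono (Set.inter_subset_inter_left _ hE)).trans
      ((h.capP C f r h1 h2 h3 h4).trans (mul_le_mul' (ENNReal.ofReal_le_ofReal
        (mul_le_mul_of_nonneg_right hKK (Real.rpow_nonneg (h.wf.ϱ0.le.trans h3) _))) le_rfl))
    capQ := g.capQ
    ehlab := fun s hs z hz z' hz' he => g.ehlab s hs z hz z' hz' (congrArg Prod.fst he)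
    ehpt := fun e => by
      by_cases hex : ∃ z0 ∈ E, (H.eh z0, d z0) = e
      · obtain ⟨z0, hz0, he0⟩ := hex
        refine ⟨{H.pt c.ξ c.ϱ z0}, ?_, fun z hz he => ?_⟩
        · rw [Finset.card_singleton]
          push_cast
          linarith
        · rw [Finset.mem_singleton]
          have he' : (H.eh z, d z) = e := he
          exact hpt z (hE hz) z0 (hE hz0) (congrArg Prod.snd (he'.trans he0.symm))
      · refine ⟨∅, ?_, fun z hz he => absurd ⟨z, hz, he⟩ hex⟩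
        rw [Finset.card_empty]
        push_cast
        positivity
    labmem := g.labmem, bllen := g.bllen, blkdisj := g.blkdisj, dyad := g.dyad, asgdisj := g.asgdisj, νQ := g.νQ, budget := g.budget
    box := g.box, nest := g.nest, anc := g.anc, entcard := g.entcard, entmem := g.entmem, entfit := g.entfit }

/-! ## 5. Leaves BR1, BR2: the bridges to `K7bDat` -/

variable {R : KsRef KbVer.two}

theorem k7c_sub_xh (hN : 0 < R.N) (X : K7bDat R) (L₀ : ℝ × ℝ × ℝ × ℝ) (l : R.L) (τ : ℝ) :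
    (X.sub L₀).xh l τ = X.xh l τ - k7bAff L₀ (X.nbs l τ) := by
  have ha : R.a X.r ≠ 0 := by
    unfold KsRef.a
    exact (Real.rpow_pos_of_pos hN _).ne'
  show (R.w l (X.tOf τ) - k7bAff (X.L + R.a X.r • L₀) (X.nbs l τ)) / R.a X.r
    = (R.w l (X.tOf τ) - k7bAff X.L (X.nbs l τ)) / R.a X.r - k7bAff L₀ (X.nbs l τ)
  simp only [k7bAff, Prod.fst_add, Prod.snd_add, Prod.smul_fst, Prod.smul_snd, smul_eq_mul]
  field_simp
  ring

/-- **BR1**.   PLAN: unfold `K7bDat.hor`, `K7bDat.sub`, `K7bHor.subL`; both sides are structure literals with the same types: `congr 1` / `K7bHor.mk.injEq`, then `funext l`.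
`x0` : `(w - k7bAff (L + a • L₀) u) / a = (w - k7bAff L u) / a - k7bAff L₀ u` (`a = R.N ^ (-r) ≠ 0`; unfold `k7bAff`, `Prod.smul`, `field_simp`, `ring`), and `X.hor.bs l 0 = X.nbs l 0` (`k7b_link_bs`).   `r, q, t0, nbs` of `X.sub L₀` are those of `X` (rfl). -/
theorem k7c_sub_hor (hN : 0 < R.N) (X : K7bDat R) (L₀ : ℝ × ℝ × ℝ × ℝ) : (X.sub L₀).hor = X.hor.subL L₀ := by
  have h0 : (fun l => (X.sub L₀).xh l 0) = fun l => X.hor.x0 l - k7bAff L₀ (X.hor.bs l 0) := by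
    funext l
    rw [k7c_sub_xh hN, k7b_link_bs]
    rfl
  have h1 : (fun l => (X.sub L₀).xh l 1 - (X.sub L₀).xh l 0)
      = fun l => X.hor.x1 l - (k7bAff L₀ (X.hor.bs l 1) - k7bAff L₀ (X.hor.bs l 0)) := by
    funext l
    rw [k7c_sub_xh hN, k7c_sub_xh hN, k7b_link_bs, k7b_link_bs]
    show _ = (X.xh l 1 - X.xh l 0) - _
    ring
  unfold K7bHor.subL
  rw [← h0, ← h1]
  rfl

/-- **BR1**.   PLAN: as above; the only field which is not `rfl` is `eh` : `(X.t0 + X.q * τ - X.t0) / X.q = τ` (`X.q = kbQ _ ≠ 0` : `ksl_q_ne`). -/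
theorem k7c_app_hor (X : K7bDat R) (D : Type) [Fintype D] (d : R.L × ℝ → D) (Ref : X.Eh × D → ℝ≥0∞) :
    (X.app D d Ref).hor = X.hor.app D d Ref := by
  have hq : X.q ≠ 0 := ksl_q_ne (R := R) X.Qr
  have h0 : (fun z : X.hor.Lam × ℝ => ((X.hor.eh z, d ((X.inc z).1, ((X.inc z).2 - X.t0) / X.q)) : X.hor.Eh × D))
      = fun z : X.hor.Lam × ℝ => (X.hor.eh z, d z) := by
    funext z
    have : ((X.inc z).1, ((X.inc z).2 - X.t0) / X.q) = z := by
      refine Prod.ext rfl ?_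
      show (X.t0 + X.q * z.2 - X.t0) / X.q = z.2
      field_simp
      ring
    rw [this]
  unfold K7bHor.app
  rw [← h0]
  rfl

theorem k7cBR2_back (X : K7bDat R) (τ : ℝ) : (X.tOf τ - X.t0) / X.q = τ := by
  have hq := (k7blk1_q_pos X).ne'
  unfold K7bDat.tOf
  field_simp
  ring

theorem k7cBR2_SpN (X : K7bDat R) (E : Set (R.L × ℝ)) : (X.res (X.up E)).SpN = E := by
  ext z
  show ((z.1, (X.tOf z.2 - X.t0) / X.q) : R.L × ℝ) ∈ E ↔ z ∈ E
  rw [k7cBR2_back]

/-- the abstract form: smaller law, fewer used labels -/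
theorem k7cBR2_rec (H : K7bHor) {c : K7bPar} {K : ℝ} (E Sp' : Set (H.Lam × ℝ)) (lam' : Measure (H.Lam × ℝ)) (Qat' : ℝ → Finset H.Q)
    (hSp : Sp' = E) (hm : MeasurableSet E) (hle : lam' ≤ H.lam) (hres : ∃ Ev0 : Set (H.Lam × ℝ), MeasurableSet Ev0 ∧ lam' = (H.ν.prod k7bTime).restrict Ev0)
    (hQ : ∀ s, Qat' s ⊆ H.Qat s) (hlab : ∀ s ∈ c.G, ∀ z ∈ E, H.lab s z ∈ Qat' s) (h : (H.shrink E).Ok c K) :
    ({ H with lam := lam', Sp := Sp', Qat := Qat' } : K7bHor).Ok c K := by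
  subst hSp
  exact
    { mp := h.mp, mv := h.mv, mq0 := h.mq0, my1 := h.my1, mx0 := h.mx0, mx1 := h.mx1
      mSp := hm
      meh := h.meh, mlab := h.mlab, ment := h.ment, masg := h.masg, νle := h.νle, νprob := h.νprob, palle := h.palle
      dom := hle.trans h.dom
      lamres := hres
      time := h.time
      bdd := h.bdd
      bddx := h.bddx
      heq := h.heq
      palcap := h.palcap
      ehdom := ks_dom_mono h.ehdom (Measure.restrict_mono le_rfl hle) (fun _ _ => le_rfl) (fun _ => le_rfl) le_rfl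
      refsum := h.refsum
      refQ := fun s hs q hq F hF => h.refQ s hs q (hQ s hq) F hF
      capJ := fun C x r b h1 h2 => (hle _).trans (h.capJ C x r b h1 h2)
      capP := fun C f r h1 h2 h3 h4 => (hle _).trans (h.capP C f r h1 h2 h3 h4)
      capQ := fun s hs q hq C hC => (hle _).trans (h.capQ s hs q (hQ s hq) C hC)
      ehlab := h.ehlab
      ehpt := h.ehpt
      labmem := fun s hs z hz => ⟨hlab s hs z hz, (h.labmem s hs z hz).2⟩
      bllen := fun s hs q hq => h.bllen s hs q (hQ s hq)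
      blkdisj := fun s hs q hq q' hq' => h.blkdisj s hs q (hQ s hq) q' (hQ s hq')
      dyad := fun s hs => by
        obtain ⟨lev, h1⟩ := h.dyad s hs
        exact ⟨lev, fun q hq => h1 q (hQ s hq)⟩
      asgdisj := fun s hs q hq q' hq' => h.asgdisj s hs q (hQ s hq) q' (hQ s hq')
      νQ := fun s hs q hq => h.νQ s hs q (hQ s hq)
      budget := fun s hs => (Finset.sum_le_sum_of_subset (hQ s)).trans (h.budget s hs)
      box := fun s hs q hq => h.box s hs q (hQ s hq)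
      nest := h.nest
      anc := h.anc
      entcard := h.entcard
      entmem := h.entmem
      entfit := h.entfit }

open Classical in
theorem k7cBR2_eq (X : K7bDat R) (S : Set (R.L × ℝ)) :
    (X.res S).hor = { X.hor with
      lam := (X.νf.prod k7bTime).restrict (X.res S).SpN
      Sp := (X.res S).SpN
      Qat := fun s => Finset.univ.filter fun Q => R.dep Q = X.r + s ∧ R.Desc Q X.Qr ∧ ∃ p ∈ S, R.labAt (X.r + s) p = Q } := rfl

/-- **BR2** from "same law, smaller `Sp`" to the record whose law is tied to `Sp`.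
PLAN.  `X' := X.res (X.up E)`.   `X'.SpN = E` (`(t0 + q τ - t0)/q = τ`).   `X'.hor.lam = (νf × time).restrict E = X.hor.lam.restrict E` (`Measure.restrict_restrict`, `E ⊆ SpN`), so `X'.hor.lam ≤ X.hor.lam` and `X'.hor.lam E = X.hor.lam E`.
`X'.hor.Qat s ⊆ X.hor.Qat s` (`X.up E ⊆ X.Sp`).   All other fields of the two records agree (rfl).   Every field of `Ok` is an upper bound for `lam`, a statement `∀ q ∈ Qat s`, a sum over `Qat s`, or does not mention them;
`labmem` : `lab s z ∈ X.hor.Qat s` gives `dep`, `Desc`; the witness is `p := X.inc z ∈ X.up E`.   `lamres` : `Ev0 := E`.   `ehdom` : `ks_dom_mono`. -/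
theorem k7c_res {c : K7bPar} {K : ℝ} (X : K7bDat R) (E : Set (R.L × ℝ)) (hE : E ⊆ X.SpN) (hm : MeasurableSet E) (h : (X.hor.shrink E).Ok c K) :
    (X.res (X.up E)).hor.Ok c K ∧ (X.res (X.up E)).hor.Sp = E ∧ (X.res (X.up E)).hor.lam E = X.hor.lam E ∧ X.up E ⊆ X.Sp := by
  classical
  have hSp : (X.res (X.up E)).SpN = E := k7cBR2_SpN X E
  have hup : X.up E ⊆ X.Sp := by
    intro p hp
    have h1 : ((p.1, (p.2 - X.t0) / X.q) : R.L × ℝ) ∈ X.SpN := hE hp
    have h2 : X.inc (p.1, (p.2 - X.t0) / X.q) ∈ X.Sp := h1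
    have e : X.inc (p.1, (p.2 - X.t0) / X.q) = p := by
      unfold K7bDat.inc
      rw [k7blk3_tOf]
    rwa [e] at h2
  refine ⟨?_, hSp, ?_, hup⟩
  · rw [k7cBR2_eq]
    refine k7cBR2_rec X.hor E _ _ _ hSp hm ?_ ⟨E, hm, ?_⟩ ?_ ?_ h
    · rw [hSp]
      exact Measure.restrict_mono hE le_rfl
    · rw [hSp]
      rfl
    · intro s q hq
      obtain ⟨-, h1, h2, p, hp, h3⟩ := Finset.mem_filter.1 hq
      exact Finset.mem_filter.2 ⟨Finset.mem_univ _, h1, h2, p, hup hp, h3⟩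
    · intro s hs z hz
      obtain ⟨h1, -, -⟩ := h.labmem s hs z hz
      obtain ⟨-, a1, a2, -⟩ := Finset.mem_filter.1 h1
      refine Finset.mem_filter.2 ⟨Finset.mem_univ _, a1, a2, X.inc z, ?_, rfl⟩
      show ((z.1, (X.tOf z.2 - X.t0) / X.q) : R.L × ℝ) ∈ E
      rw [k7cBR2_back]
      exact hz
  · show ((X.νf.prod k7bTime).restrict (X.res (X.up E)).SpN) E = ((X.νf.prod k7bTime).restrict X.SpN) E
    rw [hSp, Measure.restrict_apply hm, Measure.restrict_apply hm, Set.inter_self, Set.inter_eq_left.2 hE]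

end

end Claimed.Agent.R252
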