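-- KEEP
import Claimed.Agent.R252.S7b.S3Abs
import Claimed.Agent.R252.Sheet.MvContract
import Claimed.Agent.R252.S8.Glue
import Claimed.Agent.R252.S7f.AdContract

/-!
# Row 252, S7b, S3 = `lem:horizontal-affine` (07 l.1242-1330), PART 2: the CONCRETE half (tangent record `R : KsRef KbVer.two`, chart data `X : K7bDat R`)      (architect helper95; prefix `k7c`)      CONTRACT: the `sorry`s are the leaves L-252-S7c-*
PAPER-FREE.   Prove IN PLACE, helper lemmas directly above the leaf, prefix `k7c<leaf>_`.   Statements are frozen (false / unprovable? one line to helper95).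
Read: `State/KsCore.lean` (`KsRef`, `KsRef.Ok`), `State/KsLoc.lean` (`R.Tilt`, `ks_tilt_unit`, `ks_tilt_size`, `ks_lab_unique`, `ks_ofUnit_unit`, `ks_budget_depth`, `ksl17_*`), `S7b/HorLink.lean` (`K7bDat`, `X.hor`), `S7b/Lift.lean` (`k7b_link_*`, black boxes), `Sheet/*` (`sh2_remez`, sorry-free).

TWO RESULTS.
(1) **pure residual cap** `k7c_capP` (07 l.1322-1327): integrate the hidden cap `R.capw` at the width `ρ a_r` about the exact offset `L`, Jacobian `q_r² / |κ|` of the chart, denominator `q_r ν(Q_r)`, `ν(Q_r) ∼ a_r^d q_r² g_r`, `|κ| q_r g_r ∼ 1`.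
(2) **options** (07 l.1288-1309): given the end history there are `≤ K` fine point states (normalised base cell of mesh `ξ`, residual bin of mesh `ϱ`), "also beyond the accuracy range of the horizontal equation".
    Route: a DEEP depth `Rd` (`K a_{Rd} ≤ ϱ a_r`) and a FINE tangent mesh `N^(-Mf)`.   Entries of depth `Rd` which are light in the current selection are deleted against `q_Q ν_Q` (sum `≤ K q_r ν(Q_r)`); `R.capQ` fills the core of a retained entry (`k7c_fill`).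
    The graph of an entry is a sheet `α + β √D / D^m` in unit coordinates, `D` stable (`k7c_sheet`); `g = (graph - L)/a_r` is bounded by `2 K` on the filled set, so it is Lipschitz with a constant `C (K/θ)^C` (`k7c_lip` = `sh2_remez` + mean value), EVEN IF `L` HAS ENORMOUS COEFFICIENTS.
    The fine tangent cell (`R.opt_pt` : `≤ K` options per history) locates the base point in the unit coordinates of the deep label (`k7c_unit_lip`); so (entry, tangent cell) leave `≤ 189` point states (`k7c_close`, `k7c_list`); `R.opt_ent`, `R.opt_pt` give `KsOpt` (`k7c_opt_of_list`).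
    (The paper uses "a still deeper label" for the location; the prepared fine point states of `R` do the same job.)
LEAVES:  NBV (`k7c_nb_vol`), CAPP (`k7c_capP`), UNV (`k7c_unit_vol`), FILL (`k7c_fill`), SHEET (`k7c_sheet`), LIP (`k7c_lip`), ULIP (`k7c_unit_lip`), CLOSE (`k7c_close`), LIST (`k7c_list`), OPT (`k7c_opt_of_list`), CORE (`k7c_core`, assembly of S3 at one scale).
-/

set_option autoImplicit false

namespace Claimed.Agent.R252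

open MeasureTheory
open scoped ENNReal BigOperators

noncomputable section

variable {R : KsRef KbVer.two}

/-! ## 1. Vocabulary -/

/-- the coordinates `Fin 3 → ℝ` of a base point -/
def k7cV (u : ℝ × KbB KbVer.two) : Fin 3 → ℝ := ![u.1, ksZ u.2, ksY u.2]

namespace K7bDat

variable (X : K7bDat R)

/-- the residual of a TANGENT incidence -/
def xT (p : R.L × ℝ) : ℝ := (R.w p.1 p.2 - k7bAff X.L (X.nb (R.base p))) / R.a X.r

/-- the fine point state of a TANGENT incidence -/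
def ptT (ξ ϱ : ℝ) (p : R.L × ℝ) : (ℤ × ℤ × ℤ) × ℤ := (k7bCell ξ (X.nb (R.base p)), k7bBin ϱ (X.xT p))

/-- **the chart conditions** (exit of S1, kept by S2 and S3): `|κ| q_r g_r ∼ 1` (`κ = 1 / (λ q_r g_r)`, `|λ| ∼ 1`), bounded plane, the end histories of `X` refine those of `R` -/
structure Chart (K : ℝ) : Prop where
  κlo : 1 ≤ K * (|X.κ| * X.q * R.g X.Qr)
  κhi : |X.κ| * X.q * R.g X.Qr ≤ K
  Z0 : |X.Z0| ≤ K
  y0 : |X.y0| ≤ K
  y1 : |X.y1| ≤ K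
  y2 : |X.y2| ≤ K
  hst : ∀ p ∈ X.Sp, ∀ p' ∈ X.Sp, X.eh p = X.eh p' → R.st p = R.st p'

end K7bDat

/-- the standing hypotheses of the concrete leaves -/
structure K7cTan (R : KsRef KbVer.two) (X : K7bDat R) (K : ℝ) : Prop where
  ok : R.Ok K
  tilt : R.Tilt K
  pos : R.νQ X.Qr ≠ 0
  sub : X.Sp ⊆ R.Ev0 ∩ R.inc X.Qr
  chart : X.Chart K

theorem k7c_tan_eqns_cite : True := by
  have := @k7cV.eq_1
  have := @K7bDat.xT.eq_1
  have := @K7bDat.ptT.eq_1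
  trivial

/-! ## 2. The pure cap -/

/-- skew products which scale the measures: `(a, c) ↦ (f a, g a c)` with `f_* μa = ca μb`, `(g a)_* μc = cc μd` scales the product by `ca cc` -/
theorem k7cnbv_skew {α β γ δ : Type*} [MeasurableSpace α] [MeasurableSpace β] [MeasurableSpace γ] [MeasurableSpace δ]
    (μa : Measure α) (μb : Measure β) (μc : Measure γ) (μd : Measure δ) [SFinite μa] [SFinite μc] [SFinite μd]
    (f : α → β) (g : α → γ → δ) (ca cc : ℝ≥0∞) (hf : Measurable f) (hg : Measurable (Function.uncurry g))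
    (hfa : ∀ s, MeasurableSet s → μa (f ⁻¹' s) = ca * μb s) (hga : ∀ a s, MeasurableSet s → μc (g a ⁻¹' s) = cc * μd s)
    (s : Set (β × δ)) (hs : MeasurableSet s) :
    (μa.prod μc) ((fun p : α × γ => (f p.1, g p.1 p.2)) ⁻¹' s) = ca * cc * (μb.prod μd) s := by
  have hF : Measurable (fun p : α × γ => (f p.1, g p.1 p.2)) := (hf.comp measurable_fst).prodMk hg
  have hmap : μa.map f = ca • μb := by
    ext t ht
    rw [Measure.map_apply hf ht, hfa t ht, Measure.smul_apply, smul_eq_mul]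
  rw [Measure.prod_apply (hF hs), Measure.prod_apply hs]
  have h1 : ∀ a, μc (Prod.mk a ⁻¹' ((fun p : α × γ => (f p.1, g p.1 p.2)) ⁻¹' s)) = cc * μd (Prod.mk (f a) ⁻¹' s) := by
    intro a
    exact hga a (Prod.mk (f a) ⁻¹' s) (measurable_prodMk_left hs)
  simp only [h1]
  have hm : Measurable fun b => μd (Prod.mk b ⁻¹' s) := measurable_measure_prodMk_left hs
  have hm' : Measurable fun a => μd (Prod.mk (f a) ⁻¹' s) := hm.comp hf
  rw [lintegral_const_mul _ hm']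
  have h2 : ∫⁻ a, μd (Prod.mk (f a) ⁻¹' s) ∂μa = ∫⁻ b, μd (Prod.mk b ⁻¹' s) ∂(μa.map f) := (lintegral_map hm hf).symm
  rw [h2, hmap, lintegral_smul_measure, smul_eq_mul]
  ring

/-- affine maps of the line -/
theorem k7cnbv_aff (a b : ℝ) (ha : a ≠ 0) (s : Set ℝ) : volume ((fun x : ℝ => a * (x - b)) ⁻¹' s) = ENNReal.ofReal (1 / |a|) * volume s := by
  have h1 : (fun x : ℝ => a * (x - b)) ⁻¹' s = (fun x : ℝ => x - b) ⁻¹' ((fun x : ℝ => a * x) ⁻¹' s) := rfl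
  rw [h1]
  simp only [sub_eq_add_neg]
  rw [measure_preimage_add_right, Real.volume_preimage_mul_left ha, abs_inv, one_div]

/-- the Jacobian of a sheared affine chart of `ℝ × ℝ²` -/
theorem k7cnbv_main (q κ t0 Z0 y0 y1 y2 : ℝ) (hq : 0 < q) (hκ : κ ≠ 0) (C : Set (ℝ × ℝ × ℝ)) (hC : MeasurableSet C) :
    volume ((fun u : ℝ × (Fin 2 → ℝ) => ((u.1 - t0) / q, (u.2 0 - Z0) / q, κ * (u.2 1 - (y0 + y1 * u.1 + y2 * u.2 0)))) ⁻¹' C)
      = ENNReal.ofReal (q ^ 2 / |κ|) * volume C := by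
  have hq1 : (1 / q) ≠ 0 := by positivity
  have hqa : ENNReal.ofReal (1 / |1 / q|) = ENNReal.ofReal q := by
    rw [abs_of_pos (by positivity), one_div_one_div]
  -- the inner skew product, for a fixed time
  have hin : ∀ (t : ℝ) (s : Set (ℝ × ℝ)), MeasurableSet s →
      (volume : Measure (ℝ × ℝ)) ((fun p : ℝ × ℝ => (1 / q * (p.1 - Z0), κ * (p.2 - (y0 + y1 * t + y2 * p.1)))) ⁻¹' s)
        = ENNReal.ofReal q * ENNReal.ofReal (1 / |κ|) * volume s := by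
    intro t s hs
    have := k7cnbv_skew (volume : Measure ℝ) volume (volume : Measure ℝ) volume (fun Z => 1 / q * (Z - Z0))
      (fun Z Y => κ * (Y - (y0 + y1 * t + y2 * Z))) (ENNReal.ofReal q) (ENNReal.ofReal (1 / |κ|)) (by fun_prop) (by unfold Function.uncurry; fun_prop)
      (fun s _ => by rw [k7cnbv_aff _ _ hq1, hqa]) (fun Z s _ => k7cnbv_aff _ _ hκ s) s hs
    exact this
  have hout := k7cnbv_skew (volume : Measure ℝ) volume (volume : Measure (ℝ × ℝ)) volume (fun t => 1 / q * (t - t0))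
      (fun t p => (1 / q * (p.1 - Z0), κ * (p.2 - (y0 + y1 * t + y2 * p.1)))) (ENNReal.ofReal q) (ENNReal.ofReal q * ENNReal.ofReal (1 / |κ|))
      (by fun_prop) (by unfold Function.uncurry; fun_prop)
      (fun s _ => by rw [k7cnbv_aff _ _ hq1, hqa]) hin C hC
  -- identification of `ℝ × (Fin 2 → ℝ)` with `ℝ × ℝ × ℝ`
  have he : MeasurePreserving (Prod.map (id : ℝ → ℝ) (MeasurableEquiv.finTwoArrow (α := ℝ))) (volume : Measure (ℝ × (Fin 2 → ℝ))) (volume : Measure (ℝ × ℝ × ℝ)) :=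
    (MeasurePreserving.id volume).prod (volume_preserving_finTwoArrow ℝ)
  have hmeas : Measurable (fun p : ℝ × ℝ × ℝ => (1 / q * (p.1 - t0), (1 / q * (p.2.1 - Z0), κ * (p.2.2 - (y0 + y1 * p.1 + y2 * p.2.1))))) := by fun_prop
  have hset : (fun u : ℝ × (Fin 2 → ℝ) => ((u.1 - t0) / q, (u.2 0 - Z0) / q, κ * (u.2 1 - (y0 + y1 * u.1 + y2 * u.2 0)))) ⁻¹' C
      = Prod.map (id : ℝ → ℝ) (MeasurableEquiv.finTwoArrow (α := ℝ)) ⁻¹'
      ((fun p : ℝ × ℝ × ℝ => (1 / q * (p.1 - t0), (1 / q * (p.2.1 - Z0), κ * (p.2.2 - (y0 + y1 * p.1 + y2 * p.2.1))))) ⁻¹' C) := by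
    ext u
    have e1 : (u.1 - t0) / q = 1 / q * (u.1 - t0) := by ring
    have e2 : (u.2 0 - Z0) / q = 1 / q * (u.2 0 - Z0) := by ring
    simp only [Set.mem_preimage, e1, e2]
    rfl
  rw [hset, he.measure_preimage (hmeas hC).nullMeasurableSet]
  refine hout.trans ?_
  rw [← ENNReal.ofReal_mul hq.le, ← ENNReal.ofReal_mul hq.le]
  congr 2
  field_simp

/-- **NBV** the Jacobian of the chart.   PLAN: `X.nb (t, y) = ((t - t0)/q, (y 0 - Z0)/q, κ (y 1 - (y0 + y1 t + y2 y 0)))`.   Tonelli in the order `t, y 0, y 1` : identify `ℝ × (Fin 2 → ℝ)` with `ℝ × ℝ × ℝ`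
(`MeasurableEquiv.finTwoArrow`, `volume_preserving_finTwoArrow`), then for fixed `(t, Z)` the last coordinate is `Y ↦ κ Y + const` (`Real.volume_preimage_mul_left`, `measure_preimage_add`), then `Z`, then `t`;
or: `nb` = (measure preserving equivalence) ∘ (linear map of determinant `κ / q²`) + translation, `Measure.addHaar_preimage_linearMap`. -/
theorem k7c_nb_vol (X : K7bDat R) (hκ : X.κ ≠ 0) (C : Set (ℝ × ℝ × ℝ)) (hC : MeasurableSet C) :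
    volume (X.nb ⁻¹' C) = ENNReal.ofReal (X.q ^ 2 / |X.κ|) * volume C := by
  have hq : 0 < X.q := by
    show 0 < kbQ _
    unfold kbQ
    positivity
  exact k7cnbv_main X.q X.κ X.t0 X.Z0 X.y0 X.y1 X.y2 hq hκ C hC

theorem k7ccapp_dy_ge {x : ℝ} (hx : 0 < x) : x ≤ kbDy x := by
  unfold kbDy
  rw [← Real.rpow_intCast]
  calc x = (2 : ℝ) ^ Real.logb 2 x := (Real.rpow_logb (by norm_num) (by norm_num) hx).symm
    _ ≤ (2 : ℝ) ^ ((⌈Real.logb 2 x⌉ : ℤ) : ℝ) := Real.rpow_le_rpow_of_exponent_le (by norm_num) (Int.le_ceil _)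

theorem k7ccapp_inc_up (X : K7bDat R) (p : R.L × ℝ) : X.inc (p.1, (p.2 - X.t0) / X.q) = p := by
  have hq := (k7blk1_q_pos X).ne'
  unfold K7bDat.inc K7bDat.tOf
  refine Prod.ext rfl ?_
  simp only
  field_simp
  ring

theorem k7ccapp_nb_meas (X : K7bDat R) : Measurable X.nb := by
  unfold K7bDat.nb ksZ ksY
  have h0 : Measurable fun u : ℝ × KbB KbVer.two => u.2 (0 : Fin 2) := (measurable_pi_apply _).comp measurable_snd
  have h1 : Measurable fun u : ℝ × KbB KbVer.two => u.2 (1 : Fin 2) := (measurable_pi_apply _).comp measurable_snd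
  exact ((measurable_fst.sub_const _).div_const _).prodMk (((h0.sub_const _).div_const _).prodMk
    ((h1.sub (((measurable_fst.const_mul _).const_add _).add (h0.const_mul _))).const_mul _))

theorem k7ccapp_base_meas {K : ℝ} (hR : R.Ok K) : Measurable R.base := by
  unfold KsRef.base kbY
  have hc : Measurable fun p : R.L × ℝ => R.co p.1 := hR.m_co.comp measurable_fst
  exact measurable_snd.prodMk ((measurable_fst.comp hc).add
    (measurable_snd.smul (measurable_fst.comp (measurable_snd.comp hc))))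

theorem k7ccapp_w_meas {K : ℝ} (hR : R.Ok K) : Measurable fun p : R.L × ℝ => R.w p.1 p.2 := by
  unfold KsRef.w kbW
  have hc : Measurable fun p : R.L × ℝ => R.co p.1 := hR.m_co.comp measurable_fst
  refine Finset.measurable_sum _ fun i _ => ?_
  exact ((measurable_pi_apply i).comp (measurable_snd.comp (measurable_snd.comp hc))).mul (measurable_snd.pow_const _)

theorem k7ccapp_aff_meas (L : ℝ × ℝ × ℝ × ℝ) : Measurable (k7bAff L) := by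
  unfold k7bAff
  fun_prop

/-- **CAPP** (07 l.1322-1327).   PLAN.  `H := X.hor`, `A := R.lpar X.Qr`, `a_r := R.a X.r`, `S := H.Sp ∩ {base ∈ C, |X - f (base)| ≤ ρ}` : measurable (`hSp`; `H.p, H.v, H.q0, H.y1, H.x0, H.x1` are measurable functions of `R.co l`, `hR.m_co`), `⊆ X.SpN`.
`k7b_link_mass` : `R.prior (X.up S) = q ν(Q_r) H.lam S`.   For `p ∈ X.up S` : `p ∈ X.Sp ⊆ Ev0 ∩ inc Q_r`, `par p.1 = A` (`asg_par`), `X.nb (R.base p) ∈ C`, `|w - (k7bAff L (nb ..) + a_r f (nb ..))| ≤ a_r ρ` (`k7b_link_bs`, `k7b_link_X`).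
Width: `x := X.r - logb N ρ ∈ [X.r, X.r + Mϱ]` (`N^(-Mϱ) ≤ kbDy (N^(-Mϱ)) ≤ ρ ≤ 1`), `N^(-x) = a_r ρ`; `hW` gives `r' ∈ widths`, `a_r ρ ≤ R.a r' ≤ K a_r ρ`.
`R.capw r' A (X.nb ⁻¹' C) f'` : `prior (X.up S) = lam0 (X.up S) ≤ K (K a_r ρ)^d p_A vol (nb ⁻¹' C)`, `(K ..)^d ≤ K (..)^d` (`0 ≤ d ≤ 1`), NBV, `ν_lo` (`p_A a_r^d J ≤ K ν(Q_r)`), `J_lo` (`q² g_r ≤ K J`), `κlo` : cancel `q ν(Q_r)` (`≠ 0`, `≠ ⊤`). -/
theorem k7c_capP {K Mϱ : ℝ} (X : K7bDat R) (hT : K7cTan R X K) (hSp : MeasurableSet X.hor.Sp)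
    (hW : ∀ x : ℝ, X.r ≤ x → x ≤ X.r + Mϱ → ∃ r' ∈ R.widths, r' ≤ x ∧ R.N ^ (x - r') ≤ K) :
    ∀ (C : Set (ℝ × ℝ × ℝ)) (f : ℝ × ℝ × ℝ → ℝ) (ρ : ℝ), MeasurableSet C → Measurable f → kbDy (R.N ^ (-Mϱ)) ≤ ρ → ρ ≤ 1 →
      X.hor.lam (X.hor.Sp ∩ {z | X.hor.base z ∈ C ∧ |X.hor.X z - f (X.hor.base z)| ≤ ρ}) ≤ ENNReal.ofReal (K ^ 5 * ρ ^ R.d) * volume C := by
  intro C f ρ hC hf hρlo hρ1
  have hR := hT.ok
  have hK := hR.K_ge
  have hK0 : 0 < K := by linarith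
  have hN1 : 1 < R.N := by linarith [hR.N_ge]
  have hN0 : 0 < R.N := by linarith
  have hq := k7blk1_q_pos X
  have := hR.prob
  have har : 0 < R.a X.r := ksl8_a_pos hR _
  have hρ0 : 0 < ρ := lt_of_lt_of_le (ksl17_dy_pos _) hρlo
  have hρM : R.N ^ (-Mϱ) ≤ ρ := (k7ccapp_dy_ge (Real.rpow_pos_of_pos hN0 _)).trans hρlo
  -- the tangent set
  obtain ⟨T, hTdef⟩ : ∃ T : Set (R.L × ℝ), T = {p | X.nb (R.base p) ∈ C ∧ |X.xT p - f (X.nb (R.base p))| ≤ ρ} := ⟨_, rfl⟩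
  have hnbb : Measurable fun p : R.L × ℝ => X.nb (R.base p) := (k7ccapp_nb_meas X).comp (k7ccapp_base_meas hR)
  have hxT : Measurable X.xT := by
    unfold K7bDat.xT
    exact ((k7ccapp_w_meas hR).sub ((k7ccapp_aff_meas X.L).comp hnbb)).div_const _
  have hTm : MeasurableSet T := by
    rw [hTdef]
    exact (hnbb hC).inter (measurableSet_le ((hxT.sub (hf.comp hnbb)).abs) measurable_const)
  have hinc : Measurable X.inc := by
    unfold K7bDat.inc K7bDat.tOf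
    exact measurable_fst.prodMk ((measurable_snd.const_mul _).const_add _)
  have hSeq : X.hor.Sp ∩ {z | X.hor.base z ∈ C ∧ |X.hor.X z - f (X.hor.base z)| ≤ ρ} = X.hor.Sp ∩ X.inc ⁻¹' T := by
    congr 1
    ext z
    have e1 : X.hor.base z = X.nb (R.base (X.inc z)) := k7b_link_bs X z.1 z.2
    have e2 : X.hor.X z = X.xT (X.inc z) := k7b_link_X X z.1 z.2
    rw [hTdef]
    show (X.hor.base z ∈ C ∧ |X.hor.X z - f (X.hor.base z)| ≤ ρ) ↔
      (X.nb (R.base (X.inc z)) ∈ C ∧ |X.xT (X.inc z) - f (X.nb (R.base (X.inc z)))| ≤ ρ)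
    rw [e1, e2]
  rw [hSeq]
  have hSm : MeasurableSet (X.hor.Sp ∩ X.inc ⁻¹' T) := hSp.inter (hinc hTm)
  have hmass := k7b_link_mass hR X hT.pos (hT.sub.trans Set.inter_subset_right) _ hSm Set.inter_subset_left
  -- the width
  obtain ⟨x, hxdef⟩ : ∃ x, x = X.r - Real.logb R.N ρ := ⟨_, rfl⟩
  have hlog0 : Real.logb R.N ρ ≤ 0 := Real.logb_nonpos hN1 hρ0.le hρ1
  have hlogM : -Mϱ ≤ Real.logb R.N ρ := by
    rw [Real.le_logb_iff_rpow_le hN1 hρ0]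
    exact hρM
  obtain ⟨r', hr'W, hr'x, hr'K⟩ := hW x (by rw [hxdef]; linarith) (by rw [hxdef]; linarith)
  have hNx : R.N ^ (-x) = R.a X.r * ρ := by
    rw [hxdef, KsRef.a, neg_sub, sub_eq_add_neg, add_comm, Real.rpow_add hN0, Real.rpow_logb hN0 hN1.ne' hρ0]
  have ha1 : R.a X.r * ρ ≤ R.a r' := by
    rw [← hNx]
    unfold KsRef.a
    exact Real.rpow_le_rpow_of_exponent_le hN1.le (by linarith)
  have ha2 : R.a r' ≤ K * (R.a X.r * ρ) := by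
    rw [← hNx]
    have e : R.a r' = R.N ^ (x - r') * R.N ^ (-x) := by
      rw [← Real.rpow_add hN0]
      unfold KsRef.a
      congr 1
      ring
    rw [e]
    have : 0 ≤ R.N ^ (-x) := (Real.rpow_pos_of_pos hN0 _).le
    gcongr
  -- inclusion
  obtain ⟨f', hf'def⟩ : ∃ f' : ℝ × KbB KbVer.two → ℝ, f' = fun u => k7bAff X.L (X.nb u) + R.a X.r * f (X.nb u) := ⟨_, rfl⟩
  have hf'm : Measurable f' := by
    rw [hf'def]
    exact ((k7ccapp_aff_meas X.L).comp (k7ccapp_nb_meas X)).add ((hf.comp (k7ccapp_nb_meas X)).const_mul _)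
  have hsub : X.up (X.hor.Sp ∩ X.inc ⁻¹' T) ⊆ R.Ev0 ∩ {p | R.par p.1 = R.lpar X.Qr ∧ R.base p ∈ X.nb ⁻¹' C ∧
      |R.w p.1 p.2 - f' (R.base p)| ≤ R.a r'} := by
    intro p hp
    have hp1 : X.inc (p.1, (p.2 - X.t0) / X.q) ∈ X.Sp := hp.1
    have hp2 : X.inc (p.1, (p.2 - X.t0) / X.q) ∈ T := hp.2
    rw [k7ccapp_inc_up] at hp1 hp2
    rw [hTdef] at hp2
    obtain ⟨h1, h2⟩ := hp2
    obtain ⟨hE, hI⟩ := hT.sub hp1
    refine ⟨hE, hR.asg_par X.Qr hI.1, h1, ?_⟩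
    rw [hf'def]
    have e : R.w p.1 p.2 - (k7bAff X.L (X.nb (R.base p)) + R.a X.r * f (X.nb (R.base p)))
        = R.a X.r * (X.xT p - f (X.nb (R.base p))) := by
      unfold K7bDat.xT
      field_simp
      ring
    show |R.w p.1 p.2 - (k7bAff X.L (X.nb (R.base p)) + R.a X.r * f (X.nb (R.base p)))| ≤ _
    rw [e, abs_mul, abs_of_pos har]
    exact (mul_le_mul_of_nonneg_left h2 har.le).trans ha1
  have hpl : R.prior (X.up (X.hor.Sp ∩ X.inc ⁻¹' T)) ≤ R.lam0 {p | R.par p.1 = R.lpar X.Qr ∧ R.base p ∈ X.nb ⁻¹' C ∧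
      |R.w p.1 p.2 - f' (R.base p)| ≤ R.a r'} := by
    unfold KsRef.lam0 KsRef.law
    rw [Measure.restrict_apply' hR.m_Ev0]
    exact measure_mono fun p hp => ⟨(hsub hp).2, (hsub hp).1⟩
  have hκ : X.κ ≠ 0 := by
    intro h0
    have := hT.chart.κlo
    rw [h0] at this
    simp at this
    linarith
  have hκp : 0 < |X.κ| := abs_pos.2 hκ
  have hcap := hR.capw r' hr'W (R.lpar X.Qr) (X.nb ⁻¹' C) f' ((k7ccapp_nb_meas X) hC) hf'm
  rw [k7c_nb_vol X hκ C hC] at hcap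
  -- real inequalities
  have hd0 : 0 ≤ R.d := hR.prm.d_nonneg
  have hd1 : R.d ≤ 1 := hR.prm.d_lt.le
  have hJ0 : 0 ≤ R.J X.Qr := abs_nonneg _
  have hαp : 0 ≤ R.a X.r ^ R.d := (Real.rpow_pos_of_pos har _).le
  have hβp : 0 ≤ ρ ^ R.d := (Real.rpow_pos_of_pos hρ0 _).le
  have r1 : R.a r' ^ R.d ≤ K * (R.a X.r ^ R.d * ρ ^ R.d) := by
    calc R.a r' ^ R.d ≤ (K * (R.a X.r * ρ)) ^ R.d := Real.rpow_le_rpow (ksl8_a_pos hR _).le ha2 hd0
      _ = K ^ R.d * (R.a X.r ^ R.d * ρ ^ R.d) := by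
          rw [Real.mul_rpow hK0.le (by positivity), Real.mul_rpow har.le hρ0.le]
      _ ≤ K * (R.a X.r ^ R.d * ρ ^ R.d) := by
          have : K ^ R.d ≤ K := by
            calc K ^ R.d ≤ K ^ (1 : ℝ) := Real.rpow_le_rpow_of_exponent_le hK hd1
              _ = K := Real.rpow_one K
          gcongr
  have hJlo : X.q ^ 2 * R.g X.Qr ≤ K * R.J X.Qr := hR.J_lo X.Qr
  have hg0 : 0 < R.g X.Qr := ksl8_a_pos hR _
  have r2 : X.q ^ 2 / |X.κ| ≤ K ^ 2 * X.q * R.J X.Qr := by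
    rw [div_le_iff₀ hκp]
    have h1 := hT.chart.κlo
    calc X.q ^ 2 = X.q ^ 2 * 1 := (mul_one _).symm
      _ ≤ X.q ^ 2 * (K * (|X.κ| * X.q * R.g X.Qr)) := by gcongr
      _ = K * |X.κ| * X.q * (X.q ^ 2 * R.g X.Qr) := by ring
      _ ≤ K * |X.κ| * X.q * (K * R.J X.Qr) := by gcongr
      _ = K ^ 2 * X.q * R.J X.Qr * |X.κ| := by ring
  -- ENNReal
  have hm0 : ENNReal.ofReal X.q * R.νQ X.Qr ≠ 0 := mul_ne_zero (ENNReal.ofReal_pos.2 hq).ne' hT.pos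
  have hmt : ENNReal.ofReal X.q * R.νQ X.Qr ≠ ⊤ := ENNReal.mul_ne_top ENNReal.ofReal_ne_top (measure_ne_top _ _)
  rw [← ENNReal.mul_le_mul_iff_right hm0 hmt, ← hmass]
  refine hpl.trans (hcap.trans ?_)
  have hν := hR.ν_lo X.Qr
  have e1 : ENNReal.ofReal (K * (R.a X.r ^ R.d * ρ ^ R.d))
      = ENNReal.ofReal K * (ENNReal.ofReal (R.a X.r ^ R.d) * ENNReal.ofReal (ρ ^ R.d)) := by
    rw [ENNReal.ofReal_mul hK0.le, ENNReal.ofReal_mul hαp]
  have e2 : ENNReal.ofReal (K ^ 2 * X.q * R.J X.Qr)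
      = ENNReal.ofReal K ^ 2 * ENNReal.ofReal X.q * ENNReal.ofReal (R.J X.Qr) := by
    rw [ENNReal.ofReal_mul (by positivity), ENNReal.ofReal_mul (by positivity), ENNReal.ofReal_pow hK0.le]
  have e3 : ENNReal.ofReal (R.a (R.dep X.Qr) ^ R.d * R.J X.Qr)
      = ENNReal.ofReal (R.a X.r ^ R.d) * ENNReal.ofReal (R.J X.Qr) := by
    exact ENNReal.ofReal_mul hαp
  have e4 : ENNReal.ofReal (K ^ 5 * ρ ^ R.d) = ENNReal.ofReal K ^ 5 * ENNReal.ofReal (ρ ^ R.d) := by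
    rw [ENNReal.ofReal_mul (by positivity), ENNReal.ofReal_pow hK0.le]
  rw [e3] at hν
  calc ENNReal.ofReal K * ENNReal.ofReal (R.a r' ^ R.d) * R.pA (R.lpar X.Qr) * (ENNReal.ofReal (X.q ^ 2 / |X.κ|) * volume C)
      ≤ ENNReal.ofReal K * ENNReal.ofReal (K * (R.a X.r ^ R.d * ρ ^ R.d)) * R.pA (R.lpar X.Qr)
          * (ENNReal.ofReal (K ^ 2 * X.q * R.J X.Qr) * volume C) := by
        gcongr
    _ = (ENNReal.ofReal K ^ 4 * ENNReal.ofReal (ρ ^ R.d) * ENNReal.ofReal X.q * volume C)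
          * (R.pA (R.lpar X.Qr) * (ENNReal.ofReal (R.a X.r ^ R.d) * ENNReal.ofReal (R.J X.Qr))) := by
        rw [e1, e2]
        ring
    _ ≤ (ENNReal.ofReal K ^ 4 * ENNReal.ofReal (ρ ^ R.d) * ENNReal.ofReal X.q * volume C)
          * (ENNReal.ofReal K * R.νQ X.Qr) := by
        gcongr
    _ = ENNReal.ofReal X.q * R.νQ X.Qr * (ENNReal.ofReal (K ^ 5 * ρ ^ R.d) * volume C) := by
        rw [e4]
        ring

/-! ## 3. Filling of the deep entries -/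

theorem k7cUNV_time (t0 q : ℝ) (hq : 0 < q) :
    MeasurePreserving (fun t : ℝ => (t - t0) / q) volume (ENNReal.ofReal q • volume) := by
  have h1 : MeasurePreserving (fun t : ℝ => t - t0) volume volume := measurePreserving_sub_right volume t0
  have h2 : MeasurePreserving (fun t : ℝ => q⁻¹ * t) volume (ENNReal.ofReal q • volume) := by
    refine ⟨measurable_const_mul _, ?_⟩
    rw [Real.map_volume_mul_left (inv_ne_zero hq.ne'), inv_inv, abs_of_pos hq]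
  have h3 := h2.comp h1
  have h4 : (fun t : ℝ => (t - t0) / q) = (fun t : ℝ => q⁻¹ * t) ∘ fun t : ℝ => t - t0 := by
    funext t
    simp only [Function.comp_apply, div_eq_inv_mul]
  rw [h4]
  exact h3

theorem k7cUNV_space {ι : Type} [Fintype ι] [DecidableEq ι] (D Di : Matrix ι ι ℝ) (h : D * Di = 1) (c : ι → ℝ) :
    Measure.map (fun y : ι → ℝ => Di.mulVec (y - c)) volume = ENNReal.ofReal |D.det| • volume := by
  have hdet : D.det * Di.det = 1 := by rw [← Matrix.det_mul, h, Matrix.det_one]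
  have hDi : Di.det ≠ 0 := right_ne_zero_of_mul_eq_one hdet
  have h1 : MeasurePreserving (fun y : ι → ℝ => y - c) volume volume := measurePreserving_sub_right volume c
  have h2 := Real.map_matrix_volume_pi_eq_smul_volume_pi hDi
  have h3 : (fun y : ι → ℝ => Di.mulVec (y - c)) = (Matrix.toLin' Di) ∘ (fun y => y - c) := by
    funext y
    simp only [Function.comp_apply, Matrix.toLin'_apply]
  have hm : Measurable (Matrix.toLin' Di) := (LinearMap.continuous_of_finiteDimensional _).measurable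
  rw [h3, ← Measure.map_map hm h1.measurable, h1.map_eq, h2, ← eq_inv_of_mul_eq_one_left hdet]

theorem k7cUNV_V : MeasurePreserving (k7cV) volume volume := by
  have h := (volume_preserving_piFinSuccAbove (fun _ : Fin 3 => ℝ) 0).symm
  have h2 : k7cV = ⇑(MeasurableEquiv.piFinSuccAbove (fun _ : Fin 3 => ℝ) 0).symm := by
    funext u
    funext i
    fin_cases i <;> rfl
  rw [h2]
  exact h

/-- **UNV** the Jacobian of the unit coordinates of a label.   PLAN: `R.unit Q (t, y) = ((t - t0)/q, Di (y - y0 - t y1))`, `D * Di = 1` (`hR.inv`), `J = |det D|`, so `|det Di| = 1 / J`.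
Tonelli: for fixed `t` the map `y ↦ Di (y - c_t)` (`Real.map_matrix_volume_pi_eq_smul_volume_pi` / `Measure.addHaar_preimage_linearMap` with `Matrix.toLin'`, `LinearMap.det_toLin'`), then `t ↦ (t - t0)/q`;
`k7cV` = `MeasurableEquiv.piFinSuccAbove`-type identification `ℝ × (Fin 2 → ℝ) ≃ (Fin 3 → ℝ)`, volume preserving (`volume_preserving_piFinSuccAbove (fun _ => ℝ) 0`). -/
theorem k7c_unit_vol {K : ℝ} (hR : R.Ok K) (Q : R.Lab) (U : Set (Fin 3 → ℝ)) (hU : MeasurableSet U) :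
    volume ((fun z => k7cV (R.unit Q z)) ⁻¹' U) = ENNReal.ofReal (R.q Q * R.J Q) * volume U := by
  have hq := ksl8_q_pos R Q
  have hgm : Measurable (Function.uncurry fun (t : ℝ) (y : KbB KbVer.two) => (R.ch Q).Di.mulVec (y - (R.ch Q).yc t)) := by
    have hm : Measurable (Matrix.toLin' (R.ch Q).Di) := (LinearMap.continuous_of_finiteDimensional _).measurable
    have h2 : Measurable fun p : ℝ × KbB KbVer.two => p.2 - ((R.ch Q).y0 + p.1 • (R.ch Q).y1) := by fun_prop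
    exact hm.comp h2
  have hΨ : MeasurePreserving (R.unit Q) (volume : Measure (ℝ × KbB KbVer.two))
      ((ENNReal.ofReal (R.q Q) • (volume : Measure ℝ)).prod (ENNReal.ofReal (R.J Q) • (volume : Measure (KbB KbVer.two)))) :=
    (k7cUNV_time (R.t0 Q) (R.q Q) hq).skew_product hgm
      (Filter.Eventually.of_forall fun t => k7cUNV_space _ _ (hR.inv Q) _)
  have hpre : (fun z => k7cV (R.unit Q z)) ⁻¹' U = R.unit Q ⁻¹' (k7cV ⁻¹' U) := rfl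
  have hV : MeasurableSet (k7cV ⁻¹' U) := k7cUNV_V.measurable hU
  rw [hpre, hΨ.measure_preimage hV.nullMeasurableSet, Measure.prod_smul_left, Measure.prod_smul_right,
    Measure.smul_apply, Measure.smul_apply, smul_eq_mul, smul_eq_mul, ← mul_assoc,
    ← ENNReal.ofReal_mul hq.le]
  congr 1
  exact k7cUNV_V.measure_preimage hU.nullMeasurableSet

theorem k7cfill_blk_sub {K : ℝ} (hR : R.Ok K) (Q : R.Lab) : R.blk Q ⊆ Set.Icc (0 : ℝ) 1 := by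
  intro t ht
  have h1 : (R.iv Q : ℝ) * kbQ (R.lev Q) ≤ t := ht.1
  have h2 : t < ((R.iv Q : ℝ) + 1) * kbQ (R.lev Q) := ht.2
  have hq : 0 < kbQ (R.lev Q) := ksl_kbQ_pos _
  have h3 : ((R.iv Q : ℝ) + 1) ≤ 2 ^ R.lev Q := by exact_mod_cast hR.iv_lt Q
  have h4 : (2 : ℝ) ^ R.lev Q * kbQ (R.lev Q) = 1 := by
    unfold kbQ
    rw [← mul_pow]
    norm_num
  constructor
  · exact le_trans (by positivity) h1
  · nlinarith

theorem k7cfill_prior_inc {K : ℝ} (hR : R.Ok K) (Q : R.Lab) : R.prior (R.inc Q) = ENNReal.ofReal (R.q Q) * R.νQ Q := by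
  have := ksl_tm_sfinite
  have := hR.prob
  have h1 : KbPb.tm (R.blk Q) = ENNReal.ofReal (R.q Q) := by
    unfold KbPb.tm
    rw [Measure.restrict_apply' measurableSet_Icc, Set.inter_eq_left.2 (k7cfill_blk_sub hR Q)]
    unfold KsRef.blk kbI KsRef.q
    rw [Real.volume_Ico]
    congr 1
    ring
  unfold KsRef.prior KsRef.inc
  rw [Measure.prod_prod, h1, mul_comm]
  rfl

theorem k7cfill_inc_meas {K : ℝ} (hR : R.Ok K) (Q : R.Lab) : MeasurableSet (R.inc Q) :=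
  (hR.m_asg Q).prod measurableSet_Ico

theorem k7cfill_unit_meas (Q : R.Lab) : Measurable fun z : ℝ × KbB KbVer.two => k7cV (R.unit Q z) := by
  have hc : Continuous fun z : ℝ × KbB KbVer.two => R.unit Q z := by
    unfold KsRef.unit KbChart.yc
    refine Continuous.prodMk (by fun_prop) ?_
    exact (Continuous.matrix_mulVec continuous_const (by fun_prop))
  have h2 : Continuous fun u : ℝ × KbB KbVer.two => k7cV u := by
    unfold k7cV ksZ ksY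
    refine continuous_pi fun i => ?_
    fin_cases i
    · exact continuous_fst
    · exact (continuous_apply (0 : Fin 2)).comp continuous_snd
    · exact (continuous_apply (1 : Fin 2)).comp continuous_snd
  exact (h2.comp hc).measurable

/-- the labels of depth `s` below `Q₀` have total budget `≤ q₀ ν(Q₀)` -/
theorem k7cfill_budget {K : ℝ} (hR : R.Ok K) (Q₀ : R.Lab) (s : ℝ) (W : R.Lab → ℝ≥0∞)
    (hW : ∀ Q, W Q = 0 ∨ (W Q = ENNReal.ofReal (R.q Q) * R.νQ Q ∧ R.dep Q = s ∧ R.Desc Q Q₀)) :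
    ∑ Q, W Q ≤ ENNReal.ofReal (R.q Q₀) * R.νQ Q₀ := by
  classical
  set F : Finset R.Lab := Finset.univ.filter fun Q => W Q ≠ 0 with hF
  have hFm : ∀ Q ∈ F, W Q = ENNReal.ofReal (R.q Q) * R.νQ Q ∧ R.dep Q = s ∧ R.Desc Q Q₀ := by
    intro Q hQ
    rcases hW Q with h | h
    · exact absurd h (Finset.mem_filter.1 hQ).2
    · exact h
  have h1 : ∑ Q, W Q = ∑ Q ∈ F, W Q := by
    rw [hF, Finset.sum_filter_ne_zero]
  have h2 : ∑ Q ∈ F, W Q = ∑ Q ∈ F, R.prior (R.inc Q) :=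
    Finset.sum_congr rfl fun Q hQ => by rw [(hFm Q hQ).1, k7cfill_prior_inc hR]
  have hd : (F : Set R.Lab).PairwiseDisjoint fun Q => R.inc Q := by
    intro Q hQ Q' hQ' hne
    refine Set.disjoint_left.2 fun p hp hp' => hne ?_
    exact ks_lab_unique hR (s := s) (p := p) ⟨(hFm Q hQ).2.1, hp⟩ ⟨(hFm Q' hQ').2.1, hp'⟩
  rw [h1, h2, ← measure_biUnion_finset hd fun Q _ => k7cfill_inc_meas hR Q, ← k7cfill_prior_inc hR]
  refine measure_mono (Set.iUnion₂_subset fun Q hQ => ?_)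
  exact Set.prod_mono (hFm Q hQ).2.2.2.1 (hFm Q hQ).2.2.2.2

/-- **FILL** (07 l.1290-1297).   PLAN.  `μ := R.prior.restrict S`, label `R.ent s` (`hR.m_ent`), `𝒟 := {Q | dep Q = s ∧ Desc Q Q₀}`, reference weights `Ref e := q_Q ν_Q` if `Q = eLab e ∈ 𝒟`, else `0`.
`∑_e Ref e ≤ K ∑_{Q ∈ 𝒟} q_Q ν_Q ≤ K q₀ ν(Q₀)` : `ent_card`; the sets `inc Q`, `Q ∈ 𝒟`, are pairwise disjoint (`lev_dep`, `disj`, disjoint dyadic blocks `ksl_kbI_inj`), contained in `inc Q₀`, `prior (inc Q) = q_Q ν_Q` (as in `ks_budget_depth`).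
`S' := S ∩ {p | Ref (ent s p) ≤ 2 K K₁ * μ {ent s = ent s p}}` ; `ks_prune_loss` : `2 K K₁ * prior (S \ S') ≤ K q₀ ν(Q₀) ≤ K K₁ prior S`.
For `p ∈ S` : `Q := labAt s p ∈ 𝒟` (`hR.lab`, `hR.nested`, `ks_lab_unique`); `ν_Q ≠ 0` (`ν_lo`, `p_A ≠ 0` from `ν_hi` for `Q₀`, same parent by `asg_par`; `J_Q > 0` by `J_lo`), `ν_Q ≠ ⊤`.
For `p ∈ S'`, `e := ent s p`, `T :=` the image, `U' := toMeasurable volume T`, `U := (k7cV ∘ unit Q) ⁻¹' U'` : `S ∩ {ent s = e} ⊆ inc Q ∩ base ⁻¹' U` (`ent_cov`), `prior = lam0` on subsets of `Ev0`,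
`capQ` + UNV : `J q ν_Q ≤ 2 K K₁ J lam0 (..) ≤ 2 K K₁ K ν_Q q J vol T`; cancel. -/
theorem k7c_fill {K K₁ : ℝ} (hR : R.Ok K) (hK₁ : 1 ≤ K₁) (Q₀ : R.Lab) (hpos : R.νQ Q₀ ≠ 0) (s : ℝ) (hs : s ∈ R.depths) (hs0 : R.dep Q₀ ≤ s)
    (S : Set (R.L × ℝ)) (hS : MeasurableSet S) (hsub : S ⊆ R.Ev0 ∩ R.inc Q₀)
    (hmass : ENNReal.ofReal (R.q Q₀) * R.νQ Q₀ ≤ ENNReal.ofReal K₁ * R.prior S) :
    ∃ S' ⊆ S, MeasurableSet S' ∧ R.prior S ≤ 2 * R.prior S' ∧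
      ∀ p ∈ S', ENNReal.ofReal (1 / (4 * K ^ 3 * K₁)) ≤ volume ((fun p' => k7cV (R.unit (R.labAt s p) (R.base p'))) '' (S ∩ R.ent s ⁻¹' {R.ent s p})) := by
  classical
  have hprob := hR.prob
  have hK : 1 ≤ K := hR.K_ge
  have hK0 : 0 < K := by linarith
  have hK₁0 : 0 < K₁ := by linarith
  -- the reference weights
  set W : R.Lab → ℝ≥0∞ := fun Q => if R.dep Q = s ∧ R.Desc Q Q₀ then ENNReal.ofReal (R.q Q) * R.νQ Q else 0 with hWdef
  set Ref : R.Ent → ℝ≥0∞ := fun e => W (R.eLab e) with hRef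
  have hWb : ∑ Q, W Q ≤ ENNReal.ofReal (R.q Q₀) * R.νQ Q₀ := by
    refine k7cfill_budget hR Q₀ s W fun Q => ?_
    by_cases h : R.dep Q = s ∧ R.Desc Q Q₀
    · exact Or.inr ⟨by simp only [hWdef, if_pos h], h.1, h.2⟩
    · exact Or.inl (by simp only [hWdef, if_neg h])
  have hsum : ∑ e, Ref e ≤ ENNReal.ofReal K * (ENNReal.ofReal (R.q Q₀) * R.νQ Q₀) := by
    have h1 : ∑ e, Ref e = ∑ Q, ∑ e ∈ Finset.univ.filter (fun e => R.eLab e = Q), Ref e :=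
      (Finset.sum_fiberwise Finset.univ R.eLab Ref).symm
    rw [h1]
    refine le_trans (Finset.sum_le_sum fun Q _ => ?_) (le_trans (le_of_eq (Finset.mul_sum _ _ _).symm) (mul_le_mul' le_rfl hWb))
    have h2 : ∑ e ∈ Finset.univ.filter (fun e => R.eLab e = Q), Ref e = ((Finset.univ.filter (fun e => R.eLab e = Q)).card : ℝ≥0∞) * W Q := by
      rw [Finset.sum_congr rfl (g := fun _ => W Q) fun e he => by simp only [hRef, (Finset.mem_filter.1 he).2], Finset.sum_const,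
        nsmul_eq_mul]
    rw [h2]
    refine mul_le_mul' ?_ le_rfl
    have h3 : ({e | R.eLab e = Q} : Set R.Ent) = ↑(Finset.univ.filter fun e => R.eLab e = Q) := by
      ext e
      simp
    have h4 := hR.ent_card Q
    rw [h3, Set.ncard_coe_finset] at h4
    rw [← ENNReal.ofReal_natCast]
    exact ENNReal.ofReal_le_ofReal h4
  -- the pruning
  set μ : Measure (R.L × ℝ) := R.prior.restrict S with hμ
  set K2 : ℝ≥0∞ := ENNReal.ofReal (2 * K * K₁) with hK2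
  set keep : Set R.Ent := ksKeep μ (R.ent s) Ref K2 with hkeep
  have hmk : MeasurableSet (R.ent s ⁻¹' keep) := ks_lab_preimage (hR.m_ent s) keep
  have hfin : R.prior S ≠ ⊤ := by
    refine ne_top_of_le_ne_top ?_ (measure_mono (hsub.trans Set.inter_subset_right))
    rw [k7cfill_prior_inc hR]
    exact ENNReal.mul_ne_top ENNReal.ofReal_ne_top (measure_ne_top _ _)
  refine ⟨S ∩ R.ent s ⁻¹' keep, Set.inter_subset_left, hS.inter hmk, ?_, ?_⟩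
  · have hloss := ks_prune_loss μ (hR.m_ent s) Ref K2
    rw [← hkeep, Set.preimage_compl, hμ, Measure.restrict_apply hmk.compl] at hloss
    have h1 : (R.ent s ⁻¹' keep)ᶜ ∩ S = S \ (R.ent s ⁻¹' keep) := by
      ext p
      simp [and_comm]
    rw [h1] at hloss
    set b := R.prior (S \ (R.ent s ⁻¹' keep)) with hb
    set a := R.prior (S ∩ R.ent s ⁻¹' keep) with ha
    have hab : a + b = R.prior S := measure_inter_add_sdiff S hmk
    have hbfin : b ≠ ⊤ := ne_top_of_le_ne_top hfin (measure_mono Set.sdiff_subset)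
    have h2 : K2 * b ≤ ENNReal.ofReal (K * K₁) * (a + b) := by
      rw [hab]
      refine hloss.trans (hsum.trans ?_)
      rw [ENNReal.ofReal_mul hK0.le, mul_assoc]
      exact mul_le_mul' le_rfl hmass
    have h3 : K2 = ENNReal.ofReal (K * K₁) * 2 := by
      rw [hK2, show 2 * K * K₁ = K * K₁ * 2 by ring, ENNReal.ofReal_mul (by positivity)]
      norm_num
    rw [h3, mul_assoc] at h2
    have h4 : 2 * b ≤ a + b :=
      (ENNReal.mul_le_mul_iff_right (by simpa using mul_pos hK0 hK₁0) ENNReal.ofReal_ne_top).1 h2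
    rw [two_mul] at h4
    have h5 : b ≤ a := (ENNReal.add_le_add_iff_right hbfin).1 h4
    rw [← hab, two_mul]
    exact add_le_add le_rfl h5
  · rintro p ⟨hpS, hpk⟩
    set e := R.ent s p with he
    have hQe : R.labAt s p = R.eLab e := rfl
    set Q := R.labAt s p with hQ
    have hpE : p ∈ R.Ev0 := (hsub hpS).1
    have hp0 : p ∈ R.inc Q₀ := (hsub hpS).2
    have hlab : R.IsLab s p Q := hR.lab s hs p hpE
    -- `Q` is a descendant of `Q₀`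
    have hdesc : R.Desc Q Q₀ := by
      obtain ⟨Q₁, hQ₁, hD⟩ := hR.nested Q (R.dep Q₀) (hR.dep_mem Q₀) (by rw [hlab.1]; exact hs0)
      have hp1 : p ∈ R.inc Q₁ := Set.prod_mono hD.2.1 hD.2.2 hlab.2
      have : Q₁ = Q₀ := ks_lab_unique hR (s := R.dep Q₀) (p := p) ⟨hQ₁, hp1⟩ ⟨rfl, hp0⟩
      rwa [this] at hD
    have hRe : Ref e = ENNReal.ofReal (R.q Q) * R.νQ Q := by
      simp only [hRef, hWdef, ← hQe]
      rw [if_pos ⟨hlab.1, hdesc⟩]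
    -- positivity
    have hq : 0 < R.q Q := ksl_kbQ_pos _
    have hN : 0 < R.N := by linarith [hR.N_ge]
    have hJ : 0 < R.J Q := by
      have h1 := hR.J_lo Q
      have h2 : 0 < R.q Q ^ KbVer.two.j * R.a (R.ell * R.dep Q) := mul_pos (pow_pos hq _) (Real.rpow_pos_of_pos hN _)
      by_contra hcon
      have : K * R.J Q ≤ 0 := mul_nonpos_of_nonneg_of_nonpos hK0.le (not_lt.1 hcon)
      linarith
    have hνtop : R.νQ Q ≠ ⊤ := measure_ne_top _ _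
    have hν0 : R.νQ Q ≠ 0 := by
      intro h0
      have h1 := hR.ν_lo Q
      rw [h0, mul_zero] at h1
      have h2 : R.pA (R.lpar Q) * ENNReal.ofReal (R.a (R.dep Q) ^ R.d * R.J Q) = 0 := le_antisymm h1 zero_le
      have h3 : ENNReal.ofReal (R.a (R.dep Q) ^ R.d * R.J Q) ≠ 0 := by
        have : 0 < R.a (R.dep Q) ^ R.d * R.J Q := mul_pos (Real.rpow_pos_of_pos (Real.rpow_pos_of_pos hN _) _) hJ
        simpa using this
      have h4 : R.pA (R.lpar Q) = 0 := (mul_eq_zero.1 h2).resolve_right h3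
      have h5 : R.lpar Q = R.lpar Q₀ := by
        have e1 : R.par p.1 = R.lpar Q := hR.asg_par Q hlab.2.1
        have e2 : R.par p.1 = R.lpar Q₀ := hR.asg_par Q₀ hp0.1
        exact e1.symm.trans e2
      have h6 := hR.ν_hi Q₀
      rw [← h5, h4, zero_mul, mul_zero] at h6
      exact hpos (le_antisymm h6 zero_le)
    -- the image
    set T : Set (Fin 3 → ℝ) := (fun p' => k7cV (R.unit Q (R.base p'))) '' (S ∩ R.ent s ⁻¹' {e}) with hT
    set U' := toMeasurable volume T with hU'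
    set U : Set (ℝ × KbB KbVer.two) := (fun z => k7cV (R.unit Q z)) ⁻¹' U' with hU
    have hUm : MeasurableSet U := k7cfill_unit_meas Q (measurableSet_toMeasurable _ _)
    have hsubU : S ∩ R.ent s ⁻¹' {e} ⊆ R.inc Q ∩ R.base ⁻¹' U := by
      rintro p' ⟨hp'S, hp'e⟩
      have hp'e' : R.ent s p' = e := hp'e
      have h1 : R.IsLab s p' (R.labAt s p') := hR.lab s hs p' (hsub hp'S).1
      have h2 : R.labAt s p' = Q := by
        rw [hQe]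
        unfold KsRef.labAt
        rw [hp'e']
      rw [h2] at h1
      refine ⟨h1.2, ?_⟩
      exact subset_toMeasurable volume T ⟨p', ⟨hp'S, hp'e⟩, rfl⟩
    have hlam : R.prior (S ∩ R.ent s ⁻¹' {e}) ≤ R.lam0 (R.inc Q ∩ R.base ⁻¹' U) := by
      unfold KsRef.lam0 KsRef.law
      rw [Measure.restrict_apply' hR.m_Ev0]
      exact measure_mono fun p' hp' => ⟨hsubU hp', (hsub hp'.1).1⟩
    have hkp : Ref e ≤ K2 * R.prior (S ∩ R.ent s ⁻¹' {e}) := by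
      have h1 : Ref e ≤ K2 * ksMass μ (R.ent s) e := hpk
      unfold ksMass at h1
      rwa [hμ, Measure.restrict_apply (hR.m_ent s e), Set.inter_comm] at h1
    have hcap := hR.capQ Q U hUm
    have hvol : volume U = ENNReal.ofReal (R.q Q * R.J Q) * volume T := by
      rw [hU, k7c_unit_vol hR Q U' (measurableSet_toMeasurable _ _), hU', measure_toMeasurable]
    rw [hvol] at hcap
    -- cancel
    set c : ℝ≥0∞ := ENNReal.ofReal (R.J Q) * (ENNReal.ofReal (R.q Q) * R.νQ Q) with hc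
    have hc0 : c ≠ 0 := by
      refine mul_ne_zero (by simpa using hJ) (mul_ne_zero (by simpa using hq) hν0)
    have hctop : c ≠ ⊤ := ENNReal.mul_ne_top ENNReal.ofReal_ne_top (ENNReal.mul_ne_top ENNReal.ofReal_ne_top hνtop)
    have hmain : c * 1 ≤ c * (K2 * ENNReal.ofReal K * volume T) := by
      calc c * 1 = ENNReal.ofReal (R.J Q) * Ref e := by rw [mul_one, hc, hRe]
        _ ≤ ENNReal.ofReal (R.J Q) * (K2 * R.lam0 (R.inc Q ∩ R.base ⁻¹' U)) :=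
            mul_le_mul' le_rfl (hkp.trans (mul_le_mul' le_rfl hlam))
        _ = K2 * (ENNReal.ofReal (R.J Q) * R.lam0 (R.inc Q ∩ R.base ⁻¹' U)) := by ring
        _ ≤ K2 * (ENNReal.ofReal K * R.νQ Q * (ENNReal.ofReal (R.q Q * R.J Q) * volume T)) := mul_le_mul' le_rfl hcap
        _ = c * (K2 * ENNReal.ofReal K * volume T) := by
            rw [hc, ENNReal.ofReal_mul hq.le]
            ring
    have h1 : 1 ≤ K2 * ENNReal.ofReal K * volume T := (ENNReal.mul_le_mul_iff_right hc0 hctop).1 hmain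
    rw [hK2, ← ENNReal.ofReal_mul (by positivity)] at h1
    have hpos2 : 0 < 2 * K * K₁ * K := by positivity
    have h2 : ENNReal.ofReal (1 / (2 * K * K₁ * K)) ≤ volume T := by
      have h3 : ENNReal.ofReal (1 / (2 * K * K₁ * K)) * 1 ≤
          ENNReal.ofReal (1 / (2 * K * K₁ * K)) * (ENNReal.ofReal (2 * K * K₁ * K) * volume T) := mul_le_mul' le_rfl h1
      rw [mul_one, ← mul_assoc, ← ENNReal.ofReal_mul (by positivity), one_div, inv_mul_cancel₀ hpos2.ne', ENNReal.ofReal_one,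
        one_mul] at h3
      rwa [one_div]
    refine le_trans (ENNReal.ofReal_le_ofReal ?_) h2
    apply one_div_le_one_div_of_le hpos2
    have : K ^ 2 ≤ K ^ 3 := pow_le_pow_right₀ hK (by norm_num)
    nlinarith [mul_pos hK0 hK₁0, mul_le_mul_of_nonneg_right this hK₁0.le]

/-! ## 4. The graphs are sheets; Lipschitz bound -/

/-- `ofUnit` as an affine map of `Fin 3 → ℝ` -/
theorem k7csheet_aff (Q : R.Lab) : ∃ (A : Matrix (Fin 3) (Fin 3) ℝ) (b : Fin 3 → ℝ), ∀ u : ℝ × KbB KbVer.two,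
    k7fTb (k7fAm A b (k7cV u)) = R.ofUnit Q u := by
  refine ⟨!![R.q Q, 0, 0;
      R.q Q * (R.ch Q).y1 (0 : Fin 2), (R.ch Q).D (0 : Fin 2) (0 : Fin 2), (R.ch Q).D (0 : Fin 2) (1 : Fin 2);
      R.q Q * (R.ch Q).y1 (1 : Fin 2), (R.ch Q).D (1 : Fin 2) (0 : Fin 2), (R.ch Q).D (1 : Fin 2) (1 : Fin 2)],
    ![R.t0 Q, (R.ch Q).y0 (0 : Fin 2) + R.t0 Q * (R.ch Q).y1 (0 : Fin 2), (R.ch Q).y0 (1 : Fin 2) + R.t0 Q * (R.ch Q).y1 (1 : Fin 2)], fun u => ?_⟩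
  have hy : ∀ i : Fin 2, (R.ofUnit Q u).2 i = (R.ch Q).y0 i + (R.t0 Q + R.q Q * u.1) * (R.ch Q).y1 i
      + ((R.ch Q).D i (0 : Fin 2) * u.2 (0 : Fin 2) + (R.ch Q).D i (1 : Fin 2) * u.2 (1 : Fin 2)) := by
    intro i
    have h1 : (R.ofUnit Q u).2 i = (R.ch Q).yc (R.t0 Q + R.q Q * u.1) i + (R.ch Q).D.mulVec u.2 i := rfl
    rw [h1, k7f_d2_mv]
    rfl
  refine Prod.ext ?_ (funext fun i : Fin 2 => ?_)
  · show k7fAm _ _ (k7cV u) 0 = R.t0 Q + R.q Q * u.1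
    simp [k7fAm, k7cV]
    ring
  · rw [hy]
    fin_cases i
    · show k7fAm _ _ (k7cV u) 1 = _
      simp [k7fAm, k7cV, ksZ, ksY]
      ring
    · show k7fAm _ _ (k7cV u) 2 = _
      simp [k7fAm, k7cV, ksZ, ksY]
      ring

/-- **SHEET** the graph of an occupied entry in unit coordinates.   PLAN.  `Q := eLab e`, `T := R.tst Q` quadratic (`tst_adm`): `T (t, y, w) = A w² + B (t, y) w + C₀ (t, y)`, `A = cww`, `B` affine, `C₀` quadratic; `kbDw T = 2 A w + B` (exact).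
`R.ofUnit Q` is affine in `u`, so `b := B ∘ ofUnit`, `c := C₀ ∘ ofUnit` are polynomials in `k7cV u` of degree `≤ 1`, `≤ 2`.   `g u := eG e (ofUnit u)`.
ROOT kinds (`ent_root`), `σ = ±1` : `A g² + b g + c = 0`, `1/K ≤ σ (2 A g + b) ≤ K`; `D := b² - 4 A c = (2 A g + b)²`, `√D = σ (2 A g + b)`.   `A ≠ 0` : `m = 0`, `α = -b/(2A)`, `β = σ/(2A)`.   `A = 0` : `m = 1`, `α = 0`, `β = -σ c`, `D = b²` (`g = -c/b`).
CENTRE kind (`ent_ctr`) : `2 A g + b = 0`.   `A ≠ 0` : `m = 0`, `α = -b/(2A)`, `β = 0`, `D = 1`.   `A = 0` is impossible: take `p ∈ Ev0 ∩ eOn e`; `ent_cov` (depth `dep Q ∈ depths` by `dep_mem`) puts `u_p := unit Q (base p)` in the core `⊆ eInt e` (`eRad > 0` by `ent_rad`),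
`ofUnit (u_p) = base p` (`ks_ofUnit_unit`), so `kbDw T` at `p` is `b (u_p) = 0`, against `tst_lo`. -/
theorem k7c_sheet {K : ℝ} (hR : R.Ok K) (e : R.Ent) (he : (R.Ev0 ∩ R.eOn e).Nonempty) :
    ∃ (m : ℕ) (α β D : MvPolynomial (Fin 3) ℝ), m ≤ 1 ∧ α.totalDegree ≤ 2 ∧ β.totalDegree ≤ 2 ∧ D.totalDegree ≤ 2 ∧
      ∀ u ∈ R.eInt e, 1 / K ^ 2 ≤ MvPolynomial.eval (k7cV u) D ∧ MvPolynomial.eval (k7cV u) D ≤ K ^ 2 ∧
        R.eG e (R.ofUnit (R.eLab e) u) = sh2_val m α β D (k7cV u) := by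
  have hus : (R.Ev0 ∩ R.inc (R.eLab e)).Nonempty := by
    obtain ⟨p, hp0, hpe⟩ := he
    have h1 := (hR.lab _ (hR.dep_mem (R.eLab e)) p hp0).2
    have h2 : R.ent (R.dep (R.eLab e)) p = e := hpe
    unfold KsRef.labAt at h1
    rw [h2] at h1
    exact ⟨p, hp0, h1⟩
  obtain ⟨A, b, hAb⟩ := k7csheet_aff (R.eLab e)
  obtain ⟨α, β, D, h1, h2, h3, h4⟩ := k7f_d6_sheet hR e hus 1 A b
  refine ⟨1, α, β, D, le_rfl, h1, h2, h3, fun u hu => ?_⟩
  obtain ⟨a1, a2, a3⟩ := h4 (k7cV u) (by rw [hAb, ks_unit_ofUnit hR]; exact hu)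
  rw [hAb, one_mul] at a1
  exact ⟨a2, a3, a1⟩

/-- **LIP** (Mathlib + `Sheet/*` only).   PLAN.  Box `[c₀ - 3ρ/2, c₀ + 3ρ/2]` (inside the open cube of radius `2ρ`, where `D` is stable: `sh2Stable (kap^2)`-type, `D0 = 1`), volume `(3ρ)³`; `sh2_remez 3 d 1 m` with density `θ/27` gives `B := C' (kap'/θ')^p' M` and `sh2Bd 1 ..`.
For `u, u'` in the closed cube of radius `ρ`, `δ := sup_i |u i - u' i|`.   `δ = 0` trivial.   `δ ≤ ρ/2` : `v := (ρ/(2δ)) • (u' - u)`, the segment `u + s v`, `|s| ≤ 1`, stays in the box; `h s := F (u + s v)` has `|iteratedDeriv 1 h| ≤ B` on `[-1,1]`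
(`iteratedDeriv_one`; differentiable by `sh2_val_contDiffOn`, `sh2_line_contDiffAt`), mean value on `[0, 2δ/ρ]` : `|F u' - F u| ≤ 2 B δ/ρ`.   `δ > ρ/2` : `|F u' - F u| ≤ 2 B ≤ 4 B δ/ρ`. -/
theorem k7c_lip (d m : ℕ) : ∃ (p : ℕ) (C : ℝ), 1 ≤ C ∧
    ∀ (kap θ M ρ : ℝ) (α β D : MvPolynomial (Fin 3) ℝ) (c₀ : Fin 3 → ℝ) (T : Set (Fin 3 → ℝ)), 1 ≤ kap → α.totalDegree ≤ d → β.totalDegree ≤ d → D.totalDegree ≤ d →
      0 < ρ → (∀ u : Fin 3 → ℝ, (∀ i, |u i - c₀ i| < 2 * ρ) → 1 / kap ≤ MvPolynomial.eval u D ∧ MvPolynomial.eval u D ≤ kap) → 0 < θ → θ ≤ 1 →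
      (∀ u ∈ T, ∀ i, |u i - c₀ i| ≤ ρ) → ENNReal.ofReal (θ * ρ ^ 3) ≤ volume T → (∀ u ∈ T, |sh2_val m α β D u| ≤ M) →
      ∀ u u' : Fin 3 → ℝ, (∀ i, |u i - c₀ i| ≤ ρ) → (∀ i, |u' i - c₀ i| ≤ ρ) → ∀ δ : ℝ, (∀ i, |u i - u' i| ≤ δ) →
        |sh2_val m α β D u - sh2_val m α β D u'| ≤ C * (kap / θ) ^ p * M * (δ / ρ) := by
  obtain ⟨p, C', hC', h⟩ := sh2_remez 3 d 1 m
  refine ⟨p, 4 * (C' * 27 ^ p), ?_, ?_⟩
  · have : (1 : ℝ) ≤ 27 ^ p := one_le_pow₀ (by norm_num)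
    nlinarith
  intro kap θ M ρ α β D c₀ T hkap hα hβ hD hρ hst hθ hθ1 hT hvol hM u u' hu hu' δ hδ
  have hkap0 : 0 < kap := by linarith
  have hbox : ∀ x : Fin 3 → ℝ, x ∈ Set.Icc (fun i => c₀ i - 3 * ρ / 2) (fun i => c₀ i + 3 * ρ / 2) ↔ ∀ i, |x i - c₀ i| ≤ 3 * ρ / 2 := by
    intro x
    rw [Set.mem_Icc, Pi.le_def, Pi.le_def]
    constructor
    · rintro ⟨h1, h2⟩ i
      rw [abs_le]
      exact ⟨by linarith [h1 i], by linarith [h2 i]⟩
    · intro h1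
      exact ⟨fun i => by linarith [(abs_le.1 (h1 i)).1], fun i => by linarith [(abs_le.1 (h1 i)).2]⟩
  have hpos : ∀ x ∈ Set.Icc (fun i => c₀ i - 3 * ρ / 2) (fun i => c₀ i + 3 * ρ / 2), 0 < MvPolynomial.eval x D := by
    intro x hx
    exact lt_of_lt_of_le (by positivity) (hst x fun i => lt_of_le_of_lt ((hbox x).1 hx i) (by linarith)).1
  have hBd := h kap α β D (fun i => c₀ i - 3 * ρ / 2) (fun i => c₀ i + 3 * ρ / 2) (θ / 27) M T hkap hα hβ hD (fun i => by linarith)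
    ⟨1, one_pos, fun x hx => by
      rw [mul_one]
      exact hst x fun i => lt_of_le_of_lt ((hbox x).1 hx i) (by linarith)⟩ (by positivity) (by linarith)
    (fun x hx => (hbox x).2 fun i => (hT x hx i).trans (by linarith))
    (by
      rw [Real.volume_Icc_pi]
      have e0 : ∀ i : Fin 3, c₀ i + 3 * ρ / 2 - (c₀ i - 3 * ρ / 2) = 3 * ρ := fun i => by ring
      simp only [e0, Finset.prod_const, Finset.card_univ, Fintype.card_fin]
      rw [← ENNReal.ofReal_pow (by linarith), ← ENNReal.ofReal_mul (by positivity)]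
      refine le_trans (le_of_eq ?_) hvol
      congr 1
      ring) hM
  obtain ⟨hB1, hB2, -⟩ := hBd
  have eB : C' * (kap / (θ / 27)) ^ p * M = C' * 27 ^ p * (kap / θ) ^ p * M := by
    have : kap / (θ / 27) = 27 * (kap / θ) := by field_simp
    rw [this, mul_pow]
    ring
  rw [eB] at hB1 hB2
  have hub : u ∈ Set.Icc (fun i => c₀ i - 3 * ρ / 2) (fun i => c₀ i + 3 * ρ / 2) := (hbox u).2 fun i => (hu i).trans (by linarith)
  have hub' : u' ∈ Set.Icc (fun i => c₀ i - 3 * ρ / 2) (fun i => c₀ i + 3 * ρ / 2) := (hbox u').2 fun i => (hu' i).trans (by linarith)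
  have hB0 : 0 ≤ C' * 27 ^ p * (kap / θ) ^ p * M := (abs_nonneg _).trans (hB1 u hub)
  have hδ0 : 0 ≤ δ := (abs_nonneg _).trans (hδ 0)
  have eR : 4 * (C' * 27 ^ p) * (kap / θ) ^ p * M * (δ / ρ) = 4 * (C' * 27 ^ p * (kap / θ) ^ p * M) * (δ / ρ) := by ring
  rw [eR]
  rcases hδ0.eq_or_lt with h0 | h0
  · have : u = u' := by
      funext i
      have := hδ i
      rw [← h0] at this
      exact sub_eq_zero.1 (abs_eq_zero.1 (le_antisymm this (abs_nonneg _)))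
    rw [this, sub_self, abs_zero, ← h0, zero_div, mul_zero]
  by_cases hc : δ ≤ ρ / 2
  · have hseg : ∀ s ∈ Set.Icc (-1 : ℝ) 1, u + s • ((ρ / (2 * δ)) • (u' - u)) ∈
        Set.Icc (fun i => c₀ i - 3 * ρ / 2) (fun i => c₀ i + 3 * ρ / 2) := by
      intro s hs
      rw [hbox]
      intro i
      simp only [Pi.add_apply, Pi.smul_apply, Pi.sub_apply, smul_eq_mul]
      have h1 : |s * (ρ / (2 * δ) * (u' i - u i))| ≤ ρ / 2 := by
        rw [abs_mul, abs_mul, abs_of_pos (by positivity : 0 < ρ / (2 * δ))]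
        have h2 : |s| ≤ 1 := abs_le.2 hs
        have h3 : |u' i - u i| ≤ δ := by rw [abs_sub_comm]; exact hδ i
        calc |s| * (ρ / (2 * δ) * |u' i - u i|) ≤ 1 * (ρ / (2 * δ) * δ) := by gcongr
          _ = ρ / 2 := by field_simp
      calc |u i + s * (ρ / (2 * δ) * (u' i - u i)) - c₀ i| = |(u i - c₀ i) + s * (ρ / (2 * δ) * (u' i - u i))| := by ring_nf
        _ ≤ |u i - c₀ i| + |s * (ρ / (2 * δ) * (u' i - u i))| := abs_add_le _ _
        _ ≤ 3 * ρ / 2 := by linarith [hu i]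
    have hd : ∀ t ∈ Set.Icc (-1 : ℝ) 1, DifferentiableAt ℝ (fun s : ℝ => sh2_val m α β D (u + s • ((ρ / (2 * δ)) • (u' - u)))) t := by
      intro t ht
      have h1 : ContDiffAt ℝ 1 (sh2_val m α β D) (u + t • ((ρ / (2 * δ)) • (u' - u))) :=
        (sh2_val_contDiffOn m α β D 1).contDiffAt ((sh2_pos_isOpen D).mem_nhds (hpos _ (hseg t ht)))
      exact (h1.comp t (sh2_line_contDiffAt u _ _ t)).differentiableAt one_ne_zero
    have hb : ∀ t ∈ Set.Icc (-1 : ℝ) 1, ‖deriv (fun s : ℝ => sh2_val m α β D (u + s • ((ρ / (2 * δ)) • (u' - u)))) t‖ ≤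
        C' * 27 ^ p * (kap / θ) ^ p * M := by
      intro t ht
      have := hB2 u _ hseg 1 le_rfl t ht
      rwa [iteratedDeriv_one] at this
    have hs0 : 2 * δ / ρ ∈ Set.Icc (-1 : ℝ) 1 := by
      constructor
      · have : 0 ≤ 2 * δ / ρ := by positivity
        linarith
      · rw [div_le_one hρ]
        linarith
    have hmv := Convex.norm_image_sub_le_of_norm_deriv_le hd hb (convex_Icc _ _) (⟨by norm_num, by norm_num⟩ : (0 : ℝ) ∈ Set.Icc (-1 : ℝ) 1) hs0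
    have e1 : u + (2 * δ / ρ) • ((ρ / (2 * δ)) • (u' - u)) = u' := by
      rw [smul_smul]
      have : 2 * δ / ρ * (ρ / (2 * δ)) = 1 := by field_simp
      rw [this, one_smul]
      abel
    simp only [e1, zero_smul, add_zero, sub_zero] at hmv
    rw [Real.norm_eq_abs, Real.norm_eq_abs, abs_of_nonneg (by positivity : 0 ≤ 2 * δ / ρ)] at hmv
    rw [abs_sub_comm]
    refine hmv.trans ?_
    have : 0 ≤ δ / ρ := by positivity
    calc C' * 27 ^ p * (kap / θ) ^ p * M * (2 * δ / ρ) = 2 * (C' * 27 ^ p * (kap / θ) ^ p * M) * (δ / ρ) := by ring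
      _ ≤ 4 * (C' * 27 ^ p * (kap / θ) ^ p * M) * (δ / ρ) := by
          refine mul_le_mul_of_nonneg_right ?_ this
          linarith
  · rw [not_le] at hc
    have h1 : 1 / 2 ≤ δ / ρ := by
      rw [le_div_iff₀ hρ]
      linarith
    calc |sh2_val m α β D u - sh2_val m α β D u'| ≤ |sh2_val m α β D u| + |sh2_val m α β D u'| := abs_sub _ _
      _ ≤ 2 * (C' * 27 ^ p * (kap / θ) ^ p * M) := by linarith [hB1 u hub, hB1 u' hub']
      _ = 4 * (C' * 27 ^ p * (kap / θ) ^ p * M) * (1 / 2) := by ring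
      _ ≤ 4 * (C' * 27 ^ p * (kap / θ) ^ p * M) * (δ / ρ) := by
          refine mul_le_mul_of_nonneg_left h1 ?_
          linarith

theorem k7culip_aux {x D c M b T : ℝ} (hb : 0 < b) (hM : 0 ≤ M) (h1 : |x * D| ≤ c) (h2 : b ≤ M * |D|) (h3 : M * c ≤ T) :
    |x| ≤ T / b := by
  rw [le_div_iff₀ hb]
  rw [abs_mul] at h1
  calc |x| * b ≤ |x| * (M * |D|) := by gcongr
    _ = M * (|x| * |D|) := by ring
    _ ≤ M * c := by gcongr
    _ ≤ T := h3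

/-- **ULIP** the unit coordinates of a label are Lipschitz with the constant `4 K⁷ / b_Q`.   PLAN: `ks_tilt_unit` : `u_Z dZZ = Z - Z_c (t)`, `u_Y dYY = Y - Y_Q (t, Z)`; `hT.full` (`q ≤ K |dZZ|`), `ks_tilt_size` (`|tl| ≤ K²`, `b ≤ K⁴ |dYY|`), `hT.cen` (`‖y1‖ ≤ K`), `q_lo`, `ksl8_b_eq`, `g ≤ 1`.
time: `δ/q ≤ K δ/b`;   `Z` : `(δ + K δ) K/q ≤ 2 K³ δ/b`;   `Y` : `(δ + K δ + K² (δ + K δ)) K⁴/b ≤ 4 K⁷ δ/b`.   `dist` on `ℝ × (Fin 2 → ℝ)` is the max (`Prod.dist_eq`, `dist_pi_le_iff`, `Fin.forall_fin_two`). -/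
theorem k7c_unit_lip {K : ℝ} (hR : R.Ok K) (hT : R.Tilt K) (Q : R.Lab) (z z' : ℝ × KbB KbVer.two) (δ : ℝ) (h1 : |z.1 - z'.1| ≤ δ) (h2 : ‖z.2 - z'.2‖ ≤ δ) :
    dist (R.unit Q z) (R.unit Q z') ≤ 4 * K ^ 7 * δ / R.b Q := by
  have hK := hR.K_ge
  have hK0 : 0 ≤ K := by linarith
  have hδ : 0 ≤ δ := (abs_nonneg _).trans h1
  have hq := ksl8_q_pos R Q
  have hb : 0 < R.b Q := ksl8_a_pos hR _
  have hg1 : R.g Q ≤ 1 := by
    unfold KsRef.g KsRef.a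
    exact Real.rpow_le_one_of_one_le_of_nonpos (by linarith [hR.N_ge])
      (by have := mul_nonneg hR.prm.ell_nonneg (hR.dep_nonneg Q); linarith)
  have hak : 0 < R.a (R.k * R.dep Q) := ksl8_a_pos hR _
  have hbq : R.b Q ≤ K * R.q Q := by
    rw [ksl8_b_eq hR Q]
    calc R.a (R.k * R.dep Q) * R.g Q ≤ R.a (R.k * R.dep Q) * 1 := by gcongr
      _ = R.a (R.k * R.dep Q) := mul_one _
      _ ≤ K * R.q Q := hR.q_lo Q
  obtain ⟨htl, -, -, hbY⟩ := ks_tilt_size hR hT Q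
  have hy1 : ‖(R.ch Q).y1‖ ≤ K := by
    have := hT.cen Q
    have := norm_nonneg (R.ch Q).y0
    linarith
  obtain ⟨hy1Z, hy1Y⟩ := ksl8_abs_le_norm (R.ch Q).y1
  obtain ⟨hdZ, hdY⟩ := ksl8_abs_le_norm (z.2 - z'.2)
  obtain ⟨eZ, eY⟩ := ks_tilt_unit hR hT Q z
  obtain ⟨eZ', eY'⟩ := ks_tilt_unit hR hT Q z'
  have sZ : ksZ (z.2 - z'.2) = ksZ z.2 - ksZ z'.2 := rfl
  have sY : ksY (z.2 - z'.2) = ksY z.2 - ksY z'.2 := rfl
  rw [sZ] at hdZ
  rw [sY] at hdY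
  have cZ : ∀ t, ksZ ((R.ch Q).yc t) = ksZ (R.ch Q).y0 + t * ksZ (R.ch Q).y1 := fun t => rfl
  have cY : ∀ t, ksY ((R.ch Q).yc t) = ksY (R.ch Q).y0 + t * ksY (R.ch Q).y1 := fun t => rfl
  have p2 : K ^ 1 ≤ K ^ 7 := pow_le_pow_right₀ hK (by norm_num)
  have p2' : K ^ 2 ≤ K ^ 7 := pow_le_pow_right₀ hK (by norm_num)
  have p3 : K ^ 3 ≤ K ^ 7 := pow_le_pow_right₀ hK (by norm_num)
  have p4 : K ^ 4 ≤ K ^ 7 := pow_le_pow_right₀ hK (by norm_num)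
  have p5 : K ^ 5 ≤ K ^ 7 := pow_le_pow_right₀ hK (by norm_num)
  have p6 : K ^ 6 ≤ K ^ 7 := pow_le_pow_right₀ hK (by norm_num)
  have hA : 0 ≤ 4 * K ^ 7 * δ / R.b Q := by positivity
  -- the basic bound
  have bZ : |ksZ z.2 - ksZ z'.2 - (z.1 - z'.1) * ksZ (R.ch Q).y1| ≤ δ + δ * K := by
    calc |ksZ z.2 - ksZ z'.2 - (z.1 - z'.1) * ksZ (R.ch Q).y1|
        ≤ |ksZ z.2 - ksZ z'.2| + |(z.1 - z'.1) * ksZ (R.ch Q).y1| := abs_sub _ _
      _ ≤ δ + δ * K := by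
          rw [abs_mul]
          exact add_le_add (hdZ.trans h2) (mul_le_mul h1 (hy1Z.trans hy1) (abs_nonneg _) hδ)
  rw [Prod.dist_eq]
  refine max_le ?_ ?_
  · -- time
    rw [Real.dist_eq]
    refine k7culip_aux (D := R.q Q) (c := δ) (M := K) hb hK0 ?_ (by rw [abs_of_pos hq]; exact hbq) ?_
    · have e : ((R.unit Q z).1 - (R.unit Q z').1) * R.q Q = z.1 - z'.1 := by
        show ((z.1 - R.t0 Q) / R.q Q - (z'.1 - R.t0 Q) / R.q Q) * R.q Q = _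
        field_simp
        ring
      rw [e]
      exact h1
    · nlinarith
  · rw [dist_pi_le_iff hA]
    have key : ∀ i : Fin 2, dist ((R.unit Q z).2 i) ((R.unit Q z').2 i) ≤ 4 * K ^ 7 * δ / R.b Q := by
      rw [Fin.forall_fin_two]
      constructor
      · rw [Real.dist_eq]
        refine k7culip_aux (D := R.dZZ Q) (c := δ + δ * K) (M := K ^ 2) hb (by positivity) ?_ ?_ ?_
        · have e : ((R.unit Q z).2 (0 : Fin 2) - (R.unit Q z').2 (0 : Fin 2)) * R.dZZ Q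
              = ksZ z.2 - ksZ z'.2 - (z.1 - z'.1) * ksZ (R.ch Q).y1 := by
            have : ((R.unit Q z).2 (0 : Fin 2) - (R.unit Q z').2 (0 : Fin 2)) * R.dZZ Q
                = ksZ (R.unit Q z).2 * R.dZZ Q - ksZ (R.unit Q z').2 * R.dZZ Q := by
              unfold ksZ
              ring
            rw [this, eZ, eZ', cZ, cZ]
            ring
          rw [e]
          exact bZ
        · calc R.b Q ≤ K * R.q Q := hbq
            _ ≤ K * (K * |R.dZZ Q|) := by gcongr; exact hT.full Q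
            _ = K ^ 2 * |R.dZZ Q| := by ring
        · nlinarith
      · rw [Real.dist_eq]
        refine k7culip_aux (D := R.dYY Q) (c := δ + δ * K + K ^ 2 * (δ + δ * K)) (M := K ^ 4) hb (by positivity) ?_ hbY ?_
        · have e : ((R.unit Q z).2 (1 : Fin 2) - (R.unit Q z').2 (1 : Fin 2)) * R.dYY Q
              = (ksY z.2 - ksY z'.2) - (z.1 - z'.1) * ksY (R.ch Q).y1
                - R.tl Q * (ksZ z.2 - ksZ z'.2 - (z.1 - z'.1) * ksZ (R.ch Q).y1) := by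
            have : ((R.unit Q z).2 (1 : Fin 2) - (R.unit Q z').2 (1 : Fin 2)) * R.dYY Q
                = ksY (R.unit Q z).2 * R.dYY Q - ksY (R.unit Q z').2 * R.dYY Q := by
              unfold ksY
              ring
            rw [this, eY, eY']
            unfold KsRef.YQ
            rw [cZ, cZ, cY, cY]
            ring
          rw [e]
          calc |(ksY z.2 - ksY z'.2) - (z.1 - z'.1) * ksY (R.ch Q).y1
                - R.tl Q * (ksZ z.2 - ksZ z'.2 - (z.1 - z'.1) * ksZ (R.ch Q).y1)|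
              ≤ |(ksY z.2 - ksY z'.2) - (z.1 - z'.1) * ksY (R.ch Q).y1|
                + |R.tl Q * (ksZ z.2 - ksZ z'.2 - (z.1 - z'.1) * ksZ (R.ch Q).y1)| := abs_sub _ _
            _ ≤ (|ksY z.2 - ksY z'.2| + |(z.1 - z'.1) * ksY (R.ch Q).y1|)
                + |R.tl Q * (ksZ z.2 - ksZ z'.2 - (z.1 - z'.1) * ksZ (R.ch Q).y1)| := by
                gcongr
                exact abs_sub _ _
            _ ≤ (δ + δ * K) + K ^ 2 * (δ + δ * K) := by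
                rw [abs_mul, abs_mul]
                refine add_le_add (add_le_add (hdY.trans h2) (mul_le_mul h1 (hy1Y.trans hy1) (abs_nonneg _) hδ)) ?_
                exact mul_le_mul htl bZ (abs_nonneg _) (by positivity)
        · nlinarith
    exact key

/-- LIP, uniformly in `m ≤ 1` -/
theorem k7cclose_lip : ∃ (p : ℕ) (C : ℝ), 1 ≤ C ∧ ∀ m ≤ 1,
    ∀ (kap θ M ρ : ℝ) (α β D : MvPolynomial (Fin 3) ℝ) (c₀ : Fin 3 → ℝ) (T : Set (Fin 3 → ℝ)), 1 ≤ kap → α.totalDegree ≤ 2 → β.totalDegree ≤ 2 → D.totalDegree ≤ 2 →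
      0 < ρ → (∀ u : Fin 3 → ℝ, (∀ i, |u i - c₀ i| < 2 * ρ) → 1 / kap ≤ MvPolynomial.eval u D ∧ MvPolynomial.eval u D ≤ kap) → 0 < θ → θ ≤ 1 →
      (∀ u ∈ T, ∀ i, |u i - c₀ i| ≤ ρ) → ENNReal.ofReal (θ * ρ ^ 3) ≤ volume T → (∀ u ∈ T, |sh2_val m α β D u| ≤ M) →
      ∀ u u' : Fin 3 → ℝ, (∀ i, |u i - c₀ i| ≤ ρ) → (∀ i, |u' i - c₀ i| ≤ ρ) → ∀ δ : ℝ, (∀ i, |u i - u' i| ≤ δ) →
        |sh2_val m α β D u - sh2_val m α β D u'| ≤ C * (kap / θ) ^ p * M * (δ / ρ) := by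
  obtain ⟨p0, C0, hC0, L0⟩ := k7c_lip 2 0
  obtain ⟨p1, C1, hC1, L1⟩ := k7c_lip 2 1
  refine ⟨p0 + p1, C0 + C1, by linarith, ?_⟩
  intro m hm kap θ M ρ α β D c₀ T hkap hα hβ hD hρ hst hθ hθ1 hT hvol hM u u' hu hu' δ hδ
  have hM0 : 0 ≤ M := by
    have h1 : T.Nonempty := by
      rw [Set.nonempty_iff_ne_empty]
      intro h0
      rw [h0, measure_empty, nonpos_iff_eq_zero, ENNReal.ofReal_eq_zero] at hvol
      exact absurd hvol (not_le.2 (by positivity))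
    obtain ⟨x, hx⟩ := h1
    exact (abs_nonneg _).trans (hM x hx)
  have hδ0 : 0 ≤ δ := (abs_nonneg _).trans (hδ 0)
  have hy : 1 ≤ kap / θ := by
    rw [le_div_iff₀ hθ]
    linarith
  have hm' : m = 0 ∨ m = 1 := by omega
  have hfac : 0 ≤ M * (δ / ρ) := by positivity
  rcases hm' with rfl | rfl
  · refine (L0 kap θ M ρ α β D c₀ T hkap hα hβ hD hρ hst hθ hθ1 hT hvol hM u u' hu hu' δ hδ).trans ?_
    rw [mul_assoc, mul_assoc (_ * _)]
    refine mul_le_mul_of_nonneg_right ?_ hfac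
    exact mul_le_mul (by linarith) (pow_le_pow_right₀ hy (Nat.le_add_right _ _)) (by positivity) (by linarith)
  · refine (L1 kap θ M ρ α β D c₀ T hkap hα hβ hD hρ hst hθ hθ1 hT hvol hM u u' hu hu' δ hδ).trans ?_
    rw [mul_assoc, mul_assoc (_ * _)]
    refine mul_le_mul_of_nonneg_right ?_ hfac
    exact mul_le_mul (by linarith) (pow_le_pow_right₀ hy (Nat.le_add_left _ _)) (by positivity) (by linarith)

/-- the parent affine fit in the unit coordinates of a label -/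
theorem k7cclose_PL (X : K7bDat R) (Q : R.Lab) : ∃ PL : MvPolynomial (Fin 3) ℝ, PL.totalDegree ≤ 1 ∧
    ∀ u : ℝ × KbB KbVer.two, MvPolynomial.eval (k7cV u) PL = k7bAff X.L (X.nb (R.ofUnit Q u)) := by
  obtain ⟨A, b, hAb⟩ := k7csheet_aff Q
  obtain ⟨P, hP1, hP⟩ := k7f_d2_lin (X.L.1 - X.L.2.1 * X.t0 / X.q - X.L.2.2.1 * X.Z0 / X.q - X.L.2.2.2 * X.κ * X.y0)
    (X.L.2.1 / X.q - X.L.2.2.2 * X.κ * X.y1) (X.L.2.2.1 / X.q - X.L.2.2.2 * X.κ * X.y2) (X.L.2.2.2 * X.κ)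
  obtain ⟨P', hP'1, hP'⟩ := k7f_poly_comp P A b
  refine ⟨P', hP'1.trans hP1, fun u => ?_⟩
  rw [hP', hP, ← hAb]
  unfold k7bAff K7bDat.nb k7fTb ksZ ksY
  simp only [Matrix.cons_val_zero, Matrix.cons_val_one]
  ring

/-- the sup distance in the coordinates `k7cV` -/
theorem k7cclose_dist (u c : ℝ × KbB KbVer.two) (r : ℝ) (h : dist u c ≤ r) (i : Fin 3) : |k7cV u i - k7cV c i| ≤ r := by
  have h1 : dist u.1 c.1 ≤ r := (le_max_left _ _).trans (Prod.dist_eq (x := u) (y := c) ▸ h)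
  have h2 : dist u.2 c.2 ≤ r := (le_max_right _ _).trans (Prod.dist_eq (x := u) (y := c) ▸ h)
  have h3 : ∀ k : Fin 2, dist (u.2 k) (c.2 k) ≤ r := fun k => (dist_le_pi_dist u.2 c.2 k).trans h2
  fin_cases i
  · exact h1
  · exact h3 0
  · exact h3 1

theorem k7cclose_ball (c : ℝ × KbB KbVer.two) (r : ℝ) (hr : 0 < r) (x : Fin 3 → ℝ) (h : ∀ i, |x i - k7cV c i| < r) :
    ∃ u ∈ Metric.ball c r, k7cV u = x := by
  refine ⟨(x 0, ![x 1, x 2]), ?_, ?_⟩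
  · rw [Metric.mem_ball, Prod.dist_eq, max_lt_iff]
    refine ⟨h 0, ?_⟩
    refine (dist_pi_lt_iff hr).2 fun k : Fin 2 => ?_
    fin_cases k
    · exact h 1
    · exact h 2
  · funext i
    fin_cases i <;> rfl

/-- the numerology -/
theorem k7cclose_num (p₁ : ℕ) (C₁ K θ : ℝ) (hC₁ : 1 ≤ C₁) (hK : 1 ≤ K) (hθ : 0 < θ) (hθ1 : θ ≤ 1) :
    C₁ * (K ^ 2 / θ) ^ p₁ * (2 * K) * (4 * K ^ 7 * K) ≤ ((⌈8 * C₁⌉₊ + 2 * p₁ + 9 : ℕ) : ℝ) * (K / θ) ^ (⌈8 * C₁⌉₊ + 2 * p₁ + 9) := by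
  have hK0 : 0 < K := by linarith
  have hy : 1 ≤ K / θ := by
    rw [le_div_iff₀ hθ]
    linarith
  have hy0 : 0 < K / θ := by linarith
  have h1 : K ^ 2 / θ ≤ (K / θ) ^ 2 := by
    rw [div_pow]
    apply div_le_div_of_nonneg_left (by positivity) (by positivity)
    nlinarith
  have h2 : K ≤ K / θ := by
    rw [le_div_iff₀ hθ]
    nlinarith
  have h3 : (K ^ 2 / θ) ^ p₁ ≤ (K / θ) ^ (2 * p₁) := by
    rw [pow_mul]
    exact pow_le_pow_left₀ (by positivity) h1 _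
  have h4 : K ^ 9 ≤ (K / θ) ^ 9 := pow_le_pow_left₀ hK0.le h2 _
  have h5 : 8 * C₁ ≤ ((⌈8 * C₁⌉₊ + 2 * p₁ + 9 : ℕ) : ℝ) := by
    push_cast
    have := Nat.le_ceil (8 * C₁)
    have h6 : (0 : ℝ) ≤ (p₁ : ℝ) := Nat.cast_nonneg _
    linarith
  calc C₁ * (K ^ 2 / θ) ^ p₁ * (2 * K) * (4 * K ^ 7 * K) = 8 * C₁ * ((K ^ 2 / θ) ^ p₁ * K ^ 9) := by ring
    _ ≤ 8 * C₁ * ((K / θ) ^ (2 * p₁) * (K / θ) ^ 9) := by gcongr
    _ = 8 * C₁ * (K / θ) ^ (2 * p₁ + 9) := by rw [pow_add]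
    _ ≤ ((⌈8 * C₁⌉₊ + 2 * p₁ + 9 : ℕ) : ℝ) * (K / θ) ^ (⌈8 * C₁⌉₊ + 2 * p₁ + 9) := by
        refine mul_le_mul h5 (pow_le_pow_right₀ hy (by omega)) (by positivity) (by positivity)

/-- **CLOSE** two incidences with the same deep entry and nearby base points have nearby residuals; NO bound on `X.L`, `X.κ`, ...
PLAN.  `e := ent Rd p`, `Q := eLab e = labAt Rd p`, `ρ := eRad e ∈ [1/K, 1]`, `c₀ := k7cV (eCtr e)`.   SHEET (`p ∈ Ev0 ∩ eOn e`; `dep Q = Rd` by `hR.lab`) gives `m, α, β, D`.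
`P_L (k7cV u) := k7bAff X.L (X.nb (R.ofUnit Q u))` is a polynomial of degree `≤ 1`; `g := sh2_val m ((α - P_L)/a_r) (β/a_r) D` (`C (a_r⁻¹) * ..`; `sh2_val_sub`, `sh2_val_mul`), `g (k7cV u) = (eG e (ofUnit u) - k7bAff L (nb (ofUnit u)))/a_r` on `eInt e`.
For `p' ∈ S` with `ent Rd p' = e` : `u' := unit Q (base p')` lies in the core (`ent_cov`), `ofUnit u' = base p'`, `|X.xT p' - g (k7cV u')| ≤ K a_{Rd}/a_r ≤ ϱ ≤ 1`, so `|g| ≤ K + 1 ≤ 2 K` on the image `T`.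
LIP (`d = 2`; both `m = 0, 1`: take the max of the constants) with `kap = K²`, `θ` (`θ ρ³ ≤ θ`), `M = 2 K` ; ULIP : `|u_i - u'_i| ≤ 4 K⁷ δ / b`, `b = R.a ((k + ℓ) Rd)`.
`|xT p - xT p'| ≤ 2 ϱ + C' (K²/θ)^p' 2 K * (4 K⁷ δ/b) K ≤ 3 ϱ` if `C ≥ ..` (`(K²/θ)^p' ≤ (K/θ)^(2p')`, `K⁹ ≤ (K/θ)⁹`). -/
theorem k7c_close : ∃ C : ℕ, ∀ {R : KsRef KbVer.two} {K : ℝ} (X : K7bDat R) (ϱ θ δ Rd : ℝ) (S S' : Set (R.L × ℝ)),
    R.Ok K → R.Tilt K → Rd ∈ R.depths → S ⊆ R.Ev0 → S' ⊆ S → (∀ p ∈ S, |X.xT p| ≤ K) → 0 < θ → θ ≤ 1 → ϱ ≤ 1 → K * R.a Rd ≤ ϱ * R.a X.r →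
    (C : ℝ) * (K / θ) ^ C * δ ≤ ϱ * R.a ((R.k + R.ell) * Rd) →
    (∀ p ∈ S', ENNReal.ofReal θ ≤ volume ((fun p' => k7cV (R.unit (R.labAt Rd p) (R.base p'))) '' (S ∩ R.ent Rd ⁻¹' {R.ent Rd p}))) →
    ∀ p ∈ S', ∀ p' ∈ S', R.ent Rd p = R.ent Rd p' → |p.2 - p'.2| ≤ δ → ‖R.y p.1 p.2 - R.y p'.1 p'.2‖ ≤ δ → |X.xT p - X.xT p'| ≤ 3 * ϱ := by
  obtain ⟨p₁, C₁, hC₁, hLip⟩ := k7cclose_lip
  refine ⟨⌈8 * C₁⌉₊ + 2 * p₁ + 9, ?_⟩
  intro R K X ϱ θ δ Rd S S' hR hT hRd hS hS' hx hθ hθ1 hϱ1 hdeep hδ hfill p hp p' hp' hent hdt hdy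
  have hK := hR.K_ge
  have hK0 : 0 < K := by linarith
  have hp0 : p ∈ R.Ev0 := hS (hS' hp)
  have hdep : R.dep (R.eLab (R.ent Rd p)) = Rd := (hR.lab Rd hRd p hp0).1
  have heOn : p ∈ R.eOn (R.ent Rd p) := by
    show R.ent (R.dep (R.eLab (R.ent Rd p))) p = R.ent Rd p
    rw [hdep]
  obtain ⟨m, α, β, D, hm, hα, hβ, hD, hsh⟩ := k7c_sheet hR (R.ent Rd p) ⟨p, hp0, heOn⟩
  obtain ⟨PL, hPL1, hPL⟩ := k7cclose_PL X (R.eLab (R.ent Rd p))
  have har : 0 < R.a X.r := ksl8_a_pos hR _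
  have hb : 0 < R.a ((R.k + R.ell) * Rd) := ksl8_a_pos hR _
  have hrad : 0 < R.eRad (R.ent Rd p) := by
    have := hR.ent_rad (R.ent Rd p)
    by_contra h0
    rw [not_lt] at h0
    nlinarith
  have hrad1 := hR.ent_rad_le (R.ent Rd p)
  have hg : ∀ u ∈ R.eInt (R.ent Rd p), sh2_val m (MvPolynomial.C (R.a X.r)⁻¹ * (α - PL)) (MvPolynomial.C (R.a X.r)⁻¹ * β) D (k7cV u)
      = (R.eG (R.ent Rd p) (R.ofUnit (R.eLab (R.ent Rd p)) u) - k7bAff X.L (X.nb (R.ofUnit (R.eLab (R.ent Rd p)) u))) / R.a X.r := by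
    intro u hu
    rw [sh2_val_mul, sh2_val_sub, MvPolynomial.eval_C, hPL, ← (hsh u hu).2.2]
    ring
  have hcore : ∀ p'' ∈ S, R.ent Rd p'' = R.ent Rd p →
      dist (R.unit (R.eLab (R.ent Rd p)) (R.base p'')) (R.eCtr (R.ent Rd p)) ≤ R.eRad (R.ent Rd p) ∧
      |X.xT p'' - sh2_val m (MvPolynomial.C (R.a X.r)⁻¹ * (α - PL)) (MvPolynomial.C (R.a X.r)⁻¹ * β) D
        (k7cV (R.unit (R.eLab (R.ent Rd p)) (R.base p'')))| ≤ ϱ := by
    intro p'' hp'' he''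
    have h1 := hR.ent_cov Rd hRd p'' (hS hp'')
    rw [he''] at h1
    have hc : dist (R.unit (R.eLab (R.ent Rd p)) (R.base p'')) (R.eCtr (R.ent Rd p)) ≤ R.eRad (R.ent Rd p) := h1.1.2
    refine ⟨hc, ?_⟩
    have hin : R.unit (R.eLab (R.ent Rd p)) (R.base p'') ∈ R.eInt (R.ent Rd p) := Metric.mem_ball.2 (lt_of_le_of_lt hc (by linarith))
    rw [hg _ hin, ks_ofUnit_unit hR]
    unfold K7bDat.xT
    have e1 : (R.w p''.1 p''.2 - k7bAff X.L (X.nb (R.base p''))) / R.a X.r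
        - (R.eG (R.ent Rd p) (R.base p'') - k7bAff X.L (X.nb (R.base p''))) / R.a X.r
        = (R.w p''.1 p''.2 - R.eG (R.ent Rd p) (R.base p'')) / R.a X.r := by ring
    rw [e1, abs_div, abs_of_pos har, div_le_iff₀ har]
    exact h1.2.trans hdeep
  have hδ0 : 0 ≤ δ := (abs_nonneg _).trans hdt
  obtain ⟨c1, c2⟩ := hcore p (hS' hp) rfl
  obtain ⟨c1', c2'⟩ := hcore p' (hS' hp') hent.symm
  have hul := k7c_unit_lip hR hT (R.eLab (R.ent Rd p)) (R.base p) (R.base p') δ hdt hdy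
  have hbQ : R.b (R.eLab (R.ent Rd p)) = R.a ((R.k + R.ell) * Rd) := by
    unfold KsRef.b
    rw [hdep]
  rw [hbQ] at hul
  have hL := hLip m hm (K ^ 2) θ (2 * K) (R.eRad (R.ent Rd p)) (MvPolynomial.C (R.a X.r)⁻¹ * (α - PL)) (MvPolynomial.C (R.a X.r)⁻¹ * β) D
    (k7cV (R.eCtr (R.ent Rd p)))
    ((fun p' => k7cV (R.unit (R.labAt Rd p) (R.base p'))) '' (S ∩ R.ent Rd ⁻¹' {R.ent Rd p}))
    (one_le_pow₀ hK)
    ((k7f_d2_Cmul _ _).trans ((MvPolynomial.totalDegree_sub _ _).trans (max_le hα (hPL1.trans (by norm_num)))))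
    ((k7f_d2_Cmul _ _).trans hβ) hD hrad
    (fun x hx => by
      obtain ⟨u, hu, rfl⟩ := k7cclose_ball (R.eCtr (R.ent Rd p)) (2 * R.eRad (R.ent Rd p)) (by linarith) x hx
      exact ⟨(hsh u hu).1, (hsh u hu).2.1⟩)
    hθ hθ1
    (by
      rintro _ ⟨p'', ⟨hp'', he''⟩, rfl⟩ i
      exact k7cclose_dist _ _ _ (hcore p'' hp'' he'').1 i)
    (by
      refine le_trans (ENNReal.ofReal_le_ofReal ?_) (hfill p hp)
      have : R.eRad (R.ent Rd p) ^ 3 ≤ 1 := pow_le_one₀ hrad.le hrad1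
      nlinarith)
    (by
      rintro _ ⟨p'', ⟨hp'', he''⟩, rfl⟩
      have h1 := (hcore p'' hp'' he'').2
      have h2 := hx p'' hp''
      have h3 := abs_sub_abs_le_abs_sub (sh2_val m (MvPolynomial.C (R.a X.r)⁻¹ * (α - PL)) (MvPolynomial.C (R.a X.r)⁻¹ * β) D
        (k7cV (R.unit (R.eLab (R.ent Rd p)) (R.base p'')))) (X.xT p'')
      rw [abs_sub_comm] at h3
      show |sh2_val m (MvPolynomial.C (R.a X.r)⁻¹ * (α - PL)) (MvPolynomial.C (R.a X.r)⁻¹ * β) D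
        (k7cV (R.unit (R.eLab (R.ent Rd p)) (R.base p'')))| ≤ 2 * K
      linarith)
    (k7cV (R.unit (R.eLab (R.ent Rd p)) (R.base p))) (k7cV (R.unit (R.eLab (R.ent Rd p)) (R.base p')))
    (k7cclose_dist _ _ _ c1) (k7cclose_dist _ _ _ c1') (4 * K ^ 7 * δ / R.a ((R.k + R.ell) * Rd)) (k7cclose_dist _ _ _ hul)
  have hfin : C₁ * (K ^ 2 / θ) ^ p₁ * (2 * K) * (4 * K ^ 7 * δ / R.a ((R.k + R.ell) * Rd) / R.eRad (R.ent Rd p)) ≤ ϱ := by
    have h1 : 1 / R.eRad (R.ent Rd p) ≤ K := by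
      rw [div_le_iff₀ hrad]
      exact hR.ent_rad _
    have h2 := k7cclose_num p₁ C₁ K θ hC₁ hK hθ hθ1
    have h3 : 0 ≤ C₁ * (K ^ 2 / θ) ^ p₁ * (2 * K) := by positivity
    calc C₁ * (K ^ 2 / θ) ^ p₁ * (2 * K) * (4 * K ^ 7 * δ / R.a ((R.k + R.ell) * Rd) / R.eRad (R.ent Rd p))
        = C₁ * (K ^ 2 / θ) ^ p₁ * (2 * K) * (4 * K ^ 7 * (1 / R.eRad (R.ent Rd p))) * (δ / R.a ((R.k + R.ell) * Rd)) := by ring
      _ ≤ C₁ * (K ^ 2 / θ) ^ p₁ * (2 * K) * (4 * K ^ 7 * K) * (δ / R.a ((R.k + R.ell) * Rd)) := by gcongr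
      _ ≤ ((⌈8 * C₁⌉₊ + 2 * p₁ + 9 : ℕ) : ℝ) * (K / θ) ^ (⌈8 * C₁⌉₊ + 2 * p₁ + 9) * (δ / R.a ((R.k + R.ell) * Rd)) := by gcongr
      _ = ((⌈8 * C₁⌉₊ + 2 * p₁ + 9 : ℕ) : ℝ) * (K / θ) ^ (⌈8 * C₁⌉₊ + 2 * p₁ + 9) * δ / R.a ((R.k + R.ell) * Rd) := by ring
      _ ≤ ϱ := by
          rw [div_le_iff₀ hb]
          exact hδ
  have h5 := hL.trans hfin
  rw [abs_le] at c2 c2' h5 ⊢
  constructor <;> linarith [c2.1, c2.2, c2'.1, c2'.2, h5.1, h5.2]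

/-! ## 5. Options -/

theorem k7clist_bin {m x x' : ℝ} (hm : 0 < m) (n : ℤ) (h : |x - x'| ≤ n * m) :
    k7bBin m x ∈ Finset.Icc (k7bBin m x' - n) (k7bBin m x' + n) := by
  unfold k7bBin
  obtain ⟨h1, h2⟩ := abs_le.1 h
  rw [Finset.mem_Icc, ← Int.floor_sub_intCast, ← Int.floor_add_intCast]
  constructor
  · apply Int.floor_le_floor
    rw [sub_le_iff_le_add, div_le_iff₀ hm]
    have : (x / m + n) * m = x + n * m := by field_simp
    rw [this]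
    linarith
  · apply Int.floor_le_floor
    rw [div_le_iff₀ hm]
    have : (x' / m + n) * m = x' + n * m := by field_simp
    rw [this]
    linarith

theorem k7clist_dy {wd x x' : ℝ} (h : kbBin wd x = kbBin wd x') : |x - x'| ≤ kbDy wd := by
  obtain ⟨a1, a2⟩ := (ksl17_bin_iff wd x _).1 h
  obtain ⟨b1, b2⟩ := (ksl17_bin_iff wd x' _).1 rfl
  rw [abs_le]
  constructor <;> linarith

/-- **LIST** (deep entry, fine tangent cell) leave `≤ 189 = 27 * 7` fine point states.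
PLAN.  FILL with `Q₀ = X.Qr`, `s = Rd`, `K₁ = K` gives `S'`, `θ = 1/(4 K⁴)`.   Same `R.pt Mf rw` : `|Δt|, |Δ y_i| < kbDy (a Mf) < 2 a Mf =: δ` (`ksl17_bin_iff`, `ksl17_dy_lt`).   CLOSE : `|Δ xT| ≤ 3 ϱ`, so the bins `⌊x/ϱ⌋` differ by `≤ 3`.
Base: `|Δ nb_1|, |Δ nb_2| ≤ δ/q_r`, `|Δ nb_3| ≤ |κ| (1 + 2 K) δ`, `|κ| ≤ K/(q_r g_r)` (`κhi`), `q_r g_r ≥ b_r/K` (`q_lo`, `ksl8_b_eq`), `b_r ≥ R.a ((k + ℓ) Rd)` (`X.r ≤ Rd`) : all `≤ ξ`, so the bins `⌊·/ξ⌋` differ by `≤ 1`.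
`Lst x` := if some `p₀ ∈ S'` has `(ent Rd p₀, pt Mf rw p₀) = x` (choose one), the window `Icc (c_i - 1) (c_i + 1)` (three times) `×ˢ Icc (b - 3) (b + 3)` about `ptT p₀`; else `∅`. -/
theorem k7c_list : ∃ C : ℕ, ∀ {R : KsRef KbVer.two} {K : ℝ} (X : K7bDat R) (ξ ϱ Rd Mf rw : ℝ) (S : Set (R.L × ℝ)),
    K7cTan R X K → 0 < ξ → ξ ≤ 1 → 0 < ϱ → ϱ ≤ 1 → MeasurableSet S → S ⊆ X.Sp → ENNReal.ofReal X.q * R.νQ X.Qr ≤ ENNReal.ofReal K * R.prior S →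
    (∀ p ∈ S, |X.xT p| ≤ K) → Rd ∈ R.depths → X.r ≤ Rd → K * R.a Rd ≤ ϱ * R.a X.r →
    (C : ℝ) * K ^ C * R.a Mf ≤ ϱ * ξ * R.a ((R.k + R.ell) * Rd) →
    ∃ S' ⊆ S, MeasurableSet S' ∧ R.prior S ≤ 2 * R.prior S' ∧
      ∃ Lst : R.Ent × (ℤ × (Fin KbVer.two.j → ℤ) × ℤ) → Finset ((ℤ × ℤ × ℤ) × ℤ), (∀ x, (Lst x).card ≤ 189) ∧
        ∀ p ∈ S', X.ptT ξ ϱ p ∈ Lst (R.ent Rd p, R.pt Mf rw p) := by
  obtain ⟨C₀, hclose⟩ := k7c_close
  obtain ⟨C, hCdef⟩ : ∃ C : ℕ, C = 2 * C₀ * 4 ^ C₀ + 5 * C₀ + 6 := ⟨_, rfl⟩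
  have hC6 : 6 ≤ C := by omega
  have hC5 : 5 * C₀ ≤ C := by omega
  have hC4 : 2 * C₀ * 4 ^ C₀ ≤ C := by omega
  refine ⟨C, ?_⟩
  intro R K X ξ ϱ Rd Mf rw S hT hξ hξ1 hϱ hϱ1 hSm hSX hmass hx hRd hrRd hKa hC
  have hR := hT.ok
  have hK := hR.K_ge
  have hK0 : 0 < K := by linarith
  have hN1 : 1 ≤ R.N := by linarith [hR.N_ge]
  obtain ⟨A, hAdef⟩ : ∃ A, A = R.a ((R.k + R.ell) * Rd) := ⟨_, rfl⟩
  obtain ⟨am, hamdef⟩ : ∃ am, am = R.a Mf := ⟨_, rfl⟩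
  rw [← hAdef, ← hamdef] at hC
  have hA : 0 < A := by rw [hAdef]; exact ksl8_a_pos hR _
  have ham : 0 < am := by rw [hamdef]; exact ksl8_a_pos hR _
  have hgen : ∀ (c₁ : ℝ) (e : ℕ), c₁ ≤ (C : ℝ) → e ≤ C → 0 ≤ c₁ → c₁ * K ^ e * am ≤ ϱ * ξ * A := by
    intro c₁ e h1 h2 h0
    refine le_trans ?_ hC
    have h3 : K ^ e ≤ K ^ C := pow_le_pow_right₀ hK h2
    gcongr
  have hξA : ϱ * ξ * A ≤ ξ * A := by
    have : 0 ≤ ξ * A := by positivity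
    nlinarith
  have hϱA : ϱ * ξ * A ≤ ϱ * A := by
    have : 0 ≤ ϱ * A := by positivity
    nlinarith
  have hC6' : (6 : ℝ) ≤ C := by exact_mod_cast hC6
  have f1 : 2 * K * am ≤ ξ * A := by
    have := hgen 2 1 (by linarith) (by omega) (by norm_num)
    rw [pow_one] at this
    linarith
  have f2 : 6 * K ^ 3 * am ≤ ξ * A := (hgen 6 3 hC6' (by omega) (by norm_num)).trans hξA
  -- geometry of the parent
  have hq : 0 < X.q := ksl8_q_pos R X.Qr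
  have hg0 : 0 < R.g X.Qr := ksl8_a_pos hR _
  have hg1 : R.g X.Qr ≤ 1 := by
    unfold KsRef.g KsRef.a
    exact Real.rpow_le_one_of_one_le_of_nonpos hN1
      (by have := mul_nonneg hR.prm.ell_nonneg (hR.dep_nonneg X.Qr); linarith)
  have hkl : 0 ≤ R.k + R.ell := by
    have := hR.prm.k_pos
    have := hR.prm.ell_nonneg
    linarith
  have hAb : A ≤ R.b X.Qr := by
    rw [hAdef]
    unfold KsRef.b KsRef.a
    refine Real.rpow_le_rpow_of_exponent_le hN1 ?_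
    have : (R.k + R.ell) * R.dep X.Qr ≤ (R.k + R.ell) * Rd := mul_le_mul_of_nonneg_left hrRd hkl
    linarith
  have hAqg : A ≤ K * (X.q * R.g X.Qr) := by
    refine hAb.trans ?_
    rw [ksl8_b_eq hR X.Qr]
    calc R.a (R.k * R.dep X.Qr) * R.g X.Qr ≤ (K * R.q X.Qr) * R.g X.Qr := by
          gcongr
          exact hR.q_lo X.Qr
      _ = K * (X.q * R.g X.Qr) := by
          unfold K7bDat.q
          ring
  have hAq : A ≤ K * X.q := by
    refine hAqg.trans ?_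
    have : X.q * R.g X.Qr ≤ X.q * 1 := by gcongr
    nlinarith
  have hκA : |X.κ| * A ≤ K * K := by
    calc |X.κ| * A ≤ |X.κ| * (K * (X.q * R.g X.Qr)) := by gcongr
      _ = K * (|X.κ| * X.q * R.g X.Qr) := by ring
      _ ≤ K * K := by
          gcongr
          exact hT.chart.κhi
  have f3 : 2 * am ≤ ξ * X.q := by
    have h1 : K * (2 * am) ≤ K * (ξ * X.q) := by
      calc K * (2 * am) = 2 * K * am := by ring
        _ ≤ ξ * A := f1
        _ ≤ ξ * (K * X.q) := by gcongr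
        _ = K * (ξ * X.q) := by ring
    exact le_of_mul_le_mul_left h1 hK0
  -- FILL
  obtain ⟨S', hS'S, hS'm, hS'mass, hvol⟩ := k7c_fill hR hK X.Qr hT.pos Rd hRd hrRd S hSm (hSX.trans hT.sub) hmass
  -- CLOSE
  have hK3 : 1 ≤ K ^ 3 := one_le_pow₀ hK
  have hθ1 : 1 / (4 * K ^ 3 * K) ≤ 1 := by
    rw [div_le_one (by positivity)]
    nlinarith
  have hcl := hclose X ϱ (1 / (4 * K ^ 3 * K)) (2 * am) Rd S S' hR hT.tilt hRd
    (hSX.trans (hT.sub.trans Set.inter_subset_left)) hS'S hx (by positivity) hθ1 hϱ1 hKa (by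
      have e : K / (1 / (4 * K ^ 3 * K)) = 4 * K ^ 5 := by
        field_simp
      rw [e, mul_pow, ← pow_mul, ← hAdef]
      calc (C₀ : ℝ) * (4 ^ C₀ * K ^ (5 * C₀)) * (2 * am) = (2 * (C₀ : ℝ) * 4 ^ C₀) * K ^ (5 * C₀) * am := by ring
        _ ≤ ϱ * ξ * A := hgen _ _ (by exact_mod_cast hC4) hC5 (by positivity)
        _ ≤ ϱ * A := hϱA) hvol
  classical
  obtain ⟨win, hwin⟩ : ∃ win : (ℤ × ℤ × ℤ) × ℤ → Finset ((ℤ × ℤ × ℤ) × ℤ), win = fun c =>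
      (Finset.Icc (c.1.1 - 1) (c.1.1 + 1) ×ˢ Finset.Icc (c.1.2.1 - 1) (c.1.2.1 + 1) ×ˢ
        Finset.Icc (c.1.2.2 - 1) (c.1.2.2 + 1)) ×ˢ Finset.Icc (c.2 - 3) (c.2 + 3) := ⟨_, rfl⟩
  have hcard : ∀ c, (win c).card ≤ 189 := by
    intro c
    rw [hwin]
    simp only [Finset.card_product, Int.card_Icc]
    have e1 : ∀ a : ℤ, (a + 1 + 1 - (a - 1)).toNat = 3 := fun a => by omega
    have e2 : ∀ a : ℤ, (a + 3 + 1 - (a - 3)).toNat = 7 := fun a => by omega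
    rw [e1, e1, e1, e2]
  have key : ∀ p ∈ S', ∀ p₀ ∈ S', R.ent Rd p₀ = R.ent Rd p → R.pt Mf rw p₀ = R.pt Mf rw p →
      X.ptT ξ ϱ p ∈ win (X.ptT ξ ϱ p₀) := by
    intro p hp p₀ hp₀ he hpt
    have ht : kbBin (R.a Mf) p₀.2 = kbBin (R.a Mf) p.2 := congrArg Prod.fst hpt
    have hy : ∀ i, kbBin (R.a Mf) (R.y p₀.1 p₀.2 i) = kbBin (R.a Mf) (R.y p.1 p.2 i) :=
      fun i => congrFun (congrArg (fun c => c.2.1) hpt) i
    have hdy : kbDy (R.a Mf) ≤ 2 * am := by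
      rw [hamdef]
      exact (ksl17_dy_lt (ksl8_a_pos hR _)).le
    have dt : |p.2 - p₀.2| ≤ 2 * am := (k7clist_dy ht.symm).trans hdy
    have dyi : ∀ i, |R.y p.1 p.2 i - R.y p₀.1 p₀.2 i| ≤ 2 * am := fun i => (k7clist_dy (hy i).symm).trans hdy
    have dy : ‖R.y p.1 p.2 - R.y p₀.1 p₀.2‖ ≤ 2 * am := by
      rw [pi_norm_le_iff_of_nonneg (by positivity)]
      intro i
      rw [Pi.sub_apply, Real.norm_eq_abs]
      exact dyi i
    have dZ : |ksZ (R.y p.1 p.2) - ksZ (R.y p₀.1 p₀.2)| ≤ 2 * am := dyi (0 : Fin 2)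
    have dY : |ksY (R.y p.1 p.2) - ksY (R.y p₀.1 p₀.2)| ≤ 2 * am := dyi (1 : Fin 2)
    have dx := hcl p hp p₀ hp₀ he.symm dt dy
    have hdiv : ∀ x : ℝ, |x| ≤ 2 * am → |x / X.q| ≤ ((1 : ℤ) : ℝ) * ξ := by
      intro x hx
      rw [abs_div, abs_of_pos hq, div_le_iff₀ hq]
      push_cast
      linarith
    rw [hwin]
    simp only [Finset.mem_product]
    refine ⟨⟨?_, ?_, ?_⟩, ?_⟩
    · refine k7clist_bin hξ 1 ?_
      have e1 : (X.nb (R.base p)).1 - (X.nb (R.base p₀)).1 = (p.2 - p₀.2) / X.q := by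
        show (p.2 - X.t0) / X.q - (p₀.2 - X.t0) / X.q = _
        ring
      rw [e1]
      exact hdiv _ dt
    · refine k7clist_bin hξ 1 ?_
      have e1 : (X.nb (R.base p)).2.1 - (X.nb (R.base p₀)).2.1
          = (ksZ (R.y p.1 p.2) - ksZ (R.y p₀.1 p₀.2)) / X.q := by
        show (ksZ (R.y p.1 p.2) - X.Z0) / X.q - (ksZ (R.y p₀.1 p₀.2) - X.Z0) / X.q = _
        ring
      rw [e1]
      exact hdiv _ dZ
    · refine k7clist_bin hξ 1 ?_
      have e1 : (X.nb (R.base p)).2.2 - (X.nb (R.base p₀)).2.2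
          = X.κ * ((ksY (R.y p.1 p.2) - ksY (R.y p₀.1 p₀.2)) - X.y1 * (p.2 - p₀.2)
            - X.y2 * (ksZ (R.y p.1 p.2) - ksZ (R.y p₀.1 p₀.2))) := by
        show X.κ * (ksY (R.y p.1 p.2) - (X.y0 + X.y1 * p.2 + X.y2 * ksZ (R.y p.1 p.2)))
          - X.κ * (ksY (R.y p₀.1 p₀.2) - (X.y0 + X.y1 * p₀.2 + X.y2 * ksZ (R.y p₀.1 p₀.2))) = _
        ring
      rw [e1, abs_mul]
      push_cast
      rw [one_mul]
      have hD : |(ksY (R.y p.1 p.2) - ksY (R.y p₀.1 p₀.2)) - X.y1 * (p.2 - p₀.2)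
            - X.y2 * (ksZ (R.y p.1 p.2) - ksZ (R.y p₀.1 p₀.2))| ≤ 6 * K * am := by
        have h1 : |X.y1 * (p.2 - p₀.2)| ≤ K * (2 * am) := by
          rw [abs_mul]
          exact mul_le_mul hT.chart.y1 dt (abs_nonneg _) hK0.le
        have h2 : |X.y2 * (ksZ (R.y p.1 p.2) - ksZ (R.y p₀.1 p₀.2))| ≤ K * (2 * am) := by
          rw [abs_mul]
          exact mul_le_mul hT.chart.y2 dZ (abs_nonneg _) hK0.le
        calc _ ≤ |(ksY (R.y p.1 p.2) - ksY (R.y p₀.1 p₀.2)) - X.y1 * (p.2 - p₀.2)|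
              + |X.y2 * (ksZ (R.y p.1 p.2) - ksZ (R.y p₀.1 p₀.2))| := abs_sub _ _
          _ ≤ (|ksY (R.y p.1 p.2) - ksY (R.y p₀.1 p₀.2)| + |X.y1 * (p.2 - p₀.2)|)
              + |X.y2 * (ksZ (R.y p.1 p.2) - ksZ (R.y p₀.1 p₀.2))| := by
              gcongr
              exact abs_sub _ _
          _ ≤ 2 * am + K * (2 * am) + K * (2 * am) := by gcongr
          _ ≤ 6 * K * am := by nlinarith
      refine le_of_mul_le_mul_right ?_ hA
      calc |X.κ| * _ * A ≤ |X.κ| * (6 * K * am) * A := by gcongr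
        _ = (|X.κ| * A) * (6 * K * am) := by ring
        _ ≤ (K * K) * (6 * K * am) := by gcongr
        _ = 6 * K ^ 3 * am := by ring
        _ ≤ ξ * A := f2
    · refine k7clist_bin hϱ 3 ?_
      push_cast
      exact dx
  refine ⟨S', hS'S, hS'm, hS'mass, fun x => if h : ∃ p₀ ∈ S', (R.ent Rd p₀, R.pt Mf rw p₀) = x then
    win (X.ptT ξ ϱ h.choose) else ∅, ?_, ?_⟩
  · intro x
    beta_reduce
    by_cases h : ∃ p₀ ∈ S', (R.ent Rd p₀, R.pt Mf rw p₀) = x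
    · rw [dif_pos h]
      exact hcard _
    · rw [dif_neg h]
      simp
  · intro p hp
    have hex : ∃ p₀ ∈ S', (R.ent Rd p₀, R.pt Mf rw p₀) = (R.ent Rd p, R.pt Mf rw p) := ⟨p, hp, rfl⟩
    beta_reduce
    rw [dif_pos hex]
    obtain ⟨hp₀, heq⟩ := hex.choose_spec
    exact key p hp _ hp₀ (congrArg Prod.fst heq) (congrArg Prod.snd heq)

theorem k7cOPT_inc_meas (X : K7bDat R) : Measurable X.inc :=
  measurable_fst.prodMk ((measurable_snd.const_mul _).const_add _)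

theorem k7cOPT_pt (X : K7bDat R) (ξ ϱ : ℝ) (z : R.L × ℝ) : X.hor.pt ξ ϱ z = X.ptT ξ ϱ (X.inc z) := by
  have h1 : X.hor.base z = X.nb (R.base (X.inc z)) := k7b_link_bs X z.1 z.2
  have h2 : X.hor.X z = X.xT (X.inc z) := k7b_link_X X z.1 z.2
  unfold K7bHor.pt K7bDat.ptT
  rw [h1, h2]

/-- null sets go down -/
theorem k7cOPT_null {K : ℝ} (X : K7bDat R) (hT : K7cTan R X K) (hSp : MeasurableSet X.Sp) (Z : Set (R.L × ℝ)) (hZ : Z ⊆ X.Sp) (h0 : R.lam0 Z = 0) :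
    X.hor.lam (X.inc ⁻¹' Z) = 0 := by
  have hR := hT.ok
  have hp0 : R.prior Z = 0 := by
    have e : R.lam0 Z = R.prior (Z ∩ R.Ev0) := Measure.restrict_apply' hR.m_Ev0
    rw [Set.inter_eq_left.2 (hZ.trans (hT.sub.trans Set.inter_subset_left))] at e
    rw [← e, h0]
  obtain ⟨Z', hZ'⟩ : ∃ Z' : Set (R.L × ℝ), Z' = toMeasurable R.prior Z ∩ X.Sp := ⟨_, rfl⟩
  have hZm : MeasurableSet Z' := by
    rw [hZ']
    exact (measurableSet_toMeasurable _ _).inter hSp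
  have hZZ : Z ⊆ Z' := by
    rw [hZ']
    exact Set.subset_inter (subset_toMeasurable _ _) hZ
  have hZ0 : R.prior Z' = 0 := by
    refine le_antisymm ?_ bot_le
    rw [hZ']
    calc R.prior (toMeasurable R.prior Z ∩ X.Sp) ≤ R.prior (toMeasurable R.prior Z) := measure_mono Set.inter_subset_left
      _ = R.prior Z := measure_toMeasurable _
      _ = 0 := hp0
  have hup : X.up (X.inc ⁻¹' Z') = Z' := by
    ext p
    show X.inc (p.1, (p.2 - X.t0) / X.q) ∈ Z' ↔ p ∈ Z'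
    have e : X.inc (p.1, (p.2 - X.t0) / X.q) = p := by
      unfold K7bDat.inc
      rw [k7blk3_tOf]
    rw [e]
  have hsub : X.inc ⁻¹' Z' ⊆ X.SpN := by
    intro z hz
    have : X.inc z ∈ Z' := hz
    rw [hZ'] at this
    exact this.2
  have hlink := k7b_link_mass hR X hT.pos (hT.sub.trans Set.inter_subset_right) _ (k7cOPT_inc_meas X hZm) hsub
  rw [hup, hZ0] at hlink
  have hq : ENNReal.ofReal X.q ≠ 0 := (ENNReal.ofReal_pos.2 (k7blk1_q_pos X)).ne'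
  have h1 : X.hor.lam (X.inc ⁻¹' Z') = 0 := by
    rcases mul_eq_zero.1 hlink.symm with h | h
    · rcases mul_eq_zero.1 h with h | h
      · exact absurd h hq
      · exact absurd h hT.pos
    · exact h
  exact le_antisymm ((measure_mono (Set.preimage_mono hZZ)).trans h1.le) bot_le

/-- the part of a state outside an option list is null -/
theorem k7cOPT_out {Ω S D : Type*} [MeasurableSpace Ω] [Countable D] (μ : Measure Ω) (s : Ω → S) (d : Ω → D) (s0 : S) (L : Finset D)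
    (hL : ∀ d0, d0 ∉ L → ksMass μ (ksPair s d) (s0, d0) = 0) : μ {ω | s ω = s0 ∧ d ω ∉ L} = 0 := by
  have hsub : {ω | s ω = s0 ∧ d ω ∉ L} ⊆ ⋃ d0 : {d0 : D // d0 ∉ L}, ksPair s d ⁻¹' {(s0, d0.1)} := by
    rintro ω ⟨h1, h2⟩
    rw [Set.mem_iUnion]
    exact ⟨⟨d ω, h2⟩, Prod.ext h1 rfl⟩
  refine le_antisymm ((measure_mono hsub).trans ?_) bot_le
  have h0 : μ (⋃ d0 : {d0 : D // d0 ∉ L}, ksPair s d ⁻¹' {(s0, d0.1)}) = 0 := measure_iUnion_null fun d0 => hL d0.1 d0.2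
  exact h0.le

/-- **OPT** from the pointwise list to `KsOpt` for the end histories of `X.hor`.
PLAN.  `X.hor.pt ξ ϱ z = X.ptT ξ ϱ (X.inc z)` (`k7b_link_bs`, `k7b_link_X`; `X.xT (X.inc z) = X.xh z.1 z.2` by `rfl`).   `n₁, n₂ ≤ K` from `opt_ent Rd`, `opt_pt Mf rw`; `n := m n₁ n₂`.
Fix a history `e₀`.   If no `z ∈ inc ⁻¹' S'` has `eh z = e₀` : empty list.   Else fix `z₀`, `s₀ := R.st (X.inc z₀)`; by `chart.hst` every `z ∈ inc ⁻¹' S'` with `eh z = e₀` has `R.st (inc z) = s₀`.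
`L₁ ⊆ Ent`, `L₂` the option lists of `s₀`;  `L := ⋃_{(e, c) ∈ L₁ ×ˢ L₂} Lst (e, c)`, `card ≤ m n₁ n₂` (`Finset.card_biUnion_le`).
For `d₀ ∉ L` : `{z ∈ inc ⁻¹' S' | eh z = e₀, pt z = d₀} ⊆ inc ⁻¹' (Z₁ ∪ Z₂)`, `Z₁ := ⋃_{e ∉ L₁} X.Sp ∩ {st = s₀, ent Rd = e}` (finite union), `Z₂ := X.Sp ∩ {st = s₀, pt Mf rw ∉ L₂}` (countable union), `lam0`-null, hence `prior`-null (subsets of `Ev0`).
Null sets go down: for measurable `Z ⊆ X.Sp`, `C := X.inc ⁻¹' Z ⊆ X.SpN`, `X.up C = Z`, `k7b_link_mass` : `0 = prior Z = q ν(Q_r) lam C`, `q ν(Q_r) ≠ 0`. -/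
theorem k7c_opt_of_list {K : ℝ} (X : K7bDat R) (hT : K7cTan R X K) (ξ ϱ Rd Mf rw : ℝ) (hRd : Rd ∈ R.depths) (hMf : Mf ∈ R.meshes) (hrw : rw ∈ R.widths)
    (S' : Set (R.L × ℝ)) (hS' : S' ⊆ X.Sp) (hm : MeasurableSet S') (hSp : MeasurableSet X.Sp) (m : ℕ)
    (Lst : R.Ent × (ℤ × (Fin KbVer.two.j → ℤ) × ℤ) → Finset ((ℤ × ℤ × ℤ) × ℤ)) (hcard : ∀ x, (Lst x).card ≤ m)
    (hL : ∀ p ∈ S', X.ptT ξ ϱ p ∈ Lst (R.ent Rd p, R.pt Mf rw p)) :
    ∃ n : ℕ, (n : ℝ) ≤ m * K ^ 2 ∧ KsOpt (X.hor.lam.restrict (X.inc ⁻¹' S')) X.hor.eh (X.hor.pt ξ ϱ) n := by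
  classical
  have hR := hT.ok
  have hK0 : 0 ≤ K := by linarith [hR.K_ge]
  obtain ⟨n₁, hn₁, ho₁⟩ := hR.opt_ent Rd hRd
  obtain ⟨n₂, hn₂, ho₂⟩ := hR.opt_pt Mf hMf rw hrw
  have hmS : MeasurableSet (X.inc ⁻¹' S') := k7cOPT_inc_meas X hm
  have hres : ∀ A : Set (R.L × ℝ), (X.hor.lam.restrict (X.inc ⁻¹' S')) A = X.hor.lam (A ∩ X.inc ⁻¹' S') :=
    fun A => Measure.restrict_apply' hmS
  refine ⟨m * (n₁ * n₂), ?_, fun e₀ => ?_⟩
  · push_cast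
    have : (n₁ : ℝ) * n₂ ≤ K * K := mul_le_mul hn₁ hn₂ (Nat.cast_nonneg _) hK0
    have hm0 : (0 : ℝ) ≤ m := Nat.cast_nonneg _
    calc (m : ℝ) * (n₁ * n₂) ≤ m * (K * K) := mul_le_mul_of_nonneg_left this hm0
      _ = m * K ^ 2 := by ring
  · by_cases hex : ∃ z₀ ∈ X.inc ⁻¹' S', X.hor.eh z₀ = e₀
    · obtain ⟨z₀, hz₀, he₀⟩ := hex
      obtain ⟨L₁, hL₁, hL₁0⟩ := ho₁ (R.st (X.inc z₀))
      obtain ⟨L₂, hL₂, hL₂0⟩ := ho₂ (R.st (X.inc z₀))
      refine ⟨(L₁ ×ˢ L₂).biUnion Lst, ?_, fun d₀ hd₀ => ?_⟩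
      · refine Finset.card_biUnion_le.trans ?_
        calc ∑ x ∈ L₁ ×ˢ L₂, (Lst x).card ≤ ∑ _x ∈ L₁ ×ˢ L₂, m := Finset.sum_le_sum fun x _ => hcard x
          _ = (L₁.card * L₂.card) * m := by rw [Finset.sum_const, Finset.card_product, smul_eq_mul]
          _ ≤ (n₁ * n₂) * m := Nat.mul_le_mul_right _ (Nat.mul_le_mul hL₁ hL₂)
          _ = m * (n₁ * n₂) := Nat.mul_comm _ _
      · have z1 := k7cOPT_null X hT hSp (X.Sp ∩ {p | R.st p = R.st (X.inc z₀) ∧ R.ent Rd p ∉ L₁}) Set.inter_subset_left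
          (le_antisymm ((measure_mono Set.inter_subset_right).trans (k7cOPT_out R.lam0 R.st (R.ent Rd) _ L₁ hL₁0).le) bot_le)
        have z2 := k7cOPT_null X hT hSp (X.Sp ∩ {p | R.st p = R.st (X.inc z₀) ∧ R.pt Mf rw p ∉ L₂}) Set.inter_subset_left
          (le_antisymm ((measure_mono Set.inter_subset_right).trans (k7cOPT_out R.lam0 R.st (R.pt Mf rw) _ L₂ hL₂0).le) bot_le)
        refine (hres _).trans ?_
        have hsub : ksPair X.hor.eh (X.hor.pt ξ ϱ) ⁻¹' {(e₀, d₀)} ∩ X.inc ⁻¹' S' ⊆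
            X.inc ⁻¹' (X.Sp ∩ {p | R.st p = R.st (X.inc z₀) ∧ R.ent Rd p ∉ L₁}) ∪ X.inc ⁻¹' (X.Sp ∩ {p | R.st p = R.st (X.inc z₀) ∧ R.pt Mf rw p ∉ L₂}) := by
          rintro z ⟨hz1, hz2⟩
          have a1 : X.hor.eh z = e₀ := congrArg Prod.fst hz1
          have a2 : X.hor.pt ξ ϱ z = d₀ := congrArg Prod.snd hz1
          have hzS : X.inc z ∈ S' := hz2
          have hst : R.st (X.inc z) = R.st (X.inc z₀) := hT.chart.hst _ (hS' hzS) _ (hS' hz₀) (a1.trans he₀.symm)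
          have e : X.ptT ξ ϱ (X.inc z) = d₀ := (k7cOPT_pt X ξ ϱ z).symm.trans a2
          have hl : d₀ ∈ Lst (R.ent Rd (X.inc z), R.pt Mf rw (X.inc z)) := e ▸ hL _ hzS
          by_cases c1 : R.ent Rd (X.inc z) ∈ L₁
          · right
            refine ⟨hS' hzS, hst, fun c2 => hd₀ ?_⟩
            rw [Finset.mem_biUnion]
            exact ⟨_, Finset.mem_product.2 ⟨c1, c2⟩, hl⟩
          · left
            exact ⟨hS' hzS, hst, c1⟩
        exact le_antisymm ((measure_mono hsub).trans ((measure_union_le _ _).trans (le_of_eq (by rw [z1, z2, add_zero])))) bot_le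
    · refine ⟨∅, Nat.zero_le _, fun d₀ _ => ?_⟩
      refine (hres _).trans ?_
      have : ksPair X.hor.eh (X.hor.pt ξ ϱ) ⁻¹' {(e₀, d₀)} ∩ X.inc ⁻¹' S' = ∅ := by
        apply Set.eq_empty_of_forall_notMem
        rintro z ⟨hz1, hz2⟩
        exact hex ⟨z, hz2, congrArg Prod.fst hz1⟩
      exact (congrArg X.hor.lam this).trans measure_empty

/-! ## 6. S3 at one scale -/

/-- transport of a property of (record, selection) along an equality of records -/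
theorem k7ccore_tr (P : ∀ H : K7bHor, Set (H.Lam × ℝ) → Prop) {H H' : K7bHor} (h : H = H') (E : Set (H.Lam × ℝ)) (hP : P H E) :
    P H' (cast (congrArg (fun H : K7bHor => Set (H.Lam × ℝ)) h) E) := by
  subst h
  exact hP

theorem k7ccore_tan_sub {K : ℝ} {X : K7bDat R} (h : K7cTan R X K) (L₀ : ℝ × ℝ × ℝ × ℝ) : K7cTan R (X.sub L₀) K :=
  ⟨h.ok, h.tilt, h.pos, h.sub, ⟨h.chart.κlo, h.chart.κhi, h.chart.Z0, h.chart.y0, h.chart.y1, h.chart.y2, h.chart.hst⟩⟩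

theorem k7ccore_tan_mono {K K' : ℝ} {X : K7bDat R} (h : K7cTan R X K) (hK : K ≤ K') : K7cTan R X K' := by
  have hN : 0 < R.N := by linarith [h.ok.N_ge]
  have hg : 0 ≤ |X.κ| * X.q * R.g X.Qr :=
    mul_nonneg (mul_nonneg (abs_nonneg _) (k7blk1_q_pos X).le) (Real.rpow_nonneg hN.le _)
  exact ⟨ks_ok_mono h.ok hK,
    ⟨h.tilt.ell_pos, h.tilt.tri, fun Q => (h.tilt.full Q).trans (mul_le_mul_of_nonneg_right hK (abs_nonneg _)), fun Q => (h.tilt.cen Q).trans hK⟩,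
    h.pos, h.sub,
    ⟨h.chart.κlo.trans (mul_le_mul_of_nonneg_right hK hg), h.chart.κhi.trans hK, h.chart.Z0.trans hK, h.chart.y0.trans hK, h.chart.y1.trans hK,
      h.chart.y2.trans hK, h.chart.hst⟩⟩

theorem k7ccore_inc_up_pt (X : K7bDat R) (p : R.L × ℝ) : X.inc (p.1, (p.2 - X.t0) / X.q) = p := by
  show (p.1, X.tOf ((p.2 - X.t0) / X.q)) = p
  rw [k7blk3_tOf]

theorem k7ccore_up_inc_pt (X : K7bDat R) (z : R.L × ℝ) : ((X.inc z).1, ((X.inc z).2 - X.t0) / X.q) = z := by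
  have hq := k7blk1_q_pos X
  show (z.1, (X.t0 + X.q * z.2 - X.t0) / X.q) = z
  rw [add_sub_cancel_left, mul_div_cancel_left₀ _ hq.ne']

theorem k7ccore_up_inc (X : K7bDat R) (S : Set (R.L × ℝ)) : X.up (X.inc ⁻¹' S) = S := by
  ext p
  show X.inc (p.1, (p.2 - X.t0) / X.q) ∈ S ↔ p ∈ S
  rw [k7ccore_inc_up_pt]

theorem k7ccore_inc_up (X : K7bDat R) (E : Set (R.L × ℝ)) : X.inc ⁻¹' (X.up E) = E := by
  ext z
  show ((X.inc z).1, ((X.inc z).2 - X.t0) / X.q) ∈ E ↔ z ∈ E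
  rw [k7ccore_up_inc_pt]

theorem k7ccore_inc_meas (X : K7bDat R) : Measurable X.inc :=
  measurable_fst.prodMk ((measurable_snd.const_mul _).const_add _)

theorem k7ccore_pw {K : ℝ} (hK : 1 ≤ K) {a b C : ℕ} (ha : a ≤ C) (hb : b ≤ C) : (a : ℝ) * K ^ b ≤ (C : ℝ) * K ^ C :=
  mul_le_mul (by exact_mod_cast ha) (pow_le_pow_right₀ hK hb) (by positivity) (by positivity)

theorem k7ccore_xT (X : K7bDat R) (p : R.L × ℝ) : X.xT p = X.hor.Xt p.1 ((p.2 - X.t0) / X.q) := by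
  rw [k7b_link_X]
  unfold K7bDat.xh K7bDat.nbs
  rw [k7blk3_tOf]
  rfl

/-- **CORE** = S3 at one scale, explicit slack.   ASSEMBLY (no analysis).   `c := par ..`, `H := X.hor`.
1. `q₀ := X.Qr` : `H.lab 0 z = labAt (r + 0) (inc z) = X.Qr` on `Sp` (`add_zero`, `hR.lab`, `dep_mem`, `ks_lab_unique`), `H.blk X.Qr = Ico 0 1` (`bt = 0`, `bl = 1`).   T1 `k7c_parent` : `L₀, E₁`, mass `≥ 1/K²`.
2. `X₁ := X.sub L₀`; `X₁.hor = H.subL L₀` (BR1).   `K7cTan R X₁ K` (same `Qr, Sp, κ, .., eh`).   `(X₁.hor.shrink E₁).OkE c K`; residual `|x0| ≤ K`, `|x1| ≤ 2K` on `E₁`, so `|X| ≤ 3 K`.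
   CAPP for `X₁` (`X₁.hor.Sp = X.hor.Sp`, measurable by `mSp`), then restrict to `E₁`.   `K7cTan`, `R.Tilt`, `Chart` are monotone in the slack (write `K7cTan.mono`; `ks_ok_mono`).
3. `S := X₁.up E₁` (tangent), `prior S = q ν lam E₁ ≥ q ν / K²` (`k7b_link_mass`).   LIST (slack `3 K²`) : `S'`, `Lst`;  OPT : `n ≤ 189 (3K²)²`, `KsOpt (lam.restrict E₂)`, `E₂ := X₁.inc ⁻¹' S' ⊆ E₁`, `lam E₁ ≤ 2 lam E₂`.
4. T2 `k7c_append` for `X₁.hor.shrink E₂` (`K7cIn` with a slack `K₃ = C₁ K^C₁`; `(H.shrink E).lam = H.lam`, `(H.shrink E).Sp = E`) : `D, d, Ref, E₃`, `Ok c (4 K₃⁵)`.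
5. `X₃ := X₁.app D d Ref`, `X₃.hor = X₁.hor.app D d Ref` (BR1), `((X₁.hor.shrink E₂).app D d Ref).shrink E₃ = (X₁.hor.app D d Ref).shrink E₃` (rfl).   BR2 : `X' := X₃.res (X₃.up E₃)`. -/
theorem k7c_core_pos : ∃ C : ℕ, 1 ≤ C ∧ ∀ {R : KsRef KbVer.two} {K : ℝ} (X : K7bDat R) (e0 Mξ Mχ Mϱ Rd Mf rw : ℝ) (G : Finset ℝ),
    K7cTan R X K → (K7bDat.par R e0 G Mξ Mχ Mϱ).WF → (0 : ℝ) ∈ G → X.hor.OkE (K7bDat.par R e0 G Mξ Mχ Mϱ) K → X.hor.Res X.hor.Sp (1 / K) →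
    (∀ x : ℝ, X.r ≤ x → x ≤ X.r + Mϱ → ∃ r' ∈ R.widths, r' ≤ x ∧ R.N ^ (x - r') ≤ K) →
    Rd ∈ R.depths → Mf ∈ R.meshes → rw ∈ R.widths → X.r ≤ Rd →
    (C : ℝ) * K ^ C * R.a Rd ≤ (K7bDat.par R e0 G Mξ Mχ Mϱ).ϱ * R.a X.r →
    (C : ℝ) * K ^ C * R.a Mf ≤ (K7bDat.par R e0 G Mξ Mχ Mϱ).ϱ * (K7bDat.par R e0 G Mξ Mχ Mϱ).ξ * R.a ((R.k + R.ell) * Rd) →
    ∃ X' : K7bDat R, X'.Qr = X.Qr ∧ X'.Sp ⊆ X.Sp ∧ X'.hor.Ok (K7bDat.par R e0 G Mξ Mχ Mϱ) ((C : ℝ) * K ^ C) ∧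
      X'.hor.Res X'.hor.Sp (1 / ((C : ℝ) * K ^ C)) := by
  obtain ⟨C₁, hList⟩ := k7c_list
  obtain ⟨C, hC⟩ : ∃ C : ℕ, C = 4 * 1701 ^ 5 + C₁ * 3 ^ C₁ + 2 * C₁ + 25 := ⟨_, rfl⟩
  refine ⟨C, by omega, ?_⟩
  intro R K X e0 Mξ Mχ Mϱ Rd Mf rw G hT hc h0 hOkE hRes hW hRd hMf hrw hrRd hsm1 hsm2
  set c := K7bDat.par R e0 G Mξ Mχ Mϱ with hcd
  have hR := hT.ok
  have hK1 : 1 ≤ K := hR.K_ge
  have hK0 : 0 < K := by linarith
  have hN : 0 < R.N := by linarith [hR.N_ge]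
  have hq : 0 < X.q := k7blk1_q_pos X
  have ha : ∀ s, 0 ≤ R.a s := fun s => Real.rpow_nonneg hN.le _
  -- step 1
  have hlab0 : ∀ z ∈ X.hor.Sp, X.hor.lab 0 z = X.Qr := by
    intro z hz
    have hz' : X.inc z ∈ R.Ev0 ∩ R.inc X.Qr := hT.sub hz
    have h1 : R.IsLab X.r (X.inc z) (R.labAt X.r (X.inc z)) := hR.lab X.r (hR.dep_mem X.Qr) _ hz'.1
    have h2 : R.IsLab X.r (X.inc z) X.Qr := ⟨rfl, hz'.2⟩
    show R.labAt (X.r + 0) (X.inc z) = X.Qr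
    rw [add_zero]
    exact ks_lab_unique hR h1 h2
  have hblk : X.hor.blk X.Qr = Set.Ico 0 1 := by
    show Set.Ico ((R.t0 X.Qr - X.t0) / X.q) ((R.t0 X.Qr - X.t0) / X.q + R.q X.Qr / X.q) = Set.Ico 0 1
    have e1 : R.t0 X.Qr - X.t0 = 0 := sub_self _
    have e2 : R.q X.Qr / X.q = 1 := div_self hq.ne'
    rw [e1, e2, zero_div, zero_add]
  obtain ⟨L₀, E₁, hE₁s, hE₁m, hE₁mass, hE₁ok, hE₁bd⟩ := k7c_parent hK1 hOkE h0 X.Qr hlab0 hblk hRes.mass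
  -- step 2
  set X₁ := X.sub L₀ with hX₁d
  have hT₁ : K7cTan R X₁ K := k7ccore_tan_sub hT L₀
  have hok₁ : (X₁.hor.shrink E₁).OkE c K :=
    k7ccore_tr (fun H E => (H.shrink E).OkE c K) (k7c_sub_hor hN X L₀).symm E₁ hE₁ok
  have hbd₁ : ∀ z ∈ E₁, |X₁.hor.x0 z.1| ≤ K ∧ |X₁.hor.x1 z.1| ≤ 2 * K :=
    k7ccore_tr (fun H E => ∀ z ∈ E, |H.x0 z.1| ≤ K ∧ |H.x1 z.1| ≤ 2 * K) (k7c_sub_hor hN X L₀).symm E₁ hE₁bd
  have hSpN₁ : MeasurableSet X₁.hor.Sp := hOkE.mSp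
  have hcap := k7c_capP X₁ hT₁ hSpN₁ hW
  -- step 3
  have hE₁sub : E₁ ⊆ X₁.SpN := hE₁s
  have hE₁mass' : ENNReal.ofReal (1 / K ^ 2) ≤ X₁.hor.lam E₁ := hE₁mass
  have hsubI : X₁.Sp ⊆ R.inc X₁.Qr := hT₁.sub.trans Set.inter_subset_right
  have hmassS : R.prior (X₁.up E₁) = ENNReal.ofReal X₁.q * R.νQ X₁.Qr * X₁.hor.lam E₁ :=
    k7b_link_mass hR X₁ hT₁.pos hsubI E₁ hE₁m hE₁sub
  have hKK : K ≤ 3 * K ^ 2 := by nlinarith
  have hT₂ : K7cTan R X₁ (3 * K ^ 2) := k7ccore_tan_mono hT₁ hKK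
  have hSsub : X₁.up E₁ ⊆ X₁.Sp := by
    intro p hp
    have h1 : X₁.inc (p.1, (p.2 - X₁.t0) / X₁.q) ∈ X₁.Sp := hE₁sub hp
    rwa [k7ccore_inc_up_pt] at h1
  have hSmass : ENNReal.ofReal X₁.q * R.νQ X₁.Qr ≤ ENNReal.ofReal (3 * K ^ 2) * R.prior (X₁.up E₁) := by
    rw [hmassS]
    have h1 : 1 ≤ ENNReal.ofReal (3 * K ^ 2) * X₁.hor.lam E₁ := by
      refine le_trans ?_ (mul_le_mul' le_rfl hE₁mass')
      rw [← ENNReal.ofReal_mul (by positivity), ← ENNReal.ofReal_one]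
      refine ENNReal.ofReal_le_ofReal ?_
      have : 3 * K ^ 2 * (1 / K ^ 2) = 3 := by field_simp
      rw [this]
      norm_num
    calc ENNReal.ofReal X₁.q * R.νQ X₁.Qr = ENNReal.ofReal X₁.q * R.νQ X₁.Qr * 1 := (mul_one _).symm
      _ ≤ ENNReal.ofReal X₁.q * R.νQ X₁.Qr * (ENNReal.ofReal (3 * K ^ 2) * X₁.hor.lam E₁) := mul_le_mul' le_rfl h1
      _ = ENNReal.ofReal (3 * K ^ 2) * (ENNReal.ofReal X₁.q * R.νQ X₁.Qr * X₁.hor.lam E₁) := by ring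
  have hSx : ∀ p ∈ X₁.up E₁, |X₁.xT p| ≤ 3 * K ^ 2 := by
    intro p hp
    have hz : (p.1, (p.2 - X₁.t0) / X₁.q) ∈ E₁ := hp
    have h1 := hbd₁ _ hz
    have h2 : (p.2 - X₁.t0) / X₁.q ∈ Set.Icc (0 : ℝ) 1 := hok₁.time _ hz
    rw [k7ccore_xT]
    show |X₁.hor.x0 p.1 + (p.2 - X₁.t0) / X₁.q * X₁.hor.x1 p.1| ≤ 3 * K ^ 2
    have h3 : |(p.2 - X₁.t0) / X₁.q * X₁.hor.x1 p.1| ≤ 1 * (2 * K) := by
      rw [abs_mul]
      exact mul_le_mul (by rw [abs_of_nonneg h2.1]; exact h2.2) h1.2 (abs_nonneg _) zero_le_one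
    have h4 := abs_add_le (X₁.hor.x0 p.1) ((p.2 - X₁.t0) / X₁.q * X₁.hor.x1 p.1)
    have h5 := h1.1
    simp only at h5
    nlinarith
  have hsmA : 3 * K ^ 2 * R.a Rd ≤ c.ϱ * R.a X₁.r := by
    refine le_trans (mul_le_mul_of_nonneg_right ?_ (ha Rd)) hsm1
    have := k7ccore_pw hK1 (a := 3) (b := 2) (C := C) (by omega) (by omega)
    exact_mod_cast this
  have hsmB : (C₁ : ℝ) * (3 * K ^ 2) ^ C₁ * R.a Mf ≤ c.ϱ * c.ξ * R.a ((R.k + R.ell) * Rd) := by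
    refine le_trans (mul_le_mul_of_nonneg_right ?_ (ha Mf)) hsm2
    have := k7ccore_pw hK1 (a := C₁ * 3 ^ C₁) (b := 2 * C₁) (C := C) (by omega) (by omega)
    rw [mul_pow, ← pow_mul, ← mul_assoc]
    exact_mod_cast this
  obtain ⟨S', hS's, hS'm, hS'mass, Lst, hcard, hLst⟩ := hList X₁ c.ξ c.ϱ Rd Mf rw (X₁.up E₁) hT₂ hc.ξ0 hc.ξ1 hc.ϱ0 hc.ϱ1
    (k7blk3_up_meas X₁ hE₁m) hSsub hSmass hSx hRd hrRd hsmA hsmB
  have hSpm : MeasurableSet X₁.Sp := by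
    have h1 := k7blk3_up_meas X₁ hSpN₁
    have h2 : X₁.up X₁.hor.Sp = X₁.Sp := k7ccore_up_inc X₁ X₁.Sp
    rwa [h2] at h1
  obtain ⟨n, hn, hopt⟩ := k7c_opt_of_list X₁ hT₂ c.ξ c.ϱ Rd Mf rw hRd hMf hrw S' (hS's.trans hSsub) hS'm hSpm 189 Lst hcard hLst
  obtain ⟨E₂, hE₂d⟩ : ∃ E₂ : Set (R.L × ℝ), E₂ = X₁.inc ⁻¹' S' := ⟨_, rfl⟩
  have hopt' : KsOpt (X₁.hor.lam.restrict E₂) X₁.hor.eh (X₁.hor.pt c.ξ c.ϱ) n := by
    rw [hE₂d]
    exact hopt
  have hE₂sub : E₂ ⊆ E₁ := by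
    rw [hE₂d, ← k7ccore_inc_up X₁ E₁]
    exact Set.preimage_mono hS's
  have hE₂m : MeasurableSet E₂ := by
    rw [hE₂d]
    exact k7ccore_inc_meas X₁ hS'm
  have hqν0 : ENNReal.ofReal X₁.q * R.νQ X₁.Qr ≠ 0 := mul_ne_zero (by rw [Ne, ENNReal.ofReal_eq_zero, not_le]; exact hq) hT₁.pos
  have hqνt : ENNReal.ofReal X₁.q * R.νQ X₁.Qr ≠ ⊤ := by
    have := hR.prob
    exact ENNReal.mul_ne_top ENNReal.ofReal_ne_top (measure_ne_top _ _)
  have hE₂mass : X₁.hor.lam E₁ ≤ 2 * X₁.hor.lam E₂ := by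
    have h1 : R.prior (X₁.up E₂) = ENNReal.ofReal X₁.q * R.νQ X₁.Qr * X₁.hor.lam E₂ :=
      k7b_link_mass hR X₁ hT₁.pos hsubI E₂ hE₂m (hE₂sub.trans hE₁sub)
    have h2 : X₁.up E₂ = S' := by rw [hE₂d]; exact k7ccore_up_inc X₁ S'
    rw [h2] at h1
    rw [hmassS, h1] at hS'mass
    rw [← ENNReal.mul_le_mul_iff_right hqν0 hqνt]
    refine hS'mass.trans (le_of_eq ?_)
    ring
  -- step 4
  have hK5 : K ^ 2 ≤ K ^ 5 := pow_le_pow_right₀ hK1 (by norm_num)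
  have hK54 : K ^ 4 ≤ K ^ 5 := pow_le_pow_right₀ hK1 (by norm_num)
  have hK51 : K ≤ K ^ 5 := by
    calc K = K ^ 1 := (pow_one K).symm
      _ ≤ K ^ 5 := pow_le_pow_right₀ hK1 (by norm_num)
  have hK5p : 1 ≤ K ^ 5 := one_le_pow₀ hK1
  have hIn : K7cIn (X₁.hor.shrink E₂) c (1701 * K ^ 5) :=
    { K1 := by linarith
      wf := hc
      okE := K7bHor.OkE.mono hc hK0 (by linarith) (hok₁.shrink hE₂sub hE₂m)
      bddx := fun z hz => ⟨(hbd₁ z (hE₂sub hz)).1.trans (by linarith), (hbd₁ z (hE₂sub hz)).2.trans (by linarith)⟩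
      capP := fun U f r hU hf h1 h2 => by
        refine le_trans (measure_mono (Set.inter_subset_inter_left _ (hE₂sub.trans hE₁s))) ((hcap U f r hU hf h1 h2).trans ?_)
        refine mul_le_mul' (ENNReal.ofReal_le_ofReal (mul_le_mul_of_nonneg_right (by linarith) (Real.rpow_nonneg (hc.ϱ0.le.trans h1) _))) le_rfl
      mass := by
        show ENNReal.ofReal (1 / (1701 * K ^ 5)) ≤ X₁.hor.lam E₂
        rw [← ENNReal.mul_le_mul_iff_right (a := 2) (by norm_num) (by norm_num)]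
        refine le_trans ?_ (hE₁mass'.trans hE₂mass)
        rw [show (2 : ℝ≥0∞) = ENNReal.ofReal 2 by norm_num, ← ENNReal.ofReal_mul (by norm_num)]
        refine ENNReal.ofReal_le_ofReal ?_
        rw [mul_one_div, div_le_div_iff₀ (by positivity) (by positivity)]
        nlinarith }
  have hn₃ : (n : ℝ) ≤ 1701 * K ^ 5 := by
    refine hn.trans ?_
    push_cast
    nlinarith
  obtain ⟨D, instD, d, Ref, E₃, hE₃s, hE₃m, hE₃mass, hE₃ok⟩ := k7c_append hIn n hn₃ hopt'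
  -- step 5
  set X₃ := X₁.app D d Ref with hX₃d
  have hok₃ : (X₃.hor.shrink E₃).Ok c (4 * (1701 * K ^ 5) ^ 5) :=
    k7ccore_tr (fun H E => (H.shrink E).Ok c (4 * (1701 * K ^ 5) ^ 5)) (k7c_app_hor X₁ D d Ref).symm E₃ hE₃ok
  have hE₃sub : E₃ ⊆ X₃.SpN := hE₃s.trans (hE₂sub.trans hE₁sub)
  obtain ⟨hokF, hSpF, hlamF, hupF⟩ := k7c_res X₃ E₃ hE₃sub hE₃m hok₃
  have hfin : 4 * (1701 * K ^ 5) ^ 5 ≤ (C : ℝ) * K ^ C := by
    have := k7ccore_pw hK1 (a := 4 * 1701 ^ 5) (b := 25) (C := C) (by omega) (by omega)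
    rw [mul_pow, ← pow_mul, ← mul_assoc]
    exact_mod_cast this
  refine ⟨X₃.res (X₃.up E₃), rfl, hupF, k8_ok_mono hc (by positivity) hfin hokF, ⟨le_rfl, hokF.mSp, ?_⟩⟩
  rw [hSpF, hlamF]
  show ENNReal.ofReal (1 / ((C : ℝ) * K ^ C)) ≤ X₁.hor.lam E₃
  have hE₃mass' : X₁.hor.lam E₂ ≤ 2 * X₁.hor.lam E₃ := hE₃mass
  have h4 : ENNReal.ofReal (1 / K ^ 2) ≤ 4 * X₁.hor.lam E₃ := by
    refine hE₁mass'.trans (hE₂mass.trans ((mul_le_mul' le_rfl hE₃mass').trans (le_of_eq ?_)))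
    rw [← mul_assoc]
    norm_num
  rw [← ENNReal.mul_le_mul_iff_right (a := 4) (by norm_num) (by norm_num)]
  refine le_trans ?_ h4
  rw [show (4 : ℝ≥0∞) = ENNReal.ofReal 4 by norm_num, ← ENNReal.ofReal_mul (by norm_num)]
  refine ENNReal.ofReal_le_ofReal ?_
  have h5 : 4 * K ^ 2 ≤ (C : ℝ) * K ^ C := by
    have := k7ccore_pw hK1 (a := 4) (b := 2) (C := C) (by omega) (by omega)
    exact_mod_cast this
  have h6 : 0 < (C : ℝ) * K ^ C := lt_of_lt_of_le (by positivity) h5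
  rw [mul_one_div, div_le_div_iff₀ h6 (by positivity)]
  linarith

/-- **CORE**, the contracted form (the constant of `k7c_core_pos`) -/
theorem k7c_core : ∃ C : ℕ, ∀ {R : KsRef KbVer.two} {K : ℝ} (X : K7bDat R) (e0 Mξ Mχ Mϱ Rd Mf rw : ℝ) (G : Finset ℝ),
    K7cTan R X K → (K7bDat.par R e0 G Mξ Mχ Mϱ).WF → (0 : ℝ) ∈ G → X.hor.OkE (K7bDat.par R e0 G Mξ Mχ Mϱ) K → X.hor.Res X.hor.Sp (1 / K) →
    (∀ x : ℝ, X.r ≤ x → x ≤ X.r + Mϱ → ∃ r' ∈ R.widths, r' ≤ x ∧ R.N ^ (x - r') ≤ K) →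
    Rd ∈ R.depths → Mf ∈ R.meshes → rw ∈ R.widths → X.r ≤ Rd →
    (C : ℝ) * K ^ C * R.a Rd ≤ (K7bDat.par R e0 G Mξ Mχ Mϱ).ϱ * R.a X.r →
    (C : ℝ) * K ^ C * R.a Mf ≤ (K7bDat.par R e0 G Mξ Mχ Mϱ).ϱ * (K7bDat.par R e0 G Mξ Mχ Mϱ).ξ * R.a ((R.k + R.ell) * Rd) →
    ∃ X' : K7bDat R, X'.Qr = X.Qr ∧ X'.Sp ⊆ X.Sp ∧ X'.hor.Ok (K7bDat.par R e0 G Mξ Mχ Mϱ) ((C : ℝ) * K ^ C) ∧
      X'.hor.Res X'.hor.Sp (1 / ((C : ℝ) * K ^ C)) := by
  obtain ⟨C, -, h⟩ := k7c_core_pos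
  exact ⟨C, h⟩

end

end Claimed.Agent.R252
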