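-- KEEP
import Claimed.Agent.R252.S7b.Exit
import Claimed.Agent.R252.S7b.S3Tan
import Claimed.Agent.R252.S7b.S1ModelContract
import Claimed.Agent.R252.S7f.AdContract

/-!
# Row 252, Secs. 7.4-7.5: THE CHAIN  `K7hFit` (affine velocity law, `|λ| ∼ 1`, `k = ℓ`)  ⟶  `K7Model` (prepared horizontal model `X.hor.Ok`)      (chief helper95; prefix `k7_`)      CONTRACT: the `sorry`s are the leaves L-252-S7b-H*
Ruling 29518: NO dichotomy inside; the exponents `B, r` (hence `e₀ = (B - ℓ r)/2`), the relative depths `G'`, the mesh exponents `M` are PARAMETERS; every statement is `∀ τo ∃ lists G, τ, N₁ ∀ data : hyp (N^τ) → concl (N^τo)`.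
```
 K7hFitT + |λ| ≥ N^-τ   --S1T (k7h_model_tau of helper77 + AD1)-->   K7Mod0 X      X = k7hX .., X.hor.Ok0, chart, L = 0
                        --S2T (k7f_S2 of helper1 + AD2 + AD3)---->   K7ModE X'     + affine entries (relative depths with 2 k s ≤ e₀; velocity mesh exponent M.2.1 > 0)
                        --S3T (k7c_core, S7b/S3Tan)-------------->   K7Model       = ∃ X'', X''.hor.Ok, mass ≥ 1/K     (needs 0 ∈ G')
 k7_model_tau = composition (leaf HM).      CONSUMER: Top/Fin.lean (helper220, helper128): K7Model → K8Adm/K8Inp → K8Exit → k7b_lift_time.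
```
* `K7Mod0`, `K7ModE` : the interface records.   `tan : K7cTan R X K` carries `R.Ok K`, `R.Tilt K`, `ν(Q_r) ≠ 0`, `X.Sp ⊆ Ev0 ∩ inc Q_r` and the chart conditions (`|κ| q_r g_r ∼ 1`, bounded plane, `X.eh` refines `R.st`).
* AD1 : the explicit data `k7hX` of S1 satisfy `K7cTan` and have mass `≥ 1/(2K)`.   AD2 : `K7cTan` gives the link facts `K7fLk` of S2 with the fine position label `fc := R.pt Mf rw`.   AD3 : `K7bDat.upd` keeps `K7cTan`.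
* The `τ`-leaves are EXPONENT BOOKKEEPING ONLY: `K := N^τ`, `C K^C ≤ N^{τo}` for `τ ≤ τo/(2C)`, `N ≥ N₁`; `R.a x = N^{-x}`; `Real.rpow_add`, `Real.rpow_le_rpow_of_exponent_le`; models: the leaves L-252-S7h-T* of `S1ModelContract`, `S8/Prep.lean`.
-/

set_option autoImplicit false

namespace Claimed.Agent.R252

open MeasureTheory
open scoped ENNReal BigOperators

noncomputable section

/-! ## 1. The interface records -/

/-- **exit of S1** : parent of depth `r`, chart, `L = 0`, `Ok0`, mass `≥ 1/K` -/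
structure K7Mod0 (R : KsRef KbVer.two) (E : Set (R.L × ℝ)) (r e0 : ℝ) (G' : Finset ℝ) (M : ℝ × ℝ × ℝ) (K : ℝ) (X : K7bDat R) : Prop where
  dep : R.dep X.Qr = r
  sub : X.Sp ⊆ E
  tan : K7cTan R X K
  L0 : X.L = (0, 0, 0, 0)
  ok0 : X.hor.Ok0 (K7bDat.par R e0 G' M.1 M.2.1 M.2.2) K
  res : X.hor.Res X.hor.Sp (1 / K)

/-- **exit of S2** -/
structure K7ModE (R : KsRef KbVer.two) (E : Set (R.L × ℝ)) (r e0 : ℝ) (G' : Finset ℝ) (M : ℝ × ℝ × ℝ) (K : ℝ) (X : K7bDat R) : Prop where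
  dep : R.dep X.Qr = r
  sub : X.Sp ⊆ E
  tan : K7cTan R X K
  okE : X.hor.OkE (K7bDat.par R e0 G' M.1 M.2.1 M.2.2) K
  res : X.hor.Res X.hor.Sp (1 / K)

/-! ## 2. Adaptors (one scale) -/

/-! helpers of the leaf L-252-S7b-HAD1 (helper54) -/

theorem k7ad1_tilt_mono {R : KsRef KbVer.two} {K K' : ℝ} (hK : K ≤ K') (h : R.Tilt K) : R.Tilt K' :=
  ⟨h.ell_pos, h.tri, fun Q => (h.full Q).trans (mul_le_mul_of_nonneg_right hK (abs_nonneg _)), fun Q => (h.cen Q).trans hK⟩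

theorem k7ad1_t0 {R : KsRef KbVer.two} {K : ℝ} (hR : R.Ok K) (Q : R.Lab) : 0 ≤ R.t0 Q ∧ R.t0 Q ≤ 1 := by
  constructor
  · rw [KsRef.t0, kbQ]; positivity
  · rw [KsRef.t0, kbQ]
    have h1 : ((R.iv Q : ℝ) + 1) ≤ 2 ^ R.lev Q := by exact_mod_cast hR.iv_lt Q
    have h2 : (0 : ℝ) < (1 / 2 : ℝ) ^ R.lev Q := by positivity
    have h3 : (2 : ℝ) ^ R.lev Q * (1 / 2 : ℝ) ^ R.lev Q = 1 := by rw [← mul_pow]; norm_num
    nlinarith

theorem k7ad1_yc {R : KsRef KbVer.two} {K : ℝ} (hR : R.Ok K) (hT : R.Tilt K) (Q : R.Lab) :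
    |ksZ ((R.ch Q).yc (R.t0 Q))| ≤ K ∧ |ksY ((R.ch Q).yc (R.t0 Q))| ≤ K := by
  obtain ⟨t0, t1⟩ := k7ad1_t0 hR Q
  have hn : ‖(R.ch Q).yc (R.t0 Q)‖ ≤ K := by
    unfold KbChart.yc
    calc ‖(R.ch Q).y0 + R.t0 Q • (R.ch Q).y1‖ ≤ ‖(R.ch Q).y0‖ + ‖R.t0 Q • (R.ch Q).y1‖ := norm_add_le _ _
      _ = ‖(R.ch Q).y0‖ + R.t0 Q * ‖(R.ch Q).y1‖ := by rw [norm_smul, Real.norm_eq_abs, abs_of_nonneg t0]
      _ ≤ ‖(R.ch Q).y0‖ + 1 * ‖(R.ch Q).y1‖ := by gcongr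
      _ ≤ K := by rw [one_mul]; exact hT.cen Q
  obtain ⟨a, b⟩ := ksl8_abs_le_norm ((R.ch Q).yc (R.t0 Q))
  exact ⟨a.trans hn, b.trans hn⟩

theorem k7ad1_g_le {R : KsRef KbVer.two} {K : ℝ} (hR : R.Ok K) (hT : R.Tilt K) (Q : R.Lab) : R.g Q ≤ 1 := by
  unfold KsRef.g KsRef.a
  refine Real.rpow_le_one_of_one_le_of_nonpos (by linarith [hR.N_ge]) ?_
  have := mul_nonneg hT.ell_pos.le (hR.dep_nonneg Q)
  linarith

theorem k7ad1_pw {K c : ℝ} (hK : 1 ≤ K) (j : ℕ) (hj : j ≤ 8) (hc : c ≤ 8) (_hc0 : 0 ≤ c) : c * K ^ j ≤ ((8 : ℕ) : ℝ) * K ^ 8 := by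
  have h1 : K ^ j ≤ K ^ 8 := pow_le_pow_right₀ hK hj
  have h2 : 0 ≤ K ^ j := by positivity
  push_cast
  nlinarith

theorem k7ad1_up {R : KsRef KbVer.two} (X : K7bDat R) : X.up X.SpN = X.Sp := by
  ext p
  show (p.1, X.tOf ((p.2 - X.t0) / X.q)) ∈ X.Sp ↔ p ∈ X.Sp
  rw [k7blk3_tOf]

/-- **L-252-S7b-HAD1**.   PLAN.  `X := k7hX ..`; `X.κ = -1/(μ q²)`, so `|κ| q g = g / (|μ| q)` (`μ ≠ 0`, since `0 < g ≤ K |μ| q`): `κlo` from `K7hFit.mu`, `κhi` from `hlam`.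
`X.Z0 = ksZ (yc t₀)`, `|·| ≤ ‖y0‖ + ‖y1‖ ≤ K` (`Tilt.cen`, `0 ≤ t₀ < 1` by `iv_lt`);  `X.y1 = ρ0`, `|ρ0| ≤ |row 0| + K g ≤ 2 K³ + K` (`ks_tilt_size`, `g ≤ 1`);  `X.y2 = ρ1`, `|ρ1| ≤ K² + K`;  `X.y0 = ksY (yc t₀) - ρ0 t₀ - ρ1 Z0` (`R.YQ` at its own centre).
`hst` : `k7hEh p = k7hEh p'` gives `hist p = hist p'`; `par = A` on `Ev0` (`One.par`).   `R.Ok`, `R.Tilt` are monotone in the slack (`ks_ok_mono`).
Mass: `X.SpN = X.inc ⁻¹' F` measurable, `X.up X.SpN = F`, `k7b_link_mass` : `prior F = q ν lam (SpN)`; `q ν ≤ K prior Cn ≤ 2 K prior F`; cancel `q ν` (`≠ 0`, `≠ ⊤`). -/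
theorem k7_ad_chart : ∃ C : ℕ, ∀ (R : KsRef KbVer.two) (A : R.Par) (E : Set (R.L × ℝ)) (Ds : Finset ℝ) (ξ K ε : ℝ) (Q : R.Lab) (ρ0 ρ1 μ : ℝ) (Cn F : Set (R.L × ℝ)),
    R.Ok K → R.Tilt K → R.One A → E ⊆ R.Ev0 → K7hFit R A E Ds ξ K ε Q ρ0 ρ1 μ Cn → R.g Q ≤ K * (|μ| * R.q Q) → F ⊆ Cn → MeasurableSet F →
    R.prior Cn ≤ 2 * R.prior F →
    K7cTan R (k7hX R A E Ds Q ρ0 ρ1 μ F) ((C : ℝ) * K ^ C) ∧
      (k7hX R A E Ds Q ρ0 ρ1 μ F).hor.Res (k7hX R A E Ds Q ρ0 ρ1 μ F).hor.Sp (1 / ((C : ℝ) * K ^ C)) := by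
  refine ⟨8, fun R A E Ds ξ K ε Q ρ0 ρ1 μ Cn F hR hT hOne hE hfit hlam hF mF hmass => ?_⟩
  have hK := hR.K_ge
  have hK0 : 0 < K := by linarith
  have hg : 0 < R.g Q := ksl8_a_pos hR _
  have hg1 := k7ad1_g_le hR hT Q
  have hq : 0 < R.q Q := ksl8_q_pos R Q
  have hμ : μ ≠ 0 := by
    rintro rfl
    simp at hlam
    linarith
  have hμ0 : 0 < |μ| := abs_pos.2 hμ
  obtain ⟨t0, t1⟩ := k7ad1_t0 hR Q
  obtain ⟨cZ, cY⟩ := k7ad1_yc hR hT Q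
  obtain ⟨htl, hrow0, -, -⟩ := ks_tilt_size hR hT Q
  have hKK : K ≤ ((8 : ℕ) : ℝ) * K ^ 8 := by simpa using k7ad1_pw hK 1 (by norm_num) (by norm_num : (1 : ℝ) ≤ 8) (by norm_num)
  have hsubF : F ⊆ R.Ev0 ∩ R.inc Q := fun p hp => ⟨hE (hfit.sub (hF hp)).1, (hfit.sub (hF hp)).2⟩
  have hK2 : K ≤ K ^ 2 := by nlinarith
  have hK3 : K ^ 2 ≤ K ^ 3 := by nlinarith [sq_nonneg K]
  -- the rows
  have r0 : |ρ0| ≤ 3 * K ^ 3 := by
    have h1 : |ρ0| ≤ |ρ0 - R.row Q 0| + |R.row Q 0| := by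
      have := abs_add_le (ρ0 - R.row Q 0) (R.row Q 0)
      simpa using this
    have h2 : K * R.g Q ≤ K := by nlinarith
    linarith [hfit.row0]
  have r1 : |ρ1| ≤ 2 * K ^ 2 := by
    have h1 : |ρ1| ≤ |ρ1 - R.row Q 1| + |R.row Q 1| := by
      have := abs_add_le (ρ1 - R.row Q 1) (R.row Q 1)
      simpa using this
    have h2 : K * R.g Q ≤ K := by nlinarith
    have h3 : R.row Q 1 = R.tl Q := rfl
    have h4 := hfit.row1
    rw [h3] at h1 h4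
    linarith
  have eκ : |(-1 / (μ * R.q Q ^ 2) : ℝ)| * R.q Q * R.g Q = R.g Q / (|μ| * R.q Q) := by
    rw [abs_div, abs_neg, abs_one, abs_mul, abs_of_pos (pow_pos hq 2)]
    field_simp
  refine ⟨⟨ks_ok_mono hR hKK, k7ad1_tilt_mono hKK hT, hfit.pos, hsubF, ?_⟩, subset_rfl, ?_, ?_⟩
  · refine ⟨?_, ?_, ?_, ?_, ?_, ?_, ?_⟩
    · show 1 ≤ ((8 : ℕ) : ℝ) * K ^ 8 * (|(-1 / (μ * R.q Q ^ 2) : ℝ)| * R.q Q * R.g Q)
      rw [eκ]
      have h1 : 1 ≤ K * (R.g Q / (|μ| * R.q Q)) := by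
        rw [← mul_div_assoc, le_div_iff₀ (by positivity), one_mul]
        exact hfit.mu
      exact h1.trans (mul_le_mul_of_nonneg_right hKK (by positivity))
    · show |(-1 / (μ * R.q Q ^ 2) : ℝ)| * R.q Q * R.g Q ≤ _
      rw [eκ]
      refine le_trans ?_ hKK
      rw [div_le_iff₀ (by positivity)]
      exact hlam
    · exact cZ.trans hKK
    · show |R.YQ Q (R.t0 Q) (k7hZc R Q) - ρ0 * R.t0 Q - ρ1 * k7hZc R Q| ≤ _
      have e : R.YQ Q (R.t0 Q) (k7hZc R Q) = ksY ((R.ch Q).yc (R.t0 Q)) := by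
        unfold KsRef.YQ k7hZc
        ring
      rw [e]
      have a1 : |ρ0 * R.t0 Q| ≤ 3 * K ^ 3 := by
        rw [abs_mul, abs_of_nonneg t0]
        nlinarith [abs_nonneg ρ0]
      have a2 : |ρ1 * k7hZc R Q| ≤ 2 * K ^ 2 * K := by
        rw [abs_mul]
        exact mul_le_mul r1 cZ (abs_nonneg _) (by positivity)
      have a3 : |ksY ((R.ch Q).yc (R.t0 Q)) - ρ0 * R.t0 Q - ρ1 * k7hZc R Q| ≤ |ksY ((R.ch Q).yc (R.t0 Q))| + |ρ0 * R.t0 Q| + |ρ1 * k7hZc R Q| := by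
        refine (abs_sub _ _).trans ?_
        gcongr
        exact abs_sub _ _
      have a4 : (6 : ℝ) * K ^ 3 ≤ ((8 : ℕ) : ℝ) * K ^ 8 := k7ad1_pw hK 3 (by norm_num) (by norm_num) (by norm_num)
      nlinarith
    · exact r0.trans (k7ad1_pw hK 3 (by norm_num) (by norm_num) (by norm_num))
    · exact r1.trans (k7ad1_pw hK 2 (by norm_num) (by norm_num) (by norm_num))
    · intro p hp p' hp' he
      have h1 : R.hist p = R.hist p' := congrArg Prod.fst he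
      show (R.par p.1, R.hist p) = (R.par p'.1, R.hist p')
      rw [h1, hOne.par p (hsubF hp).1, hOne.par p' (hsubF hp').1]
  · have : Measurable fun z : R.L × ℝ => (k7hX R A E Ds Q ρ0 ρ1 μ F).inc z := by
      unfold K7bDat.inc K7bDat.tOf
      exact measurable_fst.prodMk ((measurable_snd.const_mul _).const_add _)
    exact this mF
  · have hX := k7b_link_mass hR (k7hX R A E Ds Q ρ0 ρ1 μ F) hfit.pos (fun p hp => (hsubF hp).2) (k7hX R A E Ds Q ρ0 ρ1 μ F).SpN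
      (by
        have : Measurable fun z : R.L × ℝ => (k7hX R A E Ds Q ρ0 ρ1 μ F).inc z := by
          unfold K7bDat.inc K7bDat.tOf
          exact measurable_fst.prodMk ((measurable_snd.const_mul _).const_add _)
        exact this mF) subset_rfl
    rw [k7ad1_up] at hX
    have hX' : R.prior F = ENNReal.ofReal (R.q Q) * R.νQ Q * (k7hX R A E Ds Q ρ0 ρ1 μ F).hor.lam (k7hX R A E Ds Q ρ0 ρ1 μ F).SpN := hX
    show ENNReal.ofReal (1 / (((8 : ℕ) : ℝ) * K ^ 8)) ≤ (k7hX R A E Ds Q ρ0 ρ1 μ F).hor.lam (k7hX R A E Ds Q ρ0 ρ1 μ F).SpN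
    generalize (k7hX R A E Ds Q ρ0 ρ1 μ F).hor.lam (k7hX R A E Ds Q ρ0 ρ1 μ F).SpN = x at hX' ⊢
    have := hR.prob
    have hm0 : ENNReal.ofReal (R.q Q) * R.νQ Q ≠ 0 := mul_ne_zero (by simpa using hq) hfit.pos
    have hmt : ENNReal.ofReal (R.q Q) * R.νQ Q ≠ ⊤ := ENNReal.mul_ne_top ENNReal.ofReal_ne_top (measure_ne_top _ _)
    have h1 : ENNReal.ofReal (R.q Q) * R.νQ Q * 1 ≤ ENNReal.ofReal (R.q Q) * R.νQ Q * (ENNReal.ofReal K * 2 * x) := by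
      calc ENNReal.ofReal (R.q Q) * R.νQ Q * 1 = ENNReal.ofReal (R.q Q) * R.νQ Q := mul_one _
        _ ≤ ENNReal.ofReal K * R.prior Cn := hfit.mass
        _ ≤ ENNReal.ofReal K * (2 * R.prior F) := by gcongr
        _ = _ := by rw [hX']; ring
    have h2 : 1 ≤ ENNReal.ofReal K * 2 * x := (ENNReal.mul_le_mul_iff_right hm0 hmt).1 h1
    have h3 : ENNReal.ofReal K * 2 = ENNReal.ofReal (K * 2) := by
      rw [ENNReal.ofReal_mul hK0.le]; simp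
    rw [h3] at h2
    calc ENNReal.ofReal (1 / (((8 : ℕ) : ℝ) * K ^ 8)) = ENNReal.ofReal (1 / (((8 : ℕ) : ℝ) * K ^ 8)) * 1 := (mul_one _).symm
      _ ≤ ENNReal.ofReal (1 / (((8 : ℕ) : ℝ) * K ^ 8)) * (ENNReal.ofReal (K * 2) * x) := by gcongr
      _ = ENNReal.ofReal (1 / (((8 : ℕ) : ℝ) * K ^ 8) * (K * 2)) * x := by rw [← mul_assoc, ← ENNReal.ofReal_mul (by positivity)]
      _ ≤ 1 * x := by
          gcongr
          rw [ENNReal.ofReal_le_one, one_div, inv_mul_le_iff₀ (by positivity), mul_one]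
          have := k7ad1_pw hK 1 (by norm_num) (by norm_num : (2 : ℝ) ≤ 8) (by norm_num)
          linarith
      _ = x := one_mul _

theorem k7had2_quad_cont (Q : KbQuad KbVer.two) : Continuous fun x : ℝ × KbB KbVer.two × ℝ => Q.ev x.1 x.2.1 x.2.2 := by
  unfold KbQuad.ev
  have hy : Continuous fun x : ℝ × KbB KbVer.two × ℝ => x.2.1 := continuous_fst.comp continuous_snd
  have h1 : Continuous fun x : ℝ × KbB KbVer.two × ℝ => Q.cy ⬝ᵥ x.2.1 := Continuous.dotProduct continuous_const hy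
  have h2 : Continuous fun x : ℝ × KbB KbVer.two × ℝ => Q.cty ⬝ᵥ x.2.1 := Continuous.dotProduct continuous_const hy
  have h3 : Continuous fun x : ℝ × KbB KbVer.two × ℝ => x.2.1 ⬝ᵥ Q.cyy.mulVec x.2.1 :=
    Continuous.dotProduct hy (Continuous.matrix_mulVec continuous_const hy)
  have h4 : Continuous fun x : ℝ × KbB KbVer.two × ℝ => Q.cyw ⬝ᵥ x.2.1 := Continuous.dotProduct continuous_const hy
  fun_prop

theorem k7had2_tj_cont : Continuous fun x : KbTj KbVer.two × ℝ => (x.2, kbY x.1 x.2, kbW x.1 x.2) := by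
  unfold kbY kbW
  fun_prop

theorem k7had2_y_meas {R : KsRef KbVer.two} {K : ℝ} (hR : R.Ok K) : Measurable fun p : R.L × ℝ => R.y p.1 p.2 := by
  have h1 : Measurable fun p : R.L × ℝ => (R.co p.1, p.2) := (hR.m_co.comp measurable_fst).prodMk measurable_snd
  exact ((continuous_fst.comp continuous_snd).comp k7had2_tj_cont).measurable.comp h1

theorem k7had2_X_bin {R : KsRef KbVer.two} {K : ℝ} (hR : R.Ok K) (wd : ℝ) (d : ℤ) :
    MeasurableSet {p : R.L × ℝ | kbBin wd (R.X p.1 p.2) = d} := by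
  have e : {p : R.L × ℝ | kbBin wd (R.X p.1 p.2) = d} =
      ⋃ A : R.Par, ({p : R.L × ℝ | R.par p.1 = A} ∩ {p : R.L × ℝ | kbBin wd (kbX (R.nat A) (R.co p.1) p.2) = d}) := by
    ext p
    simp only [Set.mem_ofPred_eq, Set.mem_iUnion, Set.mem_inter_iff]
    constructor
    · intro h
      exact ⟨R.par p.1, rfl, h⟩
    · rintro ⟨A, hA, h⟩
      subst hA
      exact h
  rw [e]
  refine MeasurableSet.iUnion fun A => (measurable_fst (hR.m_par A)).inter ?_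
  obtain ⟨Q, hQ⟩ := (hR.nat_adm A).1
  have h1 : Measurable fun p : R.L × ℝ => (R.co p.1, p.2) := (hR.m_co.comp measurable_fst).prodMk measurable_snd
  have h2 : Measurable fun p : R.L × ℝ => kbX (R.nat A) (R.co p.1) p.2 := by
    have : (fun p : R.L × ℝ => kbX (R.nat A) (R.co p.1) p.2) =
        (fun x : ℝ × KbB KbVer.two × ℝ => Q.ev x.1 x.2.1 x.2.2) ∘ (fun x : KbTj KbVer.two × ℝ => (x.2, kbY x.1 x.2, kbW x.1 x.2)) ∘
          fun p : R.L × ℝ => (R.co p.1, p.2) := by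
      funext p
      exact hQ _ _ _
    rw [this]
    exact ((k7had2_quad_cont Q).comp k7had2_tj_cont).measurable.comp h1
  exact ((ksl17_bin_meas wd).comp h2) (measurableSet_singleton d)

theorem k7had2_pt_lab {R : KsRef KbVer.two} {K : ℝ} (hR : R.Ok K) (M r : ℝ) : KsLab (R.pt M r) := by
  intro c0
  have e : R.pt M r ⁻¹' {c0} = {p : R.L × ℝ | kbBin (R.a M) p.2 = c0.1} ∩
      ((⋂ i, {p : R.L × ℝ | kbBin (R.a M) (R.y p.1 p.2 i) = c0.2.1 i}) ∩ {p : R.L × ℝ | kbBin (R.a r) (R.X p.1 p.2) = c0.2.2}) := by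
    ext p
    simp only [Set.mem_preimage, Set.mem_singleton_iff, KsRef.pt, Prod.ext_iff, funext_iff, Set.mem_inter_iff, Set.mem_ofPred_eq,
      Set.mem_iInter]
  rw [e]
  refine MeasurableSet.inter ?_ (MeasurableSet.inter (MeasurableSet.iInter fun i => ?_) (k7had2_X_bin hR _ _))
  · exact ((ksl17_bin_meas _).comp measurable_snd) (measurableSet_singleton _)
  · exact ((ksl17_bin_meas _).comp ((measurable_pi_apply i).comp (k7had2_y_meas hR))) (measurableSet_singleton _)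

theorem k7had2_bin_close {wd x x' : ℝ} (h : kbBin wd x = kbBin wd x') : |x - x'| ≤ kbDy wd := by
  have h1 := (ksl17_bin_iff wd x (kbBin wd x)).1 rfl
  have h2 := (ksl17_bin_iff wd x' (kbBin wd x)).1 h.symm
  rw [abs_le]
  constructor <;> nlinarith [h1.1, h1.2, h2.1, h2.2]

theorem k7had2_inc_meas {R : KsRef KbVer.two} (X : K7bDat R) : Measurable X.inc := by
  unfold K7bDat.inc K7bDat.tOf
  exact measurable_fst.prodMk ((measurable_snd.const_mul _).const_add _)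

/-- `lam0`-null sets are null for the horizontal law -/
theorem k7had2_null {R : KsRef KbVer.two} {K : ℝ} (hR : R.Ok K) (X : K7bDat R) (hpos : R.νQ X.Qr ≠ 0) (hsub : X.Sp ⊆ R.Ev0 ∩ R.inc X.Qr)
    (Z : Set (R.L × ℝ)) (hZm : MeasurableSet Z) (hZ : Z ⊆ X.Sp) (h0 : R.lam0 Z = 0) : X.hor.lam (X.inc ⁻¹' Z) = 0 := by
  have hq := k7blk2_q_pos X
  have h1 := k7b_link_mass hR X hpos (hsub.trans Set.inter_subset_right) (X.inc ⁻¹' Z) (k7had2_inc_meas X hZm) (Set.preimage_mono hZ)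
  have h2 : X.up (X.inc ⁻¹' Z) = Z := by
    ext p
    have : X.inc (p.1, (p.2 - X.t0) / X.q) = p := by
      unfold K7bDat.inc K7bDat.tOf
      refine Prod.ext rfl ?_
      show X.t0 + X.q * ((p.2 - X.t0) / X.q) = p.2
      field_simp
      ring
    show X.inc (p.1, (p.2 - X.t0) / X.q) ∈ Z ↔ p ∈ Z
    rw [this]
  have h3 : R.prior Z = 0 := by
    have : R.lam0 Z = R.prior Z := by
      unfold KsRef.lam0 KsRef.law
      rw [Measure.restrict_apply hZm, Set.inter_eq_left.2 (hZ.trans (hsub.trans Set.inter_subset_left))]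
    rw [← this, h0]
  rw [h2, h3] at h1
  have h4 : ENNReal.ofReal X.q * R.νQ X.Qr ≠ 0 := mul_ne_zero (by simpa using hq) hpos
  exact (mul_eq_zero.1 h1.symm).resolve_left h4

/-- **L-252-S7b-HAD2**.   PLAN.  `κ0` : `κlo`.   `mfc` : bins of measurable functions (`hR.m_co`, `ksl17_bin_meas`).
`close` : same `R.pt Mf rw` gives `|Δt|, |ΔZ|, |ΔY| < kbDy (a Mf) < 2 a Mf =: δ` (`ksl17_bin_iff`, `ksl17_dy_lt`); `|Δ nb_1|, |Δ nb_2| ≤ δ/q_r ≤ K δ/b_r`; `|Δ nb_3| ≤ |κ| (1 + 2K) δ ≤ 3 K |κ| δ`, `|κ| ≤ K/(q_r g_r) ≤ K²/b_r` (`κhi`, `q_lo`, `ksl8_b_eq`).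
`opt` : as in `k7c_opt_of_list` (S3Tan): `n₁, n₂ ≤ K` from `opt_ent (r + s)`, `opt_pt Mf rw`; for a history `e₀` which occurs at `z₀ ∈ Sp` put `s₀ := R.st (X.inc z₀)`, list `L₁ ×ˢ L₂`; `chart.hst`; `lam0`-null sets are `X.hor.lam`-null (`k7b_link_mass`). -/
theorem k7_ad_link {R : KsRef KbVer.two} {K : ℝ} (X : K7bDat R) (hT : K7cTan R X K) (hSp : MeasurableSet X.Sp) (c : K7bPar) (hN : c.N = R.N)
    (hdep : ∀ s ∈ c.G, X.r + s ∈ R.depths) (Mf rw : ℝ) (hMf : Mf ∈ R.meshes) (hrw : rw ∈ R.widths) :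
    K7fLk X c (K ^ 2) (6 * K ^ 3 * R.a Mf / R.b X.Qr) (R.pt Mf rw) := by
  classical
  have hR := hT.ok
  have hK : 1 ≤ K := hR.K_ge
  have hK0 : 0 < K := by linarith
  have hN0 : 0 < R.N := by linarith [hR.N_ge]
  have hq : 0 < X.q := k7blk2_q_pos X
  have hsubE : X.Sp ⊆ R.Ev0 := hT.sub.trans Set.inter_subset_left
  have hκ0 : X.κ ≠ 0 := by
    intro h
    have := hT.chart.κlo
    rw [h, abs_zero, zero_mul, zero_mul, mul_zero] at this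
    linarith
  -- sizes
  have hg0 : 0 < R.g X.Qr := Real.rpow_pos_of_pos hN0 _
  have hg1 : R.g X.Qr ≤ 1 := by
    unfold KsRef.g KsRef.a
    apply Real.rpow_le_one_of_one_le_of_nonpos (by linarith [hR.N_ge])
    have := mul_nonneg hT.tilt.ell_pos.le (hR.dep_nonneg X.Qr)
    linarith
  have hb : R.b X.Qr = R.a (R.k * R.dep X.Qr) * R.g X.Qr := ksl8_b_eq hR X.Qr
  have ha0 : 0 < R.a (R.k * R.dep X.Qr) := Real.rpow_pos_of_pos hN0 _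
  have hb0 : 0 < R.b X.Qr := by rw [hb]; positivity
  have hqlo : R.a (R.k * R.dep X.Qr) ≤ K * X.q := hR.q_lo X.Qr
  have hbq : R.b X.Qr ≤ K * X.q := by
    rw [hb]
    calc R.a (R.k * R.dep X.Qr) * R.g X.Qr ≤ R.a (R.k * R.dep X.Qr) * 1 := mul_le_mul_of_nonneg_left hg1 ha0.le
      _ ≤ K * X.q := by rw [mul_one]; exact hqlo
  set D := kbDy (R.a Mf) with hD
  have haM : 0 < R.a Mf := Real.rpow_pos_of_pos hN0 _
  have hD0 : 0 < D := ksl17_dy_pos _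
  have hD2 : D < 2 * R.a Mf := ksl17_dy_lt haM
  have hK3 : K ≤ K ^ 3 := by
    calc K = K ^ 1 := (pow_one K).symm
      _ ≤ K ^ 3 := pow_le_pow_right₀ hK (by norm_num)
  have hinvq : D / X.q ≤ 6 * K ^ 3 * R.a Mf / R.b X.Qr := by
    rw [div_le_div_iff₀ hq hb0]
    have h1 : D * R.b X.Qr ≤ 2 * R.a Mf * (K * X.q) := mul_le_mul hD2.le hbq hb0.le (by positivity)
    have h2 : 2 * R.a Mf * (K * X.q) ≤ 6 * K ^ 3 * R.a Mf * X.q := by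
      have : 0 ≤ R.a Mf * X.q := by positivity
      nlinarith
    exact h1.trans h2
  have hκ : |X.κ| * R.b X.Qr ≤ K ^ 2 := by
    have h1 := hT.chart.κhi
    calc |X.κ| * R.b X.Qr = |X.κ| * (R.a (R.k * R.dep X.Qr) * R.g X.Qr) := by rw [hb]
      _ ≤ |X.κ| * ((K * X.q) * R.g X.Qr) := by gcongr
      _ = K * (|X.κ| * X.q * R.g X.Qr) := by ring
      _ ≤ K * K := by gcongr
      _ = K ^ 2 := by ring
  refine ⟨hN, hsubE, hdep, hκ0, k7had2_pt_lab hR Mf rw, ?_, ?_⟩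
  · intro p hp p' hp' hfc
    have e1 : kbBin (R.a Mf) p.2 = kbBin (R.a Mf) p'.2 := congrArg Prod.fst hfc
    have e2 : ∀ i, kbBin (R.a Mf) (R.y p.1 p.2 i) = kbBin (R.a Mf) (R.y p'.1 p'.2 i) := fun i =>
      congrFun (congrArg (fun x => x.2.1) hfc) i
    have d1 : |p.2 - p'.2| ≤ D := k7had2_bin_close e1
    have d2 : |R.y p.1 p.2 (0 : Fin 2) - R.y p'.1 p'.2 (0 : Fin 2)| ≤ D := k7had2_bin_close (e2 (0 : Fin 2))
    have d3 : |R.y p.1 p.2 (1 : Fin 2) - R.y p'.1 p'.2 (1 : Fin 2)| ≤ D := k7had2_bin_close (e2 (1 : Fin 2))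
    refine ⟨?_, ?_, ?_⟩
    · have : (X.nb (R.base p)).1 - (X.nb (R.base p')).1 = (p.2 - p'.2) / X.q := by
        show (p.2 - X.t0) / X.q - (p'.2 - X.t0) / X.q = _
        ring
      rw [this, abs_div, abs_of_pos hq]
      exact (div_le_div_of_nonneg_right d1 hq.le).trans hinvq
    · have : (X.nb (R.base p)).2.1 - (X.nb (R.base p')).2.1 = (R.y p.1 p.2 (0 : Fin 2) - R.y p'.1 p'.2 (0 : Fin 2)) / X.q := by
        show (R.y p.1 p.2 (0 : Fin 2) - X.Z0) / X.q - (R.y p'.1 p'.2 (0 : Fin 2) - X.Z0) / X.q = _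
        ring
      rw [this, abs_div, abs_of_pos hq]
      exact (div_le_div_of_nonneg_right d2 hq.le).trans hinvq
    · have : (X.nb (R.base p)).2.2 - (X.nb (R.base p')).2.2 = X.κ * ((R.y p.1 p.2 (1 : Fin 2) - R.y p'.1 p'.2 (1 : Fin 2))
          - X.y1 * (p.2 - p'.2) - X.y2 * (R.y p.1 p.2 (0 : Fin 2) - R.y p'.1 p'.2 (0 : Fin 2))) := by
        show X.κ * (R.y p.1 p.2 (1 : Fin 2) - (X.y0 + X.y1 * p.2 + X.y2 * R.y p.1 p.2 (0 : Fin 2)))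
          - X.κ * (R.y p'.1 p'.2 (1 : Fin 2) - (X.y0 + X.y1 * p'.2 + X.y2 * R.y p'.1 p'.2 (0 : Fin 2))) = _
        ring
      rw [this, abs_mul, le_div_iff₀ hb0]
      have h1 : |(R.y p.1 p.2 (1 : Fin 2) - R.y p'.1 p'.2 (1 : Fin 2)) - X.y1 * (p.2 - p'.2)
          - X.y2 * (R.y p.1 p.2 (0 : Fin 2) - R.y p'.1 p'.2 (0 : Fin 2))| ≤ 3 * K * D := by
        have a1 : |X.y1 * (p.2 - p'.2)| ≤ K * D := by
          rw [abs_mul]
          exact mul_le_mul hT.chart.y1 d1 (abs_nonneg _) hK0.le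
        have a2 : |X.y2 * (R.y p.1 p.2 (0 : Fin 2) - R.y p'.1 p'.2 (0 : Fin 2))| ≤ K * D := by
          rw [abs_mul]
          exact mul_le_mul hT.chart.y2 d2 (abs_nonneg _) hK0.le
        have a3 : D ≤ K * D := by nlinarith
        calc _ ≤ |R.y p.1 p.2 (1 : Fin 2) - R.y p'.1 p'.2 (1 : Fin 2)| + |X.y1 * (p.2 - p'.2)|
              + |X.y2 * (R.y p.1 p.2 (0 : Fin 2) - R.y p'.1 p'.2 (0 : Fin 2))| :=
              (abs_sub _ _).trans (add_le_add (abs_sub _ _) le_rfl)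
          _ ≤ 3 * K * D := by linarith
      calc |X.κ| * _ * R.b X.Qr ≤ |X.κ| * (3 * K * D) * R.b X.Qr := by gcongr
        _ = (|X.κ| * R.b X.Qr) * (3 * K * D) := by ring
        _ ≤ K ^ 2 * (3 * K * (2 * R.a Mf)) := by gcongr
        _ = 6 * K ^ 3 * R.a Mf := by ring
  · intro s hs
    obtain ⟨n₁, hn₁, ho₁⟩ := hR.opt_ent (X.r + s) (hdep s hs)
    obtain ⟨n₂, hn₂, ho₂⟩ := hR.opt_pt Mf hMf rw hrw
    refine ⟨n₁ * n₂, ?_, ?_⟩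
    · push_cast
      rw [sq]
      exact mul_le_mul hn₁ hn₂ (Nat.cast_nonneg _) hK0.le
    intro e₀
    have hSpN : MeasurableSet X.hor.Sp := k7had2_inc_meas X hSp
    have hst : KsLab R.st := ks_lab_pair (fun A => measurable_fst (hR.m_par A)) hR.m_hist
    by_cases hex : ∃ z₀ ∈ X.SpN, X.eh (X.inc z₀) = e₀
    · obtain ⟨z₀, hz₀, hez₀⟩ := hex
      obtain ⟨L₁, hL₁, hz₁⟩ := ho₁ (R.st (X.inc z₀))
      obtain ⟨L₂, hL₂, hz₂⟩ := ho₂ (R.st (X.inc z₀))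
      refine ⟨L₁ ×ˢ L₂, ?_, ?_⟩
      · rw [Finset.card_product]
        exact Nat.mul_le_mul hL₁ hL₂
      · rintro ⟨e, cc⟩ hd
        unfold ksMass
        rw [Measure.restrict_apply' hSpN]
        have hd' : e ∉ L₁ ∨ cc ∉ L₂ := by
          by_contra hcon
          push Not at hcon
          exact hd (Finset.mem_product.2 hcon)
        have hkey : ∀ z, z ∈ ksPair X.hor.eh (fun z => (R.ent (X.r + s) (X.inc z), R.pt Mf rw (X.inc z))) ⁻¹' {(e₀, (e, cc))} ∩ X.hor.Sp →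
            X.inc z ∈ X.Sp ∧ R.st (X.inc z) = R.st (X.inc z₀) ∧ R.ent (X.r + s) (X.inc z) = e ∧ R.pt Mf rw (X.inc z) = cc := by
          rintro z ⟨hz1, hz2⟩
          have hz1' : (X.eh (X.inc z), (R.ent (X.r + s) (X.inc z), R.pt Mf rw (X.inc z))) = (e₀, (e, cc)) := hz1
          have h1 : X.eh (X.inc z) = e₀ := congrArg Prod.fst hz1'
          have h2 : R.ent (X.r + s) (X.inc z) = e := congrArg (fun x => x.2.1) hz1'
          have h3 : R.pt Mf rw (X.inc z) = cc := congrArg (fun x => x.2.2) hz1'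
          exact ⟨hz2, hT.chart.hst _ hz2 _ hz₀ (h1.trans hez₀.symm), h2, h3⟩
        rcases hd' with he | hc
        · set Z := X.Sp ∩ ksPair R.st (R.ent (X.r + s)) ⁻¹' {(R.st (X.inc z₀), e)} with hZ
          have hZ0 : R.lam0 Z = 0 := measure_mono_null Set.inter_subset_right (hz₁ e he)
          have hZm : MeasurableSet Z := hSp.inter (ks_lab_pair hst (hR.m_ent _) _)
          refine measure_mono_null ?_ (k7had2_null hR X hT.pos hT.sub Z hZm Set.inter_subset_left hZ0)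
          intro z hz
          obtain ⟨h1, h2, h3, -⟩ := hkey z hz
          exact ⟨h1, Prod.ext h2 h3⟩
        · set Z := X.Sp ∩ ksPair R.st (R.pt Mf rw) ⁻¹' {(R.st (X.inc z₀), cc)} with hZ
          have hZ0 : R.lam0 Z = 0 := measure_mono_null Set.inter_subset_right (hz₂ cc hc)
          have hZm : MeasurableSet Z := hSp.inter (ks_lab_pair hst (k7had2_pt_lab hR Mf rw) _)
          refine measure_mono_null ?_ (k7had2_null hR X hT.pos hT.sub Z hZm Set.inter_subset_left hZ0)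
          intro z hz
          obtain ⟨h1, h2, -, h3⟩ := hkey z hz
          exact ⟨h1, Prod.ext h2 h3⟩
    · refine ⟨∅, by simp, ?_⟩
      rintro d0 -
      unfold ksMass
      rw [Measure.restrict_apply' hSpN]
      have : ksPair X.hor.eh (fun z => (R.ent (X.r + s) (X.inc z), R.pt Mf rw (X.inc z))) ⁻¹' {(e₀, d0)} ∩ X.hor.Sp = ∅ := by
        ext z
        simp only [Set.mem_inter_iff, Set.mem_empty_iff_false, iff_false, not_and]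
        intro hz1 hz2
        exact hex ⟨z, hz2, congrArg Prod.fst hz1⟩
      rw [this, measure_empty]

/-- **L-252-S7b-HAD3**.   `X' := X.upd E ent entOf` has the same `Qr, κ, Z0, y0, y1, y2, eh`, `X'.Sp = X.up E ⊆ X.Sp`; `X'.SpN = E`; `X'.hor.lam = (νf × time).restrict E`, `X.hor.lam = (νf × time).restrict X.SpN`, `E ⊆ X.SpN`. -/
theorem k7_ad_upd {R : KsRef KbVer.two} {K : ℝ} (X : K7bDat R) (hT : K7cTan R X K) (E : Set (R.L × ℝ)) (hE : E ⊆ X.hor.Sp) (hm : MeasurableSet E)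
    (ent : R.Lab → Finset (ℝ × ℝ × ℝ × ℝ)) (entOf : ℝ → R.L × ℝ → ℝ × ℝ × ℝ × ℝ) :
    K7cTan R (X.upd E ent entOf) K ∧ (X.upd E ent entOf).Sp ⊆ X.Sp ∧ (X.upd E ent entOf).hor.Sp = E ∧
      (X.upd E ent entOf).hor.lam E = X.hor.lam E := by
  have hq : X.q ≠ 0 := (k7blk2_q_pos X).ne'
  have hback : ∀ p : R.L × ℝ, X.inc (p.1, (p.2 - X.t0) / X.q) = p := by
    intro p
    refine Prod.ext rfl ?_
    show X.t0 + X.q * ((p.2 - X.t0) / X.q) = p.2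
    field_simp
    ring
  have hfwd : ∀ z : R.L × ℝ, ((X.inc z).1, ((X.inc z).2 - X.t0) / X.q) = z := by
    intro z
    refine Prod.ext rfl ?_
    show (X.t0 + X.q * z.2 - X.t0) / X.q = z.2
    field_simp
    ring
  have hsub : X.up E ⊆ X.Sp := by
    intro p hp
    have h1 : (p.1, (p.2 - X.t0) / X.q) ∈ X.SpN := hE hp
    have h2 : X.inc (p.1, (p.2 - X.t0) / X.q) ∈ X.Sp := h1
    rwa [hback] at h2
  have hSp : (X.upd E ent entOf).hor.Sp = E := by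
    show X.inc ⁻¹' (X.up E) = E
    ext z
    show ((X.inc z).1, ((X.inc z).2 - X.t0) / X.q) ∈ E ↔ z ∈ E
    rw [hfwd]
  refine ⟨⟨hT.ok, hT.tilt, hT.pos, hsub.trans hT.sub, ?_⟩, hsub, hSp, ?_⟩
  · exact ⟨hT.chart.κlo, hT.chart.κhi, hT.chart.Z0, hT.chart.y0, hT.chart.y1, hT.chart.y2,
      fun p hp p' hp' h => hT.chart.hst p (hsub hp) p' (hsub hp') h⟩
  · have e1 : (X.upd E ent entOf).hor.lam = (X.νf.prod k7bTime).restrict E := by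
      show (X.νf.prod k7bTime).restrict (X.upd E ent entOf).hor.Sp = _
      rw [hSp]
    have e3 : ((X.νf.prod k7bTime).restrict E) E = ((X.νf.prod k7bTime).restrict X.SpN) E := by
      have hE' : E ⊆ X.SpN := hE
      rw [Measure.restrict_apply_self, Measure.restrict_apply hm, Set.inter_eq_left.2 hE']
    calc (X.upd E ent entOf).hor.lam E = ((X.νf.prod k7bTime).restrict E) E := congrFun (congrArg DFunLike.coe e1) E
      _ = ((X.νf.prod k7bTime).restrict X.SpN) E := e3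
      _ = X.hor.lam E := rfl

/-! ## 3. The chain in the `τ`-language -/

theorem k7_S1_fit_eps {R : KsRef KbVer.two} {A : R.Par} {E : Set (R.L × ℝ)} {Ds : Finset ℝ} {ξ K ε ε' : ℝ} {Q : R.Lab} {ρ0 ρ1 μ : ℝ} {Cn : Set (R.L × ℝ)} (hε : ε ≤ ε')
    (h : K7hFit R A E Ds ξ K ε Q ρ0 ρ1 μ Cn) : K7hFit R A E Ds ξ K ε' Q ρ0 ρ1 μ Cn :=
  { pos := h.pos
    meas := h.meas
    sub := h.sub
    mass := h.mass
    fit := fun p hp => (h.fit p hp).trans hε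
    row0 := h.row0
    row1 := h.row1
    mu := h.mu
    ceil := h.ceil }

theorem k7_S1_fitT_mono {p : KpPrm} {B r Mc U τ τ' N₁ N₁' : ℝ} {Ds : Finset ℝ} {R : KsRef KbVer.two} {A : R.Par} {E : Set (R.L × ℝ)} {Q : R.Lab} {ρ0 ρ1 μ : ℝ} {Cn : Set (R.L × ℝ)}
    (hτ : τ ≤ τ') (hN : N₁' ≤ N₁) (h : K7hFitT p B r Mc U τ N₁ Ds R A E Q ρ0 ρ1 μ Cn) : K7hFitT p B r Mc U τ' N₁' Ds R A E Q ρ0 ρ1 μ Cn := by
  have hN2 := h.ok.N_ge
  have hN1 : (1 : ℝ) ≤ R.N := by linarith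
  have hK : R.N ^ τ ≤ R.N ^ τ' := Real.rpow_le_rpow_of_exponent_le hN1 hτ
  exact
  { N := hN.trans h.N
    prm := h.prm
    ok := ks_ok_mono h.ok hK
    tilt := k7h_tilt_monoT h.tilt hK
    one := h.one
    mE := h.mE
    hE := h.hE
    hDs := h.hDs
    χ := h.χ
    dep := h.dep
    fit := k7_S1_fit_eps (Real.rpow_le_rpow_of_exponent_le hN1 (by linarith)) (k7h_fit_monoT (by linarith) hK h.fit) }

/-- **L-252-S7b-HS1T**.   `k7h_model_tau` (tolerance `τo`) gives `τ₁, N₁` and `F`; AD1 with `K = N^τ` gives `K7cTan`, `Res` with slack `C N^{Cτ} ≤ N^τo`; `τ := min τ₁ (τo/(2C))`.   (`K7hFitT` is monotone in `τ`: `ks_ok_mono`, the fields of `K7hFit` are monotone in the slack and in `ε`; or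
use `k7h_model` + `k7_ad_chart` directly at one scale.)   `sub` : `F ⊆ Cn ⊆ E`; `L0` : `rfl`; `dep` : `K7hFitT.dep`. -/
theorem k7_S1_tau (p : KpPrm) (hp : p.Ok) (hell : 0 < p.ell) (hkl : p.k = p.ell) (B r Mc : ℝ) (hB : p.ell * r < B) (hMc : B + 1 ≤ Mc) (G' : Finset ℝ)
    (hG' : ∀ s ∈ G', 0 ≤ s ∧ p.k * s ≤ B - p.ell * r) (Ds : Finset ℝ) (hDs : ∀ s ∈ G', r + s ∈ Ds) (M : ℝ × ℝ × ℝ) (hMχ : 0 ≤ M.2.1) (τo : ℝ) (hτo : 0 < τo) :
    ∃ τ : ℝ, 0 < τ ∧ ∃ N₁ : ℝ, ∀ (R : KsRef KbVer.two) (A : R.Par) (E : Set (R.L × ℝ)) (Q : R.Lab) (ρ0 ρ1 μ : ℝ) (Cn : Set (R.L × ℝ)),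
      K7hFitT p B r Mc (M.2.1 + 1) τ N₁ Ds R A E Q ρ0 ρ1 μ Cn → R.g Q ≤ R.N ^ τ * (|μ| * R.q Q) →
      ∃ X : K7bDat R, K7Mod0 R E r ((B - p.ell * r) / 2) G' M (R.N ^ τo) X := by
  obtain ⟨τ₁, hτ₁, N₁, h1⟩ := k7h_model_tau p hp hell hkl B r Mc hB hMc G' hG' Ds hDs M.1 M.2.1 M.2.2 hMχ τo hτo
  obtain ⟨C, hC⟩ := k7_ad_chart
  obtain ⟨τ₂, hτ₂, N₂, h2⟩ := k7h_tau_slack C τo hτo
  refine ⟨min τ₁ τ₂, lt_min hτ₁ hτ₂, max N₁ N₂, ?_⟩
  intro R A E Q ρ0 ρ1 μ Cn h hlam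
  have hN2 := h.ok.N_ge
  have hN1 : (1 : ℝ) ≤ R.N := by linarith
  have hN0 : 0 < R.N := by linarith
  have hK1 : R.N ^ (min τ₁ τ₂) ≤ R.N ^ τ₁ := Real.rpow_le_rpow_of_exponent_le hN1 (min_le_left _ _)
  have hK2 : R.N ^ (min τ₁ τ₂) ≤ R.N ^ τ₂ := Real.rpow_le_rpow_of_exponent_le hN1 (min_le_right _ _)
  have hq0 : 0 ≤ |μ| * R.q Q := by
    have h3 := h.fit.mu
    by_contra hn
    have h4 : 0 < R.g Q := Real.rpow_pos_of_pos hN0 _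
    have h5 : 0 < R.N ^ (min τ₁ τ₂) := Real.rpow_pos_of_pos hN0 _
    nlinarith
  obtain ⟨F, hF, mF, hm, hok⟩ := h1 R A E Q ρ0 ρ1 μ Cn (k7_S1_fitT_mono (min_le_left _ _) (le_max_left _ _) h)
    (hlam.trans (mul_le_mul_of_nonneg_right hK1 hq0))
  obtain ⟨hT, hRes⟩ := hC R A E Ds _ _ _ Q ρ0 ρ1 μ Cn F h.ok h.tilt h.one h.hE h.fit hlam hF mF hm
  have hsl : (C : ℝ) * (R.N ^ (min τ₁ τ₂)) ^ C ≤ R.N ^ τo := by
    refine le_trans ?_ (h2 R.N hN2 ((le_max_right _ _).trans h.N))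
    exact mul_le_mul_of_nonneg_left (pow_le_pow_left₀ (Real.rpow_nonneg hN0.le _) hK2 _) (Nat.cast_nonneg _)
  have hpos : 0 < (C : ℝ) * (R.N ^ (min τ₁ τ₂)) ^ C := lt_of_lt_of_le one_pos hT.ok.K_ge
  refine ⟨k7hX R A E Ds Q ρ0 ρ1 μ F, ?_⟩
  exact
  { dep := h.dep
    sub := fun z hz => (h.fit.sub (hF hz)).1
    tan := k7ccore_tan_mono hT hsl
    L0 := rfl
    ok0 := hok
    res := ⟨hRes.sub, hRes.meas, le_trans (ENNReal.ofReal_le_ofReal (one_div_le_one_div_of_le hpos hsl)) hRes.mass⟩ }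

/-- the dyadic rounding is not smaller -/
theorem k7st_dy_ge {x : ℝ} (hx : 0 < x) : x ≤ kbDy x := by
  show x ≤ (2 : ℝ) ^ (⌈Real.logb 2 x⌉ : ℤ)
  rw [← Real.rpow_intCast]
  calc x = (2 : ℝ) ^ Real.logb 2 x := (Real.rpow_logb (by norm_num) (by norm_num) hx).symm
    _ ≤ (2 : ℝ) ^ ((⌈Real.logb 2 x⌉ : ℤ) : ℝ) := Real.rpow_le_rpow_of_exponent_le (by norm_num) (Int.le_ceil _)

/-- the dyadic rounding of a number `≤ 1` is `≤ 1` -/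
theorem k7st_dy_le_one {x : ℝ} (hx : 0 < x) (hx1 : x ≤ 1) : kbDy x ≤ 1 := by
  show (2 : ℝ) ^ (⌈Real.logb 2 x⌉ : ℤ) ≤ 1
  refine zpow_le_one_of_nonpos₀ (by norm_num) ?_
  rw [Int.ceil_le]
  simpa using Real.logb_nonpos (by norm_num : (1 : ℝ) < 2) hx.le hx1

/-- a negative power of the scale -/
theorem k7st_npow {N x : ℝ} (hN : 1 ≤ N) (hx : 0 ≤ x) : 0 < N ^ (-x) ∧ N ^ (-x) ≤ 1 :=
  ⟨Real.rpow_pos_of_pos (by linarith) _, Real.rpow_le_one_of_one_le_of_nonpos hN (by linarith)⟩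

/-- the parameters of the horizontal record are well formed -/
theorem k7st_par_wf {R : KsRef KbVer.two} {p : KpPrm} (hp : p.Ok) (hprm : R.prm = p) (hN : 1 ≤ R.N) {e0 : ℝ} (he0 : 0 < e0) {G' : Finset ℝ}
    (hG' : ∀ s ∈ G', 0 ≤ s) {M : ℝ × ℝ × ℝ} (hM1 : 0 ≤ M.1) (hM2 : 0 ≤ M.2.1) (hM3 : 0 ≤ M.2.2) : (K7bDat.par R e0 G' M.1 M.2.1 M.2.2).WF where
  N1 := hN
  k0 := by show 0 < R.prm.k; rw [hprm]; exact hp.k_pos
  k1 := by show R.prm.k ≤ 1; rw [hprm]; exact hp.k_le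
  d0 := by show 0 ≤ R.prm.d; rw [hprm]; exact hp.d_nonneg
  d1 := by show R.prm.d < 1; rw [hprm]; exact hp.d_lt
  S0 := by show 0 < R.prm.S; rw [hprm]; exact hp.S_pos
  e0 := he0
  ξ0 := ksl17_dy_pos _
  ξ1 := k7st_dy_le_one (k7st_npow hN hM1).1 (k7st_npow hN hM1).2
  χ0 := ksl17_dy_pos _
  χ1 := k7st_dy_le_one (k7st_npow hN hM2).1 (k7st_npow hN hM2).2
  ϱ0 := ksl17_dy_pos _
  ϱ1 := k7st_dy_le_one (k7st_npow hN hM3).1 (k7st_npow hN hM3).2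
  G0 := hG'

/-- `C (N^τ)^C N^(-x) ≤ N^(-y)` -/
theorem k7st_pow_le {N : ℝ} (hN : 1 ≤ N) {C : ℕ} (hC : (C : ℝ) ≤ N) {τ x y : ℝ} (h : 1 + C * τ - x ≤ -y) :
    (C : ℝ) * (N ^ τ) ^ C * N ^ (-x) ≤ N ^ (-y) := by
  have hN0 : 0 < N := by linarith
  have e1 : (N ^ τ) ^ C = N ^ (C * τ) := by
    rw [← Real.rpow_natCast, ← Real.rpow_mul hN0.le, mul_comm]
  calc (C : ℝ) * (N ^ τ) ^ C * N ^ (-x) ≤ N ^ (1 : ℝ) * N ^ (C * τ) * N ^ (-x) := by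
        rw [e1, Real.rpow_one]
        have h1 : 0 ≤ N ^ (C * τ) := Real.rpow_nonneg hN0.le _
        have h2 : 0 ≤ N ^ (-x) := Real.rpow_nonneg hN0.le _
        exact mul_le_mul_of_nonneg_right (mul_le_mul_of_nonneg_right hC h1) h2
    _ = N ^ (1 + C * τ - x) := by
        rw [← Real.rpow_add hN0, ← Real.rpow_add hN0]; congr 1
    _ ≤ N ^ (-y) := Real.rpow_le_rpow_of_exponent_le hN h

/-- a constant is a small power of a large scale -/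
theorem k7st_const_le {N c δ : ℝ} (hc : 0 ≤ c) (hδ : 0 < δ) (hN : c ^ (1 / δ) ≤ N) : c ≤ N ^ δ := by
  calc c = (c ^ (1 / δ)) ^ δ := by
        rw [← Real.rpow_mul hc, one_div, inv_mul_cancel₀ hδ.ne', Real.rpow_one]
    _ ≤ N ^ δ := Real.rpow_le_rpow (Real.rpow_nonneg hc _) hN hδ.le

/-- `c N^x ≤ N^y` when `c ≤ N^δ`, `δ + x ≤ y` -/
theorem k7s2_cx {N c δ x y : ℝ} (hN : 1 ≤ N) (hc : c ≤ N ^ δ) (h : δ + x ≤ y) : c * N ^ x ≤ N ^ y := by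
  have hN0 : 0 < N := by linarith
  calc c * N ^ x ≤ N ^ δ * N ^ x := mul_le_mul_of_nonneg_right hc (Real.rpow_nonneg hN0.le _)
    _ = N ^ (δ + x) := (Real.rpow_add hN0 _ _).symm
    _ ≤ N ^ y := Real.rpow_le_rpow_of_exponent_le hN h

/-- `(2 N^x)^n = 2^n N^(n x)` -/
theorem k7s2_pw {N : ℝ} (hN : 0 < N) (x : ℝ) (n : ℕ) : (2 * N ^ x) ^ n = 2 ^ n * N ^ ((n : ℝ) * x) := by
  rw [mul_pow, ← Real.rpow_natCast (N ^ x), ← Real.rpow_mul hN.le, mul_comm x]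

/-- all the numerical conditions of `k7f_S2` in the `τ`-language -/
theorem k7s2_num (p₂ : ℕ) (C₂ : ℝ) (hC₂ : 1 ≤ C₂) (S e0 Mχ τo : ℝ) (hS : 0 < S) (he0 : 0 < e0) (hMχ : 0 < Mχ) (hτo : 0 < τo) (n : ℕ) :
    ∃ τ τρ N₁ : ℝ, 0 < τ ∧ 0 < τρ ∧ 2 ≤ N₁ ∧ ∀ N χ : ℝ, N₁ ≤ N → 0 < χ → χ < 2 * N ^ (-Mχ) →
      (n : ℝ) ≤ (N ^ τ) ^ 2 ∧ N ^ (-τρ) + 2 * χ ≤ 1 ∧
      C₂ * ((N ^ τ) ^ 2 / (1 / (2 * N ^ τ))) ^ p₂ * (N ^ (-τρ) + 2 * χ) ^ S ≤ 1 ∧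
      C₂ * ((N ^ τ) ^ 2 / (1 / (2 * N ^ τ) * N ^ (-τρ))) ^ p₂ *
        (N ^ (-e0) / N ^ (-(e0 / 2)) + 6 * (N ^ τ) ^ 3 * N ^ (-(2 * e0 + 1)) / (N ^ (-(e0 / 2))) ^ 2) ≤ 1 ∧
      C₂ * ((N ^ τ) ^ 2 / (1 / (2 * N ^ τ) * N ^ (-τρ))) ^ p₂ ≤ N ^ τo ∧ 2 * N ^ τ ≤ N ^ τo := by
  obtain ⟨P, hP⟩ : ∃ P : ℝ, P = (p₂ : ℝ) + 1 := ⟨_, rfl⟩
  have hp0 : (0 : ℝ) ≤ p₂ := Nat.cast_nonneg _
  have hP1 : 1 ≤ P := by rw [hP]; linarith
  have hP0 : 0 < P := by linarith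
  have hpP : (p₂ : ℝ) ≤ P := by rw [hP]; linarith
  obtain ⟨τρ, hτρ⟩ : ∃ x : ℝ, x = min (τo / (8 * P)) (min Mχ (e0 / (8 * P))) := ⟨_, rfl⟩
  have hτρ0 : 0 < τρ := by rw [hτρ]; exact lt_min (by positivity) (lt_min hMχ (by positivity))
  have r1 : P * τρ ≤ τo / 8 := by
    have h1 : τρ ≤ τo / (8 * P) := by rw [hτρ]; exact min_le_left _ _
    rw [le_div_iff₀ (by positivity)] at h1
    linarith
  have r2 : τρ ≤ Mχ := by rw [hτρ]; exact (min_le_right _ _).trans (min_le_left _ _)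
  have r3 : P * τρ ≤ e0 / 8 := by
    have h1 : τρ ≤ e0 / (8 * P) := by rw [hτρ]; exact (min_le_right _ _).trans (min_le_right _ _)
    rw [le_div_iff₀ (by positivity)] at h1
    linarith
  obtain ⟨τ, hτ⟩ : ∃ x : ℝ, x = min (τρ * S / (8 * P)) (min (τo / (8 * P)) (e0 / (64 * P))) := ⟨_, rfl⟩
  have hτ0 : 0 < τ := by rw [hτ]; exact lt_min (by positivity) (lt_min (by positivity) (by positivity))
  have t1 : P * τ ≤ τρ * S / 8 := by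
    have h1 : τ ≤ τρ * S / (8 * P) := by rw [hτ]; exact min_le_left _ _
    rw [le_div_iff₀ (by positivity)] at h1
    linarith
  have t2 : P * τ ≤ τo / 8 := by
    have h1 : τ ≤ τo / (8 * P) := by rw [hτ]; exact (min_le_right _ _).trans (min_le_left _ _)
    rw [le_div_iff₀ (by positivity)] at h1
    linarith
  have t3 : P * τ ≤ e0 / 64 := by
    have h1 : τ ≤ e0 / (64 * P) := by rw [hτ]; exact (min_le_right _ _).trans (min_le_right _ _)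
    rw [le_div_iff₀ (by positivity)] at h1
    linarith
  have t4 : τ ≤ P * τ := by nlinarith
  have pτ : (p₂ : ℝ) * τ ≤ P * τ := mul_le_mul_of_nonneg_right hpP hτ0.le
  have pρ : (p₂ : ℝ) * τρ ≤ P * τρ := mul_le_mul_of_nonneg_right hpP hτρ0.le
  obtain ⟨c, hc⟩ : ∃ c : ℝ, c = (n : ℝ) + 5 + 7 * C₂ * 2 ^ p₂ * 5 ^ S := ⟨_, rfl⟩
  obtain ⟨δ, hδ⟩ : ∃ δ : ℝ, δ = min (2 * τ) (min τρ (min (τρ * S / 2) (min (e0 / 4) (τo / 2)))) := ⟨_, rfl⟩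
  have hδ0 : 0 < δ := by
    rw [hδ]
    exact lt_min (by positivity) (lt_min hτρ0 (lt_min (by positivity) (lt_min (by positivity) (by positivity))))
  have d1 : δ ≤ 2 * τ := by rw [hδ]; exact min_le_left _ _
  have d2 : δ ≤ τρ := by rw [hδ]; exact (min_le_right _ _).trans (min_le_left _ _)
  have d3 : δ ≤ τρ * S / 2 := by rw [hδ]; exact (min_le_right _ _).trans ((min_le_right _ _).trans (min_le_left _ _))
  have d4 : δ ≤ e0 / 4 := by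
    rw [hδ]; exact (min_le_right _ _).trans ((min_le_right _ _).trans ((min_le_right _ _).trans (min_le_left _ _)))
  have d5 : δ ≤ τo / 2 := by
    rw [hδ]; exact (min_le_right _ _).trans ((min_le_right _ _).trans ((min_le_right _ _).trans (min_le_right _ _)))
  have h5S : (1 : ℝ) ≤ 5 ^ S := Real.one_le_rpow (by norm_num) hS.le
  have h2p : (1 : ℝ) ≤ 2 ^ p₂ := one_le_pow₀ (by norm_num)
  have hn0 : (0 : ℝ) ≤ n := Nat.cast_nonneg _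
  have hB : 1 ≤ C₂ * 2 ^ p₂ := by nlinarith
  have hB5 : C₂ * 2 ^ p₂ ≤ C₂ * 2 ^ p₂ * 5 ^ S := by nlinarith
  have c1 : (n : ℝ) ≤ c := by rw [hc]; linarith
  have c2 : 5 ≤ c := by rw [hc]; linarith
  have c3 : C₂ * 2 ^ p₂ * 5 ^ S ≤ c := by rw [hc]; linarith
  have c4 : 7 * C₂ * 2 ^ p₂ ≤ c := by rw [hc]; linarith
  have c5 : C₂ * 2 ^ p₂ ≤ c := by rw [hc]; linarith
  have hc0 : 0 ≤ c := by linarith
  refine ⟨τ, τρ, max 2 (c ^ (1 / δ)), hτ0, hτρ0, le_max_left _ _, ?_⟩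
  intro N χ hN hχ0 hχ
  have hN2 : 2 ≤ N := (le_max_left _ _).trans hN
  have hN1 : 1 ≤ N := by linarith
  have hN0 : 0 < N := by linarith
  have hcN : c ≤ N ^ δ := k7st_const_le hc0 hδ0 ((le_max_right _ _).trans hN)
  have hcN' : ∀ c' δ' : ℝ, c' ≤ c → δ ≤ δ' → c' ≤ N ^ δ' := fun c' δ' h1 h2 =>
    h1.trans (hcN.trans (Real.rpow_le_rpow_of_exponent_le hN1 h2))
  have ha0 : 0 < N ^ τ := Real.rpow_pos_of_pos hN0 _
  have e2 : (N ^ τ) ^ 2 = N ^ (2 * τ) := by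
    rw [← Real.rpow_natCast (N ^ τ), ← Real.rpow_mul hN0.le, mul_comm τ]; norm_num
  have e3 : (N ^ τ) ^ 3 = N ^ (3 * τ) := by
    rw [← Real.rpow_natCast (N ^ τ), ← Real.rpow_mul hN0.le, mul_comm τ]; norm_num
  have eA : (N ^ τ) ^ 2 / (1 / (2 * N ^ τ)) = 2 * N ^ (3 * τ) := by
    rw [← e3]; field_simp
  have eB : (N ^ τ) ^ 2 / (1 / (2 * N ^ τ) * N ^ (-τρ)) = 2 * N ^ (3 * τ + τρ) := by
    rw [Real.rpow_add hN0, ← e3, Real.rpow_neg hN0.le]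
    have : 0 < N ^ τρ := Real.rpow_pos_of_pos hN0 _
    field_simp
  have hρ5 : N ^ (-τρ) + 2 * χ ≤ 5 * N ^ (-τρ) := by
    have : N ^ (-Mχ) ≤ N ^ (-τρ) := Real.rpow_le_rpow_of_exponent_le hN1 (by linarith)
    linarith
  have hρpos : 0 < N ^ (-τρ) := Real.rpow_pos_of_pos hN0 _
  have one : N ^ (0 : ℝ) = 1 := Real.rpow_zero N
  refine ⟨?_, ?_, ?_, ?_, ?_, ?_⟩
  · rw [e2]
    exact hcN' _ _ c1 d1
  · refine hρ5.trans ?_
    rw [← one]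
    exact k7s2_cx hN1 (hcN' 5 τρ c2 d2) (by linarith)
  · rw [eA, k7s2_pw hN0]
    have h1 : (N ^ (-τρ) + 2 * χ) ^ S ≤ 5 ^ S * N ^ (-τρ * S) := by
      calc (N ^ (-τρ) + 2 * χ) ^ S ≤ (5 * N ^ (-τρ)) ^ S := Real.rpow_le_rpow (by positivity) hρ5 hS.le
        _ = 5 ^ S * N ^ (-τρ * S) := by rw [Real.mul_rpow (by norm_num) hρpos.le, ← Real.rpow_mul hN0.le]
    have hx0 : 0 < N ^ ((p₂ : ℝ) * (3 * τ)) := Real.rpow_pos_of_pos hN0 _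
    calc C₂ * (2 ^ p₂ * N ^ ((p₂ : ℝ) * (3 * τ))) * (N ^ (-τρ) + 2 * χ) ^ S
        ≤ C₂ * (2 ^ p₂ * N ^ ((p₂ : ℝ) * (3 * τ))) * (5 ^ S * N ^ (-τρ * S)) := mul_le_mul_of_nonneg_left h1 (by positivity)
      _ = (C₂ * 2 ^ p₂ * 5 ^ S) * N ^ ((p₂ : ℝ) * (3 * τ) + -τρ * S) := by rw [Real.rpow_add hN0]; ring
      _ ≤ N ^ (0 : ℝ) := k7s2_cx hN1 (hcN' _ (τρ * S / 2) c3 d3) (by linarith)
      _ = 1 := one
  · rw [eB, k7s2_pw hN0, e3]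
    have s1 : N ^ (-e0) / N ^ (-(e0 / 2)) = N ^ (-(e0 / 2)) := by
      rw [← Real.rpow_sub hN0]; congr 1; ring
    have s2 : 6 * N ^ (3 * τ) * N ^ (-(2 * e0 + 1)) / (N ^ (-(e0 / 2))) ^ 2 = 6 * N ^ (3 * τ - e0 - 1) := by
      have : (N ^ (-(e0 / 2))) ^ 2 = N ^ (-e0) := by
        rw [← Real.rpow_natCast (N ^ (-(e0 / 2))), ← Real.rpow_mul hN0.le]; congr 1; push_cast; ring
      rw [this, mul_assoc, ← Real.rpow_add hN0, mul_div_assoc, ← Real.rpow_sub hN0]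
      congr 2; ring
    have s3 : N ^ (-(e0 / 2)) + 6 * N ^ (3 * τ - e0 - 1) ≤ 7 * N ^ (3 * τ - e0 / 2) := by
      have a1 : N ^ (-(e0 / 2)) ≤ N ^ (3 * τ - e0 / 2) := Real.rpow_le_rpow_of_exponent_le hN1 (by linarith)
      have a2 : N ^ (3 * τ - e0 - 1) ≤ N ^ (3 * τ - e0 / 2) := Real.rpow_le_rpow_of_exponent_le hN1 (by linarith)
      linarith
    rw [s1, s2]
    have hx0 : 0 < N ^ ((p₂ : ℝ) * (3 * τ + τρ)) := Real.rpow_pos_of_pos hN0 _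
    calc C₂ * (2 ^ p₂ * N ^ ((p₂ : ℝ) * (3 * τ + τρ))) * (N ^ (-(e0 / 2)) + 6 * N ^ (3 * τ - e0 - 1))
        ≤ C₂ * (2 ^ p₂ * N ^ ((p₂ : ℝ) * (3 * τ + τρ))) * (7 * N ^ (3 * τ - e0 / 2)) := mul_le_mul_of_nonneg_left s3 (by positivity)
      _ = (7 * C₂ * 2 ^ p₂) * N ^ ((p₂ : ℝ) * (3 * τ + τρ) + (3 * τ - e0 / 2)) := by rw [Real.rpow_add hN0]; ring
      _ ≤ N ^ (0 : ℝ) := k7s2_cx hN1 (hcN' _ (e0 / 4) c4 d4) (by linarith)
      _ = 1 := one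
  · rw [eB, k7s2_pw hN0]
    calc C₂ * (2 ^ p₂ * N ^ ((p₂ : ℝ) * (3 * τ + τρ))) = (C₂ * 2 ^ p₂) * N ^ ((p₂ : ℝ) * (3 * τ + τρ)) := by ring
      _ ≤ N ^ τo := k7s2_cx hN1 (hcN' _ (τo / 2) c5 d5) (by linarith)
  · exact k7s2_cx hN1 (hcN' 2 (τo / 2) (by linarith) d5) (by linarith)

/-- **L-252-S7b-HS2T** = `a06:horizontal-affine-approximation` in the `τ`-language.
PLAN.  `(p₂, C₂)` from `k7f_S2`.   `τρ := min (τo/(8 p₂)) (min (M.2.1/2) (e0/(8 p₂)))`, `ρ := N^(-τρ)`; `Mf := (k + ℓ) r + 2 e0 + 1`, `rw := 0`; lists `G := ⟨{r + s | s ∈ G'} ∪ {r, 1 + ..}, {0}, {Mf}, 1, 0⟩` (make `G.Ok`: `deep` needs a depth `≥ 1`).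
`K := N^(2τ)` (AD2 has slack `K²`), `ε := 1/(2 N^τ)`, `hm := N^(-e0/2)` (`hm ≤ c.h s = N^(-k s)` by `hG'`), `ξf := 6 K³ N^(-Mf)/b_r = 6 K³ N^(-2 e0 - 1)`.
`hsep` : `C₂ (K/ε)^p₂ (ρ + 2χ)^S ≤ C₂ N^(3 p₂ τ) 2^p₂ (5 N^(-τρ))^S ≤ 1` for `τ ≤ τρ S/(6 p₂)`, `N ≥ N₁` (`χ = kbDy (N^(-M.2.1)) < 2 N^(-M.2.1) ≤ 2 N^(-τρ)`).
`hsm` : `C₂ (K/(ε ρ))^p₂ (N^(-e0/2) + 6 K³ N^(-e0-1)) ≤ 1` since `p₂ (3τ + τρ) + 6 τ < e0/2`.   Output slack `C₂ (K/(ε ρ))^p₂ ≤ N^τo`.   `#G' ≤ N^τ` for `N ≥ N₁`.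
`X' := X.upd E₁ ent entOf`; AD3 : `K7cTan`, `Sp' ⊆ Sp ⊆ E`; mass `lam E₁ ≥ lam Sp - ε ≥ 1/(2 N^τ)`.   `c.WF` : `p.Ok`, `he0`, `kbDy x ≤ 1` for `x ≤ 1`, `ksl17_dy_pos`. -/
theorem k7_S2_tau (p : KpPrm) (hp : p.Ok) (r e0 : ℝ) (hr : 0 < r) (he0 : 0 < e0) (G' : Finset ℝ) (hG' : ∀ s ∈ G', 0 ≤ s ∧ 2 * p.k * s ≤ e0)
    (M : ℝ × ℝ × ℝ) (hM1 : 0 ≤ M.1) (hM2 : 0 < M.2.1) (hM3 : 0 ≤ M.2.2) (τo : ℝ) (hτo : 0 < τo) :
    ∃ G : KsReq, G.Ok ∧ ∃ τ : ℝ, 0 < τ ∧ ∃ N₁ : ℝ, ∀ (R : KsRef KbVer.two) (E : Set (R.L × ℝ)) (X : K7bDat R), N₁ ≤ R.N → R.Sup p G →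
      K7Mod0 R E r e0 G' M (R.N ^ τ) X → ∃ X' : K7bDat R, K7ModE R E r e0 G' M (R.N ^ τo) X' := by
  obtain ⟨p₂, C₂, hC₂, hS2⟩ := k7f_S2
  obtain ⟨τ, τρ, N₁, hτ, hτρ, hN₁, hnum⟩ := k7s2_num p₂ C₂ hC₂ p.S e0 M.2.1 τo hp.S_pos he0 hM2 hτo G'.card
  obtain ⟨Mf, hMf⟩ : ∃ x : ℝ, x = (p.k + p.ell) * r + (2 * e0 + 1) := ⟨_, rfl⟩
  have hkl : 0 ≤ p.k + p.ell := by linarith [hp.k_pos, hp.ell_nonneg]
  have hMf0 : 0 ≤ Mf := by
    rw [hMf]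
    have := mul_nonneg hkl hr.le
    linarith
  refine ⟨⟨G'.image (fun s => r + s) ∪ {r + 1}, {0}, {Mf}, 1, 0⟩, ?_, τ, hτ, N₁, ?_⟩
  · refine ⟨⟨r + 1, Finset.mem_union_right _ (Finset.mem_singleton_self _)⟩, ?_, ?_, ?_, le_rfl, ?_, le_rfl⟩
    · intro s hs
      rcases Finset.mem_union.1 hs with h | h
      · obtain ⟨s', hs', rfl⟩ := Finset.mem_image.1 h
        linarith [(hG' s' hs').1]
      · rw [Finset.mem_singleton.1 h]; linarith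
    · intro w hw
      rw [Finset.mem_singleton.1 hw]
    · intro m hm
      rw [Finset.mem_singleton.1 hm]; exact hMf0
    · intro w hw
      rw [Finset.mem_singleton.1 hw]
      exact ⟨r + 1, Finset.mem_union_right _ (Finset.mem_singleton_self _), by linarith⟩
  intro R E X hN hSup hX
  have hN2 : 2 ≤ R.N := hN₁.trans hN
  have hN1 : 1 ≤ R.N := by linarith
  have hN0 : 0 < R.N := by linarith
  have hprm : R.prm = p := hSup.prm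
  have hWF := k7st_par_wf hp hprm hN1 he0 (fun s hs => (hG' s hs).1) hM1 hM2.le hM3
  have hXr : X.r = r := hX.dep
  have hK1 : 1 ≤ R.N ^ τ := hX.tan.ok.K_ge
  have hK0 : 0 < R.N ^ τ := by linarith
  have hKK : R.N ^ τ ≤ (R.N ^ τ) ^ 2 := by nlinarith
  have hχ0 : 0 < (K7bDat.par R e0 G' M.1 M.2.1 M.2.2).χ := hWF.χ0
  have hχ : (K7bDat.par R e0 G' M.1 M.2.1 M.2.2).χ < 2 * R.N ^ (-M.2.1) := ksl17_dy_lt (Real.rpow_pos_of_pos hN0 _)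
  obtain ⟨n1, n2, n3, n4, n5, n6⟩ := hnum R.N _ hN hχ0 hχ
  have hSpm : MeasurableSet X.Sp := by
    rw [← k7ad1_up X]
    exact k7blk3_up_meas X hX.ok0.mSp
  have hdep : ∀ s ∈ (K7bDat.par R e0 G' M.1 M.2.1 M.2.2).G, X.r + s ∈ R.depths := by
    intro s hs
    rw [hXr]
    exact hSup.depths (Finset.mem_union_left _ (Finset.mem_image.2 ⟨s, hs, rfl⟩))
  have hlk := k7_ad_link X hX.tan hSpm (K7bDat.par R e0 G' M.1 M.2.1 M.2.2) rfl hdep Mf 0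
    (hSup.meshes (Finset.mem_singleton_self _)) (hSup.widths (Finset.mem_singleton_self _))
  have hξ : 6 * (R.N ^ τ) ^ 3 * R.a Mf / R.b X.Qr = 6 * (R.N ^ τ) ^ 3 * R.N ^ (-(2 * e0 + 1)) := by
    have hb : R.b X.Qr = R.N ^ (-((p.k + p.ell) * r)) := by
      show R.N ^ (-((R.prm.k + R.prm.ell) * R.dep X.Qr)) = _
      rw [hprm, hX.dep]
    rw [hb, mul_div_assoc]
    show _ * (R.N ^ (-Mf) / _) = _
    rw [← Real.rpow_sub hN0, hMf]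
    congr 2
    ring
  rw [hξ] at hlk
  have hhm : ∀ s ∈ (K7bDat.par R e0 G' M.1 M.2.1 M.2.2).G, R.N ^ (-(e0 / 2)) ≤ (K7bDat.par R e0 G' M.1 M.2.1 M.2.2).h s := by
    intro s hs
    show _ ≤ R.N ^ (-(R.prm.k * s))
    rw [hprm]
    exact Real.rpow_le_rpow_of_exponent_le hN1 (by linarith [(hG' s hs).2])
  have hsep : C₂ * ((R.N ^ τ) ^ 2 / (1 / (2 * R.N ^ τ))) ^ p₂ *
      (R.N ^ (-τρ) + 2 * (K7bDat.par R e0 G' M.1 M.2.1 M.2.2).χ) ^ (K7bDat.par R e0 G' M.1 M.2.1 M.2.2).S ≤ 1 := by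
    show _ * _ ^ R.prm.S ≤ 1
    rw [hprm]
    exact n3
  obtain ⟨E₁, ent, entOf, hE₁, hE₁m, hloss, hOkE⟩ := hS2 R X (K7bDat.par R e0 G' M.1 M.2.1 M.2.2) ((R.N ^ τ) ^ 2) (1 / (2 * R.N ^ τ)) (R.N ^ (-τρ))
    (6 * (R.N ^ τ) ^ 3 * R.N ^ (-(2 * e0 + 1))) (R.N ^ (-(e0 / 2))) _ (R.pt Mf 0) hWF (ks_ok_mono hX.tan.ok hKK) hX.L0
    (k7f_ok0_mono hWF hK1 hKK hX.ok0) hlk n1 (by positivity) (by rw [div_le_one (by positivity)]; linarith) (Real.rpow_pos_of_pos hN0 _) n2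
    (Real.rpow_pos_of_pos hN0 _) hhm hsep n4
  obtain ⟨hT', hSp', hSpE, hlamE⟩ := k7_ad_upd X hX.tan E₁ hE₁ hE₁m ent entOf
  have hKo : R.N ^ τ ≤ R.N ^ τo := by linarith
  have hpos : 0 < C₂ * ((R.N ^ τ) ^ 2 / (1 / (2 * R.N ^ τ) * R.N ^ (-τρ))) ^ p₂ := by
    have : 0 < R.N ^ (-τρ) := Real.rpow_pos_of_pos hN0 _
    positivity
  refine ⟨X.upd E₁ ent entOf, hX.dep, hSp'.trans hX.sub, k7ccore_tan_mono hT' hKo, K7bHor.OkE.mono hWF hpos n5 hOkE, subset_rfl, ?_, ?_⟩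
  · rw [hSpE]; exact hE₁m
  · rw [hSpE, hlamE]
    have h1 : ENNReal.ofReal (1 / R.N ^ τ) ≤ X.hor.lam X.hor.Sp := hX.res.mass
    have h2 : X.hor.lam X.hor.Sp ≤ X.hor.lam E₁ + X.hor.lam (X.hor.Sp \ E₁) := by
      calc X.hor.lam X.hor.Sp ≤ X.hor.lam (E₁ ∪ X.hor.Sp \ E₁) := measure_mono (by intro z hz; by_cases h : z ∈ E₁; exacts [Or.inl h, Or.inr ⟨hz, h⟩])
        _ ≤ _ := measure_union_le _ _
    have h3 : ENNReal.ofReal (1 / R.N ^ τ) = ENNReal.ofReal (1 / (2 * R.N ^ τ)) + ENNReal.ofReal (1 / (2 * R.N ^ τ)) := by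
      rw [← ENNReal.ofReal_add (by positivity) (by positivity)]
      congr 1
      field_simp
      norm_num
    have h4 : ENNReal.ofReal (1 / (2 * R.N ^ τ)) + ENNReal.ofReal (1 / (2 * R.N ^ τ)) ≤ X.hor.lam E₁ + ENNReal.ofReal (1 / (2 * R.N ^ τ)) := by
      rw [← h3]
      exact h1.trans (h2.trans (add_le_add_right hloss _))
    have h5 : ENNReal.ofReal (1 / (2 * R.N ^ τ)) ≤ X.hor.lam E₁ := (ENNReal.add_le_add_iff_right ENNReal.ofReal_ne_top).1 h4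
    exact (ENNReal.ofReal_le_ofReal (one_div_le_one_div_of_le (by positivity) n6)).trans h5

/-- **L-252-S7b-HS3T** = `lem:horizontal-affine` in the `τ`-language.
PLAN.  `C` from `k7c_core`.   `τ := τo/(2 C + 2)` (also `τ ≤ 1`); `Rd := r + M.2.2 + 2 C + 2`, `Mf := M.2.2 + M.1 + (k + ℓ) Rd + 2 C + 2`, `rw := r`;
widths `:= {r + j τ | j ≤ ⌈M.2.2/τ⌉}` (every `x ∈ [r, r + M.2.2]` has `r' ≤ x ≤ r' + τ`, `N^(x - r') ≤ N^τ = K`); depths `:= {r, Rd, r + M.2.2 + τ + 2 ..}` (`G.Ok.deep`), meshes `:= {Mf}`.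
`C K^C a_{Rd} ≤ ϱ a_r` : `ϱ ≥ N^(-M.2.2)`, `C N^(Cτ) N^(-Rd) ≤ N^(-M.2.2 - r)` for `N ≥ max 2 C`.   Same for `Mf` (`ξ ≥ N^(-M.1)`).   `X.r = r` (`dep`).   Output: `K7Model` with `X'`: `dep` (`X'.Qr = X.Qr`), `νQ ≠ 0`, `X'.Sp ⊆ X.Sp ⊆ E ∩ inc`. -/
theorem k7_S3_tau (p : KpPrm) (hp : p.Ok) (r e0 : ℝ) (hr : 0 < r) (he0 : 0 < e0) (G' : Finset ℝ) (h0 : (0 : ℝ) ∈ G') (hG' : ∀ s ∈ G', 0 ≤ s)
    (M : ℝ × ℝ × ℝ) (hM1 : 0 ≤ M.1) (hM2 : 0 ≤ M.2.1) (hM3 : 0 ≤ M.2.2) (τo : ℝ) (hτo : 0 < τo) :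
    ∃ G : KsReq, G.Ok ∧ ∃ τ : ℝ, 0 < τ ∧ ∃ N₁ : ℝ, ∀ (R : KsRef KbVer.two) (E : Set (R.L × ℝ)) (X : K7bDat R), N₁ ≤ R.N → R.Sup p G →
      K7ModE R E r e0 G' M (R.N ^ τ) X → K7Model R E r e0 G' M (R.N ^ τo) := by
  obtain ⟨C, hC1, hcore⟩ := k7c_core_pos
  have hC0 : (0 : ℝ) ≤ C := Nat.cast_nonneg _
  have hC1' : (1 : ℝ) ≤ C := by exact_mod_cast hC1
  obtain ⟨τ, hτdef⟩ : ∃ τ, τ = min (τo / (2 * (C : ℝ) + 2)) 1 := ⟨_, rfl⟩
  have hτ0 : 0 < τ := by rw [hτdef]; exact lt_min (by positivity) one_pos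
  have hτ1 : τ ≤ 1 := by rw [hτdef]; exact min_le_right _ _
  have hτC : (C : ℝ) * τ ≤ τo / 2 := by
    have h1 : τ ≤ τo / (2 * (C : ℝ) + 2) := by rw [hτdef]; exact min_le_left _ _
    have h2 : τ * (2 * (C : ℝ) + 2) ≤ τo := by rwa [le_div_iff₀ (by positivity)] at h1
    nlinarith
  obtain ⟨Rd, hRd⟩ : ∃ x, x = r + M.2.2 + 2 * (C : ℝ) + 2 := ⟨_, rfl⟩
  obtain ⟨Mf, hMf⟩ : ∃ x, x = M.2.2 + M.1 + (p.k + p.ell) * Rd + 2 * (C : ℝ) + 2 := ⟨_, rfl⟩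
  obtain ⟨n, hn⟩ : ∃ n : ℕ, n = ⌈M.2.2 / τ⌉₊ := ⟨_, rfl⟩
  have hRd0 : 0 < Rd := by rw [hRd]; linarith
  have hkl : 0 ≤ p.k + p.ell := by linarith [hp.k_pos, hp.ell_nonneg]
  have hMf0 : 0 ≤ Mf := by
    rw [hMf]
    have := mul_nonneg hkl hRd0.le
    linarith
  have hnτ : (n : ℝ) * τ ≤ M.2.2 + 1 := by
    have h1 : (n : ℝ) < M.2.2 / τ + 1 := by rw [hn]; exact Nat.ceil_lt_add_one (by positivity)
    have h2 : (n : ℝ) * τ < (M.2.2 / τ + 1) * τ := mul_lt_mul_of_pos_right h1 hτ0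
    have h3 : (M.2.2 / τ + 1) * τ = M.2.2 + τ := by field_simp
    linarith
  refine ⟨⟨{Rd}, (Finset.range (n + 1)).image (fun j : ℕ => r + j * τ), {Mf}, 1, 0⟩, ?_, τ, hτ0,
    max 2 (max (C : ℝ) (((C : ℝ) + 1) ^ (1 / (τo / 2)))), ?_⟩
  · refine ⟨Finset.singleton_nonempty _, ?_, ?_, ?_, le_rfl, ?_, le_rfl⟩
    · intro s hs
      rw [Finset.mem_singleton.1 hs]; exact hRd0
    · intro w hw
      obtain ⟨j, -, rfl⟩ := Finset.mem_image.1 hw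
      positivity
    · intro m hm
      rw [Finset.mem_singleton.1 hm]; exact hMf0
    · intro w hw
      obtain ⟨j, hj, rfl⟩ := Finset.mem_image.1 hw
      refine ⟨Rd, Finset.mem_singleton_self _, ?_⟩
      have hj' : (j : ℝ) ≤ n := by exact_mod_cast Nat.lt_succ_iff.1 (Finset.mem_range.1 hj)
      have : (j : ℝ) * τ ≤ n * τ := mul_le_mul_of_nonneg_right hj' hτ0.le
      rw [hRd]; linarith
  intro R E X hN hSup hX
  have hN2 : 2 ≤ R.N := (le_max_left _ _).trans hN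
  have hNC : (C : ℝ) ≤ R.N := ((le_max_left _ _).trans (le_max_right _ _)).trans hN
  have hNC' : ((C : ℝ) + 1) ^ (1 / (τo / 2)) ≤ R.N := ((le_max_right _ _).trans (le_max_right _ _)).trans hN
  have hN1 : 1 ≤ R.N := by linarith
  have hN0 : 0 < R.N := by linarith
  have hprm : R.prm = p := hSup.prm
  have hWF := k7st_par_wf hp hprm hN1 he0 hG' hM1 hM2 hM3
  have hXr : X.r = r := hX.dep
  have hk : R.k + R.ell = p.k + p.ell := by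
    show R.prm.k + R.prm.ell = p.k + p.ell
    rw [hprm]
  have hgrid : ∀ x : ℝ, X.r ≤ x → x ≤ X.r + M.2.2 → ∃ r' ∈ R.widths, r' ≤ x ∧ R.N ^ (x - r') ≤ R.N ^ τ := by
    intro x h1 h2
    rw [hXr] at h1 h2
    have hx0 : 0 ≤ (x - r) / τ := div_nonneg (by linarith) hτ0.le
    refine ⟨r + (⌊(x - r) / τ⌋₊ : ℕ) * τ, hSup.widths (Finset.mem_image.2 ⟨⌊(x - r) / τ⌋₊, ?_, rfl⟩), ?_, ?_⟩
    · rw [Finset.mem_range, Nat.lt_succ_iff, hn]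
      refine (Nat.floor_le_ceil _).trans (Nat.ceil_le_ceil ?_)
      exact div_le_div_of_nonneg_right (by linarith) hτ0.le
    · have h3 : ((⌊(x - r) / τ⌋₊ : ℕ) : ℝ) ≤ (x - r) / τ := Nat.floor_le hx0
      have h4 : ((⌊(x - r) / τ⌋₊ : ℕ) : ℝ) * τ ≤ x - r := by rwa [le_div_iff₀ hτ0] at h3
      linarith
    · refine Real.rpow_le_rpow_of_exponent_le hN1 ?_
      have h3 : (x - r) / τ < (⌊(x - r) / τ⌋₊ : ℕ) + 1 := Nat.lt_floor_add_one _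
      have h4 : x - r < ((⌊(x - r) / τ⌋₊ : ℕ) + 1) * τ := by rwa [div_lt_iff₀ hτ0] at h3
      linarith
  have hϱ : R.N ^ (-M.2.2) ≤ (K7bDat.par R e0 G' M.1 M.2.1 M.2.2).ϱ := k7st_dy_ge (k7st_npow hN1 hM3).1
  have hξ : R.N ^ (-M.1) ≤ (K7bDat.par R e0 G' M.1 M.2.1 M.2.2).ξ := k7st_dy_ge (k7st_npow hN1 hM1).1
  have hCτ : (C : ℝ) * τ ≤ C := by nlinarith
  have hs1 : (C : ℝ) * (R.N ^ τ) ^ C * R.a Rd ≤ (K7bDat.par R e0 G' M.1 M.2.1 M.2.2).ϱ * R.a X.r := by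
    calc (C : ℝ) * (R.N ^ τ) ^ C * R.a Rd ≤ R.N ^ (-(M.2.2 + r)) :=
          k7st_pow_le hN1 hNC (by rw [hRd]; linarith)
      _ = R.N ^ (-M.2.2) * R.N ^ (-r) := by rw [← Real.rpow_add hN0]; congr 1; ring
      _ ≤ (K7bDat.par R e0 G' M.1 M.2.1 M.2.2).ϱ * R.a X.r := by
          rw [hXr]
          exact mul_le_mul_of_nonneg_right hϱ (Real.rpow_nonneg hN0.le _)
  have hs2 : (C : ℝ) * (R.N ^ τ) ^ C * R.a Mf ≤ (K7bDat.par R e0 G' M.1 M.2.1 M.2.2).ϱ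
      * (K7bDat.par R e0 G' M.1 M.2.1 M.2.2).ξ * R.a ((R.k + R.ell) * Rd) := by
    calc (C : ℝ) * (R.N ^ τ) ^ C * R.a Mf ≤ R.N ^ (-(M.2.2 + M.1 + (p.k + p.ell) * Rd)) :=
          k7st_pow_le hN1 hNC (by rw [hMf]; linarith)
      _ = R.N ^ (-M.2.2) * R.N ^ (-M.1) * R.N ^ (-((p.k + p.ell) * Rd)) := by
          rw [← Real.rpow_add hN0, ← Real.rpow_add hN0]; congr 1; ring
      _ ≤ (K7bDat.par R e0 G' M.1 M.2.1 M.2.2).ϱ * (K7bDat.par R e0 G' M.1 M.2.1 M.2.2).ξ * R.a ((R.k + R.ell) * Rd) := by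
          rw [hk]
          exact mul_le_mul_of_nonneg_right (mul_le_mul hϱ hξ (Real.rpow_nonneg hN0.le _) hWF.ϱ0.le)
            (Real.rpow_nonneg hN0.le _)
  obtain ⟨X', hQr, hSp, hOk, hRes⟩ := hcore X e0 M.1 M.2.1 M.2.2 Rd Mf r G' hX.tan hWF h0 hX.okE hX.res hgrid
    (hSup.depths (Finset.mem_singleton_self _)) (hSup.meshes (Finset.mem_singleton_self _))
    (hSup.widths (Finset.mem_image.2 ⟨0, Finset.mem_range.2 (Nat.succ_pos _), by simp⟩))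
    (by rw [hXr, hRd]; linarith) hs1 hs2
  have hK0 : 0 < R.N ^ τ := Real.rpow_pos_of_pos hN0 _
  have hpos : 0 < (C : ℝ) * (R.N ^ τ) ^ C := by positivity
  have hle : (C : ℝ) * (R.N ^ τ) ^ C ≤ R.N ^ τo := by
    have e1 : (R.N ^ τ) ^ C = R.N ^ (C * τ) := by
      rw [← Real.rpow_natCast, ← Real.rpow_mul hN0.le, mul_comm]
    have h1 : (C : ℝ) ≤ R.N ^ (τo / 2) :=
      le_trans (by linarith) (k7st_const_le (by linarith) (by positivity) hNC')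
    calc (C : ℝ) * (R.N ^ τ) ^ C ≤ R.N ^ (τo / 2) * R.N ^ (τo / 2) := by
          rw [e1]
          exact mul_le_mul h1 (Real.rpow_le_rpow_of_exponent_le hN1 hτC) (Real.rpow_nonneg hN0.le _)
            (Real.rpow_nonneg hN0.le _)
      _ = R.N ^ τo := by rw [← Real.rpow_add hN0]; congr 1; ring
  refine ⟨X', by rw [hQr]; exact hX.dep, by rw [hQr]; exact hX.tan.pos, fun z hz => ⟨hX.sub (hSp hz), ?_⟩,
    k8_ok_mono hWF hpos hle hOk, k8_res_mono hRes (one_div_le_one_div_of_le hpos hle)⟩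
  rw [hQr]
  exact (hX.tan.sub (hSp hz)).2

/-- the union of two requirement lists -/
def KsReq.sup (G G' : KsReq) : KsReq := ⟨G.depths ∪ G'.depths, G.widths ∪ G'.widths, G.meshes ∪ G'.meshes, max G.ord G'.ord, max G.U G'.U⟩

theorem k7_hub_eqns_cite : True := by
  have := @KsReq.sup.eq_1
  trivial

/-- **L-252-S7b-HM** THE CHAIN.   `τo → (S3T) G₃, τ₃, N₃ → (S2T, tolerance τ₃) G₂, τ₂, N₂ → (S1T, tolerance τ₂) τ₁, N₁`;  `G := G₂.sup G₃` (`G.Ok`, `R.Sup p G → R.Sup p G₂ ∧ R.Sup p G₃` : `N^(-max U U') ≤ N^(-U)`), `τ := τ₁`, `N := max`.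
`e₀ = (B - ℓ r)/2`; the relative depths satisfy `4 k s ≤ B - ℓ r`, i.e. `2 k s ≤ e₀`. -/
theorem k7_model_tau (p : KpPrm) (hp : p.Ok) (hell : 0 < p.ell) (hkl : p.k = p.ell) (B r Mc : ℝ) (hr : 0 < r) (hB : p.ell * r < B) (hMc : B + 1 ≤ Mc) (G' : Finset ℝ)
    (h0 : (0 : ℝ) ∈ G') (hG' : ∀ s ∈ G', 0 ≤ s ∧ 4 * p.k * s ≤ B - p.ell * r) (Ds : Finset ℝ) (hDs : ∀ s ∈ G', r + s ∈ Ds)
    (M : ℝ × ℝ × ℝ) (hM1 : 0 ≤ M.1) (hM2 : 0 < M.2.1) (hM3 : 0 ≤ M.2.2) (τo : ℝ) (hτo : 0 < τo) :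
    ∃ G : KsReq, G.Ok ∧ ∃ τ : ℝ, 0 < τ ∧ ∃ N₁ : ℝ, ∀ (R : KsRef KbVer.two) (A : R.Par) (E : Set (R.L × ℝ)) (Q : R.Lab) (ρ0 ρ1 μ : ℝ) (Cn : Set (R.L × ℝ)),
      R.Sup p G → K7hFitT p B r Mc (M.2.1 + 1) τ N₁ Ds R A E Q ρ0 ρ1 μ Cn → R.g Q ≤ R.N ^ τ * (|μ| * R.q Q) →
      K7Model R E r ((B - p.ell * r) / 2) G' M (R.N ^ τo) := by
  have he0 : 0 < (B - p.ell * r) / 2 := by linarith
  obtain ⟨G₃, hG₃, τ₃, hτ₃, N₃, h3⟩ := k7_S3_tau p hp r ((B - p.ell * r) / 2) hr he0 G' h0 (fun s hs => (hG' s hs).1) M hM1 hM2.le hM3 τo hτo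
  obtain ⟨G₂, hG₂, τ₂, hτ₂, N₂, h2⟩ := k7_S2_tau p hp r ((B - p.ell * r) / 2) hr he0 G'
    (fun s hs => ⟨(hG' s hs).1, by linarith [(hG' s hs).2]⟩) M hM1 hM2 hM3 τ₃ hτ₃
  obtain ⟨τ₁, hτ₁, N₁, h1⟩ := k7_S1_tau p hp hell hkl B r Mc hB hMc G'
    (fun s hs => ⟨(hG' s hs).1, by
      have := mul_nonneg hp.k_pos.le (hG' s hs).1
      linarith [(hG' s hs).2]⟩) Ds hDs M hM2.le τ₂ hτ₂
  refine ⟨G₂.sup G₃, ?_, τ₁, hτ₁, max N₁ (max N₂ (max N₃ 1)), ?_⟩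
  · refine ⟨?_, ?_, ?_, ?_, ?_, ?_, ?_⟩
    · exact hG₂.ne.mono Finset.subset_union_left
    · intro s hs
      rcases Finset.mem_union.1 hs with h | h
      · exact hG₂.depths s h
      · exact hG₃.depths s h
    · intro s hs
      rcases Finset.mem_union.1 hs with h | h
      · exact hG₂.widths s h
      · exact hG₃.widths s h
    · intro s hs
      rcases Finset.mem_union.1 hs with h | h
      · exact hG₂.meshes s h
      · exact hG₃.meshes s h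
    · exact hG₂.U.trans (le_max_left _ _)
    · intro s hs
      rcases Finset.mem_union.1 hs with h | h
      · obtain ⟨s', hs', hle⟩ := hG₂.deep s h
        exact ⟨s', Finset.mem_union_left _ hs', hle⟩
      · obtain ⟨s', hs', hle⟩ := hG₃.deep s h
        exact ⟨s', Finset.mem_union_right _ hs', hle⟩
    · exact hG₂.ord.trans (le_max_left _ _)
  · intro R A E Q ρ0 ρ1 μ Cn hsup hfit hg
    have hN := hfit.N
    have hN1 : N₁ ≤ R.N := (le_max_left _ _).trans hN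
    have hN2 : N₂ ≤ R.N := ((le_max_left _ _).trans (le_max_right _ _)).trans hN
    have hN3 : N₃ ≤ R.N := ((le_max_left _ _).trans ((le_max_right _ _).trans (le_max_right _ _))).trans hN
    have hN4 : 1 ≤ R.N := ((le_max_right _ _).trans ((le_max_right _ _).trans (le_max_right _ _))).trans hN
    have hs2 : R.Sup p G₂ :=
      ⟨hsup.prm, Finset.subset_union_left.trans hsup.depths, Finset.subset_union_left.trans hsup.widths,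
        Finset.subset_union_left.trans hsup.meshes, (le_max_left _ _).trans hsup.ord,
        hsup.χ.trans (Real.rpow_le_rpow_of_exponent_le hN4 (neg_le_neg (le_max_left _ _)))⟩
    have hs3 : R.Sup p G₃ :=
      ⟨hsup.prm, Finset.subset_union_right.trans hsup.depths, Finset.subset_union_right.trans hsup.widths,
        Finset.subset_union_right.trans hsup.meshes, (le_max_right _ _).trans hsup.ord,
        hsup.χ.trans (Real.rpow_le_rpow_of_exponent_le hN4 (neg_le_neg (le_max_right _ _)))⟩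
    obtain ⟨X, hX⟩ := h1 R A E Q ρ0 ρ1 μ Cn { hfit with N := hN1 } hg
    obtain ⟨X', hX'⟩ := h2 R E X hN2 hs2 hX
    exact h3 R E X' hN3 hs3 hX'

end

end Claimed.Agent.R252
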