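-- KEEP
import Claimed.Agent.R252.S7b.HorGrp

/-!
# Row 252, S7b, leaf L-252-S7b-5A  (PROVED, helper96)      07 l.1459-1463, l.1470: positions of a group, finiteness and budgets of the groups
PAPER-FREE.  Read `HorDefs.lean`, `HorGrp.lean`.
PLAN.  `k7bBin m x = ⌊x / m⌋`, so `0 ≤ x - ⌊x/m⌋ m < m` for `m > 0` (`Int.floor_le`, `Int.lt_floor_add_one`).
`k7b_grp_pos` : `Z - Z_ref = (p - p_c) + t (v - v_c)`, `Y - Y_ref = (q0 - q_c) + t (y1 + p) - t (p - p_c)`; fields `heq`; `χ, N^(-e₀) ≤ D`, `0 ≤ t ≤ 1`.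
`k7b_grp_bdd` : `|p_c| ≤ |p| + D` etc. from `bdd`.
`k7b_group_finite` : the occurring groups lie in a product of three `Finset.Icc` of integers (`|v|, |p|, |q0| ≤ K`).
`k7b_group_budget` : `F ⊆ B ×ˢ P ×ˢ P`, `P = Icc ⌊-K/D⌋ ⌊K/D⌋` has `≤ 2K/D + 2` elements; the intervals `k7bIv χ b` are disjoint and measurable, so `∑_b pal (k7bIv χ b) ≤ pal univ ≤ 1`; `D² (2K/D + 2)² ≤ (2K+2)²`.
`k7b_group_prior` : the sets `{grp = g}` are disjoint and measurable (`mp`, `mv`, `mq0`), `ν univ ≤ 1`.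
-/

set_option autoImplicit false

namespace Claimed.Agent.R252

open MeasureTheory
open scoped ENNReal BigOperators

theorem k7b5a_bin_lo {m : ℝ} (hm : 0 < m) (x : ℝ) : (k7bBin m x : ℝ) * m ≤ x := by
  unfold k7bBin
  exact (le_div_iff₀ hm).1 (Int.floor_le (x / m))

theorem k7b5a_bin_hi {m : ℝ} (hm : 0 < m) (x : ℝ) : x < ((k7bBin m x : ℝ) + 1) * m := by
  unfold k7bBin
  exact (div_lt_iff₀ hm).1 (Int.lt_floor_add_one (x / m))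

theorem k7b5a_bin_mem {m K x : ℝ} (hm : 0 < m) (hx : |x| ≤ K) : k7bBin m x ∈ Finset.Icc ⌊-K / m⌋ ⌊K / m⌋ := by
  unfold k7bBin
  rw [Finset.mem_Icc]
  exact ⟨Int.floor_le_floor (div_le_div_of_nonneg_right (abs_le.1 hx).1 hm.le),
    Int.floor_le_floor (div_le_div_of_nonneg_right (abs_le.1 hx).2 hm.le)⟩

theorem k7b5a_bin_abs {m K x : ℝ} (hm : 0 < m) (hx : |x| ≤ K) : |(k7bBin m x : ℝ) * m| ≤ K + m := by
  have h1 := k7b5a_bin_lo hm x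
  have h2 := k7b5a_bin_hi hm x
  have h3 := abs_le.1 hx
  rw [abs_le]
  constructor <;> nlinarith [h3.1, h3.2]

theorem k7b5a_mem_iv {m x : ℝ} {b : ℤ} (hm : 0 < m) (hx : x ∈ k7bIv m b) : k7bBin m x = b := by
  unfold k7bIv at hx
  unfold k7bBin
  rw [Int.floor_eq_iff]
  exact ⟨(le_div_iff₀ hm).2 hx.1, (div_lt_iff₀ hm).2 hx.2⟩

theorem k7b5a_card {K D : ℝ} (hK : 0 ≤ K) (hD : 0 < D) :
    ((Finset.Icc ⌊-K / D⌋ ⌊K / D⌋).card : ℝ) * D ≤ 2 * K + 2 * D := by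
  have hab : ⌊-K / D⌋ ≤ ⌊K / D⌋ := Int.floor_le_floor (div_le_div_of_nonneg_right (by linarith) hD.le)
  rw [Int.card_Icc]
  have h0 : (0 : ℤ) ≤ ⌊K / D⌋ + 1 - ⌊-K / D⌋ := by linarith
  have h1 : (((⌊K / D⌋ + 1 - ⌊-K / D⌋).toNat : ℕ) : ℝ) = (⌊K / D⌋ : ℝ) + 1 - (⌊-K / D⌋ : ℝ) := by
    have : (((⌊K / D⌋ + 1 - ⌊-K / D⌋).toNat : ℕ) : ℤ) = ⌊K / D⌋ + 1 - ⌊-K / D⌋ := Int.toNat_of_nonneg h0
    have h2 : ((((⌊K / D⌋ + 1 - ⌊-K / D⌋).toNat : ℕ) : ℤ) : ℝ) = ((⌊K / D⌋ + 1 - ⌊-K / D⌋ : ℤ) : ℝ) := by rw [this]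
    push_cast at h2
    exact h2
  rw [h1]
  have h3 : (⌊K / D⌋ : ℝ) * D ≤ K := (le_div_iff₀ hD).1 (Int.floor_le _)
  have h4 : -K < ((⌊-K / D⌋ : ℝ) + 1) * D := (div_lt_iff₀ hD).1 (Int.lt_floor_add_one _)
  nlinarith

theorem k7b_grp_pos (c : K7bPar) (H : K7bHor) {K D : ℝ} (hc : c.WF) (h : H.Ok c K) (hD : 0 < D) (hχ : c.χ ≤ D)
    (he : c.N ^ (-c.e0) ≤ D) {z : H.Lam × ℝ} (hz : z ∈ H.Sp) {t : ℝ} (ht : t ∈ Set.Icc (0 : ℝ) 1) :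
    |H.Zt z.1 t - (k7bRef c.χ D (H.grp c.χ D z.1) t).2.1| ≤ 2 * D ∧
      |H.Yt z.1 t - (k7bRef c.χ D (H.grp c.χ D z.1) t).2.2| ≤ 3 * D := by
  have hp1 := k7b5a_bin_lo hD (H.p z.1)
  have hp2 := k7b5a_bin_hi hD (H.p z.1)
  have hq1 := k7b5a_bin_lo hD (H.q0 z.1)
  have hq2 := k7b5a_bin_hi hD (H.q0 z.1)
  have hv1 := k7b5a_bin_lo hc.χ0 (H.v z.1)
  have hv2 := k7b5a_bin_hi hc.χ0 (H.v z.1)
  have he' := h.heq z hz
  obtain ⟨t0, t1⟩ := ht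
  have a1 : 0 ≤ t * (H.v z.1 - (k7bBin c.χ (H.v z.1) : ℝ) * c.χ) := mul_nonneg t0 (by linarith)
  have a2 : t * (H.v z.1 - (k7bBin c.χ (H.v z.1) : ℝ) * c.χ) ≤ 1 * c.χ :=
    mul_le_mul t1 (by linarith) (by linarith) zero_le_one
  have b1 : 0 ≤ t * (H.p z.1 - (k7bBin D (H.p z.1) : ℝ) * D) := mul_nonneg t0 (by linarith)
  have b2 : t * (H.p z.1 - (k7bBin D (H.p z.1) : ℝ) * D) ≤ 1 * D :=
    mul_le_mul t1 (by linarith) (by linarith) zero_le_one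
  have c1 : |t * (H.y1 z.1 + H.p z.1)| ≤ 1 * c.N ^ (-c.e0) := by
    rw [abs_mul, abs_of_nonneg t0]
    exact mul_le_mul t1 he' (abs_nonneg _) zero_le_one
  have c2 := abs_le.1 c1
  constructor
  · have e : H.Zt z.1 t - (k7bRef c.χ D (H.grp c.χ D z.1) t).2.1
        = (H.p z.1 - (k7bBin D (H.p z.1) : ℝ) * D) + t * (H.v z.1 - (k7bBin c.χ (H.v z.1) : ℝ) * c.χ) := by
      simp only [K7bHor.Zt, k7bRef, K7bHor.grp]
      ring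
    rw [e, abs_le]
    constructor <;> linarith
  · have e : H.Yt z.1 t - (k7bRef c.χ D (H.grp c.χ D z.1) t).2.2
        = (H.q0 z.1 - (k7bBin D (H.q0 z.1) : ℝ) * D) + t * (H.y1 z.1 + H.p z.1) - t * (H.p z.1 - (k7bBin D (H.p z.1) : ℝ) * D) := by
      simp only [K7bHor.Yt, k7bRef, K7bHor.grp]
      ring
    rw [e, abs_le]
    constructor <;> linarith [c2.1, c2.2]

/-- the centre of an occurring group is bounded -/
theorem k7b_grp_bdd (c : K7bPar) (H : K7bHor) {K D : ℝ} (hc : c.WF) (h : H.Ok c K) (hD : 0 < D)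
    {z : H.Lam × ℝ} (hz : z ∈ H.Sp) :
    |((H.grp c.χ D z.1).1 : ℝ) * c.χ| ≤ K + c.χ ∧ |((H.grp c.χ D z.1).2.1 : ℝ) * D| ≤ K + D ∧
      |((H.grp c.χ D z.1).2.2 : ℝ) * D| ≤ K + D := by
  obtain ⟨h1, h2, h3, -⟩ := h.bdd z hz
  exact ⟨k7b5a_bin_abs hc.χ0 h2, k7b5a_bin_abs hD h1, k7b5a_bin_abs hD h3⟩

theorem k7b5a_grp_measurable (c : K7bPar) (H : K7bHor) {K D : ℝ} (h : H.Ok c K) : Measurable (H.grp c.χ D) := by
  unfold K7bHor.grp k7bBin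
  exact ((h.mv.div_const _).floor).prodMk (((h.mp.div_const _).floor).prodMk ((h.mq0.div_const _).floor))

theorem k7b_group_meas (c : K7bPar) (H : K7bHor) {K D : ℝ} (h : H.Ok c K) (g : ℤ × ℤ × ℤ) :
    MeasurableSet {l | H.grp c.χ D l = g} ∧ MeasurableSet (H.gI c.χ D g) := by
  have hg := k7b5a_grp_measurable c H (D := D) h
  exact ⟨hg (measurableSet_singleton g), (hg.comp measurable_fst) (measurableSet_singleton g)⟩

theorem k7b5a_grp_mem (c : K7bPar) (H : K7bHor) {K D : ℝ} (hc : c.WF) (h : H.Ok c K) (hD : 0 < D) {g : ℤ × ℤ × ℤ}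
    (hg : (H.Sp ∩ H.gI c.χ D g).Nonempty) :
    g ∈ Finset.Icc ⌊-K / c.χ⌋ ⌊K / c.χ⌋ ×ˢ (Finset.Icc ⌊-K / D⌋ ⌊K / D⌋ ×ˢ Finset.Icc ⌊-K / D⌋ ⌊K / D⌋) := by
  obtain ⟨z, hz, hzg⟩ := hg
  obtain ⟨h1, h2, h3, -⟩ := h.bdd z hz
  have e : H.grp c.χ D z.1 = g := hzg
  rw [← e]
  simp only [K7bHor.grp, Finset.mem_product]
  exact ⟨k7b5a_bin_mem hc.χ0 h2, k7b5a_bin_mem hD h1, k7b5a_bin_mem hD h3⟩

theorem k7b_group_finite (c : K7bPar) (H : K7bHor) {K D : ℝ} (hc : c.WF) (h : H.Ok c K) (hD : 0 < D) :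
    {g | (H.Sp ∩ H.gI c.χ D g).Nonempty}.Finite :=
  (Finset.finite_toSet (Finset.Icc ⌊-K / c.χ⌋ ⌊K / c.χ⌋ ×ˢ (Finset.Icc ⌊-K / D⌋ ⌊K / D⌋ ×ˢ Finset.Icc ⌊-K / D⌋ ⌊K / D⌋))).subset
    fun _ hg => Finset.mem_coe.2 (k7b5a_grp_mem c H hc h hD hg)

theorem k7b5a_pal_sum (c : K7bPar) (H : K7bHor) {K : ℝ} (hc : c.WF) (h : H.Ok c K) (B : Finset ℤ) :
    ∑ b ∈ B, H.pal (k7bIv c.χ b) ≤ 1 := by
  rw [← measure_biUnion_finset]
  · exact (measure_mono (Set.subset_univ _)).trans h.palle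
  · intro b _ b' _ hbb
    rw [Function.onFun, Set.disjoint_left]
    intro x hx hx'
    exact hbb ((k7b5a_mem_iv hc.χ0 hx).symm.trans (k7b5a_mem_iv hc.χ0 hx'))
  · intro b _
    exact measurableSet_Ico

theorem k7b_group_budget (c : K7bPar) (H : K7bHor) {K D : ℝ} (hc : c.WF) (hK : 1 ≤ K) (h : H.Ok c K) (hD : 0 < D) (hD1 : D ≤ 1)
    (F : Finset (ℤ × ℤ × ℤ)) (hF : ∀ g ∈ F, (H.Sp ∩ H.gI c.χ D g).Nonempty) :
    ∑ g ∈ F, H.gW c.χ D g ≤ ENNReal.ofReal ((2 * K + 3) ^ 2) := by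
  have hK0 : 0 ≤ K := le_trans zero_le_one hK
  set B := Finset.Icc ⌊-K / c.χ⌋ ⌊K / c.χ⌋ with hB
  set P := Finset.Icc ⌊-K / D⌋ ⌊K / D⌋ with hP
  have hsub : F ⊆ B ×ˢ (P ×ˢ P) := fun g hg => k7b5a_grp_mem c H hc h hD (hF g hg)
  have hcard : (P.card : ℝ) * D ≤ 2 * K + 2 * D := k7b5a_card hK0 hD
  calc ∑ g ∈ F, H.gW c.χ D g ≤ ∑ g ∈ B ×ˢ (P ×ˢ P), H.gW c.χ D g := Finset.sum_le_sum_of_subset hsub
    _ = ∑ b ∈ B, ∑ _x ∈ P ×ˢ P, H.pal (k7bIv c.χ b) * ENNReal.ofReal (D ^ 2) := by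
        rw [Finset.sum_product]
        rfl
    _ = (∑ b ∈ B, H.pal (k7bIv c.χ b)) * (((P ×ˢ P).card : ℝ≥0∞) * ENNReal.ofReal (D ^ 2)) := by
        rw [Finset.sum_mul]
        refine Finset.sum_congr rfl fun b _ => ?_
        rw [Finset.sum_const, nsmul_eq_mul]
        ring
    _ ≤ 1 * (((P ×ˢ P).card : ℝ≥0∞) * ENNReal.ofReal (D ^ 2)) := by
        gcongr
        exact k7b5a_pal_sum c H hc h B
    _ = ENNReal.ofReal (((P.card : ℝ) * D) ^ 2) := by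
        rw [one_mul, Finset.card_product, ← ENNReal.ofReal_natCast, ← ENNReal.ofReal_mul (by positivity)]
        congr 1
        push_cast
        ring
    _ ≤ ENNReal.ofReal ((2 * K + 3) ^ 2) := by
        apply ENNReal.ofReal_le_ofReal
        have h0 : 0 ≤ (P.card : ℝ) * D := by positivity
        exact pow_le_pow_left₀ h0 (by linarith) 2

theorem k7b_group_prior (c : K7bPar) (H : K7bHor) {K D : ℝ} (h : H.Ok c K) (F : Finset (ℤ × ℤ × ℤ)) :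
    ∑ g ∈ F, H.gN c.χ D g ≤ 1 := by
  unfold K7bHor.gN
  rw [← measure_biUnion_finset]
  · exact (measure_mono (Set.subset_univ _)).trans h.νle
  · intro g _ g' _ hgg
    rw [Function.onFun, Set.disjoint_left]
    intro l hl hl'
    exact hgg ((show H.grp c.χ D l = g from hl).symm.trans hl')
  · intro g _
    exact (k7b_group_meas c H h g).1

end Claimed.Agent.R252

/-!
# Row 252, S7b, leaf L-252-S7b-5B  (CONTRACT: one sorry)      07 l.1463-1470: THE TIME/BAND CAP OF A GROUP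
PAPER-FREE.  Uses the field `capJ` of `K7bHor.Ok` and `k7b_grp_pos`, `k7b_grp_bdd` (black boxes).
STATEMENT.  mass of {group `g`, time in `[t0, t1]`, `x` within `r` of a moving centre `f(t)`, `f` `M`-Lipschitz, `M ξ ≤ r`, `ϱ ≤ r`}  `≤ C K^C (t1 - t0 + ξ) r^d W_G`.
PLAN.  If the set is empty: trivial.  Otherwise `|v_c|, |p_c| ≤ K + 1`.   Cover by the cells `(i, j, k) ∈ ℤ³` of mesh `ξ` (`k7bCell`).
time cells: `i ∈ Icc ⌊t0/ξ⌋ ⌊t1/ξ⌋`, at most `(t1 - t0)/ξ + 2 ≤ 2 (t1 - t0 + ξ)/ξ`.   (Only `t ∈ [0,1]` occurs: field `time`.)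
For `t` in the time cell `i` : `Z` within `2D + (K+1) ξ` of `p_c + iξ v_c`, `Y` within `3D + (K+1) ξ` of `q_c - iξ p_c` : at most `(2K + 12) D/ξ` values of `j`, resp. `k` (`ξ ≤ D`).
`x` within `r + M ξ ≤ 2r` of `f(iξ)` : two intervals of radius `r`.
Case `r ≤ 1` : `capJ` gives `K ξ³ r^d pal(b)` for each cell and interval.     Case `r > 1` : `|x| ≤ 2K` (`bddx`, `time`), cover `[-2K, 2K]` by `≤ 2K + 2` intervals of radius `1` (`ϱ ≤ 1`), and `1 ≤ r^d`.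
Sum: `2 (t1-t0+ξ)/ξ · ((2K+12) D/ξ)² · (2K+2) K ξ³ r^d pal(b)`;   `gW g = pal (k7bIv χ g.1) * ofReal (D²)`.
-/

set_option autoImplicit false

namespace Claimed.Agent.R252

open MeasureTheory
open scoped ENNReal BigOperators

theorem k7b5b_bins (m a b : ℝ) (hm : 0 < m) (hab : a ≤ b) :
    ((Finset.Icc ⌊a / m⌋ ⌊b / m⌋).card : ℝ) ≤ (b - a) / m + 2 ∧
      ∀ x ∈ Set.Icc a b, k7bBin m x ∈ Finset.Icc ⌊a / m⌋ ⌊b / m⌋ := by
  constructor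
  · rw [Int.card_Icc]
    have h1 : ⌊a / m⌋ ≤ ⌊b / m⌋ := Int.floor_le_floor (by gcongr)
    have h2 : ((⌊b / m⌋ + 1 - ⌊a / m⌋).toNat : ℝ) = (⌊b / m⌋ : ℝ) + 1 - ⌊a / m⌋ := by
      have : ((⌊b / m⌋ + 1 - ⌊a / m⌋).toNat : ℤ) = ⌊b / m⌋ + 1 - ⌊a / m⌋ := Int.toNat_of_nonneg (by omega)
      have h3 : (((⌊b / m⌋ + 1 - ⌊a / m⌋).toNat : ℤ) : ℝ) = ((⌊b / m⌋ + 1 - ⌊a / m⌋ : ℤ) : ℝ) := by rw [this]
      push_cast at h3
      exact h3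
    rw [h2]
    have h3 := Int.floor_le (b / m)
    have h4 := Int.lt_floor_add_one (a / m)
    have : (b - a) / m = b / m - a / m := by ring
    linarith
  · intro x hx
    unfold k7bBin
    rw [Finset.mem_Icc]
    exact ⟨Int.floor_le_floor (by gcongr; exact hx.1), Int.floor_le_floor (by gcongr; exact hx.2)⟩

theorem k7b5b_cover {α ι : Type*} [MeasurableSpace α] (μ : Measure α) (A : Set α) (T : Finset ι) (B : ι → Set α)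
    (cap : ℝ≥0∞) (hcov : ∀ z ∈ A, ∃ τ ∈ T, z ∈ B τ) (hB : ∀ τ ∈ T, μ (B τ) ≤ cap) : μ A ≤ T.card * cap := by
  have : A ⊆ ⋃ τ ∈ T, B τ := fun z hz => by
    obtain ⟨τ, h1, h2⟩ := hcov z hz
    exact Set.mem_biUnion h1 h2
  calc μ A ≤ μ (⋃ τ ∈ T, B τ) := measure_mono this
    _ ≤ ∑ τ ∈ T, μ (B τ) := measure_biUnion_finset_le _ _
    _ ≤ ∑ τ ∈ T, cap := Finset.sum_le_sum hB
    _ = T.card * cap := by rw [Finset.sum_const, nsmul_eq_mul]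

/-- `0 ≤ x - ⌊x/m⌋ m < m` -/
theorem k7b5b_bin_sub (m x : ℝ) (hm : 0 < m) : 0 ≤ x - (k7bBin m x : ℝ) * m ∧ x - (k7bBin m x : ℝ) * m < m := by
  unfold k7bBin
  have h1 := Int.floor_le (x / m)
  have h2 := Int.lt_floor_add_one (x / m)
  rw [le_div_iff₀ hm] at h1
  rw [div_lt_iff₀ hm] at h2
  constructor <;> linarith

/-- the centres of the residual intervals -/
theorem k7b5b_centres (K r y : ℝ) (hK : 1 ≤ K) (_hr : 0 < r) : ∃ Xc : Finset ℝ, (Xc.card : ℝ) ≤ 2 * K + 2 ∧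
    ∀ x : ℝ, |x| ≤ 2 * K → |x - y| ≤ 2 * r → ∃ x' ∈ Xc, |x - x'| ≤ min r 1 := by
  classical
  by_cases h1 : r ≤ 1
  · refine ⟨{y - r, y + r}, ?_, fun x _ hx => ?_⟩
    · have : (({y - r, y + r} : Finset ℝ).card : ℝ) ≤ 2 := by exact_mod_cast Finset.card_le_two
      linarith
    · rw [min_eq_left h1]
      rw [abs_le] at hx
      by_cases hxy : x ≤ y
      · exact ⟨y - r, by simp, by rw [abs_le]; constructor <;> linarith⟩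
      · exact ⟨y + r, by simp, by rw [abs_le]; constructor <;> linarith⟩
  · obtain ⟨hc, hb⟩ := k7b5b_bins 2 (-(2 * K)) (2 * K) (by norm_num) (by linarith)
    refine ⟨(Finset.Icc ⌊-(2 * K) / 2⌋ ⌊2 * K / 2⌋).image (fun m : ℤ => (m : ℝ) * 2 + 1), ?_, fun x hx _ => ?_⟩
    · have h2 : (((Finset.Icc ⌊-(2 * K) / 2⌋ ⌊2 * K / 2⌋).image (fun m : ℤ => (m : ℝ) * 2 + 1)).card : ℝ) ≤
          ((Finset.Icc ⌊-(2 * K) / 2⌋ ⌊2 * K / 2⌋).card : ℝ) := by exact_mod_cast Finset.card_image_le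
      linarith
    · rw [min_eq_right (not_le.1 h1).le]
      refine ⟨(k7bBin 2 x : ℝ) * 2 + 1, Finset.mem_image_of_mem _ (hb x (abs_le.1 hx)), ?_⟩
      obtain ⟨b1, b2⟩ := k7b5b_bin_sub 2 x (by norm_num)
      rw [abs_le]
      constructor <;> linarith

/-- one time cell -/
theorem k7b5b_cell (c : K7bPar) (H : K7bHor) {K D M r : ℝ} (f : ℝ → ℝ) (g : ℤ × ℤ × ℤ) (hc : c.WF) (hK : 1 ≤ K)
    (h : H.Ok c K) (hD1 : D ≤ 1) (hξD : c.ξ ≤ D) (hχD : c.χ ≤ D) (he : c.N ^ (-c.e0) ≤ D)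
    (hf : ∀ t t', |f t - f t'| ≤ M * |t - t'|) (hMr : M * c.ξ ≤ r) (hϱ : c.ϱ ≤ r) (i : ℤ) :
    H.lam (H.Sp ∩ H.gI c.χ D g ∩ {z | k7bBin c.ξ z.2 = i ∧ |H.X z - f z.2| ≤ r}) ≤
      ENNReal.ofReal ((2 * K + 8) * (D / c.ξ) * ((2 * K + 10) * (D / c.ξ) * (2 * K + 2))) *
        (ENNReal.ofReal (K * c.ξ ^ 3 * (min r 1) ^ c.d) * H.pal (k7bIv c.χ g.1)) := by
  classical
  have hξ := hc.ξ0
  have hD : 0 < D := hξ.trans_le hξD
  have hr : 0 < r := hc.ϱ0.trans_le hϱ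
  have hM0 : 0 ≤ M := by
    have := hf 0 1
    rw [zero_sub, abs_neg, abs_one, mul_one] at this
    exact (abs_nonneg _).trans this
  have hDξ : 1 ≤ D / c.ξ := by rwa [one_le_div hξ]
  obtain ⟨aZ, haZ⟩ : ∃ aZ : ℝ, aZ = (g.2.1 : ℝ) * D + ((i : ℝ) * c.ξ) * ((g.1 : ℝ) * c.χ) := ⟨_, rfl⟩
  obtain ⟨aY, haY⟩ : ∃ aY : ℝ, aY = (g.2.2 : ℝ) * D - ((i : ℝ) * c.ξ) * ((g.2.1 : ℝ) * D) := ⟨_, rfl⟩
  obtain ⟨cJ, bJ⟩ := k7b5b_bins c.ξ (aZ - (K + 3) * D) (aZ + (K + 3) * D) hξ (by nlinarith)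
  obtain ⟨cK, bK⟩ := k7b5b_bins c.ξ (aY - (K + 4) * D) (aY + (K + 4) * D) hξ (by nlinarith)
  obtain ⟨Xc, cX, bX⟩ := k7b5b_centres K r (f ((i : ℝ) * c.ξ)) hK hr
  have hcov := k7b5b_cover H.lam (H.Sp ∩ H.gI c.χ D g ∩ {z | k7bBin c.ξ z.2 = i ∧ |H.X z - f z.2| ≤ r})
    (Finset.Icc ⌊(aZ - (K + 3) * D) / c.ξ⌋ ⌊(aZ + (K + 3) * D) / c.ξ⌋ ×ˢ
      (Finset.Icc ⌊(aY - (K + 4) * D) / c.ξ⌋ ⌊(aY + (K + 4) * D) / c.ξ⌋ ×ˢ Xc))
    (fun τ => H.Sp ∩ {z | k7bCell c.ξ (H.base z) = (i, τ.1, τ.2.1) ∧ |H.X z - τ.2.2| ≤ min r 1 ∧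
      k7bBin c.χ (H.v z.1) = g.1})
    (ENNReal.ofReal (K * c.ξ ^ 3 * (min r 1) ^ c.d) * H.pal (k7bIv c.χ g.1)) ?_
    (fun τ _ => h.capJ (i, τ.1, τ.2.1) τ.2.2 (min r 1) g.1 (le_min hϱ hc.ϱ1) (min_le_right _ _))
  · refine hcov.trans (mul_le_mul_left ?_ _)
    rw [← ENNReal.ofReal_natCast]
    refine ENNReal.ofReal_le_ofReal ?_
    rw [Finset.card_product, Finset.card_product]
    push_cast
    have e1 : (aZ + (K + 3) * D - (aZ - (K + 3) * D)) / c.ξ + 2 ≤ (2 * K + 8) * (D / c.ξ) := by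
      have : (aZ + (K + 3) * D - (aZ - (K + 3) * D)) / c.ξ = (2 * K + 6) * (D / c.ξ) := by ring
      rw [this]
      linarith
    have e2 : (aY + (K + 4) * D - (aY - (K + 4) * D)) / c.ξ + 2 ≤ (2 * K + 10) * (D / c.ξ) := by
      have : (aY + (K + 4) * D - (aY - (K + 4) * D)) / c.ξ = (2 * K + 8) * (D / c.ξ) := by ring
      rw [this]
      linarith
    refine mul_le_mul (cJ.trans e1) (mul_le_mul (cK.trans e2) cX (Nat.cast_nonneg _) (by positivity))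
      (by positivity) (by positivity)
  · rintro z ⟨⟨hz, hg⟩, hi, hx⟩
    have hg' : H.grp c.χ D z.1 = g := hg
    have ht01 := h.time z hz
    obtain ⟨pz, py⟩ := k7b_grp_pos c H hc h hD hχD he hz ht01
    obtain ⟨bv, bp, -⟩ := k7b_grp_bdd c H hc h hD hz
    rw [hg'] at pz py bv bp
    obtain ⟨s1, s2⟩ := k7b5b_bin_sub c.ξ z.2 hξ
    rw [hi] at s1 s2
    have hZ : |H.Zt z.1 z.2 - aZ| ≤ (K + 3) * D := by
      have e1 : |(z.2 - (i : ℝ) * c.ξ) * ((g.1 : ℝ) * c.χ)| ≤ D * (K + 1) := by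
        rw [abs_mul, abs_of_nonneg s1]
        exact mul_le_mul (s2.le.trans hξD) (bv.trans (by linarith [hc.χ1])) (abs_nonneg _) hD.le
      have e2 : H.Zt z.1 z.2 - aZ = (H.Zt z.1 z.2 - (k7bRef c.χ D g z.2).2.1) +
          (z.2 - (i : ℝ) * c.ξ) * ((g.1 : ℝ) * c.χ) := by
        rw [haZ]
        unfold k7bRef
        ring
      rw [e2]
      refine (abs_add_le _ _).trans ?_
      linarith
    have hY : |H.Yt z.1 z.2 - aY| ≤ (K + 4) * D := by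
      have e1 : |(z.2 - (i : ℝ) * c.ξ) * ((g.2.1 : ℝ) * D)| ≤ D * (K + 1) := by
        rw [abs_mul, abs_of_nonneg s1]
        exact mul_le_mul (s2.le.trans hξD) (bp.trans (by linarith)) (abs_nonneg _) hD.le
      have e2 : H.Yt z.1 z.2 - aY = (H.Yt z.1 z.2 - (k7bRef c.χ D g z.2).2.2) -
          (z.2 - (i : ℝ) * c.ξ) * ((g.2.1 : ℝ) * D) := by
        rw [haY]
        unfold k7bRef
        ring
      rw [e2]
      refine (abs_sub _ _).trans ?_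
      linarith
    have hX2 : |H.X z| ≤ 2 * K := by
      obtain ⟨x0, x1⟩ := h.bddx z hz
      unfold K7bHor.X K7bHor.Xt
      have e1 : |z.2 * H.x1 z.1| ≤ K := by
        rw [abs_mul, abs_of_nonneg ht01.1]
        calc z.2 * |H.x1 z.1| ≤ 1 * K := mul_le_mul ht01.2 x1 (abs_nonneg _) zero_le_one
          _ = K := one_mul _
      refine (abs_add_le _ _).trans ?_
      linarith
    have hXf : |H.X z - f ((i : ℝ) * c.ξ)| ≤ 2 * r := by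
      have e1 := hf z.2 ((i : ℝ) * c.ξ)
      rw [abs_of_nonneg s1] at e1
      have e2 : M * (z.2 - (i : ℝ) * c.ξ) ≤ M * c.ξ := mul_le_mul_of_nonneg_left s2.le hM0
      have e3 : H.X z - f ((i : ℝ) * c.ξ) = (H.X z - f z.2) + (f z.2 - f ((i : ℝ) * c.ξ)) := by ring
      rw [e3]
      refine (abs_add_le _ _).trans ?_
      linarith
    obtain ⟨x', hx', hxx⟩ := bX (H.X z) hX2 hXf
    rw [abs_le] at hZ hY
    refine ⟨(k7bBin c.ξ (H.Zt z.1 z.2), k7bBin c.ξ (H.Yt z.1 z.2), x'), ?_, hz, ?_, hxx, ?_⟩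
    · rw [Finset.mem_product, Finset.mem_product]
      exact ⟨bJ _ ⟨by linarith [hZ.1], by linarith [hZ.2]⟩, bK _ ⟨by linarith [hY.1], by linarith [hY.2]⟩, hx'⟩
    · show k7bCell c.ξ (H.base z) = (i, k7bBin c.ξ (H.Zt z.1 z.2), k7bBin c.ξ (H.Yt z.1 z.2))
      rw [← hi]
      rfl
    · exact congrArg Prod.fst hg'

theorem k7b5b_regroup (n : ℕ) {P Q : ℝ} (hP : 0 ≤ P) (x : ℝ≥0∞) :
    (n : ℝ≥0∞) * (ENNReal.ofReal P * (ENNReal.ofReal Q * x)) = ENNReal.ofReal ((n : ℝ) * P * Q) * x := by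
  rw [ENNReal.ofReal_mul (by positivity), ENNReal.ofReal_mul (Nat.cast_nonneg _), ENNReal.ofReal_natCast]
  ring

theorem k7b5b_regroup' {R S : ℝ} (hR : 0 ≤ R) (x : ℝ≥0∞) :
    ENNReal.ofReal R * (x * ENNReal.ofReal S) = ENNReal.ofReal (R * S) * x := by
  rw [ENNReal.ofReal_mul hR]
  ring

theorem k7b_band_cap : ∃ C : ℕ, ∀ (c : K7bPar) (H : K7bHor) (K D M r t0 t1 : ℝ) (f : ℝ → ℝ) (g : ℤ × ℤ × ℤ),
    c.WF → 1 ≤ K → H.Ok c K → D ≤ 1 → c.ξ ≤ D → c.χ ≤ D → c.N ^ (-c.e0) ≤ D →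
    (∀ t t', |f t - f t'| ≤ M * |t - t'|) → M * c.ξ ≤ r → c.ϱ ≤ r → t0 ≤ t1 →
    H.lam (H.Sp ∩ H.gI c.χ D g ∩ {z | z.2 ∈ Set.Icc t0 t1 ∧ |H.X z - f z.2| ≤ r})
      ≤ ENNReal.ofReal ((C : ℝ) * K ^ C * (t1 - t0 + c.ξ) * r ^ c.d) * H.gW c.χ D g := by
  refine ⟨960, ?_⟩
  intro c H K D M r t0 t1 f g hc hK h hD1 hξD hχD he hf hMr hϱ ht
  have hξ := hc.ξ0
  have hD : 0 < D := hξ.trans_le hξD
  have hr : 0 < r := hc.ϱ0.trans_le hϱ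
  obtain ⟨cI, bI⟩ := k7b5b_bins c.ξ t0 t1 hξ ht
  have hcov := k7b5b_cover H.lam (H.Sp ∩ H.gI c.χ D g ∩ {z | z.2 ∈ Set.Icc t0 t1 ∧ |H.X z - f z.2| ≤ r})
    (Finset.Icc ⌊t0 / c.ξ⌋ ⌊t1 / c.ξ⌋)
    (fun i => H.Sp ∩ H.gI c.χ D g ∩ {z | k7bBin c.ξ z.2 = i ∧ |H.X z - f z.2| ≤ r}) _
    (fun z hz => ⟨k7bBin c.ξ z.2, bI _ hz.2.1, hz.1, rfl, hz.2.2⟩)
    (fun i _ => k7b5b_cell c H f g hc hK h hD1 hξD hχD he hf hMr hϱ i)
  refine hcov.trans ?_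
  unfold K7bHor.gW
  have hτ' : 0 ≤ t1 - t0 + c.ξ := by linarith
  have hK0' : 0 ≤ K := by linarith
  have hmin0 : 0 ≤ (min r 1) ^ c.d := Real.rpow_nonneg (le_min hr.le zero_le_one) _
  rw [k7b5b_regroup _ (by positivity), k7b5b_regroup' (by positivity)]
  refine mul_le_mul_left (ENNReal.ofReal_le_ofReal ?_) _
  have hτ : 0 ≤ t1 - t0 + c.ξ := by linarith
  have e1 : ((Finset.Icc ⌊t0 / c.ξ⌋ ⌊t1 / c.ξ⌋).card : ℝ) ≤ 2 * ((t1 - t0 + c.ξ) / c.ξ) := by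
    refine cI.trans ?_
    have : (t1 - t0 + c.ξ) / c.ξ = (t1 - t0) / c.ξ + 1 := by field_simp
    rw [this]
    have : 0 ≤ (t1 - t0) / c.ξ := div_nonneg (by linarith) hξ.le
    linarith
  have e2 : (min r 1) ^ c.d ≤ r ^ c.d :=
    Real.rpow_le_rpow (le_min hr.le zero_le_one) (min_le_left _ _) hc.d0
  have hm0 : 0 ≤ (min r 1) ^ c.d := Real.rpow_nonneg (le_min hr.le zero_le_one) _
  have e3 : 2 * ((2 * K + 8) * ((2 * K + 10) * (2 * K + 2))) * K ≤ 960 * K ^ 960 := by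
    have h4 : K ^ 4 ≤ K ^ 960 := pow_le_pow_right₀ hK (by norm_num)
    have h5 : 2 * ((2 * K + 8) * ((2 * K + 10) * (2 * K + 2))) * K ≤ 960 * K ^ 4 := by
      have a1 : 2 * K + 8 ≤ 10 * K := by linarith
      have a2 : 2 * K + 10 ≤ 12 * K := by linarith
      have a3 : 2 * K + 2 ≤ 4 * K := by linarith
      have hK0 : 0 ≤ K := by linarith
      calc 2 * ((2 * K + 8) * ((2 * K + 10) * (2 * K + 2))) * K
          ≤ 2 * ((10 * K) * ((12 * K) * (4 * K))) * K := by gcongr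
        _ = 960 * K ^ 4 := by ring
    linarith
  calc ((Finset.Icc ⌊t0 / c.ξ⌋ ⌊t1 / c.ξ⌋).card : ℝ) *
        ((2 * K + 8) * (D / c.ξ) * ((2 * K + 10) * (D / c.ξ) * (2 * K + 2))) * (K * c.ξ ^ 3 * (min r 1) ^ c.d)
      ≤ 2 * ((t1 - t0 + c.ξ) / c.ξ) *
        ((2 * K + 8) * (D / c.ξ) * ((2 * K + 10) * (D / c.ξ) * (2 * K + 2))) * (K * c.ξ ^ 3 * r ^ c.d) := by
        gcongr
    _ = (2 * ((2 * K + 8) * ((2 * K + 10) * (2 * K + 2))) * K) * ((t1 - t0 + c.ξ) * r ^ c.d * D ^ 2) := by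
        field_simp
    _ ≤ (960 * K ^ 960) * ((t1 - t0 + c.ξ) * r ^ c.d * D ^ 2) := by
        refine mul_le_mul_of_nonneg_right e3 ?_
        positivity
    _ = ((960 : ℕ) : ℝ) * K ^ 960 * (t1 - t0 + c.ξ) * r ^ c.d * D ^ 2 := by
        push_cast
        ring

end Claimed.Agent.R252
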