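-- KEEP
import Claimed.Agent.R252.S7b.P5Band
import Claimed.Agent.R252.S7b.P4Remez

/-!
# Row 252, S7b, leaf L-252-S7b-5D  (CONTRACT: one sorry)      07 l.1472-1499: counting the true boxes which meet a group in a time bin of length `a_s`
PAPER-FREE.  Uses `k7b_grp_pos`, `k7b_grp_bdd`, `k7b_box_engulf`, `k7b_ref_motion` (`CoreA`), `k7b_packing` (`CoreB`), fields `capP`, `box`, `labmem`, `bllen`, `νQ`, `bddx`, `time`, `mlab`.
PLAN.  `a = a_s`, `h = h_s`; `k ≤ 1/2`, `N ≥ 1`, `s ≥ 0` give `a ≤ h² ≤ h ≤ 1`; `D ≤ a`.   `t* = τ a`, `u* = k7bRef χ D g t*`.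
(1) if `z ∈ E ∩ gI g`, `k7bBin a z.2 = τ`, then `base z ∈ k7bBox u* h (K + 8)` : `|t - t*| ≤ a ≤ h`; the reference motion stays on the centred plane of `u*` (`k7b_ref_motion`), moves horizontally by `≤ (K+1) a`;
    `base z` is within `(0, 2D, 3D)` of it, which costs `3D + |t*| 2D ≤ 7 h²` transversally.
(2) the boxes are SYMMETRIC: `u ∈ k7bBox c h ρ ↔ c ∈ k7bBox u h ρ` (identity `Z (t - tc) - t (Z - Zc) = -(-Zc (t - tc) + tc (Z - Zc))`).   `base z ∈ qBox c s q K` (`q = lab s z`; `labmem`, `box`).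
    Two applications of `k7b_box_engulf` : `qBox c s q K ⊆ B* := k7bBox u* h ρ₃`, `ρ₃` a polynomial in `K`.
(3) `volume B* ≤ 8 ρ₃³ h⁴` (Fubini: for fixed `(t, Z)` the `Y`-section is an interval of length `2 ρ₃ h²`); `B*` is closed, hence measurable.
(4) `lam (Sp ∩ {base ∈ B*}) ≤ (4K + 3) K volume B*` : `capP` with `r = 1`, constant centres `f = j`, `|j| ≤ 2K + 1` (`|X| ≤ 2K`; `ϱ ≤ 1`).
(5) witnesses `W q = E₀ ∩ {lab s = q}` : measurable, disjoint, `⊆ Sp ∩ {base ∈ B*}`, `lam (W q) ≥ mQ q / K ≥ a^d h⁴ / K³` (`Pairs` with `s' = s`; `pairEv s s z ⊆ {lab s = lab s z}`).   `k7b_packing`.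
-/

set_option autoImplicit false

namespace Claimed.Agent.R252

open MeasureTheory
open scoped ENNReal BigOperators

/-- `0 < a ≤ h² ≤ h ≤ 1` -/
theorem k7b5d_pow (c : K7bPar) {s : ℝ} (hc : c.WF) (hk : c.k ≤ 1 / 2) (hs : 0 ≤ s) :
    0 < c.a s ∧ 0 < c.h s ∧ c.a s ≤ c.h s ^ 2 ∧ c.h s ≤ 1 := by
  have hN0 : 0 < c.N := lt_of_lt_of_le one_pos hc.N1
  unfold K7bPar.a K7bPar.h
  refine ⟨Real.rpow_pos_of_pos hN0 _, Real.rpow_pos_of_pos hN0 _, ?_, ?_⟩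
  · rw [← Real.rpow_natCast, ← Real.rpow_mul hN0.le]
    refine Real.rpow_le_rpow_of_exponent_le hc.N1 ?_
    push_cast
    nlinarith
  · refine Real.rpow_le_one_of_one_le_of_nonpos hc.N1 ?_
    have := mul_nonneg hc.k0.le hs
    linarith

theorem k7b5d_symm {t Z Y tc Zc Yc H ρ : ℝ} (h : (t, Z, Y) ∈ k7bBox tc Zc Yc H ρ) : (tc, Zc, Yc) ∈ k7bBox t Z Y H ρ := by
  obtain ⟨h1, h2, h3⟩ := h
  simp only at h1 h2 h3
  refine ⟨?_, ?_, ?_⟩
  · show |tc - t| ≤ _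
    rw [abs_sub_comm]
    exact h1
  · show |Zc - Z| ≤ _
    rw [abs_sub_comm]
    exact h2
  · show |Yc - Y - (-Z * (tc - t) + t * (Zc - Z))| ≤ _
    have e : Yc - Y - (-Z * (tc - t) + t * (Zc - Z)) = -(Y - Yc - (-Zc * (t - tc) + tc * (Z - Zc))) := by ring
    rw [e, abs_neg]
    exact h3

theorem k7b5d_box_meas (tc Zc Yc H ρ : ℝ) : MeasurableSet (k7bBox tc Zc Yc H ρ) := by
  unfold k7bBox
  have c1 : Continuous fun u : ℝ × ℝ × ℝ => |u.1 - tc| := by fun_prop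
  have c2 : Continuous fun u : ℝ × ℝ × ℝ => |u.2.1 - Zc| := by fun_prop
  have c3 : Continuous fun u : ℝ × ℝ × ℝ => |u.2.2 - Yc - (-Zc * (u.1 - tc) + tc * (u.2.1 - Zc))| := by fun_prop
  exact ((isClosed_le c1 continuous_const).inter
    ((isClosed_le c2 continuous_const).inter (isClosed_le c3 continuous_const))).measurableSet

theorem k7b5d_box_vol (tc Zc Yc H ρ : ℝ) (hH : 0 ≤ H) (hρ : 0 ≤ ρ) :
    volume (k7bBox tc Zc Yc H ρ) ≤ ENNReal.ofReal (8 * ρ ^ 3 * H ^ 4) := by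
  have h := k7b4b_vol3 1 1 1 (-tc) (ρ * H) (ρ * H) (ρ * H ^ 2) (fun _ => -Zc)
    (fun t Z => -Yc - (-Zc * (t - tc) + tc * (Z - Zc))) one_ne_zero one_ne_zero one_ne_zero continuous_const (by fun_prop)
  simp only [abs_one, div_one] at h
  rw [← ENNReal.ofReal_mul (by positivity), ← ENNReal.ofReal_mul (by positivity)] at h
  have e : 2 * (ρ * H) * (2 * (ρ * H) * (2 * (ρ * H ^ 2))) = 8 * ρ ^ 3 * H ^ 4 := by ring
  rw [e] at h
  refine (measure_mono ?_).trans h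
  rintro u ⟨h1, h2, h3⟩
  refine ⟨?_, ?_, ?_⟩
  · rw [one_mul, ← sub_eq_add_neg]
    exact h1
  · rw [one_mul, ← sub_eq_add_neg]
    exact h2
  · have e : 1 * u.2.2 + (-Yc - (-Zc * (u.1 - tc) + tc * (u.2.1 - Zc))) =
        u.2.2 - Yc - (-Zc * (u.1 - tc) + tc * (u.2.1 - Zc)) := by ring
    rw [e]
    exact h3

/-- (1) the incidences of the group in the time bin lie in the box of the reference point -/
theorem k7b5d_base_in (c : K7bPar) (H : K7bHor) {K s D η : ℝ} (h5 : K7bS5 c K s D η) (h : H.Ok c K) (g : ℤ × ℤ × ℤ) (τ : ℤ)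
    {z : H.Lam × ℝ} (hz : z ∈ H.Sp) (hg : H.grp c.χ D z.1 = g) (hτ : k7bBin (c.a s) z.2 = τ) :
    H.base z ∈ k7bBox ((τ : ℝ) * c.a s) ((g.2.1 : ℝ) * D + ((τ : ℝ) * c.a s) * ((g.1 : ℝ) * c.χ))
      ((g.2.2 : ℝ) * D - ((τ : ℝ) * c.a s) * ((g.2.1 : ℝ) * D)) (c.h s) (K + 5) := by
  have hc := h5.wf
  have hK := h5.K1
  obtain ⟨ha, hh, hah, hh1⟩ := k7b5d_pow c hc h5.khalf (hc.G0 s h5.sG)
  have hD := h5.D0
  have hhh : c.h s ^ 2 ≤ c.h s := by nlinarith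
  have ht01 := h.time z hz
  obtain ⟨pz, py⟩ := k7b_grp_pos c H hc h hD h5.χD h5.eD hz ht01
  obtain ⟨bv, -, -⟩ := k7b_grp_bdd c H hc h hD hz
  rw [hg] at pz py bv
  obtain ⟨s1, s2⟩ := k7b5b_bin_sub (c.a s) z.2 ha
  rw [hτ] at s1 s2
  have hDa := h5.Da
  have ha1 : c.a s ≤ 1 := hah.trans (hhh.trans hh1)
  have hts : |(τ : ℝ) * c.a s| ≤ 1 := by
    rw [abs_le]
    constructor <;> linarith [ht01.1, ht01.2]
  unfold k7bRef at pz py
  simp only at pz py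
  refine ⟨?_, ?_, ?_⟩
  · show |z.2 - (τ : ℝ) * c.a s| ≤ _
    rw [abs_of_nonneg s1]
    nlinarith
  · show |H.Zt z.1 z.2 - ((g.2.1 : ℝ) * D + ((τ : ℝ) * c.a s) * ((g.1 : ℝ) * c.χ))| ≤ _
    have e1 : |(z.2 - (τ : ℝ) * c.a s) * ((g.1 : ℝ) * c.χ)| ≤ c.a s * (K + 1) := by
      rw [abs_mul, abs_of_nonneg s1]
      exact mul_le_mul s2.le (bv.trans (by linarith [hc.χ1])) (abs_nonneg _) ha.le
    have e2 : H.Zt z.1 z.2 - ((g.2.1 : ℝ) * D + ((τ : ℝ) * c.a s) * ((g.1 : ℝ) * c.χ)) =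
        (H.Zt z.1 z.2 - ((g.2.1 : ℝ) * D + z.2 * ((g.1 : ℝ) * c.χ))) + (z.2 - (τ : ℝ) * c.a s) * ((g.1 : ℝ) * c.χ) := by
      ring
    rw [e2]
    refine (abs_add_le _ _).trans ?_
    have : c.a s ≤ c.h s := hah.trans hhh
    nlinarith
  · show |H.Yt z.1 z.2 - ((g.2.2 : ℝ) * D - ((τ : ℝ) * c.a s) * ((g.2.1 : ℝ) * D)) -
      (-((g.2.1 : ℝ) * D + ((τ : ℝ) * c.a s) * ((g.1 : ℝ) * c.χ)) * (z.2 - (τ : ℝ) * c.a s) +
        ((τ : ℝ) * c.a s) * (H.Zt z.1 z.2 - ((g.2.1 : ℝ) * D + ((τ : ℝ) * c.a s) * ((g.1 : ℝ) * c.χ))))| ≤ _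
    have e2 : H.Yt z.1 z.2 - ((g.2.2 : ℝ) * D - ((τ : ℝ) * c.a s) * ((g.2.1 : ℝ) * D)) -
      (-((g.2.1 : ℝ) * D + ((τ : ℝ) * c.a s) * ((g.1 : ℝ) * c.χ)) * (z.2 - (τ : ℝ) * c.a s) +
        ((τ : ℝ) * c.a s) * (H.Zt z.1 z.2 - ((g.2.1 : ℝ) * D + ((τ : ℝ) * c.a s) * ((g.1 : ℝ) * c.χ)))) =
        (H.Yt z.1 z.2 - ((g.2.2 : ℝ) * D - z.2 * ((g.2.1 : ℝ) * D))) -
          ((τ : ℝ) * c.a s) * (H.Zt z.1 z.2 - ((g.2.1 : ℝ) * D + z.2 * ((g.1 : ℝ) * c.χ))) := by ring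
    rw [e2]
    refine (abs_sub _ _).trans ?_
    have e3 : |((τ : ℝ) * c.a s) * (H.Zt z.1 z.2 - ((g.2.1 : ℝ) * D + z.2 * ((g.1 : ℝ) * c.χ)))| ≤ 1 * (2 * D) := by
      rw [abs_mul]
      exact mul_le_mul hts pz (abs_nonneg _) zero_le_one
    have : 0 ≤ K * c.h s ^ 2 := by positivity
    nlinarith

/-- (2) the true box of a label which meets the group in the time bin lies in the big box -/
theorem k7b5d_qbox_sub (c : K7bPar) (H : K7bHor) {K s D η : ℝ} (h5 : K7bS5 c K s D η) (h : H.Ok c K) (g : ℤ × ℤ × ℤ)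
    (τ : ℤ) {z : H.Lam × ℝ} (hz : z ∈ H.Sp) (hg : H.grp c.χ D z.1 = g) (hτ : k7bBin (c.a s) z.2 = τ) :
    k7bBox (H.ct (H.lab s z)) (H.cZ (H.lab s z)) (H.cY (H.lab s z)) (c.h s) K ⊆
      k7bBox ((τ : ℝ) * c.a s) ((g.2.1 : ℝ) * D + ((τ : ℝ) * c.a s) * ((g.1 : ℝ) * c.χ))
        ((g.2.2 : ℝ) * D - ((τ : ℝ) * c.a s) * ((g.2.1 : ℝ) * D)) (c.h s)
        (K + 5 + K + 2 * (K + 5) * K + K + 2 * (K + 5 + K + 2 * (K + 5) * K) * K) := by
  have hc := h5.wf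
  have hK := h5.K1
  have hK0 : 0 ≤ K := by linarith
  obtain ⟨-, hh, -, -⟩ := k7b5d_pow c hc h5.khalf (hc.G0 s h5.sG)
  obtain ⟨hq, hb, ha⟩ := h.labmem s h5.sG z hz
  have hbox := h.box s h5.sG _ hq z.1 ha z.2 hb
  have hcen := k7b5d_symm (t := z.2) (Z := H.Zt z.1 z.2) (Y := H.Yt z.1 z.2) hbox
  have h1 := k7b5d_base_in c H h5 h g τ hz hg hτ
  have e1 := k7b_box_engulf (t' := z.2) (Z' := H.Zt z.1 z.2) (Y' := H.Yt z.1 z.2) hh.le
    (by linarith : (0 : ℝ) ≤ K + 5) hK0 h1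
  exact k7b_box_engulf hh.le (by positivity) hK0 (e1 hcen)

theorem k7b5d_X_le (c : K7bPar) (H : K7bHor) {K : ℝ} (h : H.Ok c K) {z : H.Lam × ℝ} (hz : z ∈ H.Sp) : |H.X z| ≤ 2 * K := by
  obtain ⟨x0, x1⟩ := h.bddx z hz
  have ht01 := h.time z hz
  unfold K7bHor.X K7bHor.Xt
  have e1 : |z.2 * H.x1 z.1| ≤ K := by
    rw [abs_mul, abs_of_nonneg ht01.1]
    calc z.2 * |H.x1 z.1| ≤ 1 * K := mul_le_mul ht01.2 x1 (abs_nonneg _) zero_le_one
      _ = K := one_mul _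
  refine (abs_add_le _ _).trans ?_
  linarith

/-- (4) the mass over a base set -/
theorem k7b5d_mass (c : K7bPar) (H : K7bHor) {K : ℝ} (hc : c.WF) (hK : 1 ≤ K) (h : H.Ok c K) (B : Set (ℝ × ℝ × ℝ))
    (hB : MeasurableSet B) :
    H.lam (H.Sp ∩ {z | H.base z ∈ B}) ≤ ENNReal.ofReal ((2 * K + 2) * K) * volume B := by
  obtain ⟨Xc, cX, bX⟩ := k7b5b_centres K (K + 1) 0 hK (by linarith)
  have hcov := k7b5b_cover H.lam (H.Sp ∩ {z | H.base z ∈ B}) Xc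
    (fun x => H.Sp ∩ {z | H.base z ∈ B ∧ |H.X z - x| ≤ 1}) (ENNReal.ofReal (K * (1 : ℝ) ^ c.d) * volume B) ?_
    (fun x _ => h.capP B (fun _ => x) 1 hB measurable_const hc.ϱ1 le_rfl)
  · refine hcov.trans ?_
    rw [Real.one_rpow, mul_one, ← mul_assoc, ← ENNReal.ofReal_natCast, ← ENNReal.ofReal_mul (Nat.cast_nonneg _)]
    refine mul_le_mul_left (ENNReal.ofReal_le_ofReal ?_) _
    exact mul_le_mul_of_nonneg_right cX (by linarith)
  · rintro z ⟨hz, hzB⟩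
    have hX := k7b5d_X_le c H h hz
    obtain ⟨x', hx', hxx⟩ := bX (H.X z) hX (by rw [sub_zero]; linarith)
    rw [min_eq_right (by linarith)] at hxx
    exact ⟨x', hx', hz, hzB, hxx⟩

theorem k7b5d_fin {n K A h4 ρ₃ : ℝ} (hK : 1 ≤ K) (hA : 0 < A) (hh : 0 < h4) (hρ0 : 0 ≤ ρ₃) (hρ : ρ₃ ≤ 58 * K ^ 3)
    (hn : n * (A * h4 / K ^ 2) ≤ K * ((2 * K + 2) * K * (8 * ρ₃ ^ 3 * h4))) : n ≤ 6243584 * K ^ 14 * A⁻¹ := by
  have hK0 : 0 < K := by linarith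
  have e1 : n * (A * h4 / K ^ 2) = n * A * h4 / K ^ 2 := by ring
  rw [e1, div_le_iff₀ (by positivity)] at hn
  have h3 : ρ₃ ^ 3 ≤ (58 * K ^ 3) ^ 3 := pow_le_pow_left₀ hρ0 hρ 3
  have h4' : h4 * (n * A) ≤ h4 * (6243584 * K ^ 14) := by
    calc h4 * (n * A) = n * A * h4 := by ring
      _ ≤ K * ((2 * K + 2) * K * (8 * ρ₃ ^ 3 * h4)) * K ^ 2 := hn
      _ ≤ K * ((4 * K) * K * (8 * (58 * K ^ 3) ^ 3 * h4)) * K ^ 2 := by
          have : 2 * K + 2 ≤ 4 * K := by linarith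
          gcongr
      _ = h4 * (6243584 * K ^ 14) := by ring
  have h5 := le_of_mul_le_mul_left h4' hh
  rw [← div_eq_mul_inv, le_div_iff₀ hA]
  exact h5

theorem k7b_box_count : ∃ C : ℕ, ∀ (c : K7bPar) (H : K7bHor) (K s D η : ℝ) (E₀ E : Set (H.Lam × ℝ)) (g : ℤ × ℤ × ℤ) (τ : ℤ)
    (S : Finset H.Q), K7bS5 c K s D η → H.Ok c K → E₀ ⊆ H.Sp → MeasurableSet E₀ → E ⊆ H.Sp → H.Pairs c K E₀ E →
    (∀ q ∈ S, ∃ z ∈ E ∩ H.gI c.χ D g, k7bBin (c.a s) z.2 = τ ∧ H.lab s z = q) →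
    (S.card : ℝ) ≤ (C : ℝ) * K ^ C * c.a s ^ (-c.d) := by
  refine ⟨6243584, ?_⟩
  intro c H K s D η E₀ E g τ S h5 h hE₀ mE₀ hE hP hS
  have hc := h5.wf
  have hK := h5.K1
  have hK0 : 0 < K := by linarith
  obtain ⟨ha, hh, -, -⟩ := k7b5d_pow c hc h5.khalf (hc.G0 s h5.sG)
  obtain ⟨ρ₃, hρ₃⟩ : ∃ ρ₃ : ℝ, ρ₃ = K + 5 + K + 2 * (K + 5) * K + K + 2 * (K + 5 + K + 2 * (K + 5) * K) * K := ⟨_, rfl⟩
  have hρ0 : 0 ≤ ρ₃ := by rw [hρ₃]; positivity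
  have hρ : ρ₃ ≤ 58 * K ^ 3 := by
    rw [hρ₃]
    have h2 : K ≤ K ^ 2 := by nlinarith
    have h3 : K ^ 2 ≤ K ^ 3 := by nlinarith
    nlinarith
  obtain ⟨Bs, hBs⟩ : ∃ Bs : Set (ℝ × ℝ × ℝ), Bs = k7bBox ((τ : ℝ) * c.a s)
      ((g.2.1 : ℝ) * D + ((τ : ℝ) * c.a s) * ((g.1 : ℝ) * c.χ))
      ((g.2.2 : ℝ) * D - ((τ : ℝ) * c.a s) * ((g.2.1 : ℝ) * D)) (c.h s) ρ₃ := ⟨_, rfl⟩
  have mBs : MeasurableSet Bs := by rw [hBs]; exact k7b5d_box_meas _ _ _ _ _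
  have vBs : volume Bs ≤ ENNReal.ofReal (8 * ρ₃ ^ 3 * c.h s ^ 4) := by
    rw [hBs]
    exact k7b5d_box_vol _ _ _ _ _ hh.le hρ0
  have hpack := k7b_packing (ENNReal.ofReal K • H.lam) S (fun q => E₀ ∩ {z | H.lab s z = q})
    (H.Sp ∩ {z | H.base z ∈ Bs}) (fun q _ => mE₀.inter (h.mlab s h5.sG q)) ?_ ?_
    (m := ENNReal.ofReal (c.a s ^ c.d * c.h s ^ 4 / K ^ 2)) ?_
  · have hmass := k7b5d_mass c H hc hK h Bs mBs
    have h1 : (S.card : ℝ≥0∞) * ENNReal.ofReal (c.a s ^ c.d * c.h s ^ 4 / K ^ 2) ≤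
        ENNReal.ofReal (K * ((2 * K + 2) * K * (8 * ρ₃ ^ 3 * c.h s ^ 4))) := by
      refine hpack.trans ?_
      rw [Measure.smul_apply, smul_eq_mul, ENNReal.ofReal_mul hK0.le, ENNReal.ofReal_mul (by positivity)]
      exact mul_le_mul_right (hmass.trans (mul_le_mul_right vBs _)) _
    rw [← ENNReal.ofReal_natCast, ← ENNReal.ofReal_mul (Nat.cast_nonneg _),
      ENNReal.ofReal_le_ofReal_iff (by positivity)] at h1
    have hAd : 0 < c.a s ^ c.d := Real.rpow_pos_of_pos ha _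
    have h2 := k7b5d_fin hK hAd (by positivity : 0 < c.h s ^ 4) hρ0 hρ h1
    rw [Real.rpow_neg ha.le]
    refine h2.trans ?_
    refine mul_le_mul_of_nonneg_right ?_ (inv_nonneg.2 hAd.le)
    push_cast
    refine mul_le_mul_of_nonneg_left (pow_le_pow_right₀ hK (by norm_num)) (by norm_num)
  · intro q _ q' _ hqq
    refine Set.disjoint_left.2 fun z hz hz' => hqq ?_
    exact hz.2.symm.trans hz'.2
  · intro q hq z' hz'
    obtain ⟨z, ⟨hzE, hzg⟩, hzτ, hzq⟩ := hS q hq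
    have hz'S : z' ∈ H.Sp := hE₀ hz'.1
    refine ⟨hz'S, ?_⟩
    obtain ⟨hq', hb', ha'⟩ := h.labmem s h5.sG z' hz'S
    have hbox := h.box s h5.sG _ hq' z'.1 ha' z'.2 hb'
    have hl : H.lab s z' = H.lab s z := hz'.2.trans hzq.symm
    rw [hl] at hbox
    have hsub := k7b5d_qbox_sub c H h5 h g τ (hE hzE) hzg hzτ
    show H.base z' ∈ Bs
    rw [hBs, hρ₃]
    exact hsub hbox
  · intro q hq
    obtain ⟨z, ⟨hzE, hzg⟩, hzτ, hzq⟩ := hS q hq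
    have hp := hP s h5.sG s h5.sG le_rfl z hzE
    rw [hzq] at hp
    obtain ⟨hqQ, -, -⟩ := h.labmem s h5.sG z (hE hzE)
    rw [hzq] at hqQ
    have hbl := (h.bllen s h5.sG q hqQ).1
    have hν := (h.νQ s h5.sG q hqQ).1
    have hmQ : ENNReal.ofReal (c.a s ^ c.d * c.h s ^ 4 / K ^ 2) ≤ H.mQ q := by
      unfold K7bHor.mQ
      have e : c.a s ^ c.d * c.h s ^ 4 / K ^ 2 = c.h s / K * (c.a s ^ c.d * c.h s ^ 3 / K) := by
        field_simp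
      rw [e, ENNReal.ofReal_mul (by positivity)]
      exact mul_le_mul' (ENNReal.ofReal_le_ofReal hbl) hν
    rw [Measure.smul_apply, smul_eq_mul]
    refine hmQ.trans (hp.trans (mul_le_mul_right (measure_mono ?_) _))
    rintro z' ⟨h1, h2⟩
    exact ⟨h1, h2.1.trans hzq⟩

end Claimed.Agent.R252

/-!
# Row 252, S7b, leaf L-252-S7b-5E  (PROVED, helper175)      07 l.1499-1506: the `(t, x)`-support of a group
PAPER-FREE.  Uses `k7b_box_count` (black box), `k7b_grp_pos`, `k7b_grp_bdd`, fields `entcard`, `entmem`, `entfit`, `labmem`, `time`, `bdd`, and `Slopes`.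
PLAN.  `a = a_s ≤ h_s² ≤ h_s ≤ 1` (`k ≤ 1/2`), so `Slopes` gives at `z ∈ E`, `L = entOf s z = (·, α₁, α₂, γ)` : `|α₁ - γ Z| ≤ 2K`, `|α₂ + γ t| ≤ 2K`, `|γ| ≤ 2K`, hence (`|Z| ≤ 2K`, `|t| ≤ 1`) ordinary slopes `|α₁|, |α₂|, |γ| ≤ 6 K²`.
Fix `g` and a time bin `τ`, `t* = τ a`, `u* = k7bRef χ D g t*`.   For `z ∈ E ∩ gI g` in the time bin: `base z - u*` has components `≤ a`, `2D + (K+1) a`, `3D + (K+1) a` (all `≤ (K+4) a`);
`|X z - aff L (base z)| ≤ K a` (`entfit` at `t = z.2`), so `|X z - aff L u*| ≤ K a + 18 K² (K+4) a`.   So the `x`-bin of `z` takes `≤ C K³` values for a given `(lab s z, entOf s z)`.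
`≤ C K^C a^(-d)` labels (`k7b_box_count`), `≤ K` entries per label: `≤ C K^C a^(-d)` values of the `x`-bin in the time bin `τ`.
The time bins: `τ ∈ Icc 0 ⌊1/a⌋`, at most `1/a + 1 ≤ 2/a`.     `a^(-1) a^(-d) = a^(-1-d)` (`Real.rpow_add`).
Finite combinatorics: map `S → (τ, q, L, x-bin offset)`; e.g. `Finset.card_le_card_of_injOn` / `Finset.card_biUnion_le`.
-/

set_option autoImplicit false

namespace Claimed.Agent.R252

open MeasureTheory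
open scoped ENNReal BigOperators

theorem k7b5e_floor {p q r : ℝ} {R : ℤ} (h : |p - q| ≤ r) (hR : r ≤ (R : ℝ) - 1) :
    ⌊p⌋ ∈ Finset.Icc (⌊q⌋ - R) (⌊q⌋ + R) := by
  rw [Finset.mem_Icc]
  have h1 := Int.floor_le p
  have h2 := Int.lt_floor_add_one p
  have h3 := Int.floor_le q
  have h4 := Int.lt_floor_add_one q
  obtain ⟨h5, h6⟩ := abs_le.1 h
  constructor
  · have : ((⌊q⌋ - R : ℤ) : ℝ) < (⌊p⌋ : ℝ) := by push_cast; linarith
    exact_mod_cast this.le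
  · have : (⌊p⌋ : ℝ) < ((⌊q⌋ + R : ℤ) : ℝ) := by push_cast; linarith
    exact_mod_cast this.le

theorem k7b5e_fib {α β : Type*} [DecidableEq β] (s : Finset α) (f : α → β) (B : ℝ)
    (h : ∀ b ∈ s.image f, ((s.filter fun x => f x = b).card : ℝ) ≤ B) : (s.card : ℝ) ≤ (s.image f).card * B := by
  rw [Finset.card_eq_sum_card_image f s]
  push_cast
  calc ∑ b ∈ s.image f, ((s.filter fun x => f x = b).card : ℝ) ≤ ∑ _b ∈ s.image f, B := Finset.sum_le_sum h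
    _ = _ := by rw [Finset.sum_const, nsmul_eq_mul]

theorem k7b5e_ah (c : K7bPar) {K s D η : ℝ} (h5 : K7bS5 c K s D η) :
    0 < c.a s ∧ c.a s ≤ 1 ∧ 0 < c.h s ∧ c.a s ≤ c.h s ∧ c.a s ≤ c.h s ^ 2 := by
  have hN1 := h5.wf.N1
  have hN0 : 0 < c.N := by linarith
  have hs := h5.wf.G0 s h5.sG
  have hk := h5.khalf
  have hk0 := h5.wf.k0
  have hks : c.k * s ≤ s / 2 := by nlinarith
  unfold K7bPar.a K7bPar.h
  refine ⟨Real.rpow_pos_of_pos hN0 _, Real.rpow_le_one_of_one_le_of_nonpos hN1 (by linarith),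
    Real.rpow_pos_of_pos hN0 _, Real.rpow_le_rpow_of_exponent_le hN1 (by linarith), ?_⟩
  rw [← Real.rpow_natCast, ← Real.rpow_mul hN0.le]
  refine Real.rpow_le_rpow_of_exponent_le hN1 ?_
  push_cast
  linarith

theorem k7b5e_real {K D χ a L0 α1 α2 γ Z Y X ts vc pc qc t : ℝ} (hK1 : 1 ≤ K) (hZ : |Z| ≤ 2 * K) (B1 : |vc| ≤ K + χ)
    (B2 : |pc| ≤ K + D) (t0 : 0 ≤ t) (t1 : t ≤ 1) (lo : ts ≤ t) (hi : t ≤ ts + a) (P1 : |Z - (pc + t * vc)| ≤ 2 * D)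
    (P2 : |Y - (qc - t * pc)| ≤ 3 * D) (ha0 : 0 < a) (ha1 : a ≤ 1) (hDa : D ≤ a) (hχ1 : χ ≤ 1)
    (hγ : |γ| ≤ 2 * K) (S1 : |α1 + γ * -Z| ≤ 2 * K) (S2 : |α2 + γ * t| ≤ 2 * K)
    (hfit : |X - (L0 + α1 * t + α2 * Z + γ * Y)| ≤ K * a) :
    |X - (L0 + α1 * ts + α2 * (pc + ts * vc) + γ * (qc - ts * pc))| ≤ 91 * K ^ 3 * a := by
  have hK0 : 0 ≤ K := by linarith
  have hK2 : K ≤ K ^ 2 := by nlinarith
  have hK3 : K ^ 2 ≤ K ^ 3 := by nlinarith [sq_nonneg K]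
  have hα1 : |α1| ≤ 6 * K ^ 2 := by
    have e : α1 = (α1 + γ * -Z) + γ * Z := by ring
    have h1 : |γ * Z| ≤ (2 * K) * (2 * K) := by
      rw [abs_mul]; exact mul_le_mul hγ hZ (abs_nonneg _) (by linarith)
    calc |α1| = |(α1 + γ * -Z) + γ * Z| := by rw [← e]
      _ ≤ |α1 + γ * -Z| + |γ * Z| := abs_add_le _ _
      _ ≤ 6 * K ^ 2 := by linarith
  have hα2 : |α2| ≤ 6 * K ^ 2 := by
    have e : α2 = (α2 + γ * t) - γ * t := by ring
    have h1 : |γ * t| ≤ (2 * K) * 1 := by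
      rw [abs_mul, abs_of_nonneg t0]; exact mul_le_mul hγ t1 t0 (by linarith)
    calc |α2| = |(α2 + γ * t) - γ * t| := by rw [← e]
      _ ≤ |α2 + γ * t| + |γ * t| := abs_sub _ _
      _ ≤ 6 * K ^ 2 := by linarith
  have hγ' : |γ| ≤ 6 * K ^ 2 := by linarith
  have d1 : |t - ts| ≤ a := by rw [abs_le]; constructor <;> linarith
  have d2 : |Z - (pc + ts * vc)| ≤ (K + 3) * a := by
    have e : Z - (pc + ts * vc) = (Z - (pc + t * vc)) + (t - ts) * vc := by ring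
    have h1 : |(t - ts) * vc| ≤ a * (K + 1) := by
      rw [abs_mul]; exact mul_le_mul d1 (by linarith) (abs_nonneg _) ha0.le
    rw [e]
    calc |(Z - (pc + t * vc)) + (t - ts) * vc| ≤ |Z - (pc + t * vc)| + |(t - ts) * vc| := abs_add_le _ _
      _ ≤ (K + 3) * a := by linarith
  have d3 : |Y - (qc - ts * pc)| ≤ (K + 4) * a := by
    have e : Y - (qc - ts * pc) = (Y - (qc - t * pc)) - (t - ts) * pc := by ring
    have h1 : |(t - ts) * pc| ≤ a * (K + 1) := by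
      rw [abs_mul]; exact mul_le_mul d1 (by linarith) (abs_nonneg _) ha0.le
    rw [e]
    calc |(Y - (qc - t * pc)) - (t - ts) * pc| ≤ |Y - (qc - t * pc)| + |(t - ts) * pc| := abs_sub _ _
      _ ≤ (K + 4) * a := by linarith
  have m1 : |α1 * (t - ts)| ≤ 6 * K ^ 2 * a := by
    rw [abs_mul]; exact mul_le_mul hα1 d1 (abs_nonneg _) (by positivity)
  have m2 : |α2 * (Z - (pc + ts * vc))| ≤ 6 * K ^ 2 * ((K + 3) * a) := by
    rw [abs_mul]; exact mul_le_mul hα2 d2 (abs_nonneg _) (by positivity)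
  have m3 : |γ * (Y - (qc - ts * pc))| ≤ 6 * K ^ 2 * ((K + 4) * a) := by
    rw [abs_mul]; exact mul_le_mul hγ' d3 (abs_nonneg _) (by positivity)
  have e : X - (L0 + α1 * ts + α2 * (pc + ts * vc) + γ * (qc - ts * pc))
      = (X - (L0 + α1 * t + α2 * Z + γ * Y)) + α1 * (t - ts) + α2 * (Z - (pc + ts * vc)) + γ * (Y - (qc - ts * pc)) := by
    ring
  rw [e]
  have tri : ∀ p q r w : ℝ, |p + q + r + w| ≤ |p| + |q| + |r| + |w| := by
    intro p q r w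
    have h1 := abs_add_le (p + q + r) w
    have h2 := abs_add_le (p + q) r
    have h3 := abs_add_le p q
    linarith
  refine (tri _ _ _ _).trans ?_
  have fin : K * a + 6 * K ^ 2 * a + 6 * K ^ 2 * ((K + 3) * a) + 6 * K ^ 2 * ((K + 4) * a) ≤ 91 * K ^ 3 * a := by
    have : K * a + 6 * K ^ 2 * a + 6 * K ^ 2 * ((K + 3) * a) + 6 * K ^ 2 * ((K + 4) * a)
        = (K + 48 * K ^ 2 + 12 * K ^ 3) * a := by ring
    rw [this]
    exact mul_le_mul_of_nonneg_right (by linarith) ha0.le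
  linarith

theorem k7b5e_pt (c : K7bPar) (H : K7bHor) {K s D η : ℝ} {E : Set (H.Lam × ℝ)} (h5 : K7bS5 c K s D η) (hO : H.Ok c K)
    (hE : E ⊆ H.Sp) (hSl : H.Slopes c K E) {g : ℤ × ℤ × ℤ} {z : H.Lam × ℝ} (hz : z ∈ E) (hg : z ∈ H.gI c.χ D g) :
    |H.X z - k7bAff (H.entOf s z) (k7bRef c.χ D g ((k7bBin (c.a s) z.2 : ℝ) * c.a s))| ≤ 91 * K ^ 3 * c.a s := by
  obtain ⟨ha0, ha1, hh0, hah, hah2⟩ := k7b5e_ah c h5
  have hK1 := h5.K1
  have hK0 : 0 ≤ K := by linarith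
  have hzS := hE hz
  have hs := h5.sG
  obtain ⟨t0, t1⟩ := hO.time z hzS
  obtain ⟨bp, bv, -, -⟩ := hO.bdd z hzS
  have hgz : H.grp c.χ D z.1 = g := hg
  obtain ⟨P1, P2⟩ := k7b_grp_pos c H h5.wf hO h5.D0 h5.χD h5.eD hzS (t := z.2) ⟨t0, t1⟩
  obtain ⟨B1, B2, -⟩ := k7b_grp_bdd c H (D := D) h5.wf hO h5.D0 hzS
  rw [hgz] at P1 P2 B1 B2
  obtain ⟨S1, S2, S3⟩ := hSl s hs z hz
  have hfit := hO.entfit s hs z hzS z.2 (hO.labmem s hs z hzS).2.1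
  have lo := k7b5a_bin_lo ha0 z.2
  have hi0 := k7b5a_bin_hi ha0 z.2
  have hi : z.2 ≤ (k7bBin (c.a s) z.2 : ℝ) * c.a s + c.a s := by
    have : ((k7bBin (c.a s) z.2 : ℝ) + 1) * c.a s = (k7bBin (c.a s) z.2 : ℝ) * c.a s + c.a s := by ring
    linarith
  clear hi0
  have hDa := h5.Da
  have hD0 := h5.D0
  have hχ1 := h5.wf.χ1
  have hZ : |H.Zt z.1 z.2| ≤ 2 * K := by
    unfold K7bHor.Zt
    have h1 : |z.2 * H.v z.1| ≤ 1 * K := by
      rw [abs_mul, abs_of_nonneg t0]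
      exact mul_le_mul t1 bv (abs_nonneg _) zero_le_one
    calc |H.p z.1 + z.2 * H.v z.1| ≤ |H.p z.1| + |z.2 * H.v z.1| := abs_add_le _ _
      _ ≤ 2 * K := by linarith
  have r1 : c.a s / c.h s ≤ 1 := (div_le_one hh0).2 hah
  have r2 : c.a s / c.h s ^ 2 ≤ 1 := (div_le_one (by positivity)).2 hah2
  have k1 : K * (1 + c.a s / c.h s) ≤ 2 * K := by nlinarith
  have k2 : K * (1 + c.a s / c.h s ^ 2) ≤ 2 * K := by nlinarith
  unfold K7bHor.X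
  simp only [k7bAff, k7bRef, K7bHor.bs] at hfit P1 P2 ⊢
  generalize H.entOf s z = L at *
  obtain ⟨L0, α1, α2, γ⟩ := L
  simp only at hfit S1 S2 S3 ⊢
  generalize H.Zt z.1 z.2 = Z at *
  generalize H.Yt z.1 z.2 = Y at *
  generalize H.Xt z.1 z.2 = X at *
  generalize ((k7bBin (c.a s) z.2 : ℤ) : ℝ) * c.a s = ts at *
  generalize ((g.1 : ℤ) : ℝ) * c.χ = vc at *
  generalize ((g.2.1 : ℤ) : ℝ) * D = pc at *
  generalize ((g.2.2 : ℤ) : ℝ) * D = qc at *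
  generalize z.2 = t at *
  generalize c.a s = a at *
  exact k7b5e_real hK1 hZ B1 B2 t0 t1 lo hi P1 P2 ha0 ha1 hDa hχ1 (S3.trans k2) (S1.trans k1) (S2.trans k1) hfit

theorem k7b_support_count : ∃ C : ℕ, ∀ (c : K7bPar) (H : K7bHor) (K s D η : ℝ) (E₀ E : Set (H.Lam × ℝ)),
    K7bS5 c K s D η → H.Ok c K → E₀ ⊆ H.Sp → MeasurableSet E₀ → E ⊆ H.Sp → H.Pairs c K E₀ E → H.Slopes c K E →
    H.Supp c s D ((C : ℝ) * K ^ C) E := by
  classical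
  obtain ⟨C₀, hC₀⟩ := k7b_box_count
  refine ⟨374 * C₀ + 4, ?_⟩
  intro c H K s D η E₀ E h5 hO hE₀ hE₀m hE hP hSl g S hS
  obtain ⟨ha0, ha1, -, -, -⟩ := k7b5e_ah c h5
  have hK1 := h5.K1
  have hK0 : 0 ≤ K := by linarith
  have hs := h5.sG
  have hpos : 0 < c.a s ^ (-1 - c.d) := Real.rpow_pos_of_pos ha0 _
  rcases S.eq_empty_or_nonempty with rfl | hne
  · simp only [Finset.card_empty, Nat.cast_zero]
    positivity
  obtain ⟨x0, hx0⟩ := hne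
  obtain ⟨z0, -, -⟩ := hS x0 hx0
  have : Nonempty (H.Lam × ℝ) := ⟨z0⟩
  choose! z hz using hS
  have hz1 : ∀ x ∈ S, k7bBin (c.a s) (z x).2 = x.1 := fun x hx => congrArg Prod.fst (hz x hx).2
  have hz2 : ∀ x ∈ S, k7bBin (c.a s) (H.X (z x)) = x.2 := fun x hx => congrArg Prod.snd (hz x hx).2
  -- level 4 : the residual bins for a given time bin and entry
  have L4 : ∀ (τ : ℤ) (q : H.Q) (L : ℝ × ℝ × ℝ × ℝ),
      (((((S.filter fun x => x.1 = τ).filter fun x => H.lab s (z x) = q).filter fun x => H.entOf s (z x) = L).card : ℕ) : ℝ)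
        ≤ 187 * K ^ 3 := by
    intro τ q L
    obtain ⟨b, hb⟩ : ∃ b : ℤ, b = ⌊k7bAff L (k7bRef c.χ D g ((τ : ℝ) * c.a s)) / c.a s⌋ := ⟨_, rfl⟩
    obtain ⟨R, hR⟩ : ∃ R : ℤ, R = ⌈91 * K ^ 3⌉ + 1 := ⟨_, rfl⟩
    have hsub : (((S.filter fun x => x.1 = τ).filter fun x => H.lab s (z x) = q).filter fun x => H.entOf s (z x) = L)
        ⊆ ({τ} : Finset ℤ) ×ˢ Finset.Icc (b - R) (b + R) := by
      intro x hx
      rw [Finset.mem_filter, Finset.mem_filter, Finset.mem_filter] at hx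
      obtain ⟨⟨⟨hxS, hxτ⟩, -⟩, hxL⟩ := hx
      rw [Finset.mem_product, Finset.mem_singleton]
      refine ⟨hxτ, ?_⟩
      have h1 := k7b5e_pt c H h5 hO hE hSl (hz x hxS).1.1 (hz x hxS).1.2
      rw [hz1 x hxS, hxτ, hxL] at h1
      rw [← hz2 x hxS, hb]
      unfold k7bBin
      refine k7b5e_floor (r := 91 * K ^ 3) ?_ ?_
      · rw [← sub_div, abs_div, abs_of_pos ha0, div_le_iff₀ ha0]
        exact h1
      · rw [hR]
        push_cast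
        have := Int.le_ceil (91 * K ^ 3)
        linarith
    have hc : ((({τ} : Finset ℤ) ×ˢ Finset.Icc (b - R) (b + R)).card : ℝ) ≤ 187 * K ^ 3 := by
      rw [Finset.card_product, Finset.card_singleton, one_mul, Int.card_Icc]
      have hR0 : (0 : ℤ) ≤ R := by
        rw [hR]
        have : (0 : ℤ) ≤ ⌈91 * K ^ 3⌉ := Int.ceil_nonneg (by positivity)
        linarith
      have e1 : (((b + R + 1 - (b - R)).toNat : ℕ) : ℝ) = 2 * (R : ℝ) + 1 := by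
        have h2 : (((b + R + 1 - (b - R)).toNat : ℕ) : ℤ) = b + R + 1 - (b - R) := Int.toNat_of_nonneg (by linarith)
        have h3 : ((((b + R + 1 - (b - R)).toNat : ℕ) : ℤ) : ℝ) = ((b + R + 1 - (b - R) : ℤ) : ℝ) := by rw [h2]
        push_cast at h3
        rw [h3]; ring
      rw [e1, hR]
      push_cast
      have h4 := Int.ceil_lt_add_one (91 * K ^ 3)
      have h5' : 1 ≤ K ^ 3 := one_le_pow₀ hK1
      linarith
    exact (Nat.cast_le.2 (Finset.card_le_card hsub)).trans hc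
  -- level 3 : the entries of a label
  have L3 : ∀ (τ : ℤ) (q : H.Q),
      ((((S.filter fun x => x.1 = τ).filter fun x => H.lab s (z x) = q).card : ℕ) : ℝ) ≤ K * (187 * K ^ 3) := by
    intro τ q
    refine (k7b5e_fib _ (fun x => H.entOf s (z x)) (187 * K ^ 3) fun L _ => L4 τ q L).trans ?_
    refine mul_le_mul_of_nonneg_right ?_ (by positivity)
    have hsub : (((S.filter fun x => x.1 = τ).filter fun x => H.lab s (z x) = q).image fun x => H.entOf s (z x)) ⊆ H.ent q := by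
      intro L hL
      rw [Finset.mem_image] at hL
      obtain ⟨x, hx, rfl⟩ := hL
      rw [Finset.mem_filter, Finset.mem_filter] at hx
      obtain ⟨⟨hxS, -⟩, hxq⟩ := hx
      rw [← hxq]
      exact hO.entmem s hs (z x) (hE (hz x hxS).1.1)
    exact (Nat.cast_le.2 (Finset.card_le_card hsub)).trans (hO.entcard q)
  -- level 2 : the labels of a time bin
  have L2 : ∀ τ : ℤ, (((S.filter fun x => x.1 = τ).card : ℕ) : ℝ)
      ≤ ((C₀ : ℝ) * K ^ C₀ * c.a s ^ (-c.d)) * (K * (187 * K ^ 3)) := by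
    intro τ
    refine (k7b5e_fib _ (fun x => H.lab s (z x)) (K * (187 * K ^ 3)) fun q _ => L3 τ q).trans ?_
    refine mul_le_mul_of_nonneg_right ?_ (by positivity)
    refine hC₀ c H K s D η E₀ E g τ _ h5 hO hE₀ hE₀m hE hP ?_
    intro q hq
    rw [Finset.mem_image] at hq
    obtain ⟨x, hx, rfl⟩ := hq
    rw [Finset.mem_filter] at hx
    exact ⟨z x, (hz x hx.1).1, (hz1 x hx.1).trans hx.2, rfl⟩
  -- level 1 : the time bins
  have L1 := k7b5e_fib S Prod.fst _ fun τ _ => L2 τ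
  have hT : (((S.image Prod.fst).card : ℕ) : ℝ) ≤ 2 / c.a s := by
    have hsub : S.image Prod.fst ⊆ Finset.Icc 0 ⌊1 / c.a s⌋ := by
      intro τ hτ
      rw [Finset.mem_image] at hτ
      obtain ⟨x, hx, rfl⟩ := hτ
      obtain ⟨t0, t1⟩ := hO.time (z x) (hE (hz x hx).1.1)
      rw [← hz1 x hx, Finset.mem_Icc]
      unfold k7bBin
      exact ⟨Int.floor_nonneg.2 (div_nonneg t0 ha0.le), Int.floor_le_floor (div_le_div_of_nonneg_right t1 ha0.le)⟩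
    refine (Nat.cast_le.2 (Finset.card_le_card hsub)).trans ?_
    rw [Int.card_Icc]
    have h0 : (0 : ℤ) ≤ ⌊1 / c.a s⌋ := Int.floor_nonneg.2 (by positivity)
    have e1 : (((⌊1 / c.a s⌋ + 1 - 0).toNat : ℕ) : ℝ) = (⌊1 / c.a s⌋ : ℝ) + 1 := by
      have h2 : (((⌊1 / c.a s⌋ + 1 - 0).toNat : ℕ) : ℤ) = ⌊1 / c.a s⌋ + 1 - 0 := Int.toNat_of_nonneg (by linarith)
      have h3 : ((((⌊1 / c.a s⌋ + 1 - 0).toNat : ℕ) : ℤ) : ℝ) = ((⌊1 / c.a s⌋ + 1 - 0 : ℤ) : ℝ) := by rw [h2]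
      push_cast at h3
      rw [h3]; ring
    rw [e1]
    have h4 := Int.floor_le (1 / c.a s)
    have h5' : 1 ≤ 1 / c.a s := (one_le_div ha0).2 ha1
    have e2 : 2 / c.a s = 1 / c.a s + 1 / c.a s := by ring
    linarith
  have hd : 0 < c.a s ^ (-c.d) := Real.rpow_pos_of_pos ha0 _
  have hsplit : c.a s ^ (-1 - c.d) = (1 / c.a s) * c.a s ^ (-c.d) := by
    rw [sub_eq_add_neg, Real.rpow_add ha0, Real.rpow_neg_one, one_div]
  calc (S.card : ℝ) ≤ ((S.image Prod.fst).card : ℝ) * (((C₀ : ℝ) * K ^ C₀ * c.a s ^ (-c.d)) * (K * (187 * K ^ 3))) := L1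
    _ ≤ (2 / c.a s) * (((C₀ : ℝ) * K ^ C₀ * c.a s ^ (-c.d)) * (K * (187 * K ^ 3))) :=
        mul_le_mul_of_nonneg_right hT (by positivity)
    _ = (374 * (C₀ : ℝ)) * K ^ (C₀ + 4) * c.a s ^ (-1 - c.d) := by
        rw [hsplit]; ring
    _ ≤ (((374 * C₀ + 4 : ℕ) : ℝ)) * K ^ (374 * C₀ + 4) * c.a s ^ (-1 - c.d) := by
        refine mul_le_mul_of_nonneg_right ?_ hpos.le
        refine mul_le_mul ?_ (pow_le_pow_right₀ hK1 (by omega)) (by positivity) (by positivity)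
        push_cast
        linarith

end Claimed.Agent.R252
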